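import Crest.Agent.R22.Defs

set_option autoImplicit false
open Polynomial IntermediateField

namespace Crest.Agent.R22

variable {d : ℕ}

theorem Arch_lt {a b : ℝ} (h : a < b) (K : ℝ) :
    ∃ X0 : ℝ, ∀ X, X0 ≤ X → 0 < X ∧ K * X ^ a < X ^ b := by
  obtain ⟨X0, hX0⟩ := Filter.eventually_atTop.1
    (((tendsto_rpow_atTop (sub_pos.2 h)).eventually_gt_atTop K).and (Filter.eventually_gt_atTop 0))
  refine ⟨X0, fun X hX => ⟨(hX0 X hX).2, ?_⟩⟩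
  obtain ⟨h1, h2⟩ := hX0 X hX
  calc K * X ^ a < X ^ (b - a) * X ^ a := mul_lt_mul_of_pos_right h1 (Real.rpow_pos_of_pos h2 a)
    _ = X ^ b := by rw [← Real.rpow_add h2, sub_add_cancel]

theorem Arch_cast (M : ℕ) : ((M * (M - 1) / 2 : ℕ) : ℝ) = M * (M - 1) / 2 := by
  rw [← Nat.choose_two_right, Nat.cast_choose_two]

theorem Arch_D {δ : ℝ} (hδ : 0 < δ) (c : ℝ) : ∃ D : ℕ, 1 ≤ D ∧ c < δ * D := by
  obtain ⟨D, hD⟩ := exists_nat_gt (c / δ)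
  refine ⟨D + 1, by omega, ?_⟩
  rw [div_lt_iff₀' hδ] at hD
  push_cast
  nlinarith

/-- Numerical heart of the `p`-adic method: leading terms in `D²` are
`σ al m' + lam N0 io²/2 < η m'²/2`, `m' = e0 al + N0 io`. -/
theorem arch_num (σ lam η : ℝ) (e0 N0 al io m : ℕ) (hpos : 0 < e0 * al + N0 * io) (hσ : 0 ≤ σ)
    (hl : 0 ≤ lam) (h : etaC σ lam e0 N0 al io < η) : ∃ D : ℕ, 1 ≤ D ∧ ∀ C0 : ℝ, 1 ≤ C0 →
      ∃ X0 : ℝ, ∀ X, X0 ≤ X → ∀ M T : ℕ, M = e0 * (al * D) + N0 * (io * D) →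
        2 * T = N0 * (io * D) * (io * D + 1) →
        M.factorial * (C0 * X ^ σ) ^ ((m + al * D) * M) * (C0 * X) ^ (m * M) *
          (C0 * X ^ lam) ^ T < (X ^ η) ^ (M * (M - 1) / 2) := by
  have hm : (0 : ℝ) < e0 * al + N0 * io := by exact_mod_cast hpos
  obtain ⟨m', hm'⟩ : ∃ m' : ℝ, m' = e0 * al + N0 * io := ⟨_, rfl⟩
  unfold etaC at h
  rw [← hm'] at h hm
  have hδ : 0 < η * m' ^ 2 / 2 - σ * al * m' - lam * N0 * io ^ 2 / 2 := by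
    have h1 := mul_lt_mul_of_pos_right h (show 0 < m' ^ 2 by positivity)
    have h2 : (2 * σ * al / m' + lam * N0 * io ^ 2 / m' ^ 2) * m' ^ 2 =
        2 * σ * al * m' + lam * N0 * io ^ 2 := by field_simp
    linarith
  obtain ⟨D, hD1, hD⟩ := Arch_D hδ (σ * m * m' + m * m' + lam * N0 * io / 2 + η * m' / 2)
  refine ⟨D, hD1, fun C0 _ => ?_⟩
  have hD0 : (0 : ℝ) < D := by exact_mod_cast hD1
  obtain ⟨M, hM⟩ : ∃ M, M = e0 * (al * D) + N0 * (io * D) := ⟨_, rfl⟩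
  obtain ⟨T, hT⟩ : ∃ T, T = N0 * (io * D) * (io * D + 1) / 2 := ⟨_, rfl⟩
  have hMr : (M : ℝ) = m' * D := by rw [hM, hm']; push_cast; ring
  have key : 2 * T = N0 * (io * D) * (io * D + 1) →
      σ * ((m + al * D) * M : ℕ) + (m * M : ℕ) + lam * T < η * (M * (M - 1) / 2 : ℕ) := by
    intro h2
    have h3 : (T : ℝ) = N0 * (io * D) * (io * D + 1) / 2 := by
      have : ((2 * T : ℕ) : ℝ) = (N0 * (io * D) * (io * D + 1) : ℕ) := by rw [h2]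
      push_cast at this
      linarith
    rw [Arch_cast, h3]
    push_cast
    rw [hMr]
    have h4 := mul_lt_mul_of_pos_right hD hD0
    nlinarith
  by_cases h2 : 2 * T = N0 * (io * D) * (io * D + 1)
  · obtain ⟨X0, hX0⟩ := Arch_lt (key h2)
      (M.factorial * C0 ^ ((m + al * D) * M) * C0 ^ (m * M) * C0 ^ T)
    refine ⟨X0, fun X hX M' T' hM' hT' => ?_⟩
    obtain rfl : M' = M := hM'.trans hM.symm
    obtain rfl : T' = T := by omega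
    obtain ⟨h3, h4⟩ := hX0 X hX
    rw [Real.rpow_add h3, Real.rpow_add h3, Real.rpow_mul h3.le, Real.rpow_mul h3.le,
      Real.rpow_mul h3.le, Real.rpow_natCast, Real.rpow_natCast, Real.rpow_natCast,
      Real.rpow_natCast] at h4
    rw [mul_pow, mul_pow, mul_pow]
    refine lt_of_eq_of_lt ?_ h4
    ring
  · exact ⟨0, fun X _ M' T' _ hT' => absurd (by omega) h2⟩

/-- The same with the real gain of the non-hugging case (`M = 5 D`). -/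
theorem arch_num_nh (u γ η : ℝ) (hu : 0 ≤ u) (hγ : 0 ≤ γ) (h : 2 * u / 5 - γ / 10 < η) :
    ∃ D : ℕ, 1 ≤ D ∧ ∀ C0 : ℝ, 1 ≤ C0 → ∃ X0 : ℝ, ∀ X, X0 ≤ X → ∀ M : ℕ, M = 5 * D →
      C0 * (X ^ u) ^ ((5 + D) * M) * X ^ (5 * M) * (X ^ (-γ)) ^ ((M : ℝ) ^ 2 / 20 - M) <
        (X ^ η) ^ (M * (M - 1) / 2) := by
  obtain ⟨D, hD1, hD⟩ := Arch_D (show 0 < 25 / 2 * (η - (2 * u / 5 - γ / 10)) by linarith)
    (25 * u + 25 + 5 * γ + 5 / 2 * η)
  refine ⟨D, hD1, fun C0 _ => ?_⟩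
  have hD0 : (0 : ℝ) < D := by exact_mod_cast hD1
  obtain ⟨M, hM⟩ : ∃ M, M = 5 * D := ⟨_, rfl⟩
  have hMr : (M : ℝ) = 5 * D := by rw [hM]; push_cast; ring
  have key : u * ((5 + D) * M : ℕ) + (5 * M : ℕ) + -γ * ((M : ℝ) ^ 2 / 20 - M) <
      η * (M * (M - 1) / 2 : ℕ) := by
    rw [Arch_cast]
    push_cast
    rw [hMr]
    have h4 := mul_lt_mul_of_pos_right hD hD0
    nlinarith
  obtain ⟨X0, hX0⟩ := Arch_lt key C0
  refine ⟨X0, fun X hX M' hM' => ?_⟩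
  obtain rfl : M' = M := hM'.trans hM.symm
  obtain ⟨h3, h4⟩ := hX0 X hX
  rw [Real.rpow_add h3, Real.rpow_add h3, Real.rpow_mul h3.le, Real.rpow_mul h3.le,
    Real.rpow_mul h3.le, Real.rpow_natCast, Real.rpow_natCast, Real.rpow_natCast] at h4
  refine lt_of_eq_of_lt ?_ h4
  ring

end Crest.Agent.R22
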