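import Crest.Agent.R22.LinAlg

set_option autoImplicit false
open Polynomial IntermediateField

namespace Crest.Agent.R22

variable {d : ℕ}

/-- `Lp` primes between `Y` and `2 ^ (Lp + 1) Y` which cannot all divide a small integer. -/
theorem Asm_primes (Lp : ℕ) {Y : ℝ} (hY : 1 ≤ Y) : ∃ q : ℕ → ℕ, (∀ i, (q i).Prime ∧ Y ≤ q i) ∧
    (∀ i < Lp, (q i : ℝ) ≤ 2 ^ (Lp + 1) * Y) ∧
    ∀ b : ℤ, b ≠ 0 → |(b : ℝ)| < Y ^ Lp → ∃ i < Lp, ¬ (q i : ℤ) ∣ b := by
  have hn : ⌈Y⌉₊ ≠ 0 := (Nat.ceil_pos.2 (by linarith)).ne'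
  choose q hq h1 h2 using fun i : ℕ =>
    Nat.exists_prime_lt_and_le_two_mul (2 ^ i * ⌈Y⌉₊) (by positivity)
  have hlo : ∀ i, Y ≤ q i := fun i => by
    have : ⌈Y⌉₊ ≤ q i := (Nat.le_mul_of_pos_left _ (by positivity)).trans (h1 i).le
    exact (Nat.le_ceil Y).trans (by exact_mod_cast this)
  have hmono : StrictMono q := strictMono_nat_of_lt_succ fun i => by
    have := h1 (i + 1)
    rw [pow_succ', mul_assoc] at this
    exact (h2 i).trans_lt this
  refine ⟨q, fun i => ⟨hq i, hlo i⟩, fun i hi => ?_, fun b hb hlt => ?_⟩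
  · have h3 : q i ≤ 2 ^ Lp * ⌈Y⌉₊ := by
      refine (h2 i).trans ?_
      rw [← mul_assoc, ← pow_succ']
      exact Nat.mul_le_mul_right _ (Nat.pow_le_pow_right two_pos hi)
    have h4 : (⌈Y⌉₊ : ℝ) ≤ 2 * Y := by linarith [Nat.ceil_lt_add_one (by linarith : 0 ≤ Y)]
    calc (q i : ℝ) ≤ 2 ^ Lp * ⌈Y⌉₊ := by exact_mod_cast h3
      _ ≤ 2 ^ Lp * (2 * Y) := by gcongr
      _ = _ := by ring
  · by_contra hc
    push Not at hc
    have h3 : ∏ i ∈ Finset.range Lp, (q i : ℤ) ∣ b :=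
      Finset.prod_dvd_of_coprime (fun i _ j _ hij => Nat.isCoprime_iff_coprime.2
        ((Nat.coprime_primes (hq i) (hq j)).2 (hmono.injective.ne hij)))
        fun i hi => hc i (Finset.mem_range.1 hi)
    have h4 := Int.le_of_dvd (abs_pos.2 hb) ((dvd_abs _ _).2 h3)
    have h5 : ((∏ i ∈ Finset.range Lp, (q i : ℤ) : ℤ) : ℝ) ≤ |(b : ℝ)| := by exact_mod_cast h4
    have h6 : Y ^ Lp ≤ ∏ i ∈ Finset.range Lp, (q i : ℝ) := by
      have := Finset.prod_le_prod (s := Finset.range Lp) (f := fun _ => Y)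
        (fun _ _ => by linarith) fun i _ => hlo i
      rwa [Finset.prod_const, Finset.card_range] at this
    push_cast at h5
    linarith

/-- In a class all determinants vanish. -/
theorem Asm_class {M N q : ℕ} {Y : ℝ} (hY : 0 ≤ Y) (hq : Y ≤ q) {ι : Type} (T : Finset ι)
    (val : Fin M → ι → ℤ)
    (h1 : ∀ z : Fin M → ι, (∀ b, z b ∈ T) → (q : ℤ) ^ N ∣ (Matrix.of fun a b => val a (z b)).det)
    (h2 : ∀ z : Fin M → ι, (∀ b, z b ∈ T) →
      |(((Matrix.of fun a b => val a (z b)).det : ℤ) : ℝ)| < Y ^ N) :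
    ∃ lam : Fin M → ℂ, lam ≠ 0 ∧ ∀ P ∈ T, ∑ a, lam a * (val a P : ℂ) = 0 := by
  obtain ⟨lam, h3, h4⟩ := exists_rel_of_det (K := ℂ) (fun a (P : T) => (val a P : ℂ)) fun z => by
    have h5 : (Matrix.of fun a b => val a (z b)).det = 0 := by
      refine Int.eq_zero_of_abs_lt_dvd (h1 (fun b => z b) fun b => (z b).2) ?_
      have := (h2 (fun b => z b) fun b => (z b).2).trans_le (pow_le_pow_left₀ hY hq N)
      exact_mod_cast this
    have h6 := (Int.castRingHom ℂ).map_det (Matrix.of fun a b => val a (z b))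
    rw [h5, map_zero] at h6
    exact h6.symm
  exact ⟨lam, h3, fun P hP => h4 ⟨P, hP⟩⟩

/-- Assembly of the `p`-adic determinant method. By Bertrand's postulate there are `Lp > C1/η`
distinct primes in `[X^η, 2^(Lp+1) X^η]`; they cannot all divide `bad P`. In a class all `M × M`
determinants are divisible by `q^(M(M-1)/2)` and smaller, so they vanish; `exists_rel_of_det`. -/
theorem asm (M : ℕ) (η C1 C2 C3 : ℝ) (hη : 0 < η) (h2 : 0 ≤ C2) (h3 : 0 ≤ C3) : ∃ C : ℝ, 0 ≤ C ∧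
    ∀ (X : ℝ), 2 ≤ X → ∀ {ι : Type} [DecidableEq ι] (S : Finset ι) (val : Fin M → ι → ℤ)
      (bad : ι → ℤ), (∀ P ∈ S, bad P ≠ 0 ∧ |(bad P : ℝ)| ≤ X ^ C1) →
      (∀ q : ℕ, q.Prime → ∃ PP : Finset (Finset ι), (PP.card : ℝ) ≤ C2 * q ∧
        (∀ P ∈ S, ¬ (q : ℤ) ∣ bad P → ∃ T ∈ PP, P ∈ T) ∧ ∀ T ∈ PP, T ⊆ S ∧
          ∀ z : Fin M → ι, (∀ b, z b ∈ T) →
            (q : ℤ) ^ (M * (M - 1) / 2) ∣ (Matrix.of fun a b => val a (z b)).det) →
      (∀ z : Fin M → ι, (∀ b, z b ∈ S) →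
        |(((Matrix.of fun a b => val a (z b)).det : ℤ) : ℝ)| < (X ^ η) ^ (M * (M - 1) / 2)) →
      (∀ lam : Fin M → ℂ, lam ≠ 0 → ∀ T ⊆ S, (∀ P ∈ T, ∑ a, lam a * (val a P : ℂ) = 0) →
        (T.card : ℝ) ≤ C3) →
      (S.card : ℝ) ≤ C * X ^ η := by
  set Lp := ⌊C1 / η⌋₊ + 1 with hLp
  refine ⟨Lp * (C2 * 2 ^ (Lp + 1) * C3), by positivity,
    fun X hX ι _ S val bad hbad hcl hdet hrel => ?_⟩
  have hX1 : 1 < X := by linarith
  have hY : 1 ≤ X ^ η := Real.one_le_rpow hX1.le hη.le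
  have hlt : X ^ C1 < (X ^ η) ^ Lp := by
    rw [← Real.rpow_natCast, ← Real.rpow_mul (by linarith)]
    refine Real.rpow_lt_rpow_of_exponent_lt hX1 ?_
    have := Nat.lt_floor_add_one (C1 / η)
    rw [div_lt_iff₀' hη] at this
    rw [hLp]
    exact_mod_cast this
  obtain ⟨q, hq, hq2, hq3⟩ := Asm_primes Lp hY
  choose PP hc hcov hT using fun i => hcl (q i) (hq i).1
  have hsub : S ⊆ (Finset.range Lp).biUnion fun i => (PP i).biUnion id := by
    intro P hP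
    obtain ⟨i, hi, hnd⟩ := hq3 (bad P) (hbad P hP).1 ((hbad P hP).2.trans_lt hlt)
    obtain ⟨T, hT1, hT2⟩ := hcov i P hP hnd
    exact Finset.mem_biUnion.2 ⟨i, Finset.mem_range.2 hi, Finset.mem_biUnion.2 ⟨T, hT1, hT2⟩⟩
  have hcard : ∀ i, ∀ T ∈ PP i, (T.card : ℝ) ≤ C3 := by
    intro i T hTm
    obtain ⟨lam, h0, h1⟩ := Asm_class (by linarith) (hq i).2 T val (hT i T hTm).2
      fun z hz => hdet z fun b => (hT i T hTm).1 (hz b)
    exact hrel lam h0 T (hT i T hTm).1 h1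
  have h1 : ∀ i ∈ Finset.range Lp,
      (((PP i).biUnion id).card : ℝ) ≤ C2 * 2 ^ (Lp + 1) * C3 * X ^ η := by
    intro i hi
    calc (((PP i).biUnion id).card : ℝ) ≤ ∑ T ∈ PP i, (T.card : ℝ) := by
          exact_mod_cast Finset.card_biUnion_le
      _ ≤ (PP i).card * C3 := by
          rw [← nsmul_eq_mul]
          exact Finset.sum_le_card_nsmul _ _ _ (hcard i)
      _ ≤ C2 * (2 ^ (Lp + 1) * X ^ η) * C3 :=
          mul_le_mul_of_nonneg_right
            ((hc i).trans (mul_le_mul_of_nonneg_left (hq2 i (Finset.mem_range.1 hi)) h2)) h3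
      _ = _ := by ring
  calc (S.card : ℝ) ≤ ∑ i ∈ Finset.range Lp, (((PP i).biUnion id).card : ℝ) := by
        exact_mod_cast (Finset.card_le_card hsub).trans Finset.card_biUnion_le
    _ ≤ Lp * (C2 * 2 ^ (Lp + 1) * C3 * X ^ η) := by
        have := Finset.sum_le_card_nsmul _ _ _ h1
        rwa [Finset.card_range, nsmul_eq_mul] at this
    _ = _ := by ring

end Crest.Agent.R22
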