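import Crest.Agent.R22.Defs

set_option autoImplicit false
open Polynomial IntermediateField

namespace Crest.Agent.R22

variable {d : ℕ}

/-- Every monic irreducible integer polynomial has a context (roots are distinct: separable). -/
theorem exists_ctx (F : ℤ[X]) (hm : F.Monic) (hi : Irreducible (F.map (Int.castRingHom ℚ))) :
    ∃ c : Ctx F.natDegree, c.F = F := by
  classical
  have hsep : (F.map (Int.castRingHom ℚ)).Separable := hi.separable
  have hcard : Fintype.card ((F.map (Int.castRingHom ℚ)).rootSet ℂ) = F.natDegree := by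
    rw [card_rootSet_eq_natDegree hsep (IsAlgClosed.splits _), hm.natDegree_map]
  let e := (Fintype.equivFinOfCardEq hcard).symm
  refine ⟨⟨F, hm, rfl, hi, fun j => (e j : ℂ), Subtype.val_injective.comp e.injective,
    fun j => ?_⟩, rfl⟩
  have h := aeval_eq_zero_of_mem_rootSet (e j).2
  exact (aeval_map_algebraMap ℚ (e j : ℂ) F).symm.trans h

theorem sg_add (c : Ctx d) (j : Fin d) (v w : Fin d → ℤ) :
    c.sg j (v + w) = c.sg j v + c.sg j w := by
  simp [Ctx.sg, add_mul, Finset.sum_add_distrib]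

theorem sg_smul (c : Ctx d) (j : Fin d) (a : ℤ) (v : Fin d → ℤ) :
    c.sg j (a • v) = (a : ℂ) * c.sg j v := by
  simp [Ctx.sg, Finset.mul_sum, mul_assoc]

theorem BasicA_minpoly (c : Ctx d) (j : Fin d) :
    minpoly ℚ (c.th j) = c.F.map (Int.castRingHom ℚ) := by
  refine (minpoly.eq_of_irreducible_of_monic c.irr ?_ (c.monic.map _)).symm
  rw [← algebraMap_int_eq, aeval_map_algebraMap]
  exact c.root j

theorem BasicA_int (c : Ctx d) (j : Fin d) : IsIntegral ℚ (c.th j) :=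
  ⟨c.F.map (Int.castRingHom ℚ), c.monic.map _, by
    rw [← aeval_def, ← algebraMap_int_eq, aeval_map_algebraMap]
    exact c.root j⟩

/-- `F` is the minimal polynomial of each root, so a nonzero vector has nonzero conjugates. -/
theorem sg_ne_zero (c : Ctx d) (j : Fin d) {v : Fin d → ℤ} (hv : v ≠ 0) : c.sg j v ≠ 0 := by
  intro h
  apply hv
  have hli := linearIndependent_pow (K := ℚ) (c.th j)
  have hdeg : (minpoly ℚ (c.th j)).natDegree = d := by
    rw [BasicA_minpoly, c.monic.natDegree_map, c.deg]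
  have hli' : LinearIndependent ℚ fun i : Fin d => c.th j ^ (i : ℕ) :=
    hli.comp (Fin.cast hdeg.symm) (Fin.cast_injective _)
  have := Fintype.linearIndependent_iff.mp hli' (fun i => (v i : ℚ)) (by
    simpa [Ctx.sg, Algebra.smul_def] using h)
  funext i
  exact_mod_cast this i

theorem prod_sub_th (c : Ctx d) (z : ℂ) : ∏ j, (z - c.th j) = aeval z c.F := by
  have hm : (c.F.map (Int.castRingHom ℂ)).Monic := c.monic.map _
  have hd : (c.F.map (Int.castRingHom ℂ)).natDegree = d := by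
    rw [c.monic.natDegree_map, c.deg]
  have hdvd : ∏ j, (X - C (c.th j)) ∣ c.F.map (Int.castRingHom ℂ) := by
    refine Finset.prod_dvd_of_coprime (fun i _ j _ hij => ?_) fun j _ => ?_
    · exact pairwise_coprime_X_sub_C c.inj hij
    · rw [dvd_iff_isRoot, IsRoot.def, ← algebraMap_int_eq, eval_map_algebraMap]
      exact c.root j
  have hmon : (∏ j, (X - C (c.th j)) : ℂ[X]).Monic :=
    monic_prod_of_monic _ _ fun j _ => monic_X_sub_C _
  have hdeg : (∏ j, (X - C (c.th j)) : ℂ[X]).natDegree = d := by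
    rw [natDegree_prod_of_monic _ _ fun j _ => monic_X_sub_C _]
    simp
  have heq := eq_of_monic_of_dvd_of_natDegree_le hmon hm hdvd (by rw [hd, hdeg])
  rw [← eval_map_algebraMap, algebraMap_int_eq, heq, eval_prod]
  simp

theorem th_ne_int (c : Ctx d) (hd : 2 ≤ d) (j : Fin d) (n : ℤ) : (n : ℂ) - c.th j ≠ 0 := by
  intro h
  have h1 : c.th j = algebraMap ℚ ℂ (n : ℚ) := by
    rw [← sub_eq_zero.mp h]
    simp
  have h2 := BasicA_minpoly c j
  rw [h1, minpoly.eq_X_sub_C] at h2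
  have h3 := congrArg natDegree h2
  rw [natDegree_X_sub_C, c.monic.natDegree_map, c.deg] at h3
  omega

theorem BasicA_unit (c : Ctx d) : IsUnit (Matrix.vandermonde c.th).det :=
  (Matrix.det_vandermonde_ne_zero_iff.mpr c.inj).isUnit

theorem co_sg (c : Ctx d) (v : Fin d → ℤ) (l : Fin d) :
    c.co (fun j => c.sg j v) l = (v l : ℂ) := by
  have h := congrFun (congrArg (fun M => Matrix.mulVec M fun i => (v i : ℂ))
    (Matrix.nonsing_inv_mul _ (BasicA_unit c))) l
  simp only [← Matrix.mulVec_mulVec, Matrix.one_mulVec] at h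
  rw [← h]
  simp only [Ctx.co, Ctx.sg, Matrix.mulVec, dotProduct, Matrix.vandermonde_apply, smul_eq_mul,
    mul_comm]

theorem sum_co {R : Type*} [CommRing R] [Algebra ℂ R] (c : Ctx d) (z : Fin d → R) (j : Fin d) :
    ∑ l : Fin d, (c.th j ^ (l : ℕ)) • c.co z l = z j := by
  simp only [Ctx.co, Finset.smul_sum, smul_smul]
  rw [Finset.sum_comm]
  simp only [← Finset.sum_smul]
  have h : ∀ i, ∑ l : Fin d, c.th j ^ (l : ℕ) * (Matrix.vandermonde c.th)⁻¹ l i =
      (1 : Matrix (Fin d) (Fin d) ℂ) j i := fun i => by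
    rw [← Matrix.mul_nonsing_inv _ (BasicA_unit c), Matrix.mul_apply]
    simp only [Matrix.vandermonde_apply]
  simp only [h, Matrix.one_apply, ite_smul, one_smul, zero_smul]
  simp

theorem span_co {R : Type*} [CommRing R] [Algebra ℂ R] (c : Ctx d) (z : Fin d → R) :
    Submodule.span ℂ (Set.range (c.co z)) = Submodule.span ℂ (Set.range z) := by
  refine le_antisymm (Submodule.span_le.mpr ?_) (Submodule.span_le.mpr ?_)
  · rintro _ ⟨l, rfl⟩
    exact Submodule.sum_mem _ fun j _ => Submodule.smul_mem _ _ (Submodule.subset_span ⟨j, rfl⟩)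
  · rintro _ ⟨j, rfl⟩
    rw [← sum_co c z j]
    exact Submodule.sum_mem _ fun l _ => Submodule.smul_mem _ _ (Submodule.subset_span ⟨l, rfl⟩)

/-- Equivalence of the norms. -/
theorem norm_equiv (c : Ctx d) : ∃ C : ℝ, 1 ≤ C ∧ (∀ j, ‖c.th j‖ ≤ C) ∧
    (∀ l j, ‖(Matrix.vandermonde c.th)⁻¹ l j‖ ≤ C) ∧
    ∀ v : Fin d → ℤ, (∀ j, ‖c.sg j v‖ ≤ C * ‖v‖) ∧
      ∀ T : ℝ, 0 ≤ T → (∀ j, ‖c.sg j v‖ ≤ T) → ‖v‖ ≤ C * T := by
  let a : ℝ := ∑ j, ‖c.th j‖
  let b : ℝ := ∑ l, ∑ j, ‖(Matrix.vandermonde c.th)⁻¹ l j‖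
  let e : ℝ := ∑ j, ∑ i : Fin d, ‖c.th j ^ (i : ℕ)‖
  have ha : 0 ≤ a := by positivity
  have hb : 0 ≤ b := by positivity
  have he : 0 ≤ e := by positivity
  have hb1 : ∀ l, ∑ j, ‖(Matrix.vandermonde c.th)⁻¹ l j‖ ≤ b := fun l =>
    Finset.single_le_sum (f := fun l => ∑ j, ‖(Matrix.vandermonde c.th)⁻¹ l j‖)
      (fun _ _ => by positivity) (Finset.mem_univ l)
  have he1 : ∀ j, ∑ i : Fin d, ‖c.th j ^ (i : ℕ)‖ ≤ e := fun j =>
    Finset.single_le_sum (f := fun j => ∑ i : Fin d, ‖c.th j ^ (i : ℕ)‖)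
      (fun _ _ => by positivity) (Finset.mem_univ j)
  have hv : ∀ (v : Fin d → ℤ) (i : Fin d), ‖(v i : ℂ)‖ = ‖v i‖ := fun v i => by
    rw [Complex.norm_intCast, Int.norm_eq_abs]
  refine ⟨1 + a + b + e, by linarith, fun j => ?_, fun l j => ?_, fun v => ⟨fun j => ?_, ?_⟩⟩
  · have : ‖c.th j‖ ≤ a :=
      Finset.single_le_sum (f := fun j => ‖c.th j‖) (fun _ _ => norm_nonneg _) (Finset.mem_univ j)
    linarith
  · have : ‖(Matrix.vandermonde c.th)⁻¹ l j‖ ≤ ∑ j, ‖(Matrix.vandermonde c.th)⁻¹ l j‖ :=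
      Finset.single_le_sum (f := fun j => ‖(Matrix.vandermonde c.th)⁻¹ l j‖)
        (fun _ _ => norm_nonneg _) (Finset.mem_univ j)
    linarith [hb1 l]
  · calc ‖c.sg j v‖ ≤ ∑ i : Fin d, ‖(v i : ℂ) * c.th j ^ (i : ℕ)‖ := norm_sum_le _ _
      _ ≤ ∑ i : Fin d, ‖c.th j ^ (i : ℕ)‖ * ‖v‖ := by
          refine Finset.sum_le_sum fun i _ => ?_
          rw [norm_mul, hv, mul_comm]
          exact mul_le_mul_of_nonneg_left (norm_le_pi_norm v i) (norm_nonneg _)
      _ = (∑ i : Fin d, ‖c.th j ^ (i : ℕ)‖) * ‖v‖ := by rw [Finset.sum_mul]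
      _ ≤ (1 + a + b + e) * ‖v‖ :=
          mul_le_mul_of_nonneg_right (by linarith [he1 j]) (norm_nonneg _)
  · intro T hT h
    refine (pi_norm_le_iff_of_nonneg (by positivity)).mpr fun l => ?_
    rw [← hv, ← co_sg]
    calc ‖c.co (fun j => c.sg j v) l‖ ≤ ∑ j, ‖(Matrix.vandermonde c.th)⁻¹ l j • c.sg j v‖ :=
          norm_sum_le _ _
      _ ≤ ∑ j, ‖(Matrix.vandermonde c.th)⁻¹ l j‖ * T := by
          refine Finset.sum_le_sum fun j _ => ?_
          rw [norm_smul]
          exact mul_le_mul_of_nonneg_left (h j) (norm_nonneg _)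
      _ = (∑ j, ‖(Matrix.vandermonde c.th)⁻¹ l j‖) * T := by rw [Finset.sum_mul]
      _ ≤ (1 + a + b + e) * T := mul_le_mul_of_nonneg_right (by linarith [hb1 l]) hT

end Crest.Agent.R22
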