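import Crest.Agent.R22.BasicH
import Crest.Agent.R22.BasicA

set_option autoImplicit false
open Polynomial IntermediateField

namespace Crest.Agent.R22

variable {d : ℕ}

/-- For a reduced basis some rational Plücker coordinate is `≥ ‖b1‖ ‖b2‖ / 2` (indices `a` of
`red` and `b` with `|b2 b| = ‖b2‖`). -/
theorem IsLine.wedge {b1 b2 : Fin d → ℤ} (h : IsLine b1 b2) :
    ∃ a b, ‖b1‖ * ‖b2‖ ≤ 2 * |((b1 a * b2 b - b1 b * b2 a : ℤ) : ℝ)| := by
  obtain ⟨a, ha1, ha2⟩ := h.red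
  obtain ⟨b, -, hb⟩ := Finset.exists_max_image Finset.univ (fun i => |(b2 i : ℝ)|)
    ⟨a, Finset.mem_univ _⟩
  have h1 : ‖b2‖ ≤ |(b2 b : ℝ)| := (pi_norm_le_iff_of_nonneg (abs_nonneg _)).2 fun i => by
    rw [Int.norm_eq_abs]; exact hb i (Finset.mem_univ _)
  have h2 : |(b1 b : ℝ)| ≤ ‖b1‖ := by rw [← Int.norm_eq_abs]; exact norm_le_pi_norm b1 b
  refine ⟨a, b, ?_⟩
  push_cast
  have h3 := abs_sub_abs_le_abs_sub ((b1 a : ℝ) * b2 b) ((b1 b : ℝ) * b2 a)
  rw [abs_mul, abs_mul, ha1] at h3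
  have h4 := norm_nonneg b1
  have h5 : |(b1 b : ℝ)| * (2 * |(b2 a : ℝ)|) ≤ ‖b1‖ * ‖b2‖ :=
    mul_le_mul h2 (ha2.trans h.le) (by positivity) h4
  have h6 := mul_le_mul_of_nonneg_left h1 h4
  linarith

theorem Basic_pl (c : Ctx d) (v w : Fin d → ℤ) (l m : Fin d) :
    ((v l * w m - v m * w l : ℤ) : ℂ) = ∑ i, ∑ j, (Matrix.vandermonde c.th)⁻¹ l i *
      (Matrix.vandermonde c.th)⁻¹ m j * c.pl v w i j := by
  push_cast
  rw [← co_sg c v l, ← co_sg c w m, ← co_sg c v m, ← co_sg c w l, mul_comm (c.co _ m)]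
  simp only [Ctx.co, smul_eq_mul, Finset.sum_mul_sum, ← Finset.sum_sub_distrib, Ctx.pl]
  exact Finset.sum_congr rfl fun i _ => Finset.sum_congr rfl fun j _ => by ring

/-- Rational Plücker coordinates are bounded combinations of the `pl i j` (use `co_sg`). -/
theorem pl_large (c : Ctx d) : ∃ C : ℝ, 1 ≤ C ∧ ∀ b1 b2 : Fin d → ℤ, IsLine b1 b2 →
    ∃ i j, ‖b1‖ * ‖b2‖ ≤ C * ‖c.pl b1 b2 i j‖ := by
  obtain ⟨C, hC, -, hW, -⟩ := norm_equiv c
  refine ⟨2 * (d * (d * (C * C))) + 1, le_add_of_nonneg_left (by positivity), fun b1 b2 h => ?_⟩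
  obtain ⟨a, b, hab⟩ := h.wedge
  obtain ⟨⟨i, j⟩, -, hij⟩ := Finset.exists_max_image Finset.univ
    (fun p : Fin d × Fin d => ‖c.pl b1 b2 p.1 p.2‖) ⟨(a, a), Finset.mem_univ _⟩
  refine ⟨i, j, hab.trans ?_⟩
  rw [← Complex.norm_intCast, Basic_pl c]
  have h1 : ∀ i' j', ‖(Matrix.vandermonde c.th)⁻¹ a i' * (Matrix.vandermonde c.th)⁻¹ b j' *
      c.pl b1 b2 i' j'‖ ≤ C * C * ‖c.pl b1 b2 i j‖ := fun i' j' => by
    rw [norm_mul, norm_mul]
    gcongr
    exacts [hW a i', hW b j', hij (i', j') (Finset.mem_univ _)]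
  have h2 := norm_sum_le_of_le Finset.univ fun i' _ =>
    norm_sum_le_of_le Finset.univ fun j' _ => h1 i' j'
  simp only [Finset.sum_const, Finset.card_univ, Fintype.card_fin, nsmul_eq_mul] at h2
  nlinarith [norm_nonneg (c.pl b1 b2 i j)]

theorem lins_of_nondeg (c : Ctx d) (hd : 2 ≤ d) {b1 b2 : Fin d → ℤ} (h : c.Nondeg b1 b2) :
    Lins (c.lin b1 b2) := by
  refine ⟨fun j => natDegree_linear (sg_ne_zero c j fun h0 => ?_), fun i j hij => ?_⟩
  · refine h ⟨0, by omega⟩ ⟨1, by omega⟩ (by simp) ?_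
    simp [Ctx.pl, Ctx.sg, h0]
  · have h1 := h i j hij
    refine ⟨C (-c.sg j b1 / c.pl b1 b2 i j), C (c.sg i b1 / c.pl b1 b2 i j), ?_⟩
    have e1 : -c.sg j b1 / c.pl b1 b2 i j * c.sg i b1 + c.sg i b1 / c.pl b1 b2 i j * c.sg j b1 = 0 := by
      ring
    have e2 : -c.sg j b1 / c.pl b1 b2 i j * c.sg i b2 + c.sg i b1 / c.pl b1 b2 i j * c.sg j b2 = 1 := by
      field_simp
      simp only [Ctx.pl]
      ring
    have f1 := congrArg (C : ℂ → ℂ[X]) e1
    have f2 := congrArg (C : ℂ → ℂ[X]) e2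
    simp only [map_add, map_mul, map_zero, map_one] at f1 f2
    simp only [Ctx.lin]
    linear_combination X * f1 + f2

theorem sg_line (c : Ctx d) (b1 b2 : Fin d → ℤ) (x y : ℤ) (hy : y ≠ 0) (j : Fin d) :
    c.sg j (x • b1 + y • b2) = (y : ℂ) * (c.lin b1 b2 j).eval ((x : ℂ) / y) := by
  have : (y : ℂ) ≠ 0 := by exact_mod_cast hy
  rw [sg_add, sg_smul, sg_smul]
  simp only [Ctx.lin, eval_add, eval_mul, eval_C, eval_X]
  field_simp

theorem Basic_natAbs {v : Fin d → ℤ} (hv : Prim v) {g : ℤ} (h : ∀ i, g ∣ v i) : g.natAbs = 1 := by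
  by_contra hg
  obtain ⟨l, hl, hlg⟩ := Nat.exists_prime_and_dvd hg
  obtain ⟨i, hi⟩ := hv l hl
  exact hi ((Int.natCast_dvd.2 hlg).trans (h i))

theorem isCoprime_of_prim {b1 b2 : Fin d → ℤ} {x y : ℤ} (h : Prim (x • b1 + y • b2)) :
    IsCoprime x y := by
  rw [Int.isCoprime_iff_gcd_eq_one]
  refine Basic_natAbs h (g := (Int.gcd x y : ℤ)) fun i => ?_
  simp only [Pi.add_apply, Pi.smul_apply, smul_eq_mul]
  exact dvd_add ((Int.gcd_dvd_left x y).mul_right _) ((Int.gcd_dvd_right x y).mul_right _)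

/-- Two proportional primitive vectors agree up to sign. -/
theorem prim_parallel {v w : Fin d → ℤ} (hv : Prim v) (hw : Prim w)
    (h : ∀ l m, v l * w m = v m * w l) : v = w ∨ v = -w := by
  obtain ⟨a, ha⟩ := Finset.gcd_eq_sum_mul Finset.univ w
  have h1 := Basic_natAbs hw fun i => Finset.gcd_dvd (f := w) (Finset.mem_univ i)
  generalize Finset.univ.gcd w = g at ha h1
  have h2 : g * g = 1 := by rcases Int.natAbs_eq_iff.1 h1 with rfl | rfl <;> rfl
  have h3 : ∀ l, v l = (g * ∑ m, v m * a m) * w l := fun l => by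
    have : v l * g = (∑ m, v m * a m) * w l := by
      rw [ha, Finset.mul_sum, Finset.sum_mul]
      exact Finset.sum_congr rfl fun m _ => by linear_combination a m * h l m
    linear_combination g * this - v l * h2
  have h4 := Basic_natAbs hv fun l => Dvd.intro _ (h3 l).symm
  rcases Int.natAbs_eq_iff.1 h4 with e | e
  · exact Or.inl (funext fun l => by rw [h3 l, e]; simp)
  · exact Or.inr (funext fun l => by rw [h3 l, e]; simp)

end Crest.Agent.R22
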