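import Crest.Agent.R22.Defs

set_option autoImplicit false
open Polynomial IntermediateField

namespace Crest.Agent.R22

variable {d : ℕ}

theorem hev_eq_eval {R S : Type*} [CommRing R] [Field S] [Algebra R S] (A : R[X]) (N : ℕ)
    (hA : A.natDegree ≤ N) (x y : S) (hy : y ≠ 0) :
    hev A N x y = y ^ N * aeval (x / y) A := by
  rw [aeval_eq_sum_range' (Nat.lt_succ_of_le hA), Finset.mul_sum, hev]
  refine Finset.sum_congr rfl fun i hi => ?_
  have hi' : i ≤ N := Nat.lt_succ_iff.1 (Finset.mem_range.1 hi)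
  obtain ⟨j, rfl⟩ := Nat.exists_eq_add_of_le hi'
  rw [Algebra.smul_def, Nat.add_sub_cancel_left, div_pow, pow_add]
  field_simp

theorem hev_smul {R S : Type*} [CommRing R] [CommRing S] [Algebra R S] (A : R[X]) (N : ℕ)
    (a x y : S) : hev A N (a * x) (a * y) = a ^ N * hev A N x y := by
  rw [hev, hev, Finset.mul_sum]
  refine Finset.sum_congr rfl fun i hi => ?_
  have hi' : i ≤ N := Nat.lt_succ_iff.1 (Finset.mem_range.1 hi)
  obtain ⟨j, rfl⟩ := Nat.exists_eq_add_of_le hi'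
  rw [Nat.add_sub_cancel_left, pow_add, mul_pow, mul_pow]
  ring

theorem basicH_hev_homogenize {R S : Type*} [CommRing R] [CommRing S] [Algebra R S] (A : R[X])
    (N : ℕ) (x y : S) : hev A N x y = MvPolynomial.aeval ![x, y] (A.homogenize N) := by
  rw [homogenize, map_sum, Finset.Nat.sum_antidiagonal_eq_sum_range_succ_mk, hev]
  refine Finset.sum_congr rfl fun i _ => ?_
  rw [MvPolynomial.aeval_monomial, Finsupp.prod_fintype _ _ (by simp), Fin.prod_univ_two, mul_assoc]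
  simp

theorem hev_mul {R S : Type*} [CommRing R] [CommRing S] [Algebra R S] (A B : R[X]) (N M : ℕ)
    (hA : A.natDegree ≤ N) (hB : B.natDegree ≤ M) (x y : S) :
    hev (A * B) (N + M) x y = hev A N x y * hev B M x y := by
  simp only [basicH_hev_homogenize]
  rw [homogenize_mul A B hA hB, map_mul]

theorem hev_cast (A : ℤ[X]) (N : ℕ) (x y : ℤ) :
    ((hev A N x y : ℤ) : ℂ) = hev (A.map (Int.castRingHom ℂ)) N (x : ℂ) (y : ℂ) := by
  simp [hev]

theorem hev2_cast (g : ℤ[X][X]) (E : ℕ) (hg : ∀ i, (g.coeff i).natDegree ≤ E) (x y n : ℤ)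
    (hy : y ≠ 0) :
    ((hev2 g E x y n : ℤ) : ℂ) = (y : ℂ) ^ E * (toC2 g).evalEval ((x : ℂ) / y) (n : ℂ) := by
  have hy' : (y : ℂ) ≠ 0 := by exact_mod_cast hy
  rw [hev2, toC2, evalEval, eval_map, eval₂_eq_sum, Polynomial.sum, eval_finsetSum,
    Finset.mul_sum, Int.cast_sum]
  refine Finset.sum_congr rfl fun i _ => ?_
  rw [Int.cast_mul, hev_cast, hev_eq_eval _ E (natDegree_map_le.trans (hg i)) _ _ hy']
  simp [mul_assoc]

theorem hev2_bound (E : ℕ) (g : ℤ[X][X]) (H T : ℝ) (hg : DegLE g E) (hH : HtLE2 g H) (hT : 1 ≤ T)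
    (x y n : ℤ) (hx : |(x : ℝ)| ≤ T) (hy : |(y : ℝ)| ≤ T) (hn : |(n : ℝ)| ≤ T) :
    |((hev2 g E x y n : ℤ) : ℝ)| ≤ (E + 1) ^ 2 * H * T ^ (2 * E) := by
  have hH0 : 0 ≤ H := (abs_nonneg _).trans (hH 0 0)
  have hT0 : 0 ≤ T := by linarith
  have h1 : ∀ i, |((hev (g.coeff i) E x y : ℤ) : ℝ)| ≤ (E + 1) * H * T ^ E := by
    intro i
    rw [hev, Int.cast_sum]
    refine (Finset.abs_sum_le_sum_abs _ _).trans ?_
    refine (Finset.sum_le_card_nsmul _ _ (H * T ^ E) fun j hj => ?_).trans ?_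
    · have hj' : j ≤ E := Nat.lt_succ_iff.1 (Finset.mem_range.1 hj)
      simp only [algebraMap_int_eq, eq_intCast, Int.cast_id, Int.cast_mul, Int.cast_pow, abs_mul,
        abs_pow]
      calc |(((g.coeff i).coeff j : ℤ) : ℝ)| * |(x : ℝ)| ^ j * |(y : ℝ)| ^ (E - j)
          ≤ H * T ^ j * T ^ (E - j) := by gcongr; exact hH i j
        _ = H * T ^ E := by rw [mul_assoc, ← pow_add, Nat.add_sub_cancel' hj']
    · simp [mul_assoc]
  rw [hev2, Int.cast_sum]
  refine (Finset.abs_sum_le_sum_abs _ _).trans ?_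
  refine (Finset.sum_le_card_nsmul _ _ ((E + 1) * H * T ^ E * T ^ E) fun i hi => ?_).trans ?_
  · have hi' : i ≤ E := (le_natDegree_of_mem_supp i hi).trans hg.1
    rw [Int.cast_mul, Int.cast_pow, abs_mul, abs_pow]
    refine mul_le_mul (h1 i) ?_ (by positivity) (by positivity)
    exact (pow_le_pow_left₀ (abs_nonneg _) hn i).trans (pow_le_pow_right₀ hT hi')
  · have : g.support.card ≤ E + 1 := (card_supp_le_succ_natDegree g).trans (by have := hg.1; omega)
    have h2 : (g.support.card : ℝ) ≤ E + 1 := by exact_mod_cast this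
    rw [nsmul_eq_mul]
    calc (g.support.card : ℝ) * ((E + 1) * H * T ^ E * T ^ E)
        ≤ (E + 1) * ((E + 1) * H * T ^ E * T ^ E) := by gcongr
      _ = (E + 1) ^ 2 * H * T ^ (2 * E) := by ring

theorem natDegree_toC2 (g : ℤ[X][X]) : (toC2 g).natDegree = g.natDegree :=
  natDegree_map_eq_of_injective (map_injective _ (Int.castRingHom ℂ).injective_int) g

theorem degLE_toC2 {g : ℤ[X][X]} {E : ℕ} (h : DegLE g E) : DegLE (toC2 g) E :=
  ⟨(natDegree_toC2 g).le.trans h.1, fun i => by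
    rw [toC2, coeff_map]; exact natDegree_map_le.trans (h.2 i)⟩

end Crest.Agent.R22
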