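import Crest.Agent.R22.Defs

set_option autoImplicit false
open Polynomial IntermediateField

namespace Crest.Agent.R22

variable {d : ℕ}

theorem Bezout_fibre {K : Type*} [Field K] (p : K[X][X]) (E : ℕ) (hE : p.natDegree ≤ E) (t0 : K)
    (hp : p.map (evalRingHom t0) ≠ 0) (F : Finset (K × K))
    (hF : ∀ z ∈ F, z.1 = t0 ∧ p.evalEval z.1 z.2 = 0) : F.card ≤ E := by
  classical
  refine le_trans (Finset.card_le_card_of_injOn (t := (p.map (evalRingHom t0)).roots.toFinset)
    Prod.snd (fun z hz => ?_) (fun z hz w hw h => ?_)) ?_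
  · obtain ⟨h1, h2⟩ := hF z hz
    rw [Finset.mem_coe, Multiset.mem_toFinset, mem_roots hp, IsRoot.def, map_evalRingHom_eval, ← h1]
    exact h2
  · exact Prod.ext ((hF z hz).1.trans (hF w hw).1.symm) h
  · exact (Multiset.toFinset_card_le _).trans ((card_roots' _).trans (natDegree_map_le.trans hE))

theorem Bezout_roots {K : Type*} [Field K] (r : K[X]) (hr : r ≠ 0) (S : Finset K)
    (hS : ∀ t ∈ S, r.eval t = 0) : S.card ≤ r.natDegree := by
  classical
  refine le_trans (Finset.card_le_card (t := r.roots.toFinset) fun t ht => ?_)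
    ((Multiset.toFinset_card_le _).trans (card_roots' _))
  rw [Multiset.mem_toFinset, mem_roots hr]
  exact hS t ht

theorem Bezout_det {n : Type*} [Fintype n] [DecidableEq n] (M : Matrix n n ℂ[X]) (E : ℕ)
    (h : ∀ i j, (M i j).natDegree ≤ E) : M.det.natDegree ≤ Fintype.card n * E := by
  rw [Matrix.det_apply]
  refine natDegree_sum_le_of_forall_le _ _ fun σ _ => ?_
  rw [Units.smul_def]
  refine (natDegree_smul_le _ _).trans ((natDegree_prod_le _ _).trans ?_)
  refine (Finset.sum_le_card_nsmul _ _ E fun i _ => h _ _).trans ?_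
  simp

theorem Bezout_C_dvd (p : ℂ[X][X]) (t0 : ℂ) (hp : p.map (evalRingHom t0) = 0) :
    C (X - C t0) ∣ p := by
  rw [C_dvd_iff_dvd_coeff]
  intro i
  have := congrArg (fun q => q.coeff i) hp
  simp only [coeff_map, coe_evalRingHom, coeff_zero] at this
  exact dvd_iff_isRoot.mpr this

theorem Bezout_elim (E : ℕ) (g h : ℂ[X][X]) (hg : Irreducible g) (hgh : ¬ g ∣ h)
    (hgE : DegLE g E) (hhE : DegLE h E) : ∃ r : ℂ[X], r ≠ 0 ∧ r.natDegree ≤ (2 * E + 1) * E ∧
      ∀ x y : ℂ, g.evalEval x y = 0 → h.evalEval x y = 0 → r.eval x = 0 := by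
  by_cases h0 : g.natDegree = 0
  · obtain ⟨a, rfl⟩ : ∃ a, g = C a := ⟨_, eq_C_of_natDegree_eq_zero h0⟩
    refine ⟨a, fun h => hg.ne_zero (by simp [h]), ?_, fun x y hx _ => by simpa [evalEval_C] using hx⟩
    have := hgE.2 0
    rw [coeff_C_zero] at this
    nlinarith
  have hp := hg.isPrimitive h0
  refine ⟨resultant g h, fun hr => ?_, ?_, fun x y hx hy => ?_⟩
  · have hinj : Function.Injective (algebraMap ℂ[X] (FractionRing ℂ[X])) :=
      IsFractionRing.injective _ _
    have h1 := resultant_map_map g h g.natDegree h.natDegree (algebraMap ℂ[X] (FractionRing ℂ[X]))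
    have hr' : resultant g h g.natDegree h.natDegree = 0 := hr
    rw [hr', map_zero, ← natDegree_map_eq_of_injective hinj g,
      ← natDegree_map_eq_of_injective hinj h] at h1
    have h2 := (resultant_eq_zero_iff.mp h1).2
    have hirr := (hp.irreducible_iff_irreducible_map_fraction_map (K := FractionRing ℂ[X])).mp hg
    rw [hirr.coprime_iff_not_dvd, not_not,
      ← hp.dvd_iff_fraction_map_dvd_fraction_map (FractionRing ℂ[X])] at h2
    exact hgh h2
  · refine (Bezout_det _ E fun i j => ?_).trans ?_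
    · induction j using Fin.addCases with
      | left j =>
        simp only [sylvester, Matrix.of_apply, Fin.addCases_left]
        split_ifs
        · exact hhE.2 _
        · simp
      | right j =>
        simp only [sylvester, Matrix.of_apply, Fin.addCases_right]
        split_ifs
        · exact hgE.2 _
        · simp
    · rw [Fintype.card_fin]
      exact Nat.mul_le_mul_right _ (by have := hgE.1; have := hhE.1; omega)
  · obtain ⟨p, q, -, -, hpq⟩ := exists_mul_add_mul_eq_C_resultant g h le_rfl le_rfl (Or.inl h0)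
    have := congrArg (evalEval x y) hpq
    rw [evalEval_add, evalEval_mul, evalEval_mul, hx, hy, evalEval_C] at this
    simpa using this.symm

theorem Bezout_swap_coeff (g : ℂ[X][X]) (i j : ℕ) :
    ((Bivariate.swap g).coeff i).coeff j = (g.coeff j).coeff i := by
  induction g using Polynomial.induction_on' with
  | add p q hp hq => simp only [map_add, coeff_add, hp, hq]
  | monomial n a =>
    rw [Bivariate.swap_monomial, coeff_mul_C, coeff_map, coeff_C_mul, coeff_X_pow, coeff_monomial]
    by_cases h : n = j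
    · simp [h]
    · simp [h, Ne.symm h]

theorem Bezout_coeff_le (g : ℂ[X][X]) (i : ℕ) : (g.coeff i).natDegree ≤ degT g := by
  by_cases hi : i ∈ g.support
  · exact Finset.le_sup (f := fun i => (g.coeff i).natDegree) hi
  · rw [notMem_support_iff.mp hi]; simp

theorem Bezout_swap (g : ℂ[X][X]) : (Bivariate.swap g).natDegree = degT g := by
  apply le_antisymm
  · rw [natDegree_le_iff_coeff_eq_zero]
    intro i hi
    ext j
    rw [Bezout_swap_coeff, coeff_zero]
    exact coeff_eq_zero_of_natDegree_lt ((Bezout_coeff_le g j).trans_lt hi)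
  · refine Finset.sup_le fun j _ => ?_
    rw [natDegree_le_iff_coeff_eq_zero]
    intro i hi
    rw [← Bezout_swap_coeff, coeff_eq_zero_of_natDegree_lt hi, coeff_zero]

theorem Bezout_degT_mul {g h : ℂ[X][X]} (hg : g ≠ 0) (hh : h ≠ 0) :
    degT (g * h) = degT g + degT h := by
  rw [← Bezout_swap, ← Bezout_swap, ← Bezout_swap, map_mul,
    natDegree_mul ((map_ne_zero_iff _ (AlgEquiv.injective _)).mpr hg)
      ((map_ne_zero_iff _ (AlgEquiv.injective _)).mpr hh)]

/-- Weak Bezout. Over `ℂ(t)` the polynomials are coprime (Gauss), the resultant in `n` is a nonzero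
polynomial in `t` of bounded degree vanishing at all `t`-coordinates; symmetrically
(`Bivariate.swap`) or: for each such `t0` one of `g(t0, ·), h(t0, ·)` is nonzero. -/
theorem bezout (E : ℕ) : ∃ C : ℕ, ∀ g h : ℂ[X][X], Irreducible g → ¬ g ∣ h → DegLE g E →
    DegLE h E → ∀ T : Finset (ℂ × ℂ),
      (∀ z ∈ T, g.evalEval z.1 z.2 = 0 ∧ h.evalEval z.1 z.2 = 0) → T.card ≤ C := by
  classical
  refine ⟨E * ((2 * E + 1) * E), fun g h hg hgh hgE hhE T hT => ?_⟩
  obtain ⟨r, hr0, hrd, hr⟩ := Bezout_elim E g h hg hgh hgE hhE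
  refine (Finset.card_le_mul_card_image (f := Prod.fst) T E fun t0 _ => ?_).trans
    (Nat.mul_le_mul_left _ ((Bezout_roots r hr0 _ fun t ht => ?_).trans hrd))
  · by_cases h1 : g.map (evalRingHom t0) = 0
    · refine Bezout_fibre h E hhE.1 t0 (fun h2 => hgh ?_) _ fun z hz =>
        ⟨(Finset.mem_filter.mp hz).2, (hT z (Finset.mem_filter.mp hz).1).2⟩
      have h3 := (hg.dvd_iff.mp (Bezout_C_dvd g t0 h1)).resolve_left
        fun hu => not_isUnit_X_sub_C t0 (isUnit_C.mp hu)
      exact h3.dvd.trans (Bezout_C_dvd h t0 h2)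
    · exact Bezout_fibre g E hgE.1 t0 h1 _ fun z hz =>
        ⟨(Finset.mem_filter.mp hz).2, (hT z (Finset.mem_filter.mp hz).1).1⟩
  · obtain ⟨z, hz, rfl⟩ := Finset.mem_image.mp ht
    exact hr _ _ (hT z hz).1 (hT z hz).2

/-- Zeros of a nonzero bivariate polynomial over a finite field. -/
theorem card_zeros_mod (q E : ℕ) [Fact q.Prime] (g : (ZMod q)[X][X]) (hg : g ≠ 0)
    (hE : DegLE g E) (T : Finset (ZMod q × ZMod q)) (hT : ∀ z ∈ T, g.evalEval z.1 z.2 = 0) :
    T.card ≤ 2 * E * q := by
  classical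
  have h1 : (T.filter fun z => g.map (evalRingHom z.1) = 0).card ≤ q * E := by
    refine (Finset.card_le_mul_card_image (f := Prod.fst) _ q fun t0 _ => ?_).trans
      (Nat.mul_le_mul_left _ ((Bezout_roots g.leadingCoeff (leadingCoeff_ne_zero.mpr hg) _
        fun t ht => ?_).trans (hE.2 _)))
    · refine le_trans (Finset.card_le_card_of_injOn (t := Finset.univ) Prod.snd
        (fun _ _ => by simp) (fun z hz w hw h => ?_)) (by simp)
      exact Prod.ext ((Finset.mem_filter.mp hz).2.trans (Finset.mem_filter.mp hw).2.symm) h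
    · obtain ⟨z, hz, rfl⟩ := Finset.mem_image.mp ht
      have := congrArg (fun p => p.coeff g.natDegree) (Finset.mem_filter.mp hz).2
      simpa using this
  have h2 : (T.filter fun z => ¬ g.map (evalRingHom z.1) = 0).card ≤ E * q := by
    refine (Finset.card_le_mul_card_image (f := Prod.fst) _ E fun t0 ht => ?_).trans
      (Nat.mul_le_mul_left _ ((Finset.card_le_univ _).trans (by simp)))
    obtain ⟨z, hz, rfl⟩ := Finset.mem_image.mp ht
    exact Bezout_fibre g E hE.1 z.1 (Finset.mem_filter.mp hz).2 _ fun w hw =>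
      ⟨(Finset.mem_filter.mp hw).2, hT w (Finset.mem_filter.mp (Finset.mem_filter.mp hw).1).1⟩
  have h3 := Finset.card_filter_add_card_filter_not (s := T) (fun z => g.map (evalRingHom z.1) = 0)
  nlinarith

/-- Divisors have smaller bidegree. -/
theorem DegLE.of_dvd {g h : ℂ[X][X]} {E : ℕ} (hh : h ≠ 0) (hd : g ∣ h) (hE : DegLE h E) :
    DegLE g E := by
  refine ⟨(natDegree_le_of_dvd hd hh).trans hE.1, fun i => (Bezout_coeff_le g i).trans ?_⟩
  obtain ⟨c, rfl⟩ := hd
  have h1 := Bezout_degT_mul (left_ne_zero_of_mul hh) (right_ne_zero_of_mul hh)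
  have h2 : degT (g * c) ≤ E := Finset.sup_le fun j _ => hE.2 j
  omega

/-- The inner degree is additive. -/
theorem degT_mul {g h : ℂ[X][X]} (hg : g ≠ 0) (hh : h ≠ 0) : degT (g * h) = degT g + degT h := by
  exact Bezout_degT_mul hg hh

end Crest.Agent.R22
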