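import Crest.Agent.R22.Basic

set_option autoImplicit false
open Polynomial IntermediateField

namespace Crest.Agent.R22

variable {d : ℕ}

/-- `ℓ¹`-bound for the coefficients of a polynomial in two variables -/
inductive BoxF_Bd : ℂ[X][X] → ℝ → Prop
  | mon (i j : ℕ) (a : ℂ) (K : ℝ) : ‖a‖ ≤ K → BoxF_Bd (monomial i (monomial j a)) K
  | add {f g : ℂ[X][X]} {K K' : ℝ} : BoxF_Bd f K → BoxF_Bd g K' → BoxF_Bd (f + g) (K + K')

theorem BoxF_Bd.congr {f g : ℂ[X][X]} {K K' : ℝ} (h : BoxF_Bd f K) (e : g = f) (e' : K' = K) :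
    BoxF_Bd g K' := by
  rw [e, e']; exact h

theorem BoxF_Bd.mono {f : ℂ[X][X]} {K K' : ℝ} (h : BoxF_Bd f K) (hK : K ≤ K') :
    BoxF_Bd f K' :=
  (h.add (BoxF_Bd.mon 0 0 0 (K' - K) (by simpa using hK))).congr (by simp) (by ring)

theorem BoxF_Bd.coLE {f : ℂ[X][X]} {K : ℝ} (h : BoxF_Bd f K) : CoLE f K := by
  induction h with
  | mon i j a K ha =>
    intro i' j'
    have h0 : 0 ≤ K := (norm_nonneg _).trans ha
    rw [coeff_monomial]
    split_ifs
    · rw [coeff_monomial]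
      split_ifs
      · exact ha
      · simpa using h0
    · simpa using h0
  | add _ _ ihf ihg =>
    intro i j
    rw [coeff_add, coeff_add]
    exact (norm_add_le _ _).trans (add_le_add (ihf i j) (ihg i j))

theorem BoxF_Bd.mul {f g : ℂ[X][X]} {K K' : ℝ} (hf : BoxF_Bd f K) (hg : BoxF_Bd g K') :
    BoxF_Bd (f * g) (K * K') := by
  induction hf with
  | mon i j a K ha =>
    induction hg with
    | mon i' j' a' K' ha' =>
      refine (BoxF_Bd.mon (i + i') (j + j') (a * a') (K * K') ?_).congr ?_ rfl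
      · rw [norm_mul]
        exact mul_le_mul ha ha' (norm_nonneg _) ((norm_nonneg _).trans ha)
      · rw [monomial_mul_monomial, monomial_mul_monomial]
    | add _ _ ih1 ih2 => exact (ih1.add ih2).congr (mul_add _ _ _) (mul_add _ _ _)
  | add _ _ ih1 ih2 => exact (ih1.add ih2).congr (add_mul _ _ _) (add_mul _ _ _)

theorem BoxF_Bd.CC (a : ℂ) {K : ℝ} (ha : ‖a‖ ≤ K) : BoxF_Bd (C (C a)) K :=
  (BoxF_Bd.mon 0 0 a K ha).congr (by simp) rfl

theorem BoxF_Bd.one : BoxF_Bd 1 1 := (BoxF_Bd.CC 1 (by simp)).congr (by simp) rfl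

theorem BoxF_Bd.zero : BoxF_Bd 0 0 := (BoxF_Bd.CC 0 (by simp)).congr (by simp) rfl

theorem BoxF_Bd.pow {f : ℂ[X][X]} {K : ℝ} (hf : BoxF_Bd f K) (n : ℕ) :
    BoxF_Bd (f ^ n) (K ^ n) := by
  induction n with
  | zero => exact BoxF_Bd.one.congr (pow_zero _) (pow_zero _)
  | succ n ih => exact (ih.mul hf).congr (pow_succ _ _) (pow_succ _ _)

theorem BoxF_Bd.prod {ι : Type*} (s : Finset ι) {f : ι → ℂ[X][X]} {K : ℝ}
    (hf : ∀ i ∈ s, BoxF_Bd (f i) K) : BoxF_Bd (∏ i ∈ s, f i) (K ^ s.card) := by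
  classical
  induction s using Finset.induction_on with
  | empty => exact BoxF_Bd.one.congr (by simp) (by simp)
  | insert a s ha ih =>
    refine ((hf a (Finset.mem_insert_self _ _)).mul
      (ih fun i hi => hf i (Finset.mem_insert_of_mem hi))).congr (Finset.prod_insert ha) ?_
    rw [Finset.card_insert_of_notMem ha, pow_succ']

theorem BoxF_Bd.sum {ι : Type*} (s : Finset ι) {f : ι → ℂ[X][X]} {K : ℝ}
    (hf : ∀ i ∈ s, BoxF_Bd (f i) K) : BoxF_Bd (∑ i ∈ s, f i) (s.card * K) := by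
  classical
  induction s using Finset.induction_on with
  | empty => exact BoxF_Bd.zero.congr (by simp) (by simp)
  | insert a s ha ih =>
    refine ((hf a (Finset.mem_insert_self _ _)).add
      (ih fun i hi => hf i (Finset.mem_insert_of_mem hi))).congr (Finset.sum_insert ha) ?_
    rw [Finset.card_insert_of_notMem ha]
    push_cast
    ring

theorem BoxF_Bd.smul {f : ℂ[X][X]} {K K' : ℝ} (a : ℂ) (ha : ‖a‖ ≤ K) (hf : BoxF_Bd f K') :
    BoxF_Bd (a • f) (K * K') :=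
  ((BoxF_Bd.CC a ha).mul hf).congr (by rw [Algebra.smul_def]; rfl) rfl

theorem BoxF_Bd.lin {p : ℂ[X]} {K : ℝ} (hp : p.natDegree ≤ 1) (hK : ∀ i, ‖p.coeff i‖ ≤ K) :
    BoxF_Bd (C p) (2 * K) := by
  refine ((BoxF_Bd.mon 0 1 (p.coeff 1) K (hK 1)).add
    (BoxF_Bd.mon 0 0 (p.coeff 0) K (hK 0))).congr ?_ (two_mul K)
  rw [monomial_zero_left, monomial_zero_left, ← C_add, ← C_mul_X_eq_monomial]
  exact congrArg C (eq_X_add_C_of_natDegree_le_one hp)

theorem BoxF_Nrow {th : Fin d → ℂ} {L : Fin d → ℂ[X]} {Ct CB : ℝ} (hB : 1 ≤ CB)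
    (ht : ∀ j, ‖th j‖ ≤ Ct) (hL : ∀ j, (L j).natDegree ≤ 1) (hc : ∀ j i, ‖(L j).coeff i‖ ≤ CB)
    (k : ℕ) (j : Fin d) : BoxF_Bd (Nrow th L k j) ((1 + Ct) * ((2 * CB) ^ k) ^ d) := by
  have h1 : BoxF_Bd (1 - C (C (th j)) * X) (1 + Ct) := by
    refine (BoxF_Bd.one.add (BoxF_Bd.mon 1 0 (-th j) Ct (by simpa using ht j))).congr ?_ rfl
    rw [monomial_zero_left, ← C_mul_X_eq_monomial, C_neg, C_neg]
    ring
  have h2 := BoxF_Bd.prod (Finset.univ.erase j) (f := fun l => C (L l) ^ k)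
    (fun l _ => (BoxF_Bd.lin (hL l) (hc l)).pow k)
  have h3 : ((2 * CB) ^ k) ^ (Finset.univ.erase j).card ≤ ((2 * CB) ^ k) ^ d :=
    pow_le_pow_right₀ (one_le_pow₀ (by linarith))
      (by simp)
  refine (h1.mul (h2.mono h3)).congr ?_ rfl
  simp only [Nrow, map_prod, map_pow]

theorem BoxF_prod_mem {A : Type*} [CommRing A] [Algebra ℂ A] (M : Submodule ℂ A) :
    ∀ (D : ℕ) (f : Fin D → A), (∀ a, f a ∈ M) → ∏ a, f a ∈ M ^ D := by
  intro D
  induction D with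
  | zero =>
    intro f _
    rw [Fin.prod_univ_zero, pow_zero]
    exact Submodule.mem_one.2 ⟨1, map_one _⟩
  | succ D ih =>
    intro f hf
    rw [Fin.prod_univ_castSucc, pow_succ]
    exact Submodule.mul_mem_mul (ih _ fun a => hf _) (hf _)

/-- Scheme B in a box: a monomial in the conjugates of `μ` and in `x, y` is a column factor times a
row factor times the value of an element of `Vsp`. -/
theorem box_factor (c : Ctx d) (k D c0 : ℕ) (C0 CB CW : ℝ) (h0 : 1 ≤ C0) (hB : 1 ≤ CB) :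
    ∃ K : ℝ, 1 ≤ K ∧ ∀ (X B G1 G2 w : ℝ) (b1 b2 : Fin d → ℤ) (T : Finset (LPt c k))
      (L : Fin d → ℂ[X]) (l1 l2 : ℂ[X]) (τ ρ : LPt c k → ℝ), 1 ≤ X → 1 ≤ B → 1 ≤ G1 → 1 ≤ G2 →
      (∀ P ∈ T, OnB C0 X B G1 G2 b1 b2 P) →
      BoxData c b1 b2 G1 G2 B w CB T LPt.x LPt.y L l1 l2 τ ρ →
      ∃ col : LPt c k → ℂ, (∀ P ∈ T, ‖col P‖ ≤ K * (X / B ^ k) ^ D) ∧
        ∀ (W : Fin D → Fin d → ℂ) (i : ℕ), (∀ a j, ‖W a j‖ ≤ CW) → i ≤ c0 →
          ∃ (F : ℂ[X][X]) (rw : ℂ), F ∈ Vsp c.th L k D c0 l1 l2 ∧ CoLE F K ∧ ‖rw‖ ≤ B ^ c0 ∧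
            ∀ P ∈ T, (∏ a, ∑ j, W a j * c.sg j P.mu) * (P.x : ℂ) ^ i * (P.y : ℂ) ^ (c0 - i) =
              rw * col P * F.evalEval (τ P : ℂ) ((P.n : ℂ))⁻¹ := by
  obtain ⟨Ct, hCt, hth, -⟩ := norm_equiv c
  have hK1 : 1 ≤ (2 * C0 * CB ^ k * (CB ^ k) ^ d) ^ D * CB ^ c0 := by
    have h1 : 1 ≤ CB ^ k := one_le_pow₀ hB
    have h2 : 1 ≤ (CB ^ k) ^ d := one_le_pow₀ h1
    have h3 : 1 ≤ 2 * C0 * CB ^ k * (CB ^ k) ^ d :=
      one_le_mul_of_one_le_of_one_le (one_le_mul_of_one_le_of_one_le (by linarith) h1) h2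
    exact one_le_mul_of_one_le_of_one_le (one_le_pow₀ h3) (one_le_pow₀ hB)
  have hK2 : 0 ≤ ((d : ℝ) * (|CW| * ((1 + Ct) * ((2 * CB) ^ k) ^ d))) ^ D * (2 * CB) ^ c0 := by
    positivity
  refine ⟨(2 * C0 * CB ^ k * (CB ^ k) ^ d) ^ D * CB ^ c0 +
    ((d : ℝ) * (|CW| * ((1 + Ct) * ((2 * CB) ^ k) ^ d))) ^ D * (2 * CB) ^ c0, by linarith, ?_⟩
  intro X B G1 G2 w b1 b2 T L l1 l2 τ ρ hX hB1 hG1 hG2 hOn hbd
  have hCB : 0 < CB := by linarith
  have hB0 : 0 < B := by linarith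
  set q : LPt c k → ℂ := fun P =>
    (P.cc : ℂ) * P.n / ((B : ℂ) ^ k * (ρ P : ℂ) ^ k * ∏ l, (L l).eval (τ P : ℂ) ^ k) with hq
  have hLne : ∀ P ∈ T, ∀ l, (L l).eval (τ P : ℂ) ≠ 0 := fun P hP l =>
    norm_pos_iff.1 (lt_of_lt_of_le (by positivity) (hbd.lo P hP l))
  have hρne : ∀ P ∈ T, (ρ P : ℂ) ≠ 0 := fun P hP => by
    have : 0 < |ρ P| := lt_of_lt_of_le (by positivity) (hbd.rho1 P hP)
    exact_mod_cast abs_pos.1 this
  have hn0 : ∀ P ∈ T, (0 : ℝ) < P.n := fun P hP => by linarith [(hOn P hP).sz.n1]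
  have hmu : ∀ P ∈ T, ∀ j, c.sg j P.mu =
      q P * (Nrow c.th L k j).evalEval (τ P : ℂ) ((P.n : ℂ))⁻¹ := by
    intro P hP j
    have h1 := P.rel j
    rw [(hOn P hP).eq, hbd.ev P hP j] at h1
    have hn : (P.n : ℂ) ≠ 0 := by exact_mod_cast (hn0 P hP).ne'
    have hBc : (B : ℂ) ≠ 0 := by exact_mod_cast hB0.ne'
    have hρ := hρne P hP
    have hj := hLne P hP j
    have hp : ∏ l ∈ Finset.univ.erase j, (L l).eval (τ P : ℂ) ^ k ≠ 0 :=
      Finset.prod_ne_zero_iff.2 fun l _ => pow_ne_zero _ (hLne P hP l)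
    simp only [hq, Nrow, evalEval_mul, evalEval_sub, evalEval_one, evalEval_C, evalEval_X,
      eval_C, eval_prod, eval_pow]
    rw [← Finset.mul_prod_erase Finset.univ _ (Finset.mem_univ j)]
    field_simp
    linear_combination h1
  refine ⟨fun P => q P ^ D * (ρ P : ℂ) ^ c0, fun P hP => ?_, fun W i hW hi => ?_⟩
  · have hsz := (hOn P hP).sz
    have h1 : (1 / CB) ^ k ≤ |ρ P| ^ k := pow_le_pow_left₀ (by positivity) (hbd.rho1 P hP) k
    have h2 : ((1 / CB) ^ k) ^ d ≤ ∏ l, ‖(L l).eval (τ P : ℂ)‖ ^ k := by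
      have := Finset.prod_le_prod (s := Finset.univ) (f := fun _ : Fin d => (1 / CB) ^ k)
        (g := fun l => ‖(L l).eval (τ P : ℂ)‖ ^ k) (fun _ _ => by positivity)
        (fun l _ => pow_le_pow_left₀ (by positivity) (hbd.lo P hP l) k)
      simpa using this
    have h3 : ‖q P‖ ≤ 2 * C0 * CB ^ k * (CB ^ k) ^ d * (X / B ^ k) := by
      simp only [hq, norm_div, norm_mul, norm_pow, norm_prod, Complex.norm_intCast,
        Complex.norm_real, Real.norm_eq_abs, abs_of_pos hB0, abs_of_pos (hn0 P hP)]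
      calc |(P.cc : ℝ)| * P.n / (B ^ k * |ρ P| ^ k * ∏ l, ‖(L l).eval (τ P : ℂ)‖ ^ k)
          ≤ C0 * (2 * X) / (B ^ k * (1 / CB) ^ k * ((1 / CB) ^ k) ^ d) := by
            gcongr
            · exact (hn0 P hP).le
            · exact hsz.cc
            · exact hsz.n2
        _ = 2 * C0 * CB ^ k * (CB ^ k) ^ d * (X / B ^ k) := by
            simp only [one_div, inv_pow]
            field_simp
    have h4 : ‖(ρ P : ℂ)‖ ≤ CB := by
      rw [Complex.norm_real, Real.norm_eq_abs]; exact hbd.rho2 P hP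
    have h5 : 0 ≤ (X / B ^ k) ^ D := by positivity
    calc ‖q P ^ D * (ρ P : ℂ) ^ c0‖ = ‖q P‖ ^ D * ‖(ρ P : ℂ)‖ ^ c0 := by
          rw [norm_mul, norm_pow, norm_pow]
      _ ≤ (2 * C0 * CB ^ k * (CB ^ k) ^ d * (X / B ^ k)) ^ D * CB ^ c0 := by gcongr
      _ = (2 * C0 * CB ^ k * (CB ^ k) ^ d) ^ D * CB ^ c0 * (X / B ^ k) ^ D := by
          rw [mul_pow]; ring
      _ ≤ _ := mul_le_mul_of_nonneg_right (le_add_of_nonneg_right hK2) h5
  · refine ⟨(∏ a, ∑ j, W a j • Nrow c.th L k j) * (C l1 ^ i * C l2 ^ (c0 - i)),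
      ((B / G1 : ℝ) : ℂ) ^ i * ((B / G2 : ℝ) : ℂ) ^ (c0 - i), ?_, ?_, ?_, fun P hP => ?_⟩
    · refine Submodule.mul_mem_mul (BoxF_prod_mem _ D _ fun a =>
        Submodule.sum_mem _ fun j _ => Submodule.smul_mem _ _
          (Submodule.subset_span ⟨j, rfl⟩)) ?_
      have e : Submodule.span ℂ ({C l1, C l2} : Set ℂ[X][X]) ^ c0 =
          Submodule.span ℂ ({C l1, C l2} : Set ℂ[X][X]) ^ i *
            Submodule.span ℂ ({C l1, C l2} : Set ℂ[X][X]) ^ (c0 - i) := by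
        rw [← pow_add, Nat.add_sub_cancel' hi]
      rw [e]
      exact Submodule.mul_mem_mul
        (Submodule.pow_mem_pow _ (Submodule.subset_span (by simp)) _)
        (Submodule.pow_mem_pow _ (Submodule.subset_span (by simp)) _)
    · have h1 := BoxF_Bd.prod (Finset.univ : Finset (Fin D))
        (f := fun a => ∑ j, W a j • Nrow c.th L k j) fun a _ =>
          BoxF_Bd.sum Finset.univ fun j _ => BoxF_Bd.smul (W a j) ((hW a j).trans (le_abs_self _))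
            (BoxF_Nrow hB hth (fun j => (hbd.lins.1 j).le) hbd.co k j)
      have h2 := ((BoxF_Bd.lin hbd.d1 hbd.c1).pow i).mul ((BoxF_Bd.lin hbd.d2 hbd.c2).pow (c0 - i))
      rw [← pow_add, Nat.add_sub_cancel' hi] at h2
      simp only [Finset.card_univ, Fintype.card_fin] at h1
      exact ((h1.mul h2).mono (le_add_of_nonneg_left (by linarith))).coLE
    · have h1 : ‖((B / G1 : ℝ) : ℂ)‖ ≤ B := by
        rw [Complex.norm_real, Real.norm_of_nonneg (by positivity)]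
        exact div_le_self hB0.le hG1
      have h2 : ‖((B / G2 : ℝ) : ℂ)‖ ≤ B := by
        rw [Complex.norm_real, Real.norm_of_nonneg (by positivity)]
        exact div_le_self hB0.le hG2
      rw [norm_mul, norm_pow, norm_pow]
      calc _ ≤ B ^ i * B ^ (c0 - i) := by gcongr
        _ = B ^ c0 := by rw [← pow_add, Nat.add_sub_cancel' hi]
    · have e : (ρ P : ℂ) ^ c0 = (ρ P : ℂ) ^ i * (ρ P : ℂ) ^ (c0 - i) := by
        rw [← pow_add, Nat.add_sub_cancel' hi]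
      have e2 : ∏ a, ∑ j, W a j * c.sg j P.mu = q P ^ D *
          ∏ a, ∑ j, W a j * (Nrow c.th L k j).evalEval (τ P : ℂ) ((P.n : ℂ))⁻¹ := by
        rw [← Fin.prod_const, ← Finset.prod_mul_distrib]
        refine Finset.prod_congr rfl fun a _ => ?_
        rw [Finset.mul_sum]
        refine Finset.sum_congr rfl fun j _ => ?_
        rw [hmu P hP j]
        ring
      rw [e2, hbd.ex P hP, hbd.ey P hP]
      simp only [e, evalEval_mul, evalEval_prod, evalEval_finsetSum, evalEval_smul, evalEval_pow,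
        evalEval_C, smul_eq_mul, mul_pow]
      ring

end Crest.Agent.R22
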