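import Crest.Agent.R22.Basic

set_option autoImplicit false
open Polynomial IntermediateField

namespace Crest.Agent.R22

variable {d : ℕ}

theorem Boxes_cover {ι : Type} (S : Finset ι) (t : ι → ℝ) (ht : ∀ P ∈ S, |t P| ≤ 1) {w : ℝ}
    (hw : 0 < w) (hw1 : w ≤ 1) : ∃ PP : Finset (Finset ι), (PP.card : ℝ) ≤ 3 / w ∧
      (∀ P ∈ S, ∃ T ∈ PP, P ∈ T) ∧ ∀ T ∈ PP, T ⊆ S ∧ ∃ Q ∈ T, ∀ P ∈ T, |t P - t Q| ≤ w := by
  classical
  set f : ι → ℕ := fun P => ⌊(t P + 1) / w⌋₊ with hf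
  refine ⟨(S.image f).image fun n => S.filter (f · = n), ?_, fun P hP =>
    ⟨_, Finset.mem_image_of_mem _ (Finset.mem_image_of_mem f hP), Finset.mem_filter.2 ⟨hP, rfl⟩⟩,
    fun T hT => ?_⟩
  · have h1 : S.image f ⊆ Finset.range (⌊2 / w⌋₊ + 1) := fun n hn => by
      obtain ⟨P, hP, rfl⟩ := Finset.mem_image.1 hn
      refine Finset.mem_range.2 (Nat.lt_succ_of_le (Nat.floor_le_floor ?_))
      gcongr
      linarith [(abs_le.1 (ht P hP)).2]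
    have h2 := (Finset.card_image_le (f := fun n => S.filter (f · = n))).trans
      (Finset.card_le_card h1)
    rw [Finset.card_range] at h2
    calc _ ≤ ((⌊2 / w⌋₊ + 1 : ℕ) : ℝ) := by exact_mod_cast h2
      _ ≤ 2 / w + 1 / w := by
          push_cast
          exact add_le_add (Nat.floor_le (by positivity)) ((one_le_div hw).2 hw1)
      _ = 3 / w := by ring
  · obtain ⟨n, hn, rfl⟩ := Finset.mem_image.1 hT
    obtain ⟨Q, hQ, rfl⟩ := Finset.mem_image.1 hn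
    refine ⟨Finset.filter_subset _ _, Q, Finset.mem_filter.2 ⟨hQ, rfl⟩, fun P hP => ?_⟩
    obtain ⟨hP, e⟩ := Finset.mem_filter.1 hP
    have key : ∀ R ∈ S, (f R : ℝ) * w ≤ t R + 1 ∧ t R + 1 < (f R + 1) * w := fun R hR =>
      ⟨(le_div_iff₀ hw).1 (Nat.floor_le (div_nonneg (by linarith [(abs_le.1 (ht R hR)).1]) hw.le)),
        (div_lt_iff₀ hw).1 (Nat.lt_floor_add_one _)⟩
    have h1 := key P hP
    have h2 := key Q hQ
    rw [e] at h1
    rw [abs_le]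
    constructor <;> nlinarith [h1.1, h1.2, h2.1, h2.2]

theorem Boxes_coprime {a b a' b' : ℂ} (h : a * b' - a' * b ≠ 0) :
    IsCoprime (C a * X + C b) (C a' * X + C b') := by
  refine ⟨-C (a' / (a * b' - a' * b)), C (a / (a * b' - a' * b)), ?_⟩
  have e : (C (a * b' - a' * b)⁻¹ : ℂ[X]) * (C a * C b' - C a' * C b) = 1 := by
    rw [← C_mul, ← C_mul, ← C_sub, ← C_mul, inv_mul_cancel₀ h, C_1]
  rw [div_eq_mul_inv, div_eq_mul_inv, C_mul, C_mul]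
  linear_combination e

theorem Boxes_coeff {a b : ℂ} {K : ℝ} (ha : ‖a‖ ≤ K) (hb : ‖b‖ ≤ K) (i : ℕ) :
    ‖(C a * X + C b).coeff i‖ ≤ K := by
  rcases i with _ | _ | i
  · simpa using hb
  · simpa using ha
  · simpa [coeff_X, coeff_C] using (norm_nonneg _).trans ha

/-- One chart. -/
theorem Boxes_chart (c : Ctx d) (hd : 2 ≤ d) {C0 A : ℝ} (h0 : 1 ≤ C0) (hA : 1 ≤ A)
    {b1 b2 : Fin d → ℤ} {G1 G2 Z w : ℝ} (hG1 : 0 < G1) (hG2 : 0 < G2) (hb : b1 ≠ 0)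
    (h1 : ∀ j, ‖c.sg j b1‖ ≤ A * G1) (h2 : ∀ j, ‖c.sg j b2‖ ≤ A * G2) (hN : c.Nondeg b1 b2)
    (hZ : 0 < Z) (hw : 0 < w) (hw1 : w ≤ 1) {ι : Type} (S : Finset ι) (x y : ι → ℤ)
    (hS : ∀ P ∈ S, |(x P : ℝ)| * G1 ≤ |(y P : ℝ)| * G2 ∧ |(y P : ℝ)| ≤ C0 * Z / G2 ∧
      ∀ j, Z / C0 ≤ ‖c.sg j (x P • b1 + y P • b2)‖) :
    ∃ PP : Finset (Finset ι), (PP.card : ℝ) ≤ 3 / w ∧ (∀ P ∈ S, ∃ T ∈ PP, P ∈ T) ∧
      ∀ T ∈ PP, T ⊆ S ∧ ∃ (L : Fin d → ℂ[X]) (l1 l2 : ℂ[X]) (τ ρ : ι → ℝ),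
        BoxData c b1 b2 G1 G2 Z w (6 * A * C0 ^ 2) T x y L l1 l2 τ ρ := by
  set α : Fin d → ℂ := fun j => c.sg j b1 / G1 with hα
  set β : Fin d → ℂ := fun j => c.sg j b2 / G2 with hβ
  set t : ι → ℝ := fun P => x P * G1 / (y P * G2) with ht
  set v : ι → ℝ := fun P => y P * G2 / Z with hv
  have hC0 : 0 < C0 := by linarith
  have hG1' : (G1 : ℂ) ≠ 0 := by exact_mod_cast hG1.ne'
  have hG2' : (G2 : ℂ) ≠ 0 := by exact_mod_cast hG2.ne'
  have hZ' : (Z : ℂ) ≠ 0 := by exact_mod_cast hZ.ne'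
  have hαA : ∀ j, ‖α j‖ ≤ A := fun j => by
    rw [hα, norm_div, Complex.norm_real, Real.norm_of_nonneg hG1.le, div_le_iff₀ hG1]
    exact h1 j
  have hβA : ∀ j, ‖β j‖ ≤ A := fun j => by
    rw [hβ, norm_div, Complex.norm_real, Real.norm_of_nonneg hG2.le, div_le_iff₀ hG2]
    exact h2 j
  have hy : ∀ P ∈ S, (y P : ℝ) ≠ 0 := fun P hP e => by
    obtain ⟨h3, -, h4⟩ := hS P hP
    have e1 : (x P : ℝ) = 0 := by
      rw [e, abs_zero, zero_mul] at h3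
      exact abs_nonpos_iff.1 (nonpos_of_mul_nonpos_left h3 hG1)
    have := h4 ⟨0, by omega⟩
    rw [sg_add, sg_smul, sg_smul, show x P = 0 by exact_mod_cast e1,
      show y P = 0 by exact_mod_cast e] at this
    simp at this
    exact absurd this (not_le.2 (by positivity))
  have ht1 : ∀ P ∈ S, |t P| ≤ 1 := fun P hP => by
    have := abs_pos.2 (hy P hP)
    rw [ht, abs_div, abs_mul, abs_mul, abs_of_pos hG1, abs_of_pos hG2, div_le_one (by positivity)]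
    exact (hS P hP).1
  have hv1 : ∀ P ∈ S, |v P| ≤ C0 := fun P hP => by
    rw [hv, abs_div, abs_mul, abs_of_pos hG2, abs_of_pos hZ, div_le_iff₀ hZ, ← le_div_iff₀ hG2]
    exact (hS P hP).2.1
  have hev : ∀ P ∈ S, ∀ j, c.sg j (x P • b1 + y P • b2) = (Z : ℂ) * v P * (t P * α j + β j) := by
    intro P hP j
    have : (y P : ℂ) ≠ 0 := by exact_mod_cast hy P hP
    rw [sg_add, sg_smul, sg_smul]
    simp only [hα, hβ, ht, hv]
    push_cast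
    field_simp
  have hup : ∀ P ∈ S, ∀ j, ‖t P * α j + β j‖ ≤ 2 * A := fun P hP j => by
    refine (norm_add_le _ _).trans ?_
    rw [norm_mul, Complex.norm_real, Real.norm_eq_abs]
    nlinarith [ht1 P hP, hαA j, hβA j, norm_nonneg (α j), abs_nonneg (t P)]
  have hlo : ∀ P ∈ S, ∀ j, 1 ≤ C0 * (|v P| * ‖t P * α j + β j‖) := fun P hP j => by
    have := (hS P hP).2.2 j
    rw [hev P hP, norm_mul, norm_mul, Complex.norm_real, Complex.norm_real,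
      Real.norm_of_nonneg hZ.le, Real.norm_eq_abs, div_le_iff₀ hC0] at this
    refine le_of_mul_le_mul_left ?_ hZ
    linarith
  have hK : 0 < 6 * A * C0 ^ 2 := by positivity
  have hC2 : C0 ≤ C0 ^ 2 := by nlinarith
  have hK1 : 2 * A ≤ 6 * A * C0 ^ 2 := by nlinarith
  have hlo1 : ∀ P ∈ S, ∀ j, 1 / (6 * A * C0 ^ 2) ≤ ‖t P * α j + β j‖ := fun P hP j => by
    have h3 := norm_nonneg (t P * α j + β j)
    rw [div_le_iff₀ hK]
    calc _ ≤ C0 * (C0 * ‖t P * α j + β j‖) := (hlo P hP j).trans (by gcongr; exact hv1 P hP)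
      _ = ‖t P * α j + β j‖ * (1 * C0 ^ 2) := by ring
      _ ≤ _ := by gcongr; linarith
  obtain ⟨PP, hc, hcov, hPP⟩ := Boxes_cover S t ht1 hw hw1
  refine ⟨PP, hc, hcov, fun T hT => ?_⟩
  obtain ⟨hTS, Q, hQ, hτ⟩ := hPP T hT
  have hL : ∀ P j, (C (α j) * X + C (t Q * α j + β j)).eval ((t P - t Q : ℝ) : ℂ) =
      t P * α j + β j := fun P j => by
    simp only [eval_add, eval_mul, eval_C, eval_X]
    push_cast
    ring
  refine ⟨hTS, fun j => C (α j) * X + C (t Q * α j + β j), C 1 * X + C (t Q : ℂ), C 0 * X + C 1,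
    fun P => t P - t Q, v, ⟨⟨fun j => natDegree_linear (div_ne_zero (sg_ne_zero c j hb) hG1'),
      fun i j hij => Boxes_coprime ?_⟩,
      fun j => Boxes_coeff (by linarith [hαA j]) ((hup Q (hTS hQ) j).trans hK1),
      fun j => by simpa using hlo1 Q (hTS hQ) j, natDegree_linear_le, natDegree_linear_le,
      Boxes_coeff (by rw [norm_one]; linarith) ?_,
      Boxes_coeff (by rw [norm_zero]; linarith) (by rw [norm_one]; linarith), hτ,
      fun P hP => ?_, fun P hP => (hv1 P (hTS hP)).trans (by nlinarith),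
      fun P hP j => by rw [hL]; exact hlo1 P (hTS hP) j,
      fun P hP j => by rw [hL]; exact hev P (hTS hP) j, fun P hP => ?_, fun P hP => ?_⟩⟩
  · have e : α i * (t Q * α j + β j) - α j * (t Q * α i + β i) = c.pl b1 b2 i j / (G1 * G2) := by
      simp only [hα, hβ, Ctx.pl]
      field_simp
      ring
    rw [e]
    exact div_ne_zero (hN i j hij) (mul_ne_zero hG1' hG2')
  · rw [Complex.norm_real, Real.norm_eq_abs]
    linarith [ht1 Q (hTS hQ)]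
  · have h3 := abs_nonneg (v P)
    rw [div_le_iff₀ hK]
    calc _ ≤ C0 * (|v P| * (2 * A)) :=
          (hlo P (hTS hP) ⟨0, by omega⟩).trans (by gcongr; exact hup P (hTS hP) _)
      _ = |v P| * (2 * A * C0) := by ring
      _ ≤ _ := by gcongr; norm_num
  · have : (y P : ℂ) ≠ 0 := by exact_mod_cast hy P (hTS hP)
    have e : (C 1 * X + C (t Q : ℂ) : ℂ[X]).eval ((t P - t Q : ℝ) : ℂ) = (t P : ℂ) := by simp
    rw [e]
    simp only [ht, hv]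
    push_cast
    field_simp
  · simp only [hv, eval_add, eval_mul, eval_C, zero_mul, zero_add]
    push_cast
    field_simp

/-- Put `v_P = (x G1 / Z, y G2 / Z) ∈ ℝ²`; `‖v_P‖ ≍ 1` because the normalised linear forms
`β~_j(v) = v_1 σ_j(b1)/G1 + v_2 σ_j(b2)/G2` are bounded and `≍ 1` at `v_P`. Classes: chart
(`|v_1| ≤ |v_2|` or not) and `⌊slope / (w/C'')⌋`. In a nonempty class take a base point `e = v_{P0}`,
`e2 = e^⊥ + s e` with `s ∈ {0, …, d}` such that all `β~_j(e2) ≠ 0`; `v_P = ρ (e + τ e2)`;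
`L_j = β~_j(e2) X + β~_j(e)`, `l1 = e2_1 X + e_1`, `l2 = e2_2 X + e_2`. -/
theorem boxes (c : Ctx d) (hd : 2 ≤ d) (C0 : ℝ) (h0 : 1 ≤ C0) : ∃ C : ℝ, 1 ≤ C ∧
    ∀ (b1 b2 : Fin d → ℤ) (G1 G2 Z w : ℝ), LH b1 b2 G1 G2 → c.Nondeg b1 b2 → 0 < Z → 0 < w →
      w ≤ 1 → ∀ {ι : Type} (S : Finset ι) (x y : ι → ℤ),
      (∀ P ∈ S, |(x P : ℝ)| ≤ C0 * Z / G1 ∧ |(y P : ℝ)| ≤ C0 * Z / G2 ∧
        ∀ j, Z / C0 ≤ ‖c.sg j (x P • b1 + y P • b2)‖) →
      ∃ PP : Finset (Finset ι), (PP.card : ℝ) ≤ C / w ∧ (∀ P ∈ S, ∃ T ∈ PP, P ∈ T) ∧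
        ∀ T ∈ PP, T ⊆ S ∧ ∃ (L : Fin d → ℂ[X]) (l1 l2 : ℂ[X]) (τ ρ : ι → ℝ),
          BoxData c b1 b2 G1 G2 Z w C T x y L l1 l2 τ ρ := by
  classical
  obtain ⟨K, hK, -, -, hv⟩ := norm_equiv c
  have hC : 6 ≤ 6 * (2 * K) * C0 ^ 2 := by nlinarith [one_le_pow₀ (n := 2) h0]
  refine ⟨6 * (2 * K) * C0 ^ 2, by linarith, fun b1 b2 G1 G2 Z w hL hN hZ hw hw1 ι S x y hS => ?_⟩
  have hG1 : 0 < G1 := one_pos.trans_le hL.g1
  have hG2 : 0 < G2 := one_pos.trans_le hL.g2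
  have h1 : ∀ j, ‖c.sg j b1‖ ≤ 2 * K * G1 := fun j =>
    ((hv b1).1 j).trans (by nlinarith [hL.u1])
  have h2 : ∀ j, ‖c.sg j b2‖ ≤ 2 * K * G2 := fun j =>
    ((hv b2).1 j).trans (by nlinarith [hL.u2])
  obtain ⟨P1, a1, a2, a3⟩ := Boxes_chart c hd h0 (by linarith : 1 ≤ 2 * K) hG1 hG2 hL.line.ne h1 h2
    hN hZ hw hw1 (S.filter fun P => |(x P : ℝ)| * G1 ≤ |(y P : ℝ)| * G2) x y fun P hP =>
      ⟨(Finset.mem_filter.1 hP).2, (hS P (Finset.mem_filter.1 hP).1).2⟩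
  obtain ⟨P2, e1, e2, e3⟩ := Boxes_chart c hd h0 (by linarith : 1 ≤ 2 * K) hG2 hG1
    (norm_pos_iff.1 (hG2.trans_le hL.l2)) h2 h1
    (fun i j hij e => hN i j hij (by unfold Ctx.pl at e ⊢; linear_combination -e))
    hZ hw hw1 (S.filter fun P => |(y P : ℝ)| * G2 ≤ |(x P : ℝ)| * G1) y x fun P hP =>
      ⟨(Finset.mem_filter.1 hP).2, (hS P (Finset.mem_filter.1 hP).1).1, fun j => by
        rw [add_comm]; exact (hS P (Finset.mem_filter.1 hP).1).2.2 j⟩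
  refine ⟨P1 ∪ P2, ?_, fun P hP => ?_, fun T hT => ?_⟩
  · calc _ ≤ ((P1.card + P2.card : ℕ) : ℝ) := by exact_mod_cast Finset.card_union_le _ _
      _ ≤ 3 / w + 3 / w := by push_cast; exact add_le_add a1 e1
      _ = 6 / w := by ring
      _ ≤ _ := by gcongr
  · rcases le_total (|(x P : ℝ)| * G1) (|(y P : ℝ)| * G2) with h | h
    · obtain ⟨T, hT, h⟩ := a2 P (Finset.mem_filter.2 ⟨hP, h⟩)
      exact ⟨T, Finset.mem_union_left _ hT, h⟩
    · obtain ⟨T, hT, h⟩ := e2 P (Finset.mem_filter.2 ⟨hP, h⟩)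
      exact ⟨T, Finset.mem_union_right _ hT, h⟩
  · rcases Finset.mem_union.1 hT with hT | hT
    · exact ⟨(a3 T hT).1.trans (Finset.filter_subset _ _), (a3 T hT).2⟩
    · obtain ⟨hTS, L, l1, l2, τ, ρ, h⟩ := e3 T hT
      exact ⟨hTS.trans (Finset.filter_subset _ _), L, l2, l1, τ, ρ, h.lins, h.co, h.co0, h.d2, h.d1,
        h.c2, h.c1, h.tau, h.rho1, h.rho2, h.lo,
        fun P hP j => by rw [add_comm]; exact h.ev P hP j, h.ey, h.ex⟩

end Crest.Agent.R22
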