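import Crest.Agent.R22.LinAlg

set_option autoImplicit false
open Polynomial IntermediateField

namespace Crest.Agent.R22

variable {d : ℕ}

theorem CB_evalEval {g : ℂ[X][X]} {T : ℕ} (h : DegLE g T) (x y : ℂ) :
    g.evalEval x y = ∑ m : Fin (T + 1) × Fin (T + 1),
      (g.coeff m.2).coeff m.1 * (x ^ (m.1 : ℕ) * y ^ (m.2 : ℕ)) := by
  rw [evalEval, eval_eq_sum_range' (Nat.lt_succ_of_le h.1), eval_finsetSum, Finset.sum_range,
    Fintype.sum_prod_type_right]
  refine Finset.sum_congr rfl fun j _ => ?_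
  rw [eval_mul, eval_pow, eval_C, eval_eq_sum_range' (Nat.lt_succ_of_le (h.2 j)),
    Finset.sum_range, Finset.sum_mul]
  exact Finset.sum_congr rfl fun i _ => mul_assoc _ _ _

theorem CB_rank {M : ℕ} (F : Fin M → ℂ[X][X]) (φ : Fin M → ℕ × ℕ)
    (h : (Matrix.of fun a b => ((F a).coeff (φ b).2).coeff (φ b).1).det ≠ 0) (J : ℕ) :
    (Finset.univ.filter fun b => (φ b).2 ≤ J).card ≤ trRank F J := by
  let L : (Fin (J + 1) → ℂ[X]) →ₗ[ℂ] ({b // (φ b).2 ≤ J} → ℂ) :=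
    LinearMap.pi fun b => (lcoeff ℂ (φ b).1).comp (LinearMap.proj ⟨(φ b).2, Nat.lt_succ_of_le b.2⟩)
  set W := Submodule.span ℂ (Set.range fun a => fun j : Fin (J + 1) => (F a).coeff j) with hW
  have : Module.Finite ℂ W := Module.Finite.span_of_finite ℂ (Set.finite_range _)
  have h1 : W.map L = ⊤ := by
    rw [eq_top_iff]
    intro u _
    obtain ⟨v, hv⟩ := Matrix.vecMul_surjective_iff_isUnit.2
      ((Matrix.isUnit_iff_isUnit_det _).2 h.isUnit)
      fun b => if hb : (φ b).2 ≤ J then u ⟨b, hb⟩ else 0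
    refine ⟨∑ a, v a • fun j : Fin (J + 1) => (F a).coeff j,
      sum_mem fun a _ => W.smul_mem _ (Submodule.subset_span ⟨a, rfl⟩), funext fun b => ?_⟩
    have h2 := congrFun hv b
    rw [dif_pos b.2] at h2
    rw [← h2, map_sum]
    simp [L, Matrix.vecMul, dotProduct]
  have h3 := Submodule.finrank_map_le L W
  rwa [h1, finrank_top, Module.finrank_fintype_fun_eq_card, Fintype.card_subtype] at h3

/-- Real determinant of polynomial rows at points of a small box. Expand in the monomials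
`τ^i s^j` (`i, j ≤ T`) and apply `det_le_abstract`: if the minor `det (coef a (φ b))` is nonzero,
the columns `φ b` of level `≤ J` are independent, so their number is at most the (row) rank
`trRank F J`. -/
theorem det_poly_le (M T : ℕ) (C0 : ℝ) (h0 : 1 ≤ C0) : ∃ C : ℝ, 0 < C ∧
    ∀ (F : Fin M → ℂ[X][X]) (K Y r Θ : ℝ) (τ s : Fin M → ℂ), 0 ≤ K → 1 ≤ Y → 0 ≤ r →
      (∀ a, DegLE (F a) T ∧ CoLE (F a) K) →
      (∀ b, ‖τ b‖ ≤ C0 * Y ^ (-r) ∧ ‖s b‖ ≤ C0 * Y⁻¹) →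
      (∀ I : Finset (ℕ × ℕ), I.card = M →
        (∀ J, (I.filter fun m => m.2 ≤ J).card ≤ trRank F J) → Θ ≤ ∑ m ∈ I, (r * m.1 + m.2)) →
      ‖(Matrix.of fun a b => (F a).evalEval (τ b) (s b)).det‖ ≤ C * K ^ M * Y ^ (-Θ) := by
  refine ⟨(((T + 1) * (T + 1) : ℕ) : ℝ) ^ M * M.factorial * (C0 ^ (2 * T)) ^ M, by positivity, ?_⟩
  intro F K Y r Θ τ s hK hY hr hF hτ hI
  have hY0 : 0 < Y := by linarith
  have h1 := det_le_abstract (ι := Fin M) (μ := Fin (T + 1) × Fin (T + 1))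
    (fun a m => ((F a).coeff m.2).coeff m.1) (fun m b => τ b ^ (m.1 : ℕ) * s b ^ (m.2 : ℕ)) K
    ((C0 ^ (2 * T)) ^ M * Y ^ (-Θ)) hK (by positivity) (fun a m => (hF a).2 _ _) fun φ hφ hd => ?_
  · simp only [CB_evalEval (hF _).1]
    refine h1.trans (le_of_eq ?_)
    simp only [Fintype.card_prod, Fintype.card_fin]
    ring
  set ψ : Fin M → ℕ × ℕ := fun b => ((φ b).1, (φ b).2) with hψ
  have hi : Function.Injective ψ := fun a b h => hφ
    (Prod.ext (Fin.ext (congrArg Prod.fst h)) (Fin.ext (congrArg Prod.snd h)))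
  have h2 := hI (Finset.univ.image ψ) (by rw [Finset.card_image_of_injective _ hi]; simp)
    fun J => by
      rw [Finset.filter_image, Finset.card_image_of_injective _ hi]
      exact CB_rank F ψ hd J
  rw [Finset.sum_image hi.injOn] at h2
  calc ∏ b, ‖τ b ^ ((φ b).1 : ℕ) * s b ^ ((φ b).2 : ℕ)‖
      ≤ ∏ b, C0 ^ (2 * T) * Y ^ (-(r * (ψ b).1 + (ψ b).2)) := by
        refine Finset.prod_le_prod (fun _ _ => norm_nonneg _) fun b _ => ?_
        rw [norm_mul, norm_pow, norm_pow]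
        have h3 : C0 ^ (((φ b).1 : ℕ) + ((φ b).2 : ℕ)) ≤ C0 ^ (2 * T) :=
          pow_le_pow_right₀ h0 (by have := (φ b).1.2; have := (φ b).2.2; omega)
        calc ‖τ b‖ ^ ((φ b).1 : ℕ) * ‖s b‖ ^ ((φ b).2 : ℕ)
            ≤ (C0 * Y ^ (-r)) ^ ((φ b).1 : ℕ) * (C0 * Y⁻¹) ^ ((φ b).2 : ℕ) := by
              gcongr
              exacts [(hτ b).1, (hτ b).2]
          _ = C0 ^ (((φ b).1 : ℕ) + ((φ b).2 : ℕ)) * Y ^ (-(r * (ψ b).1 + (ψ b).2)) := by
              rw [neg_add, Real.rpow_add hY0, ← neg_mul, Real.rpow_mul_natCast hY0.le,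
                Real.rpow_neg hY0.le ((ψ b).2 : ℝ), Real.rpow_natCast, ← inv_pow]
              ring
          _ ≤ _ := by gcongr
    _ = (C0 ^ (2 * T)) ^ M * Y ^ (-∑ b, (r * (ψ b).1 + (ψ b).2)) := by
        rw [Finset.prod_mul_distrib, ← Real.rpow_sum_of_pos hY0, Finset.sum_neg_distrib]
        simp
    _ ≤ _ := by gcongr

end Crest.Agent.R22
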