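import Crest.Agent.R22.CDefs

set_option autoImplicit false
open Polynomial

namespace Crest.Agent.R22

variable {F : Type} [Field F] [CharZero F] {d : ℕ}

theorem Roots.natDegree_eq (R : Roots F d) : R.f.natDegree = d := by
  sorry

theorem Roots.inj (R : Roots F d) : Function.Injective R.θ := by
  sorry

theorem Roots.isIntegral (R : Roots F d) (j : Fin d) : IsIntegral ℤ (R.θ j) := by
  sorry

theorem Roots.aeval_ne (R : Roots F d) (h : ℚ[X]) (h0 : h ≠ 0) (hd : h.natDegree < d) (j : Fin d) :
    aeval (R.θ j) h ≠ 0 := by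
  sorry

theorem Roots.cjZ_ne (R : Roots F d) {w : Fin d → ℤ} (hw : w ≠ 0) (j : Fin d) :
    cjZ R.θ w j ≠ 0 := by
  sorry

theorem Roots.isIntegral_cjZ (R : Roots F d) (w : Fin d → ℤ) (j : Fin d) :
    IsIntegral ℤ (cjZ R.θ w j) := by
  sorry

/-- `a - b θ_j ≠ 0` unless `a = b = 0` -/
theorem Roots.lin_ne (R : Roots F d) (hd : 2 ≤ d) (a b : ℤ) (h : a ≠ 0 ∨ b ≠ 0) (j : Fin d) :
    (a : F) - (b : F) * R.θ j ≠ 0 := by
  sorry

theorem Roots.eval_eq (R : Roots F d) (n : ℤ) :
    ((R.f.eval n : ℤ) : F) = ∏ j, ((n : F) - R.θ j) := by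
  sorry

/-- `Λ = V⁻¹` for the Vandermonde matrix; `δ` is a nonzero integer with `δ / det V` integral
(`IsAlgebraic.exists_integral_multiple` or `exists_integral_multiple`). -/
theorem Roots.exists_dual (R : Roots F d) : Nonempty (DualBasis R) := by
  sorry

/-- coordinates are recovered from conjugates -/
theorem DualBasis.sum_cj {R : Roots F d} (Db : DualBasis R) (w : Fin d → F) (i : Fin d) :
    ∑ j, Db.Λ i j * cj R.θ w j = w i := by
  sorry

/-- conjugates are recovered from coordinates -/
theorem DualBasis.cj_sum {R : Roots F d} (Db : DualBasis R) (z : Fin d → F) (j : Fin d) :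
    cj R.θ (fun i => ∑ j', Db.Λ i j' * z j') j = z j := by
  sorry

/-- the norm form; e.g. the resultant of `f` and the generic polynomial `∑ w_i X^i` over
`MvPolynomial (Fin d) ℤ` (`resultant_map_map`, `resultant_prod_left`), or a determinant. -/
theorem Roots.exists_normForm (R : Roots F d) : ∃ NF : MvPolynomial (Fin d) ℤ,
    ∀ (S : Type) [CommRing S] [Algebra F S] (w : Fin d → S),
      MvPolynomial.eval₂ (Int.castRingHom S) w NF = ∏ j, cj (fun j => algebraMap F S (R.θ j)) w j := by
  sorry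

theorem Good.linForms (R : Roots F d) (hd : 2 ≤ d) {v' v'' : Fin d → ℤ} (h : Good R.θ v' v'') :
    LinForms (linP R.θ v' v'') := by
  sorry

end Crest.Agent.R22
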