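import Crest.Agent.R22.CVal
import Crest.Agent.R22.CRoots

set_option autoImplicit false
open Polynomial

namespace Crest.Agent.R22

variable {F : Type} [Field F] [CharZero F] {d : ℕ}

/-- the integer that `q` has to avoid -/
noncomputable def WW {R : Roots F d} (Db : DualBasis R) (k : ℕ) (c0 : ℤ) (P : Pt d) : ℤ :=
  Db.δ * k * c0 * R.f.eval P.n

theorem evB_map (t0 : F) (n : PowerSeries F) (G : ℤ[X][X]) :
    evB t0 n (G.map (mapRingHom (Int.castRingHom F))) = evZ G (tHat t0) n := by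
  sorry

theorem evZ_map {S S' : Type} [CommRing S] [CommRing S'] (φ : S →+* S') (G : ℤ[X][X]) (t n : S) :
    φ (evZ G t n) = evZ G (φ t) (φ n) := by
  sorry

theorem DegLE.map_int {D : ℕ} {G : ℤ[X][X]} (h : DegLE D G) :
    DegLE D (G.map (mapRingHom (Int.castRingHom F))) := by
  sorry

theorem map_int_ne {G : ℤ[X][X]} (h : G ≠ 0) : G.map (mapRingHom (Int.castRingHom F)) ≠ 0 := by
  sorry

/-- the branch `n(τ)` of `G = 0` through the base point `P0` of a class -/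
theorem exists_nhat (O : ValuationSubring F) {q : ℕ} (hq : q.Prime) (h : O.valuation (q : F) < 1)
    {G : ℤ[X][X]} {W : Pt d → ℤ} {Z : Finset (Pt d)} (hc : QClass q G W Z) {P0 : Pt d}
    (hP0 : P0 ∈ Z) :
    ∃ (tO : Pt d → O) (nh : PowerSeries O), (∀ P ∈ Z, (tO P : F) = (P.t : F) ∧
      (q : O) ∣ tO P - tO P0 ∧ Sp (q : O) (tO P - tO P0) nh (P.n : O) ∧
      Sp (q : O) (tO P - tO P0) (PowerSeries.C (tO P0) + PowerSeries.X) (tO P)) ∧
      PowerSeries.constantCoeff nh = (P0.n : O) ∧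
      evZ G (PowerSeries.C (tO P0) + PowerSeries.X) nh = 0 := by
  sorry

/-- all conjugates of `β` and `μ` are units, `k` and `x` are units, `Λ` and `θ` are integral -/
theorem units_of_WW (O : ValuationSubring F) {q : ℕ} (hq : q.Prime) (h : O.valuation (q : F) < 1)
    {R : Roots F d} (Db : DualBasis R) {k : ℕ} (hk : 1 ≤ k) {c0 : ℤ} {C1 X : ℝ} {C0 : ℕ} {P : Pt d}
    (hP : P.Ok R k c0 C1 X C0) (hW : ¬ (q : ℤ) ∣ WW Db k c0 P) :
    (∀ j, O.valuation (cjZ R.θ P.b j) = 1) ∧ (∀ j, O.valuation (cjZ R.θ P.m j) = 1) ∧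
      (∀ j, O.valuation ((P.n : F) - R.θ j) = 1) ∧ O.valuation (k : F) = 1 ∧
      O.valuation (c0 : F) = 1 ∧ (∀ i j, Db.Λ i j ∈ O) := by
  sorry

/-- The branch in scheme B: `μ̂_j = c0 (n̂ - θ_j) / (v'_j + t v''_j)^k`, with value `x^k μ_j`. -/
theorem branchB [Algebra.IsAlgebraic ℚ F] {R : Roots F d} (Db : DualBasis R) {k : ℕ} (hk : 1 ≤ k)
    {c0 : ℤ} {C1 X : ℝ} {C0 : ℕ} {q : ℕ} (hq : q.Prime) {G : ℤ[X][X]} (v' v'' : Fin d → ℤ)
    {Z : Finset (Pt d)} (hne : Z.Nonempty) (hOk : ∀ P ∈ Z, P.Ok R k c0 C1 X C0)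
    (hb : ∀ P ∈ Z, ∀ i, P.b i = P.x * v' i + P.y * v'' i) (hc : QClass q G (WW Db k c0) Z) :
    ∃ (Br : Branch F q Z) (t0 : F) (nh : PowerSeries F) (μ : Fin d → PowerSeries F),
      tHat t0 ∈ Br.I ∧ nh ∈ Br.I ∧ (∀ j, μ j ∈ Br.I) ∧ (∀ i j, PowerSeries.C (Db.Λ i j) ∈ Br.I) ∧
      evZ G (tHat t0) nh = 0 ∧
      (∀ j, μ j * aeval (tHat t0) (linP R.θ v' v'' j) ^ k =
        PowerSeries.C (c0 : F) * (nh - PowerSeries.C (R.θ j))) ∧
      ∀ P ∈ Z, Br.e P (tHat t0) = (P.t : F) ∧ Br.e P nh = (P.n : F) ∧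
        ∀ j, Br.e P (μ j) = (P.x : F) ^ k * cjZ R.θ P.m j := by
  sorry

end Crest.Agent.R22
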