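import Crest.Agent.R22.CBranchB

set_option autoImplicit false
open Polynomial

namespace Crest.Agent.R22

variable {F : Type} [Field F] [CharZero F] {d : ℕ}

/-- The branch in scheme C.  Fix `O` above `q`.  The residues of `β_j / β_{j0}` are `k`-th roots of an
element of the residue field that is the same for all points of `Z`; `cls P j` numbers this root.  On a
subclass with base point `P0`: `μ̂_j = v'_j + t v''_j` (units), `ω̂ = c0 (n̂ - θ_{j0}) / μ̂_{j0}` with value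
`x β_{j0}^k`, and `ρ̂_j` is the Hensel root of `Y^k (n̂ - θ_{j0}) μ̂_j - (n̂ - θ_j) μ̂_{j0}` with constant
coefficient `β_j / β_{j0}` at `P0` (`ρ̂_{j0} = 1`). -/
theorem branchC [Algebra.IsAlgebraic ℚ F] {R : Roots F d} (Db : DualBasis R) {k : ℕ} (hk : 1 ≤ k)
    {c0 : ℤ} {C1 X : ℝ} {C0 : ℕ} {q : ℕ} (hq : q.Prime) {G : ℤ[X][X]} (v' v'' : Fin d → ℤ)
    (j0 : Fin d) {Z : Finset (Pt d)} (hOk : ∀ P ∈ Z, P.Ok R k c0 C1 X C0)
    (hm : ∀ P ∈ Z, ∀ i, P.m i = P.x * v' i + P.y * v'' i) (hc : QClass q G (WW Db k c0) Z) :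
    ∃ cls : Pt d → Fin d → Fin k, ∀ Z' : Finset (Pt d), Z' ⊆ Z → Z'.Nonempty →
      (∀ P ∈ Z', ∀ P' ∈ Z', cls P = cls P') →
      ∃ (Br : Branch F q Z') (t0 : F) (nh ω : PowerSeries F) (ρ : Fin d → PowerSeries F),
        tHat t0 ∈ Br.I ∧ nh ∈ Br.I ∧ ω ∈ Br.I ∧ (∀ j, ρ j ∈ Br.I) ∧
        (∀ i j, PowerSeries.C (Db.Λ i j) ∈ Br.I) ∧ evZ G (tHat t0) nh = 0 ∧ ω ≠ 0 ∧ ρ j0 = 1 ∧
        (∀ j, nh ≠ PowerSeries.C (R.θ j)) ∧
        (∀ j, ω * ρ j ^ k * aeval (tHat t0) (linP R.θ v' v'' j) =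
          PowerSeries.C (c0 : F) * (nh - PowerSeries.C (R.θ j))) ∧
        ∀ P ∈ Z', Br.e P (tHat t0) = (P.t : F) ∧ Br.e P nh = (P.n : F) ∧
          Br.e P ω = (P.x : F) * cjZ R.θ P.b j0 ^ k ∧
          ∀ j, cjZ R.θ P.b j0 * Br.e P (ρ j) = cjZ R.θ P.b j := by
  sorry

end Crest.Agent.R22
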