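import Crest.Agent.R22.CHopf

set_option autoImplicit false
open Polynomial

namespace Crest.Agent.R22

open Module

variable {F : Type} [Field F]

/-- If `W + φ W` has at most one dimension more than `W` then `W` is a geometric progression:
`W ⊓ φ W` has codimension `≤ 1` in `W` and consists of elements of order larger than the least order, so it is
the hyperplane `W'` of `exists_low`.  Induction on `dim W` (apply it to `W'`... or descend from the element of
largest order: `y = φ y1`, `y1 ∈ W`, …). -/
theorem gp_of_step (φ : PowerSeries F) (h0 : φ ≠ 0) (hφ : PowerSeries.constantCoeff φ = 0)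
    (W : Submodule F (PowerSeries F)) [FiniteDimensional F W] (hW : W ≠ ⊥)
    (h : finrank F (Submodule.span F {1, φ} * W : Submodule F (PowerSeries F)) ≤ finrank F W + 1) :
    GPin φ W := by
  sorry

/-- Equality in Hopf's inequality.  Strip elements of least order from `X` (each step loses at least one
dimension of the product) down to a plane `x · span {1, φ}`; `gp_of_step` gives that `Y` is a progression
`y φ^i`, `i ≤ s`, `s ≥ 1`; stripping `Y` down to its top plane `y φ^(s-1) · span {1, φ}` gives the same
for `X`. -/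
theorem gp_of_eq (X Y : Submodule F (PowerSeries F)) [FiniteDimensional F X] [FiniteDimensional F Y]
    (hX : 2 ≤ finrank F X) (hY : 2 ≤ finrank F Y)
    (h : finrank F (X * Y : Submodule F (PowerSeries F)) + 1 ≤ finrank F X + finrank F Y) :
    ∃ φ : PowerSeries F, φ ≠ 0 ∧ PowerSeries.constantCoeff φ = 0 ∧ GPin φ X ∧ GPin φ Y := by
  sorry

/-- Parametrisation of the points of a branch by a geometric progression.  `T w` is the polynomial with
`w = y · (T w)(φ)`.  For a point with `e y ≠ 0` put `φ_P = e (y φ) / e y`; use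
`y φ^(i+1) · y = y φ^i · y φ` and multiplicativity of `e` on `B`. -/
theorem gp_param {q : ℕ} {ι : Type} {Z : Finset ι} (Br : Branch F q Z)
    (W : Submodule F (PowerSeries F)) (hB : ∀ w ∈ W, w ∈ Br.B) (hW : IsGP W)
    (h2 : 2 ≤ finrank F W) :
    ∃ (y : PowerSeries F) (s : ℕ) (T : PowerSeries F →ₗ[F] F[X]) (φ : ι → F),
      y ∈ W ∧ y ≠ 0 ∧ s + 1 = finrank F W ∧
      (∀ w ∈ W, (T w).natDegree ≤ s ∧ (w ≠ 0 → T w ≠ 0)) ∧
      (∀ Q : F[X], Q.natDegree ≤ s → ∃ w ∈ W, T w = Q) ∧
      ∀ P ∈ Z, Br.e P y ≠ 0 → ∀ w ∈ W, Br.e P w = Br.e P y * (T w).eval (φ P) := by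
  sorry

end Crest.Agent.R22
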