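import Crest.Agent.R22.CModelUp

set_option autoImplicit false
open Polynomial

namespace Crest.Agent.R22

open Module

variable {F : Type} [Field F] {d : ℕ}

/-- Saturation.  `c_j` = the largest `c` with `β_j^c ∣ g(θ_j + β_j^k ν)` (`dvd_comp_iff`); it is additive in
products because `C β_j` is prime in `F[X][X]`, and `c_j ≤ k e1` because `C β_j ∤ g`.
`g~ = g ∏ β_j^(k e1 - c_j)`, `N` = its degree in `t` (degree in `t` is additive:
`Polynomial.Bivariate.swap`).  Multiplication by `g~` maps `Model (D - e1) (m - N)` onto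
`Model D m ⊓ (g)`. -/
theorem Model.saturation (θ : Fin d → F) {β : Fin d → F[X]} (hβ : LinForms β) (k D0 : ℕ)
    (g : F[X][X]) (hg : Irreducible g) (h1 : 1 ≤ g.natDegree) (hD : DegLE D0 g) :
    ∃ N : ℕ, N ≤ D0 + d * k * D0 ∧ ∀ D m : ℕ, g.natDegree ≤ D →
      finrank F (Model θ β k D m ⊓ (Ideal.span {g}).restrictScalars F : Submodule F F[X][X]) =
        finrank F (Model θ β k (D - g.natDegree) (m - N)) := by
  sorry

/-- divisors of a polynomial of bounded bidegree have bounded bidegree -/
theorem DegLE.of_dvd {D : ℕ} {g G : F[X][X]} (hG : DegLE D G) (h0 : G ≠ 0) (h : g ∣ G) :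
    DegLE D g := by
  sorry

/-- The ideal of a branch is principal: some irreducible factor `g` of `G` vanishes on the branch, it has
positive degree in `n`, and a polynomial not divisible by `g` generates with `g` an ideal containing a nonzero
polynomial in `t` (Gauss lemma / `IsPrimitive`, `IsFractionRing`). -/
theorem exists_branch_ideal (t0 : F) (nh : PowerSeries F) (G : F[X][X]) (h0 : G ≠ 0)
    (h : evB t0 nh G = 0) :
    ∃ g : F[X][X], Irreducible g ∧ g ∣ G ∧ 1 ≤ g.natDegree ∧ ∀ H : F[X][X], evB t0 nh H = 0 ↔ g ∣ H := by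
  sorry

end Crest.Agent.R22
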