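import Crest.Agent.R22.CModelLow
import Crest.Agent.R22.CModelSat
import Crest.Agent.R22.CGP

set_option autoImplicit false
open Polynomial

namespace Crest.Agent.R22

open Module

/-- Dimensions on a branch in scheme B.  `evB` maps `Mono D E` onto `(∏ β_j^k)^D · U^D Pl^E` (up to the
scalar `c0^D`) with kernel `Model ⊓ (g)`.  For `D ≥ D0 ≥ e1`, `E ≥ E0 := k + 1 + D0 + d k D0` both dimensions
are exact (`Mono.eq_model`, `Model.saturation`), which gives, in `ℤ`,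
`dim = D e2 + e1 E + 1 - p`, `e2 = N - k e1`, `2 p = (e1 - 1)(2 N - e1 k d - 2)`.
Hopf's inequality for `W = U^D0 Pl^E0`, `W * W = U^(2 D0) Pl^(2 E0)` gives `p ≥ 0`; `p = 0` is the equality case. -/
theorem dimB (d k D0 : ℕ) (hk : k + 2 = d) (hk1 : 1 ≤ k) (hD0 : 1 ≤ D0) :
    ∃ E0 C : ℕ, k + 1 ≤ E0 ∧ ∀ (F : Type) [Field F] (θ : Fin d → F) (β : Fin d → F[X]) (c0 t0 : F)
      (nh : PowerSeries F) (μ : Fin d → PowerSeries F) (G : F[X][X]),
      Function.Injective θ → LinForms β → c0 ≠ 0 → G ≠ 0 → DegLE D0 G → evB t0 nh G = 0 →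
      (∀ j, μ j * aeval (tHat t0) (β j) ^ k = PowerSeries.C c0 * (nh - PowerSeries.C (θ j))) →
      IsGP (Submodule.span F (Set.range μ) ^ D0 * Pl t0 ^ E0) ∨
      ∃ e1 e2 p : ℕ, k ^ 2 + 2 ≤ e2 ∧ k * d + 2 ≤ e2 + k * e1 ∧ p ≤ C ∧ ∀ D E : ℕ, D0 ≤ D → E0 ≤ E →
        finrank F (Submodule.span F (Set.range μ) ^ D * Pl t0 ^ E : Submodule F (PowerSeries F)) + p =
          D * e2 + e1 * E + 1 := by
  sorry

end Crest.Agent.R22
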