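import Crest.Agent.R22.CDefs

set_option autoImplicit false
open Polynomial

namespace Crest.Agent.R22

/-- The numerical inequality of the chain method.  With `M1 = e α + N γ`, `d0 = α L e - C` (truncated),
`M = d0 + N γ L ∈ [M1 L - C, M1 L]`.  The exponents of `A` and `S` on the left exceed those on the right by
`O(L)`, the factor `X^(η M (M-1)/2)` wins for large `L`, and `K ≥ M!`, `M ≥ 3`. -/
theorem chain_num (α γ e N C C' : ℕ) (hγ : 0 < γ) (hN : 0 < N) (η : ℝ) (hη : 0 < η) :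
    ∃ (L : ℕ) (K : ℝ), 1 ≤ L ∧ 1 ≤ K ∧ ∀ X A S T q : ℝ, 2 ≤ X → 1 ≤ A → 1 ≤ S → 1 ≤ T →
      A ≤ X ^ C' → S ≤ X ^ C' → T ≤ X ^ C' →
      K * X ^ η * A ^ ((2 * α : ℝ) / (e * α + N * γ)) * S ^ ((N * γ ^ 2 : ℝ) / (e * α + N * γ) ^ 2) ≤ q →
      (((α * L * e - C) + N * (γ * L)).factorial : ℝ) * (A ^ (α * L) * T) ^ (α * L * e - C) *
        ∏ j ∈ Finset.range (γ * L), (A ^ (α * L) * T * S ^ (j + 1)) ^ N <
      q ^ (((α * L * e - C) + N * (γ * L)).choose 2) := by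
  sorry

/-- divisor type bound -/
theorem prod_fact_le (a : ℕ) (ε : ℝ) (hε : 0 < ε) : ∃ C : ℝ, 0 < C ∧ ∀ n : ℕ, n ≠ 0 →
    ∏ q ∈ n.primeFactors, (2 * (1 + (n.factorization q : ℝ)) ^ a) ≤ C * (n : ℝ) ^ ε := by
  sorry

end Crest.Agent.R22
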