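import Crest.Agent.R22.CHopf

set_option autoImplicit false
open Polynomial

namespace Crest.Agent.R22

open Module

variable {F : Type} [Field F]

/-- clearing denominators: `δ^L S^L ≤ B1 T^(c L)` -/
theorem linGrowth_den (T S B1 : Submodule F (PowerSeries F)) [FiniteDimensional F B1]
    (δ : PowerSeries F) (hδ : δ ≠ 0) (c C : ℕ) (hT : LinGrowth T C) (h1 : (1 : PowerSeries F) ∈ B1)
    (h : Submodule.span F {δ} * S * B1 ≤ B1 * T ^ c) :
    LinGrowth S (finrank F B1 * C * (c + 1)) := by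
  sorry

theorem linGrowth_Pl (t0 : F) : LinGrowth (Pl t0) 1 := by
  sorry

/-- On the curve `G = 0`: `δ` = leading coefficient of `G`, `B1 = span {n^i, i < deg G}`
(`deg G ≥ 1` because `t` is transcendental). -/
theorem linGrowth_T (D : ℕ) : ∃ C : ℕ, ∀ (F : Type) [Field F] (t0 : F) (nh : PowerSeries F)
    (G : F[X][X]), G ≠ 0 → DegLE D G → evB t0 nh G = 0 →
    LinGrowth (Submodule.span F {1, tHat t0, nh}) C := by
  sorry

/-- The `(I+1)(C+1)` products `t^i f^l`, `i ≤ I = C^2 m`, `l ≤ C`, lie in `S^(I + C m)` and are dependent: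
`∑ c_l(t) f^l = 0`; cancel the lowest power of `f` and evaluate. -/
theorem zero_lemma (C m : ℕ) : ∃ I : ℕ, ∀ (F : Type) [Field F] (q : ℕ) (ι : Type) (Z : Finset ι)
    (Br : Branch F q Z) (S : Submodule F (PowerSeries F)) (t0 : F),
    (∀ w ∈ S, w ∈ Br.B) → (1 : PowerSeries F) ∈ S → tHat t0 ∈ S → LinGrowth S C →
    ∀ f ∈ (S ^ m : Submodule F (PowerSeries F)), f ≠ 0 →
    ∃ c : F[X], c ≠ 0 ∧ c.natDegree ≤ I ∧
      ∀ P ∈ Z, Br.e P f = 0 → c.eval (Br.e P (tHat t0)) = 0 := by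
  sorry

/-- scheme B: `δ = ∏ β_j^k`, `B1 = 1` -/
theorem linGrowth_B (d k D : ℕ) : ∃ C : ℕ, ∀ (F : Type) [Field F] (θ : Fin d → F)
    (β : Fin d → F[X]) (c0 t0 : F) (nh : PowerSeries F) (μ : Fin d → PowerSeries F) (G : F[X][X]),
    LinForms β → G ≠ 0 → DegLE D G → evB t0 nh G = 0 →
    (∀ j, μ j * aeval (tHat t0) (β j) ^ k = PowerSeries.C c0 * (nh - PowerSeries.C (θ j))) →
    LinGrowth (Pl t0 ⊔ Submodule.span F (Set.range μ)) C := by
  sorry

/-- scheme C: `δ = (n - θ_{j0}) ∏ μ_j`, `B1 = span {∏ ρ_j^(ε j), ε j < k}` -/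
theorem linGrowth_C (d k D : ℕ) (hk : 1 ≤ k) : ∃ C : ℕ, ∀ (F : Type) [Field F] (θ : Fin d → F)
    (β : Fin d → F[X]) (c0 t0 : F) (nh ω : PowerSeries F) (ρ : Fin d → PowerSeries F)
    (G : F[X][X]) (j0 : Fin d), LinForms β → G ≠ 0 → DegLE D G → evB t0 nh G = 0 → c0 ≠ 0 →
    ρ j0 = 1 → nh ≠ PowerSeries.C (θ j0) →
    (∀ j, ω * ρ j ^ k * aeval (tHat t0) (β j) = PowerSeries.C c0 * (nh - PowerSeries.C (θ j))) →
    LinGrowth (Pl t0 ⊔ Submodule.span F {ω} ⊔ Submodule.span F (Set.range ρ)) C := by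
  sorry

end Crest.Agent.R22
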