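import Crest.Agent.R22.CExit
import Crest.Agent.R22.CBranchB
import Crest.Agent.R22.CDimB
import Crest.Agent.R22.CZero
import Crest.Agent.R22.CNum

set_option autoImplicit false
open Polynomial

namespace Crest.Agent.R22

variable {F : Type} [Field F] [CharZero F] [IsAlgClosed F] [Algebra.IsAlgebraic ℚ F] {d : ℕ}

/-- One `q`-adic class in scheme B. -/
theorem classB (R : Roots F d) (Db : DualBasis R) (k : ℕ) (hk : k + 2 = d) (hd : 4 ≤ d) (c0 : ℤ)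
    (hc0 : c0 ≠ 0) (D0 C0 α γ : ℕ) (hγ : 0 < γ) (η : ℝ) (hη : 0 < η) :
    ∃ C1 K : ℝ, 1 ≤ C1 ∧ 1 ≤ K ∧ ∀ (X A Y Φ : ℝ) (v' v'' : Fin d → ℤ) (q : ℕ) (G : ℤ[X][X])
    (Z : Finset (Pt d)), 2 ≤ X → 1 ≤ A → 1 ≤ Y → A ≤ X ^ C0 → Y ≤ X ^ C0 → 1 ≤ Φ →
    Good R.θ v' v'' → q.Prime → G ≠ 0 → DegLE D0 G →
    K * X ^ η * A ^ ((2 * α : ℝ) / ((k ^ 2 + 2 : ℕ) * α + (k * d + 2 : ℕ) * γ)) *
      (A * Y ^ k) ^ (((k * d + 2 : ℕ) * γ ^ 2 : ℝ) / ((k ^ 2 + 2 : ℕ) * α + (k * d + 2 : ℕ) * γ) ^ 2) ≤ q →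
    (∀ P ∈ Z, P.Ok R k c0 C1 X C0 ∧ (∀ i, P.b i = P.x * v' i + P.y * v'' i) ∧
      (∀ i, |(P.m i : ℝ)| ≤ A) ∧ |(P.x : ℝ)| ≤ Y ∧ |(P.y : ℝ)| ≤ Y) →
    QClass q G (WW Db k c0) Z → Fib Z Φ → (nN Z : ℝ) ≤ K * Φ * X ^ η := by
  sorry

end Crest.Agent.R22
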