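import Crest.Agent.R22.CDimC4
import Crest.Agent.R22.CGP

set_option autoImplicit false
open Polynomial

namespace Crest.Agent.R22

open Module

variable {F : Type} [Field F] [CharZero F] {d : ℕ}

/-- Dimensions on a branch in scheme C.  `Y_j = U^j Pl`; every step gains `dim U` unless `U` and `Y_j` are
progressions with the same ratio (`hopf`, `gp_of_eq`, `GPin.mul`, `GPin.pow`). -/
theorem dimC (k : ℕ) (hk : k + 2 = d) (hd : 4 ≤ d) (θ : Fin d → F) (hθ : Function.Injective θ)
    (β : Fin d → F[X]) (hβ : LinForms β) (c0 t0 : F) (nh ω : PowerSeries F)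
    (ρ : Fin d → PowerSeries F) (hω : ω ≠ 0)
    (hrel : ∀ j, ω * ρ j ^ k * aeval (tHat t0) (β j) =
      PowerSeries.C c0 * (nh - PowerSeries.C (θ j)))
    (h3 : 3 ≤ finrank F (Submodule.span F (Set.range ρ)))
    (hκ : d = 4 → ∀ κ : Fin d → F, κ ≠ 0 → ∑ j, κ j • ρ j = 0 → ∀ j, κ j ≠ 0)
    (R1 : Submodule F (PowerSeries F))
    (hR : R1 = Submodule.span F {ω} * Submodule.span F (Set.range ρ) ^ k * Pl t0) :
    IsGP R1 ∨ ∀ J : ℕ, finrank F (R1 ^ (J + 1) : Submodule F (PowerSeries F)) + NC d ≤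
      finrank F (R1 ^ (J + 2) : Submodule F (PowerSeries F)) := by
  sorry

end Crest.Agent.R22
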