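import Crest.Agent.R22.CRatCount

set_option autoImplicit false
open Polynomial

namespace Crest.Agent.R22

variable {F : Type} [Field F] [CharZero F] [IsAlgClosed F] {d : ℕ}

/-- A line of `β`'s cannot have `β^k μ'` and `β^k μ''` in `span (1, θ)` identically.  With `a0, …` the values at
`T = 0`, `(a + b θ_j)(c0 + e0 θ_j) = (a0 + b0 θ_j)(c + e θ_j)` for `d ≥ 3` values `θ_j`, and
`a0 e0 ≠ b0 c0` (the ratios `μ'_j : μ''_j` are distinct), so `(a,b,c,e) = s (a0,b0,c0,e0)`, hence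
`(B0_j + T B1_j)^k = s B0_j^k`; compare the coefficients of `T`. -/
theorem line_nondeg (hd : 3 ≤ d) (θ : Fin d → F) (hθ : Function.Injective θ) (k : ℕ) (hk : 1 ≤ k)
    (B0 B1 m' m'' : Fin d → F) (h0 : ∀ j, B0 j ≠ 0) (hm : ∀ i j, i ≠ j → m' i * m'' j ≠ m' j * m'' i)
    (a b c e : F[X]) (h1 : ∀ j, (C (B0 j) + X * C (B1 j)) ^ k * C (m' j) = a + b * C (θ j))
    (h2 : ∀ j, (C (B0 j) + X * C (B1 j)) ^ k * C (m'' j) = c + e * C (θ j)) :
    ∃ s : F, ∀ j, B1 j = s * B0 j := by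
  sorry

/-- Scheme C when the vectors `β` of the points span at most a plane over `ℚ`.  If they are all proportional there is
one prime.  Otherwise `β = x' B0 + y' B1` with `B0, B1` two of them, `ψ = y'/x'` (Cramer: a quotient of two minors),
`x' = 0` gives one prime.  With `𝔟_j = cj B0 j + T cj B1 j`, `A'_i = ∑ Λ i j 𝔟_j^k cj v' j`, `A''_i` likewise, some
`i ≥ 2` has `(A'_i, A''_i) ≠ 0` (`line_nondeg`, `DualBasis.cj_sum`); common roots of this pair give at most `k`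
primes; otherwise `A = A'_0 A''_i - A''_0 A'_i`, `B = -(A'_1 A''_i - A''_1 A'_i)` satisfy `A(ψ) = n B(ψ)`,
`B(ψ) ≠ 0`, and `ratCount` applies. -/
theorem lineC (R : Roots F d) (hd : 4 ≤ d) (k : ℕ) (hk : 1 ≤ k) (c0 : ℤ) (hc0 : c0 ≠ 0) (C0 : ℕ)
    (ε : ℝ) (hε : 0 < ε) : ∃ C : ℝ, 0 < C ∧ ∀ X C1 : ℝ, 2 ≤ X → 12 * k + 1 ≤ C1 →
    ∀ (v' v'' : Fin d → ℤ) (Z : Finset (Pt d)), Good R.θ v' v'' →
    (∀ P ∈ Z, P.Ok R k c0 C1 X C0 ∧ ∀ i, P.m i = P.x * v' i + P.y * v'' i) →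
    (∀ P : Fin 3 → Pt d, (∀ a, P a ∈ Z) →
      ¬ LinearIndependent ℚ (fun a => fun i => ((P a).b i : ℚ))) →
    (nN Z : ℝ) ≤ C * X ^ ε := by
  sorry

end Crest.Agent.R22
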