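import Crest.Agent.R22.CRoots

set_option autoImplicit false
open Polynomial

namespace Crest.Agent.R22

variable {F : Type} [Field F] [CharZero F] {d : ℕ}

/-- A rational hyperplane contains no coordinate vertex: `κ_j f'(θ_j) = c h(θ_j)` with
`h(Θ) = ∑ ℓ_i coeff_i (f(T)/(T-Θ)) ∈ ℚ[Θ]` nonzero of degree `< d`. -/
theorem Roots.kappa_ne (R : Roots F d) (l : Fin d → ℚ) (hl : l ≠ 0) (κ : Fin d → F) (c : F)
    (hc : c ≠ 0) (h : ∀ i : Fin d, ∑ j, κ j * R.θ j ^ (i : ℕ) = c * (l i : F)) (j : Fin d) :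
    κ j ≠ 0 := by
  sorry

/-- If every linear relation among the `ρ j` holds for the conjugates of three independent integer
vectors then the `ρ j` span at least three dimensions, and for `d = 4` relations have full support. -/
theorem dimU (R : Roots F d) {V : Type} [AddCommGroup V] [Module F V] (ρ : Fin d → V)
    (b : Fin 3 → Fin d → ℤ) (hb : LinearIndependent ℚ (fun a => fun i => (b a i : ℚ)))
    (h : ∀ κ : Fin d → F, ∑ j, κ j • ρ j = 0 → ∀ a, ∑ j, κ j * cjZ R.θ (b a) j = 0) :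
    3 ≤ Module.finrank F (Submodule.span F (Set.range ρ)) ∧
    (d = 4 → ∀ κ : Fin d → F, κ ≠ 0 → ∑ j, κ j • ρ j = 0 → ∀ j, κ j ≠ 0) := by
  sorry

/-- proportional `β` have the same prime -/
theorem Pt.p_eq (R : Roots F d) (hd : 2 ≤ d) {k : ℕ} {c0 : ℤ} {C1 X : ℝ} {C0 : ℕ} (hC1 : 1 ≤ C1)
    {P P' : Pt d} (hP : P.Ok R k c0 C1 X C0) (hP' : P'.Ok R k c0 C1 X C0)
    (h : ∀ i j, P.b i * P'.b j = P.b j * P'.b i) : P.p = P'.p := by
  sorry

/-- a prime `p > X` belongs to at most `d` values of `n` -/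
theorem nN_le_of_p (R : Roots F d) {k : ℕ} {c0 : ℤ} {C1 X : ℝ} {C0 : ℕ} (hC1 : 1 ≤ C1)
    (Z : Finset (Pt d)) (hZ : ∀ P ∈ Z, P.Ok R k c0 C1 X C0) (S : Finset ℕ)
    (h : ∀ P ∈ Z, P.p ∈ S) : nN Z ≤ d * S.card := by
  sorry

theorem Pt.Ok.b_ne (R : Roots F d) (hd : 1 ≤ d) {k : ℕ} {c0 : ℤ} {C1 X : ℝ} {C0 : ℕ} {P : Pt d}
    (hP : P.Ok R k c0 C1 X C0) : P.b ≠ 0 := by
  sorry

theorem nN_mono {Z Z' : Finset (Pt d)} (h : Z ⊆ Z') : nN Z ≤ nN Z' := by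
  sorry

open Classical in
theorem nN_union_le (Z Z' : Finset (Pt d)) : nN (Z ∪ Z') ≤ nN Z + nN Z' := by
  sorry

/-- splitting according to a predicate -/
theorem nN_le_split (Z : Finset (Pt d)) (p : Pt d → Prop) [DecidablePred p] :
    nN Z ≤ nN (Z.filter p) + nN (Z.filter (fun P => ¬ p P)) := by
  sorry

/-- splitting into classes -/
theorem nN_le_classes {α : Type} [DecidableEq α] (Z : Finset (Pt d)) (cls : Pt d → α) (S : Finset α)
    (hS : ∀ P ∈ Z, cls P ∈ S) (K : ℝ)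
    (h : ∀ a ∈ S, (nN (Z.filter (fun P => cls P = a)) : ℝ) ≤ K) : (nN Z : ℝ) ≤ S.card * K := by
  sorry

theorem Fib.mono {Z Z' : Finset (Pt d)} {Φ : ℝ} (h : Fib Z' Φ) (hZ : Z ⊆ Z') : Fib Z Φ := by
  sorry

/-- slopes that are roots of a nonzero polynomial -/
theorem Fib.nN_le {K : Type} [Field K] [CharZero K] {Z : Finset (Pt d)} {Φ : ℝ} (h : Fib Z Φ)
    (c : K[X]) (hc : c ≠ 0) (I : ℕ) (hI : c.natDegree ≤ I)
    (hZ : ∀ P ∈ Z, c.eval (P.t : K) = 0) : (nN Z : ℝ) ≤ I * Φ := by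
  sorry

theorem Pt.htQ_t {P : Pt d} {H : ℝ} (hx : P.x ≠ 0) (h1 : |(P.x : ℝ)| ≤ H) (h2 : |(P.y : ℝ)| ≤ H) :
    HtQ H P.t := by
  sorry

end Crest.Agent.R22
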