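import Crest.Agent.R22.CSmall
import Crest.Agent.R22.CPts

set_option autoImplicit false
open Polynomial

namespace Crest.Agent.R22

variable {d : ℕ}

/-- number of classes modulo `q`: at most `D` smooth roots `n` over each residue `t` -/
theorem reduce_classes (D q : ℕ) (hq : q.Prime) (G : ℤ[X][X]) (hG : DegLE D G) (W : Pt d → ℤ)
    (Z : Finset (Pt d)) (K : ℝ)
    (hZ : ∀ P ∈ Z, evZ G P.t (P.n : ℚ) = 0 ∧ QUnit q (evZ (derivative G) P.t (P.n : ℚ)) ∧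
      ¬ (q : ℤ) ∣ P.x ∧ ¬ (q : ℤ) ∣ W P)
    (h : ∀ Z' ⊆ Z, QClass q G W Z' → (nN Z' : ℝ) ≤ K) : (nN Z : ℝ) ≤ q * D * K := by
  sorry

/-- `L` primes in `[Q, 2^(L+1) Q]` (Bertrand); a nonzero integer smaller than `Q^L` is not divisible by all of them -/
theorem exists_primes (L : ℕ) (Q : ℝ) (hQ : 1 ≤ Q) : ∃ S : Finset ℕ, S.card = L ∧
    (∀ q ∈ S, q.Prime ∧ Q ≤ q ∧ (q : ℝ) ≤ 2 ^ (L + 1) * Q) ∧
    ∀ z : ℤ, z ≠ 0 → |(z : ℝ)| < Q ^ L → ∃ q ∈ S, ¬ (q : ℤ) ∣ z := by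
  sorry

/-- Reduction to `q`-adic classes.  Make `G` integral and small (`exists_small_biv`).  Induction on `deg_n G`
(for small integral `G`; the derivative multiplies the height by at most `D0`): points with
`∂G/∂n = 0` are points of the derivative; if the derivative is zero `G` is a nonzero polynomial in `t`
(`Fib.nN_le`).  For the other points `x · W · x^D0 ∂G(t,n)` is a nonzero integer of size `X^O(1)`. -/
theorem reduce (d D0 C0 : ℕ) (η : ℝ) (hη : 0 < η) : ∃ C : ℝ, 0 < C ∧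
    ∀ (K0 : Type) [Field K0] [CharZero K0] (X Q K Φ : ℝ) (G : K0[X][X]) (W : Pt d → ℤ)
    (Z : Finset (Pt d)), 2 ≤ X → X ^ η ≤ Q → 0 ≤ K → G ≠ 0 → DegLE D0 G →
    (∀ P ∈ Z, P.x ≠ 0 ∧ |(P.x : ℝ)| ≤ X ^ C0 ∧ |(P.y : ℝ)| ≤ X ^ C0 ∧ |(P.n : ℝ)| ≤ X ^ C0 ∧
      W P ≠ 0 ∧ |(W P : ℝ)| ≤ X ^ C0 ∧ G.evalEval (P.t : K0) (P.n : K0) = 0) →
    Fib Z Φ →
    (∀ (q : ℕ) (G' : ℤ[X][X]) (Z' : Finset (Pt d)), q.Prime → Q ≤ q → G' ≠ 0 → DegLE D0 G' →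
      Z' ⊆ Z → QClass q G' W Z' → (nN Z' : ℝ) ≤ K) →
    (nN Z : ℝ) ≤ C * (K * Q + Φ) := by
  sorry

end Crest.Agent.R22
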