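import Mathlib

/-! Row 22, curve half: definitions.  `F` is always an algebraically closed field of characteristic
zero that is algebraic over `ℚ` (when that matters); `F⟦X⟧` is the ring in which formal branches live. -/

set_option autoImplicit false
open Polynomial

namespace Crest.Agent.R22

/-- `j`-th conjugate of the coordinate vector `w` with respect to the power basis. -/
def cj {S : Type*} [CommRing S] {d : ℕ} (θ w : Fin d → S) (j : Fin d) : S :=
  ∑ i, w i * θ j ^ (i : ℕ)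

/-- conjugate of an integer vector -/
def cjZ {S : Type*} [CommRing S] {d : ℕ} (θ : Fin d → S) (w : Fin d → ℤ) (j : Fin d) : S :=
  cj θ (fun i => (w i : S)) j

/-- a monic irreducible integer polynomial with its roots in `F` -/
structure Roots (F : Type) [Field F] (d : ℕ) where
  f : ℤ[X]
  θ : Fin d → F
  monic : f.Monic
  irr : Irreducible (f.map (Int.castRingHom ℚ))
  fac : f.map (Int.castRingHom F) = ∏ j, (X - C (θ j))

/-- the inverse Vandermonde matrix `Λ` and a common denominator `δ` -/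
structure DualBasis {F : Type} [Field F] {d : ℕ} (R : Roots F d) where
  Λ : Fin d → Fin d → F
  δ : ℤ
  δ_ne : δ ≠ 0
  integral : ∀ i j, IsIntegral ℤ ((δ : F) * Λ i j)
  left : ∀ i l : Fin d, ∑ j, Λ i j * R.θ j ^ (l : ℕ) = if i = l then 1 else 0
  right : ∀ j j' : Fin d, ∑ i : Fin d, R.θ j ^ (i : ℕ) * Λ i j' = if j = j' then 1 else 0

/-- a solution `c0 (n - θ) = μ β^k`; `b`, `m` are the coordinates of `β`, `μ`; `(x, y)` are the
coordinates of `β` (scheme B) or `μ` (scheme C) on a rank two lattice. -/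
structure Pt (d : ℕ) where
  n : ℤ
  p : ℕ
  x : ℤ
  y : ℤ
  b : Fin d → ℤ
  m : Fin d → ℤ

/-- the slope `t = y / x` -/
def Pt.t {d : ℕ} (P : Pt d) : ℚ := (P.y : ℚ) / (P.x : ℚ)

/-- admissible points -/
structure Pt.Ok {F : Type} [Field F] {d : ℕ} (R : Roots F d) (k : ℕ) (c0 : ℤ) (C1 X : ℝ) (C0 : ℕ)
    (P : Pt d) : Prop where
  n_pos : 1 ≤ P.n
  n_le : (P.n : ℝ) ≤ X
  prime : P.p.Prime
  p_gt : C1 * X < P.p
  rel : ∀ j, cjZ R.θ P.m j * cjZ R.θ P.b j ^ k = (c0 : F) * ((P.n : F) - R.θ j)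
  nm : ∃ a : ℤ, a ≠ 0 ∧ |(a : ℝ)| ≤ X ∧ ∏ j, cjZ R.θ P.b j = ((a * P.p : ℤ) : F)
  psq : ((P.p : ℤ)) ^ 2 ∣ R.f.eval P.n
  x_ne : P.x ≠ 0
  x_le : |(P.x : ℝ)| ≤ X ^ C0
  y_le : |(P.y : ℝ)| ≤ X ^ C0
  b_le : ∀ i, |(P.b i : ℝ)| ≤ X ^ C0
  m_le : ∀ i, |(P.m i : ℝ)| ≤ X ^ C0

/-- the linear forms `x v'_j + y v''_j` are pairwise non proportional -/
def Good {F : Type} [Field F] {d : ℕ} (θ : Fin d → F) (v' v'' : Fin d → ℤ) : Prop :=
  ∀ i j, i ≠ j → cjZ θ v' i * cjZ θ v'' j ≠ cjZ θ v' j * cjZ θ v'' i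

/-- bivariate polynomials: inner variable `t`, outer variable `n`; both degrees at most `D` -/
def DegLE {S : Type*} [CommRing S] (D : ℕ) (G : S[X][X]) : Prop :=
  G.natDegree ≤ D ∧ ∀ i, (G.coeff i).natDegree ≤ D

/-- value of an integer bivariate polynomial at `(t, n)` in a ring `S` -/
noncomputable def evZ {S : Type*} [CommRing S] (G : ℤ[X][X]) (t n : S) : S :=
  (G.map (mapRingHom (Int.castRingHom S))).evalEval t n

/-- number of distinct values of `n` -/
noncomputable def nN {d : ℕ} (Z : Finset (Pt d)) : ℕ := (Z.image Pt.n).card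

/-- at most `Φ` values of `n` over each slope -/
def Fib {d : ℕ} (Z : Finset (Pt d)) (Φ : ℝ) : Prop :=
  ∀ t : ℚ, (nN (Z.filter (fun P => P.t = t)) : ℝ) ≤ Φ

/-- `r` is a `q`-adic unit -/
def QUnit (q : ℕ) (r : ℚ) : Prop := ¬ (q : ℤ) ∣ r.num ∧ ¬ q ∣ r.den

/-- all points of `Z` are smooth points of `G = 0` modulo `q`, avoid the integer `W P`, and are
congruent to each other modulo `q` -/
structure QClass {d : ℕ} (q : ℕ) (G : ℤ[X][X]) (W : Pt d → ℤ) (Z : Finset (Pt d)) : Prop where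
  on : ∀ P ∈ Z, evZ G P.t (P.n : ℚ) = 0
  smooth : ∀ P ∈ Z, QUnit q (evZ (derivative G) P.t (P.n : ℚ))
  x_unit : ∀ P ∈ Z, ¬ (q : ℤ) ∣ P.x
  W_unit : ∀ P ∈ Z, ¬ (q : ℤ) ∣ W P
  t_cong : ∀ P ∈ Z, ∀ P' ∈ Z, (q : ℤ) ∣ P.y * P'.x - P'.y * P.x
  n_cong : ∀ P ∈ Z, ∀ P' ∈ Z, (q : ℤ) ∣ P.n - P'.n

/-- height of a rational number at most `H` -/
def HtQ (H : ℝ) (r : ℚ) : Prop := |(r.num : ℝ)| ≤ H ∧ (r.den : ℝ) ≤ H

/-- degree at most `s` and coefficients at most `H` -/
def SmallP (s : ℕ) (H : ℝ) (P : ℤ[X]) : Prop := P.natDegree ≤ s ∧ ∀ i, |(P.coeff i : ℝ)| ≤ H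

section PS
variable {F : Type} [Field F]

/-- the parameter `t = t0 + τ` of a branch -/
noncomputable def tHat (t0 : F) : PowerSeries F := PowerSeries.C t0 + PowerSeries.X

/-- `span {1, t}` -/
noncomputable def Pl (t0 : F) : Submodule F (PowerSeries F) := Submodule.span F {1, tHat t0}

/-- `W` is the geometric progression `y, y φ, …, y φ^s` -/
def GPin (φ : PowerSeries F) (W : Submodule F (PowerSeries F)) : Prop :=
  ∃ (y : PowerSeries F) (s : ℕ), y ≠ 0 ∧
    W = Submodule.span F (Set.range fun i : Fin (s + 1) => y * φ ^ (i : ℕ))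

/-- `W` is a geometric progression with ratio of positive order -/
def IsGP (W : Submodule F (PowerSeries F)) : Prop :=
  ∃ φ : PowerSeries F, φ ≠ 0 ∧ PowerSeries.constantCoeff φ = 0 ∧ GPin φ W

/-- value of a bivariate polynomial over `F` on the branch `(t0 + τ, n)` -/
noncomputable def evB (t0 : F) (n : PowerSeries F) : F[X][X] →ₐ[F] PowerSeries F :=
  Polynomial.aevalAeval (tHat t0) n

/-- A formal branch with a finite set `Z` of points on it: `e P` evaluates functions of the algebra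
`B` at the point `P`; determinants of functions of the subring `I` are highly divisible by `q`. -/
structure Branch (F : Type) [Field F] (q : ℕ) {ι : Type} (Z : Finset ι) where
  B : Subalgebra F (PowerSeries F)
  I : Subring (PowerSeries F)
  e : ι → PowerSeries F →ₗ[F] F
  IB : ∀ f ∈ I, f ∈ B
  e_one : ∀ P ∈ Z, e P 1 = 1
  e_mul : ∀ P ∈ Z, ∀ f ∈ B, ∀ g ∈ B, e P (f * g) = e P f * e P g
  det_dvd : ∀ (M : ℕ) (f : Fin M → PowerSeries F) (P : Fin M → ι) (u : Fin M → ℚ)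
    (z : Matrix (Fin M) (Fin M) ℤ), (∀ l, f l ∈ I) → (∀ i, P i ∈ Z) → (∀ i, ¬ q ∣ (u i).den) →
    (∀ i l, (z i l : F) = (u i : F) * e (P i) (f l)) → (q : ℤ) ^ (M.choose 2) ∣ z.det

/-- `W` is spanned by integral functions whose values, multiplied by `u P`, are integers of size
at most `H` -/
def GoodSpan {q : ℕ} {ι : Type} {Z : Finset ι} (Br : Branch F q Z) (u : ι → F) (H : ℝ)
    (W : Submodule F (PowerSeries F)) : Prop :=
  W ≤ Submodule.span F {f | f ∈ W ∧ f ∈ Br.I ∧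
    ∀ P ∈ Z, ∃ z : ℤ, (z : F) = u P * Br.e P f ∧ |(z : ℝ)| ≤ H}

/-- linear growth of the powers of `S` -/
def LinGrowth (S : Submodule F (PowerSeries F)) (C : ℕ) : Prop :=
  ∀ L : ℕ, FiniteDimensional F (S ^ L : Submodule F (PowerSeries F)) ∧
    Module.finrank F (S ^ L : Submodule F (PowerSeries F)) ≤ C * (L + 1)

end PS

section Model
variable {F : Type} [Field F] {d : ℕ}

/-- polynomial model: `deg_n ≤ D`, `deg_t < m`, `β_j^{kD} ∣ G(θ_j + β_j^k ν)` -/
def Model (θ : Fin d → F) (β : Fin d → F[X]) (k D m : ℕ) : Submodule F F[X][X] where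
  carrier := {G | G.natDegree ≤ D ∧ (∀ i, (G.coeff i).degree < m) ∧
    ∀ j i, β j ^ (k * (D - i)) ∣ (taylor (C (θ j)) G).coeff i}
  zero_mem' := by
    refine ⟨by simp, fun i => by simp, fun j i => by simp⟩
  add_mem' := by
    rintro a b ⟨h1, h2, h3⟩ ⟨h4, h5, h6⟩
    refine ⟨(natDegree_add_le _ _).trans (max_le h1 h4), fun i => ?_, fun j i => ?_⟩
    · rw [coeff_add]; exact (degree_add_le _ _).trans_lt (max_lt (h2 i) (h5 i))
    · rw [map_add, coeff_add]; exact dvd_add (h3 j i) (h6 j i)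
  smul_mem' := by
    rintro c a ⟨h1, h2, h3⟩
    refine ⟨(natDegree_smul_le _ _).trans h1, fun i => ?_, fun j i => ?_⟩
    · rw [coeff_smul]; exact (degree_smul_le _ _).trans_lt (h2 i)
    · have : taylor (C (θ j)) (c • a) = c • taylor (C (θ j)) a :=
        LinearMap.map_smul_of_tower _ _ _
      rw [this, coeff_smul, smul_eq_C_mul]; exact Dvd.dvd.mul_left (h3 j i) _

/-- `(n - θ_j) ∏_{l ≠ j} β_l^k` -/
noncomputable def muP (θ : Fin d → F) (β : Fin d → F[X]) (k : ℕ) (j : Fin d) : F[X][X] :=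
  (X - C (C (θ j))) * C (∏ l ∈ Finset.univ.erase j, β l ^ k)

/-- span of the monomials `μ^a t^i`, `|a| = D`, `i ≤ E`, in the polynomial model -/
noncomputable def Mono (θ : Fin d → F) (β : Fin d → F[X]) (k D E : ℕ) : Submodule F F[X][X] :=
  Submodule.span F (Set.range (muP θ β k)) ^ D * Submodule.span F {1, C X} ^ E

/-- pairwise non proportional polynomials of degree one -/
def LinForms (β : Fin d → F[X]) : Prop :=
  (∀ j, (β j).natDegree = 1) ∧ ∀ i j, i ≠ j → IsCoprime (β i) (β j)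

/-- the polynomial `v'_j + t v''_j` -/
noncomputable def linP (θ : Fin d → F) (v' v'' : Fin d → ℤ) (j : Fin d) : F[X] :=
  C (cjZ θ v' j) + X * C (cjZ θ v'' j)

end Model

/-- slope of the chain in scheme C -/
def NC (d : ℕ) : ℕ := if d = 4 then 9 else 3 * (d - 2) + 2

end Crest.Agent.R22
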