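import Crest.Agent.R22.CHopf

set_option autoImplicit false
open Polynomial

namespace Crest.Agent.R22

open Module

variable {F : Type} [Field F] [CharZero F]

/-- a nondegenerate diagonal ternary quadratic form has no isotropic plane -/
theorem no_isotropic_plane (c v w : Fin 3 → F) (hc : ∀ i, c i ≠ 0)
    (h1 : ∑ i, c i * v i ^ 2 = 0) (h2 : ∑ i, c i * (v i * w i) = 0) (h3 : ∑ i, c i * w i ^ 2 = 0) :
    ¬ LinearIndependent F ![v, w] := by
  sorry

/-- The plane cubic with a `g^1_2` does not occur.  Let `u : Fin 3 → F⟦X⟧` be a basis of `U`,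
`Φ = aeval u` on `MvPolynomial (Fin 3) F`, `b j` linear forms with `Φ (b j) = ρ j` (any three of them are
independent by `hκ`).  `dim (U Pl) ≤ 5` gives linear forms with `Φ l1 + t Φ l2 = 0`, independent.  For
`λ` with `∑ λ = ∑ λ θ = 0` put `Q' = ∑ λ_j β_j(0) b_j^2`, `Q'' = ∑ λ_j coeff_1(β_j) b_j^2`; then
`Φ Q' + t Φ Q'' = 0`, so `C_λ = Q' l2 - Q'' l1 ∈ ker Φ`.  `Φ l2 · U^2 Pl = Φ (L^2 · span {l1, l2})`,
`L` = linear forms, and `L^2 · span {l1, l2}` has dimension `≤ 6 + 6 - 3`.  If `C_λ = 0` for some `λ ≠ 0`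
(at most one `λ_j` vanishes; take `j0` with `λ_{j0} = 0` if there is one) evaluate at the root `z` of
`β_{j0}`: `Q = Q' + z Q''` satisfies `Q l2 = (l1 + z l2) Q''`, `Q l1 = (l1 + z l2) Q'`, so it vanishes on the
plane `l1 + z l2 = 0` of `F^3`, contradicting `no_isotropic_plane`.  So the kernel has dimension `≥ 2`. -/
theorem dimC4 (θ : Fin 4 → F) (hθ : Function.Injective θ) (β : Fin 4 → F[X]) (hβ : LinForms β)
    (c0 t0 : F) (nh ω : PowerSeries F) (ρ : Fin 4 → PowerSeries F) (hω : ω ≠ 0)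
    (hrel : ∀ j, ω * ρ j ^ 2 * aeval (tHat t0) (β j) =
      PowerSeries.C c0 * (nh - PowerSeries.C (θ j)))
    (h3 : finrank F (Submodule.span F (Set.range ρ)) = 3)
    (hκ : ∀ κ : Fin 4 → F, κ ≠ 0 → ∑ j, κ j • ρ j = 0 → ∀ j, κ j ≠ 0)
    (h5 : finrank F (Submodule.span F (Set.range ρ) * Pl t0 : Submodule F (PowerSeries F)) ≤ 5) :
    finrank F (Submodule.span F (Set.range ρ) ^ 2 * Pl t0 : Submodule F (PowerSeries F)) ≤ 7 := by
  sorry

end Crest.Agent.R22
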