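import Crest.Agent.R22.CHopf

set_option autoImplicit false
open Polynomial

namespace Crest.Agent.R22

open Module

variable {F : Type} [Field F] [CharZero F] {q : ℕ} {ι : Type} {Z : Finset ι}

theorem GoodSpan.of_span (Br : Branch F q Z) (u : ι → F) (H : ℝ) (S : Set (PowerSeries F))
    (h : ∀ f ∈ S, f ∈ Br.I ∧ ∀ P ∈ Z, ∃ z : ℤ, (z : F) = u P * Br.e P f ∧ |(z : ℝ)| ≤ H) :
    GoodSpan Br u H (Submodule.span F S) := by
  sorry

theorem GoodSpan.mul {Br : Branch F q Z} {u u' : ι → F} {H H' : ℝ}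
    {W W' : Submodule F (PowerSeries F)} (h : GoodSpan Br u H W) (h' : GoodSpan Br u' H' W') :
    GoodSpan Br (fun P => u P * u' P) (H * H') (W * W') := by
  sorry

theorem GoodSpan.pow {Br : Branch F q Z} {u : ι → F} {H : ℝ}
    {W : Submodule F (PowerSeries F)} (h : GoodSpan Br u H W) (n : ℕ) :
    GoodSpan Br (fun P => u P ^ n) (H ^ n) (W ^ n) := by
  sorry

theorem GoodSpan.congr {Br : Branch F q Z} {u u' : ι → F} {H H' : ℝ}
    {W : Submodule F (PowerSeries F)} (h : GoodSpan Br u H W) (hu : ∀ P ∈ Z, u P = u' P)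
    (hH : H ≤ H') : GoodSpan Br u' H' W := by
  sorry

theorem GoodSpan.mem_B {Br : Branch F q Z} {u : ι → F} {H : ℝ}
    {W : Submodule F (PowerSeries F)} (h : GoodSpan Br u H W) : ∀ w ∈ W, w ∈ Br.B := by
  sorry

/-- a basis of good functions -/
theorem GoodSpan.exists_basis {Br : Branch F q Z} {u : ι → F} {H : ℝ}
    {W : Submodule F (PowerSeries F)} [FiniteDimensional F W] (h : GoodSpan Br u H W) :
    ∃ g : Fin (finrank F W) → PowerSeries F, Submodule.span F (Set.range g) = W ∧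
      ∀ i, g i ∈ Br.I ∧ ∀ P ∈ Z, ∃ z : ℤ, (z : F) = u P * Br.e P (g i) ∧ |(z : ℝ)| ≤ H := by
  sorry

/-- The `q`-adic determinant method for a chain of spaces.  Choose `d0` independent good functions in
`V 0` and `N` further ones in each `V (j+1)`, independent modulo `V j`.  For any `M` points the integer
determinant is divisible by `q^(M choose 2)` and smaller than it, so it vanishes; hence the value vectors
of the points span a proper subspace of `F^M` and a nontrivial combination vanishes at all points. -/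
theorem engine (Br : Branch F q Z) (u : ι → ℚ) (hu : ∀ P ∈ Z, u P ≠ 0 ∧ ¬ q ∣ (u P).den)
    (V : ℕ → Submodule F (PowerSeries F)) (H : ℕ → ℝ) (J d0 N : ℕ) (hV : Monotone V)
    (hfd : ∀ j, FiniteDimensional F (V j)) (hH : ∀ j, 0 ≤ H j)
    (hg : ∀ j ≤ J, GoodSpan Br (fun P => (u P : F)) (H j) (V j))
    (h0 : d0 ≤ finrank F (V 0)) (hs : ∀ j < J, finrank F (V j) + N ≤ finrank F (V (j + 1)))
    (hM : 1 ≤ d0 + N * J)
    (hq : ((d0 + N * J).factorial : ℝ) * H 0 ^ d0 * ∏ j ∈ Finset.range J, H (j + 1) ^ N <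
      (q : ℝ) ^ ((d0 + N * J).choose 2)) :
    ∃ f ∈ V J, f ≠ 0 ∧ ∀ P ∈ Z, Br.e P f = 0 := by
  sorry

end Crest.Agent.R22
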