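import Crest.Agent.R22.CRatCount
import Crest.Agent.R22.CGP
import Crest.Agent.R22.CEngine

set_option autoImplicit false
open Polynomial

namespace Crest.Agent.R22

open Module

variable {F : Type} [Field F] [CharZero F] [IsAlgClosed F] {d : ℕ}

open Classical in
/-- The rational exit.  `gp_param` gives `y, s, T, φ`; points with `e y = 0` are bounded by `hz`.  For the others take
a basis `g` of good functions (`GoodSpan.exists_basis`), `v P i = u P * e P (g i) ∈ ℤ`, `M i = T (g i)` and apply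
`normalise` (each exceptional value of `φ` determines `n = T wA (φ) / T wB (φ)`), then `ratCount` with
`A = T' (T wA)`, `B = T' (T wB)`, `b i = T' (T (wb i))`. -/
theorem gpExit (R : Roots F d) (hd : 2 ≤ d) (k : ℕ) (c0 : ℤ) (r C0 : ℕ) (ε : ℝ) (hε : 0 < ε) :
    ∃ C : ℝ, 0 < C ∧ ∀ X C1 K : ℝ, 2 ≤ X → 6 * r + 1 ≤ C1 → ∀ (q : ℕ) (Z : Finset (Pt d))
    (Br : Branch F q Z) (W : Submodule F (PowerSeries F)) (u : Pt d → F) (wA wB : PowerSeries F)
    (wb : Fin d → PowerSeries F), IsGP W → 2 ≤ finrank F W → finrank F W ≤ r →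
    GoodSpan Br u (X ^ C0) W → wA ∈ W → wB ∈ W → (∀ i, wb i ∈ W) → wb ≠ 0 →
    (∀ P ∈ Z, P.Ok R k c0 C1 X C0 ∧ u P ≠ 0 ∧ Br.e P wB ≠ 0 ∧
      Br.e P wA = (P.n : F) * Br.e P wB ∧ ∃ l : F, ∀ i, Br.e P (wb i) = l * (P.b i : F)) →
    (∀ w ∈ W, w ≠ 0 → (nN (Z.filter (fun P => Br.e P w = 0)) : ℝ) ≤ K) →
    (nN Z : ℝ) ≤ K + C * X ^ ε := by
  sorry

end Crest.Agent.R22
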