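import Crest.Agent.R22.FF
import Crest.Agent.R22.Basic
import Crest.Agent.R22.Bezout

set_option autoImplicit false
open Polynomial IntermediateField

namespace Crest.Agent.R22

variable {d : ℕ}

theorem CFdeg_rad {F L ι : Type*} [Field F] [Field L] [Algebra F L] {k : ℕ} (hk : 1 ≤ k)
    (ρ : ι → L) (hρ : ∀ j, ∃ a : F, ρ j ^ k = algebraMap F L a) (s : Finset ι) :
    FiniteDimensional F (adjoin F (ρ '' s)) ∧ Module.finrank F (adjoin F (ρ '' s)) ≤ k ^ s.card := by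
  classical
  have key : ∀ j, IsIntegral F (ρ j) ∧ Module.finrank F F⟮ρ j⟯ ≤ k := by
    intro j
    obtain ⟨a, ha⟩ := hρ j
    have hm : (X ^ k - C a : F[X]).Monic := monic_X_pow_sub_C a (by omega)
    have hz : aeval (ρ j) (X ^ k - C a : F[X]) = 0 := by simp [ha]
    have hi : IsIntegral F (ρ j) := ⟨_, hm, hz⟩
    refine ⟨hi, ?_⟩
    rw [adjoin.finrank hi]
    have := natDegree_le_natDegree (minpoly.min F (ρ j) hm hz)
    rwa [natDegree_X_pow_sub_C] at this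
  refine ⟨finiteDimensional_adjoin (by rintro _ ⟨j, -, rfl⟩; exact (key j).1), ?_⟩
  induction s using Finset.induction_on with
  | empty => rw [Finset.coe_empty, Set.image_empty, adjoin_empty]; simp
  | insert i s hi ih =>
    rw [Finset.coe_insert, Set.image_insert_eq, ← Set.singleton_union, adjoin_union,
      Finset.card_insert_of_notMem hi, pow_succ']
    exact (finrank_sup_le _ _).trans (Nat.mul_le_mul (key i).2 ih)

theorem CFdeg_tower {L : Type*} [Field L] [Algebra ℂ L] {k : ℕ} (hk : 1 ≤ k) (x y : L)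
    (ρ : Fin d → L) (gen : adjoin ℂ ({x, y} ∪ Set.range ρ) = ⊤)
    (hρ : ∀ j, ρ j ^ k ∈ ℂ⟮x, y⟯) (hy : IsIntegral ℂ⟮x⟯ y) :
    FiniteDimensional ℂ⟮x⟯ L ∧
      Module.finrank ℂ⟮x⟯ L ≤ k ^ d * Module.finrank ℂ⟮x⟯ ℂ⟮x⟯⟮y⟯ := by
  have h1 : FiniteDimensional ℂ⟮x⟯ ℂ⟮x⟯⟮y⟯ := adjoin.finiteDimensional hy
  obtain ⟨h2, h3⟩ := CFdeg_rad (F := ℂ⟮x⟯⟮y⟯) hk ρ (fun j => by
    have := hρ j
    rw [← adjoin_simple_adjoin_simple, mem_restrictScalars] at this
    exact ⟨⟨_, this⟩, rfl⟩) Finset.univ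
  have htop : adjoin ℂ⟮x⟯⟮y⟯ (ρ '' (Finset.univ : Finset (Fin d))) = ⊤ := by
    rw [eq_top_iff]
    intro z _
    have hz : z ∈ adjoin ℂ ({x, y} ∪ Set.range ρ) := gen ▸ mem_top
    have hsub : ∀ w ∈ ℂ⟮x, y⟯, w ∈ adjoin ℂ⟮x⟯⟮y⟯ (ρ '' (Finset.univ : Finset (Fin d))) := by
      intro w hw
      rw [← adjoin_simple_adjoin_simple, mem_restrictScalars] at hw
      exact IntermediateField.algebraMap_mem _ (⟨w, hw⟩ : ℂ⟮x⟯⟮y⟯)
    refine adjoin_le_subfield ℂ ({x, y} ∪ Set.range ρ)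
      (K := (adjoin ℂ⟮x⟯⟮y⟯ (ρ '' (Finset.univ : Finset (Fin d)))).toSubfield) ?_ ?_ hz
    · rintro _ ⟨a, rfl⟩
      exact hsub _ (IntermediateField.algebraMap_mem _ a)
    · rintro w (hw | ⟨j, rfl⟩)
      · exact hsub _ (subset_adjoin _ _ hw)
      · exact subset_adjoin _ _ ⟨j, by simp, rfl⟩
  rw [htop] at h2 h3
  have h4 : FiniteDimensional ℂ⟮x⟯⟮y⟯ L := topEquiv.toLinearEquiv.finiteDimensional
  rw [finrank_top', Finset.card_univ, Fintype.card_fin] at h3
  refine ⟨Module.Finite.trans ℂ⟮x⟯⟮y⟯ L, ?_⟩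
  rw [← Module.finrank_mul_finrank ℂ⟮x⟯ ℂ⟮x⟯⟮y⟯ L, mul_comm]
  exact Nat.mul_le_mul_right _ h3

theorem CFdeg_lin (c : Ctx d) (b1 b2 : Fin d → ℤ) {L : Type*} [Field L] [Algebra ℂ L] (t : L)
    (j : Fin d) : aeval t (c.lin b1 b2 j) =
      algebraMap ℂ L (c.sg j b1) * t + algebraMap ℂ L (c.sg j b2) := by
  simp [Ctx.lin]

theorem CFdeg_const {L : Type*} [Field L] [Algebra ℂ L] {k : ℕ} (hk : 1 ≤ k) (x : L) (a : ℂ)
    (h : x ^ k = algebraMap ℂ L a) : ∃ b : ℂ, x = algebraMap ℂ L b :=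
  const_of_not_trans x fun ht => ht ⟨X ^ k - C a, (monic_X_pow_sub_C a (by omega)).ne_zero,
    by simp [h]⟩

/-- Degrees on a component: `[L : ℂ(t, n)] ≤ k^d`. -/
theorem CF.degrees {c : Ctx d} {k : ℕ} (hk : 1 ≤ k) {b1 b2 : Fin d → ℤ} {i0 : Fin d} {g : ℂ[X][X]}
    (hg : Irreducible g) (h1 : 1 ≤ g.natDegree) {E : ℕ} (hE : DegLE g E) {L : Type} [Field L]
    [Algebra ℂ L] {t n : L} {ρ : Fin d → L} (h : CF c k b1 b2 i0 g t n ρ) :
    Transcendental ℂ t ∧ FiniteDimensional ℂ⟮t⟯ L ∧ (Transcendental ℂ n → fdeg n ≤ k ^ d * E) := by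
  have hρ : ∀ K : IntermediateField ℂ L, t ∈ K → n ∈ K → ∀ j, ρ j ^ k ∈ K := by
    intro K ht hn j
    have h1 := h.rel j
    have h2 : ρ j ^ k = (n - algebraMap ℂ L (c.th j)) * aeval t (c.lin b1 b2 i0) /
        ((n - algebraMap ℂ L (c.th i0)) * aeval t (c.lin b1 b2 j)) := by
      rw [eq_div_iff (mul_ne_zero (h.hn i0) (h.hl j)), ← h1, mul_assoc]
    have h3 : ∀ i, aeval t (c.lin b1 b2 i) ∈ K := fun i => by
      rw [CFdeg_lin]
      exact add_mem (mul_mem (K.algebraMap_mem _) ht) (K.algebraMap_mem _)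
    rw [h2]
    exact div_mem (mul_mem (sub_mem hn (K.algebraMap_mem _)) (h3 _))
      (mul_mem (sub_mem hn (K.algebraMap_mem _)) (h3 _))
  refine ⟨h.ff.trans_t hg h1, (CFdeg_tower hk t n ρ h.gen (hρ _ (subset_adjoin _ _ (by simp))
    (subset_adjoin _ _ (by simp))) (h.ff.finrank_t hg h1).1).1, fun hn => ?_⟩
  have hg' : Irreducible (Bivariate.swap g) := (MulEquiv.irreducible_iff Bivariate.swap).2 hg
  have hff := h.ff.swap
  have h1' : 1 ≤ (Bivariate.swap g).natDegree := by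
    by_contra h0
    have h0' : (Bivariate.swap g).natDegree = 0 := by omega
    have e := eq_C_of_natDegree_eq_zero h0'
    have hz := (hff _).2 dvd_rfl
    rw [e] at hz
    refine hn ⟨(Bivariate.swap g).coeff 0, fun h00 => hg'.ne_zero (by rw [e, h00, C_0]), ?_⟩
    simpa using hz
  obtain ⟨hi, hr⟩ := hff.finrank_t hg' h1'
  have := (CFdeg_tower hk n t ρ (by rw [Set.pair_comm]; exact h.gen)
    (hρ _ (subset_adjoin _ _ (by simp)) (subset_adjoin _ _ (by simp))) hi).2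
  rw [hr, natDegree_swap] at this
  exact this.trans (Nat.mul_le_mul_left _ (Finset.sup_le fun i _ => hE.2 i))

/-- For the three indices `i0, i1, i2` (extend `i0`): `ρ_j^k lin_j(t) = Λ (n - θ_j)`, so
`∑ om_j γ_j (a_j t + b_j) = 0` (`γ_j = ρ_j^k`, `om` for the triple). If `∑ om_j γ_j a_j ≠ 0` for some
triple containing `i0` then `t`, and then `n`, lie in the field of the ratios (`ρ_{i0}` is a root of
unity, a constant). Otherwise, for every `j` two independent linear equations with constant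
coefficients show that `γ_j / γ_{i0}` is constant, so `ρ_j` is constant. -/
theorem CF.gen_or_const {c : Ctx d} (hd : 3 ≤ d) {k : ℕ} (hk : 1 ≤ k) {b1 b2 : Fin d → ℤ}
    (hnd : c.Nondeg b1 b2) {i0 : Fin d} {g : ℂ[X][X]} {L : Type} [Field L] [Algebra ℂ L] {t n : L}
    {ρ : Fin d → L} (h : CF c k b1 b2 i0 g t n ρ) :
    (∀ j, ∃ a : ℂ, ρ j = algebraMap ℂ L a) ∨ GenBy0 (Submodule.span ℂ (Set.range ρ)) := by
  classical
  set φ := algebraMap ℂ L with hφ
  have hinj : Function.Injective φ := φ.injective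
  have hrel : ∀ j, ρ j ^ k * (n - φ (c.th i0)) * (φ (c.sg j b1) * t + φ (c.sg j b2)) =
      (n - φ (c.th j)) * (φ (c.sg i0 b1) * t + φ (c.sg i0 b2)) := fun j => by
    have := h.rel j
    rwa [CFdeg_lin, CFdeg_lin] at this
  have hn0 : n - φ (c.th i0) ≠ 0 := h.hn i0
  have hl0 : φ (c.sg i0 b1) * t + φ (c.sg i0 b2) ≠ 0 := by
    have := h.hl i0
    rwa [CFdeg_lin] at this
  have h0 : ρ i0 ^ k = 1 := by
    have := hrel i0
    rw [mul_assoc] at this
    exact (mul_eq_right₀ (mul_ne_zero hn0 hl0)).1 this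
  obtain ⟨a0, ha0⟩ := CFdeg_const hk (ρ i0) 1 (by rw [h0, map_one])
  have hρ0 : ρ i0 ≠ 0 := fun e => by
    rw [e, zero_pow (by omega)] at h0
    exact zero_ne_one h0
  have hth : ∀ i j, i ≠ j → φ (c.th i) - φ (c.th j) ≠ 0 := fun i j hij =>
    sub_ne_zero.2 fun e => hij (c.inj (hinj e))
  let A : (Fin d → ℤ) → Fin d → Fin d → L := fun b i j =>
    (φ (c.th i) - φ (c.th j)) * φ (c.sg i0 b) + (φ (c.th j) - φ (c.th i0)) * ρ i ^ k * φ (c.sg i b) +
      (φ (c.th i0) - φ (c.th i)) * ρ j ^ k * φ (c.sg j b)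
  have hA : ∀ i j, A b1 i j * t + A b2 i j = 0 := by
    intro i j
    refine mul_left_cancel₀ hn0 ?_
    simp only [A]
    linear_combination (φ (c.th j) - φ (c.th i0)) * hrel i + (φ (c.th i0) - φ (c.th i)) * hrel j
  have hex : ∀ j, ∃ i, i ≠ i0 ∧ i ≠ j := fun j => by
    have : (({i0, j} : Finset (Fin d))).card < (Finset.univ : Finset (Fin d)).card := by
      rw [Finset.card_univ, Fintype.card_fin]
      exact lt_of_le_of_lt Finset.card_le_two (by omega)
    obtain ⟨i, -, hi⟩ := Finset.exists_mem_notMem_of_card_lt_card this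
    exact ⟨i, by simpa [not_or] using hi⟩
  by_cases hc : ∃ i j, A b1 i j ≠ 0
  · right
    obtain ⟨i, j, hij⟩ := hc
    intro K hK
    have hρK : ∀ l, ρ l ∈ K := fun l => by
      have := mul_mem (hK _ (Submodule.subset_span ⟨l, rfl⟩) _ (Submodule.subset_span ⟨i0, rfl⟩))
        (K.algebraMap_mem a0)
      rwa [← ha0, div_mul_cancel₀ _ hρ0] at this
    have hc : ∀ z, φ z ∈ K := fun z => K.algebraMap_mem z
    have hAK : ∀ b, A b i j ∈ K := fun b =>
      add_mem (add_mem (mul_mem (sub_mem (hc _) (hc _)) (hc _))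
        (mul_mem (mul_mem (sub_mem (hc _) (hc _)) (pow_mem (hρK _) _)) (hc _)))
        (mul_mem (mul_mem (sub_mem (hc _) (hc _)) (pow_mem (hρK _) _)) (hc _))
    have ht : t ∈ K := by
      have e : t = -A b2 i j / A b1 i j := by
        rw [eq_div_iff hij]; linear_combination hA i j
      rw [e]; exact div_mem (neg_mem (hAK _)) (hAK _)
    have hl : ∀ l, φ (c.sg l b1) * t + φ (c.sg l b2) ∈ K := fun l =>
      add_mem (mul_mem (hc _) ht) (hc _)
    have hn : n ∈ K := by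
      obtain ⟨l, hl1, -⟩ := hex i0
      have e1 : (ρ l ^ k * (φ (c.sg l b1) * t + φ (c.sg l b2)) -
          (φ (c.sg i0 b1) * t + φ (c.sg i0 b2))) * (n - φ (c.th i0)) =
          (φ (c.th i0) - φ (c.th l)) * (φ (c.sg i0 b1) * t + φ (c.sg i0 b2)) := by
        linear_combination hrel l
      have e2 : ρ l ^ k * (φ (c.sg l b1) * t + φ (c.sg l b2)) -
          (φ (c.sg i0 b1) * t + φ (c.sg i0 b2)) ≠ 0 := fun e => by
        rw [e, zero_mul] at e1
        exact mul_ne_zero (hth _ _ hl1.symm) hl0 e1.symm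
      have e3 : n = φ (c.th i0) + (φ (c.th i0) - φ (c.th l)) *
          (φ (c.sg i0 b1) * t + φ (c.sg i0 b2)) / (ρ l ^ k * (φ (c.sg l b1) * t + φ (c.sg l b2)) -
          (φ (c.sg i0 b1) * t + φ (c.sg i0 b2))) := by
        rw [← e1, mul_div_cancel_left₀ _ e2]; ring
      rw [e3]
      exact add_mem (hc _) (div_mem (mul_mem (sub_mem (hc _) (hc _)) (hl _))
        (sub_mem (mul_mem (pow_mem (hρK _) _) (hl _)) (hl _)))
    rw [eq_top_iff, ← h.gen, adjoin_le_iff]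
    rintro w ((rfl | rfl) | ⟨l, rfl⟩)
    · exact ht
    · exact hn
    · exact hρK l
  · left
    push Not at hc
    intro j
    obtain ⟨i, hi0, hij⟩ := hex j
    have e1 := hc i j
    have e2 := hA i j
    rw [e1, zero_mul, zero_add] at e2
    have hpl : φ (c.sg j b1) * φ (c.sg i b2) - φ (c.sg i b1) * φ (c.sg j b2) ≠ 0 := by
      have := hnd j i hij.symm
      rw [Ctx.pl] at this
      rw [← map_mul, ← map_mul, ← map_sub]
      exact fun e => this (hinj (by rw [e, map_zero]))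
    refine CFdeg_const hk (ρ j) (-((c.th i - c.th j) * (c.sg i0 b1 * c.sg i b2 -
      c.sg i b1 * c.sg i0 b2)) / ((c.th i0 - c.th i) * (c.sg j b1 * c.sg i b2 -
      c.sg i b1 * c.sg j b2))) ?_
    rw [← hφ]
    simp only [map_div₀, map_neg, map_mul, map_sub]
    rw [eq_div_iff (mul_ne_zero (hth _ _ hi0.symm) hpl)]
    simp only [A] at e1 e2
    linear_combination φ (c.sg i b2) * e1 - φ (c.sg i b1) * e2

end Crest.Agent.R22
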