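import Crest.Agent.R22.CDefs

set_option autoImplicit false
open Polynomial

namespace Crest.Agent.R22

open Module

variable {F : Type} [Field F]

theorem fd_mul (X Y : Submodule F (PowerSeries F)) [FiniteDimensional F X] [FiniteDimensional F Y] :
    FiniteDimensional F (X * Y : Submodule F (PowerSeries F)) := by
  sorry

theorem fd_pow (X : Submodule F (PowerSeries F)) [FiniteDimensional F X] (n : ℕ) :
    FiniteDimensional F (X ^ n : Submodule F (PowerSeries F)) := by
  sorry

theorem finrank_mul_le (X Y : Submodule F (PowerSeries F)) [FiniteDimensional F X]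
    [FiniteDimensional F Y] :
    finrank F (X * Y : Submodule F (PowerSeries F)) ≤ finrank F X * finrank F Y := by
  sorry

theorem finrank_singleton_mul (ω : PowerSeries F) (hω : ω ≠ 0) (W : Submodule F (PowerSeries F)) :
    finrank F (Submodule.span F {ω} * W : Submodule F (PowerSeries F)) = finrank F W := by
  sorry

theorem fd_Pl (t0 : F) : FiniteDimensional F (Pl t0) := by
  sorry

theorem finrank_Pl (t0 : F) : finrank F (Pl t0) = 2 := by
  sorry

theorem aeval_tHat_injective (t0 : F) :
    Function.Injective (aeval (tHat t0) : F[X] →ₐ[F] PowerSeries F) := by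
  sorry

/-- polynomials of degree `≤ E` in `t` -/
theorem aeval_mem_Pl_pow (t0 : F) (E : ℕ) (P : F[X]) (h : P.natDegree ≤ E) :
    aeval (tHat t0) P ∈ (Pl t0 ^ E : Submodule F (PowerSeries F)) := by
  sorry

theorem finrank_Pl_pow_le (t0 : F) (E : ℕ) :
    finrank F (Pl t0 ^ E : Submodule F (PowerSeries F)) ≤ E + 1 := by
  sorry

/-- Removing the element of least order: a nonzero finite dimensional `W` has an element `w0` of least
order and a hyperplane of elements of larger order. -/
theorem exists_low (W : Submodule F (PowerSeries F)) [FiniteDimensional F W] (hW : W ≠ ⊥) :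
    ∃ (w0 : PowerSeries F) (W' : Submodule F (PowerSeries F)), w0 ∈ W ∧ w0 ≠ 0 ∧ W' ≤ W ∧
      finrank F W' + 1 = finrank F W ∧ (∀ w ∈ W, w0.order ≤ w.order) ∧
      (∀ w ∈ W, w ∈ W' ↔ w0.order < w.order) := by
  sorry

/-- Hopf's inequality: induction on `dim X`, `x0 y0 ∉ X' Y`. -/
theorem hopf (X Y : Submodule F (PowerSeries F)) [FiniteDimensional F X] [FiniteDimensional F Y]
    (hX : X ≠ ⊥) (hY : Y ≠ ⊥) :
    finrank F X + finrank F Y ≤ finrank F (X * Y : Submodule F (PowerSeries F)) + 1 := by
  sorry

theorem GPin.mul {φ : PowerSeries F} {X Y : Submodule F (PowerSeries F)} (hX : GPin φ X)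
    (hY : GPin φ Y) : GPin φ (X * Y) := by
  sorry

theorem GPin.pow {φ : PowerSeries F} {X : Submodule F (PowerSeries F)} (hX : GPin φ X) (n : ℕ) :
    GPin φ (X ^ n) := by
  sorry

theorem GPin.singleton (φ ω : PowerSeries F) (hω : ω ≠ 0) : GPin φ (Submodule.span F {ω}) := by
  sorry

end Crest.Agent.R22
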