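import Crest.Agent.R22.CDefs

set_option autoImplicit false
open Polynomial

namespace Crest.Agent.R22

/-- small integer solutions of the system `rows` -/
def SmallKer {κ : Type} [Fintype κ] (rows : Set (κ → ℤ)) (H : ℝ) (z : κ → ℤ) : Prop :=
  (∀ i, |(z i : ℝ)| ≤ H) ∧ ∀ a ∈ rows, ∑ i, a i * z i = 0

/-- The kernel of an integer system is spanned by small integer vectors.  Induction on the number of
unknowns (Gaussian elimination): if some row `a` has `a c ≠ 0`, replace every row `a'` by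
`a c • a' - a' c • a` on the remaining coordinates (entries `≤ 2 H^2 ≤ H^3`), and lift a kernel
vector `z'` to `(a c • z', -∑ a j z' j)`. -/
theorem small_kernel (r : ℕ) : ∃ c : ℕ, ∀ (κ : Type) [Fintype κ], Fintype.card κ ≤ r →
    ∀ (K : Type) [Field K] [CharZero K] (H : ℝ), 2 ≤ H → ∀ rows : Set (κ → ℤ),
    (∀ a ∈ rows, ∀ i, |(a i : ℝ)| ≤ H) → ∀ v : κ → K, (∀ a ∈ rows, ∑ i, (a i : K) * v i = 0) →
    v ∈ Submodule.span K {w : κ → K | ∃ z : κ → ℤ, SmallKer rows (H ^ c) z ∧ w = fun i => (z i : K)} := by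
  sorry

theorem small_kernel_fun (r : ℕ) : ∃ c : ℕ, ∀ (κ : Type) [Fintype κ], Fintype.card κ ≤ r →
    ∀ (K : Type) [Field K] [CharZero K] (H : ℝ), 2 ≤ H → ∀ rows : Set (κ → ℤ),
    (∀ a ∈ rows, ∀ i, |(a i : ℝ)| ≤ H) → ∀ v : κ → K, (∀ a ∈ rows, ∑ i, (a i : K) * v i = 0) →
    ∀ l : (κ → K) →ₗ[K] K, l v ≠ 0 →
    ∃ z : κ → ℤ, SmallKer rows (H ^ c) z ∧ l (fun i => (z i : K)) ≠ 0 := by
  sorry

theorem small_kernel_ne (r : ℕ) : ∃ c : ℕ, ∀ (κ : Type) [Fintype κ], Fintype.card κ ≤ r →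
    ∀ (K : Type) [Field K] [CharZero K] (H : ℝ), 2 ≤ H → ∀ rows : Set (κ → ℤ),
    (∀ a ∈ rows, ∀ i, |(a i : ℝ)| ≤ H) → ∀ v : κ → K, (∀ a ∈ rows, ∑ i, (a i : K) * v i = 0) →
    v ≠ 0 → ∃ z : κ → ℤ, SmallKer rows (H ^ c) z ∧ z ≠ 0 := by
  sorry

theorem small_kernel_two (r : ℕ) : ∃ c : ℕ, ∀ (κ : Type) [Fintype κ], Fintype.card κ ≤ r →
    ∀ (K : Type) [Field K] [CharZero K] (H : ℝ), 2 ≤ H → ∀ rows : Set (κ → ℤ),
    (∀ a ∈ rows, ∀ i, |(a i : ℝ)| ≤ H) → ∀ v w : κ → K, (∀ a ∈ rows, ∑ i, (a i : K) * v i = 0) →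
    (∀ a ∈ rows, ∑ i, (a i : K) * w i = 0) →
    ∀ l l' : (κ → K) →ₗ[K] K, l v * l' w ≠ l w * l' v →
    ∃ z z' : κ → ℤ, SmallKer rows (H ^ c) z ∧ SmallKer rows (H ^ c) z' ∧
      l (fun i => (z i : K)) * l' (fun i => (z' i : K)) ≠
        l (fun i => (z' i : K)) * l' (fun i => (z i : K)) := by
  sorry

/-- a nonzero bivariate polynomial through rational points can be taken integral and small -/
theorem exists_small_biv (D : ℕ) : ∃ c : ℕ, ∀ (K : Type) [Field K] [CharZero K] (H : ℝ), 2 ≤ H →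
    ∀ (G : K[X][X]), G ≠ 0 → DegLE D G → ∀ S : Set (ℚ × ℤ),
    (∀ z ∈ S, HtQ H z.1 ∧ |(z.2 : ℝ)| ≤ H ∧ G.evalEval (z.1 : K) (z.2 : K) = 0) →
    ∃ G' : ℤ[X][X], G' ≠ 0 ∧ DegLE D G' ∧ (∀ i j, |(((G'.coeff i).coeff j : ℤ) : ℝ)| ≤ H ^ c) ∧
      ∀ z ∈ S, evZ G' z.1 (z.2 : ℚ) = 0 := by
  sorry

end Crest.Agent.R22
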