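import Crest.Agent.R22.CModelUp

set_option autoImplicit false
open Polynomial

namespace Crest.Agent.R22

open Module

variable {F : Type} [Field F] {d : ℕ}

theorem Model.mul_le (θ : Fin d → F) {β : Fin d → F[X]} (hβ : LinForms β) (k D D' m m' : ℕ) :
    Model θ β k D (m + 1) * Model θ β k D' (m' + 1) ≤ Model θ β k (D + D') (m + m' + 1) := by
  sorry

theorem Mono.le_model (θ : Fin d → F) {β : Fin d → F[X]} (hβ : LinForms β) (k D E : ℕ) :
    Mono θ β k D E ≤ Model θ β k D (E + k * (d - 1) * D + 1) := by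
  sorry

/-- Partial fractions: for pairwise coprime `g i` of degree `k` (`i ∈ s`, `s` nonempty) every polynomial of
degree `≤ E + k (|s| - 1)` is `∑ a i ∏_{l ≠ i} g l` with `deg (a i) ≤ E`, provided `k ≤ E + 1`
(injectivity on `deg < k` plus a dimension count, or induction on `s`). -/
theorem partial_fractions {ι : Type} [DecidableEq ι] (s : Finset ι) (hs : s.Nonempty)
    (g : ι → F[X]) (k E : ℕ) (hk : k ≤ E + 1) (hg : ∀ i ∈ s, (g i).natDegree = k ∧ g i ≠ 0)
    (hc : ∀ i ∈ s, ∀ l ∈ s, i ≠ l → IsCoprime (g i) (g l)) (P : F[X])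
    (hP : P.natDegree ≤ E + k * (s.card - 1)) :
    ∃ a : ι → F[X], (∀ i, (a i).natDegree ≤ E) ∧ P = ∑ i ∈ s, a i * ∏ l ∈ s.erase i, g l := by
  sorry

/-- Lower bound: induction on `D`; `muP j0 · Mono D E` lies in the kernel of the restriction to
`n = θ_{j0}` on `Mono (D+1) E`, whose image is `β_{j0}^(k (D+1)) · {deg ≤ E + k (d-2) (D+1)}` by
`partial_fractions` (applied `D + 1` times to `β_l^k`, `l ≠ j0`). -/
theorem Mono.le_finrank {θ : Fin d → F} (hθ : Function.Injective θ) {β : Fin d → F[X]}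
    (hβ : LinForms β) (hd : 2 ≤ d) (k D E : ℕ) (hE : k ≤ E + 1) :
    ∑ i ∈ Finset.range (D + 1), (E + 1 + k * (d - 2) * i) ≤ finrank F (Mono θ β k D E) := by
  sorry

theorem Mono.eq_model {θ : Fin d → F} (hθ : Function.Injective θ) {β : Fin d → F[X]}
    (hβ : LinForms β) (hd : 2 ≤ d) (k D E : ℕ) (hE : k ≤ E + 1) :
    Mono θ β k D E = Model θ β k D (E + k * (d - 1) * D + 1) ∧
    finrank F (Mono θ β k D E) = ∑ i ∈ Finset.range (D + 1), (E + 1 + k * (d - 2) * i) := by
  sorry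

end Crest.Agent.R22
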