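import Crest.Agent.R22.CDefs

set_option autoImplicit false
open Polynomial

namespace Crest.Agent.R22

open Module

variable {F : Type} [Field F] {d : ℕ}

theorem Model.fd (θ : Fin d → F) (β : Fin d → F[X]) (k D m : ℕ) :
    FiniteDimensional F (Model θ β k D m) := by
  sorry

/-- divisibility of the Taylor coefficients in terms of a substitution -/
theorem dvd_comp_iff (G : F[X][X]) (a : F) (b : F[X]) (hb : b ≠ 0) (k c : ℕ) :
    C (b ^ c) ∣ G.comp (C (C a) + C (b ^ k) * X) ↔
      ∀ i, b ^ (c - k * i) ∣ (taylor (C a) G).coeff i := by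
  sorry

/-- an element of `Model (D+1) m` of degree `≤ D` in `n` is divisible by `∏ β_j^k` -/
theorem Model.level (θ : Fin d → F) {β : Fin d → F[X]} (hβ : LinForms β) (k D m : ℕ) (G : F[X][X])
    (hG : G ∈ Model θ β k (D + 1) m) (h : G.natDegree ≤ D) :
    ∃ G' ∈ Model θ β k D (m - k * d), G = C (∏ j, β j ^ k) * G' := by
  sorry

/-- an element of `Model (D+1) m` vanishing on `n = θ_j` is divisible by `muP j` -/
theorem Model.restrict {θ : Fin d → F} (hθ : Function.Injective θ) {β : Fin d → F[X]}
    (hβ : LinForms β) (k D m : ℕ) (j : Fin d) (G : F[X][X]) (hG : G ∈ Model θ β k (D + 1) m)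
    (h : G.eval (C (θ j)) = 0) :
    ∃ G' ∈ Model θ β k D (m - k * (d - 1)), G = muP θ β k j * G' := by
  sorry

/-- Upper bound: induction on `D`; the restriction to `n = θ_j` takes values in
`β_j^(k D) · {deg < m - k D}`, the kernel is described by `Model.restrict`. -/
theorem Model.finrank_le {θ : Fin d → F} (hθ : Function.Injective θ) {β : Fin d → F[X]}
    (hβ : LinForms β) (hd : 2 ≤ d) (k D m : ℕ) :
    finrank F (Model θ β k D m) ≤
      ∑ i ∈ Finset.range (D + 1), (m + k * (d - 2) * i - k * (d - 1) * D) := by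
  sorry

/-- Rank of the top `I + 1` coefficients in `n` on the model (used by the surface step): the map
`G ↦ (coeff (D - i) G)_{i ≤ I}` has rank at most `∑_{i ≤ I} (m - k d i)`. -/
theorem Model.finrank_top (θ : Fin d → F) {β : Fin d → F[X]} (hβ : LinForms β) (k D m I : ℕ)
    (hI : I ≤ D) (V : Type) [AddCommGroup V] [Module F V] (T : F[X][X] →ₗ[F] V)
    (hT : ∀ G ∈ Model θ β k D m, (∀ i ≤ I, G.coeff (D - i) = 0) → T G = 0) :
    finrank F ((Model θ β k D m).map T) ≤ ∑ i ∈ Finset.range (I + 1), (m - k * d * i) := by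
  sorry

end Crest.Agent.R22
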