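import Crest.Agent.R22.Ker

set_option autoImplicit false
open Polynomial IntermediateField

namespace Crest.Agent.R22

variable {d : ℕ}

/-- If all maximal minors vanish, the rows are dependent. -/
theorem exists_rel_of_det {ι Z K : Type*} [Fintype ι] [DecidableEq ι] [Field K]
    (val : ι → Z → K) (h : ∀ z : ι → Z, (Matrix.of fun a b => val a (z b)).det = 0) :
    ∃ lam : ι → K, lam ≠ 0 ∧ ∀ z, ∑ a, lam a * val a z = 0 := by
  by_cases hs : Submodule.span K (Set.range fun z a => val a z) = ⊤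
  · obtain ⟨κ, g, -, h1, h2⟩ := exists_linearIndependent' K fun z a => val a z
    let e : κ ≃ ι := (Module.Basis.mk h2 (h1.trans hs).ge).indexEquiv (Pi.basisFun K ι)
    have h3 : IsUnit (Matrix.of fun a b => val a (g (e.symm b))) :=
      Matrix.linearIndependent_cols_iff_isUnit.1 (h2.comp e.symm e.symm.injective)
    exact absurd (h _) ((Matrix.isUnit_iff_isUnit_det _).1 h3).ne_zero
  · obtain ⟨f, hf, hle⟩ := Submodule.exists_le_ker_of_lt_top _ (lt_top_iff_ne_top.2 hs)
    refine ⟨fun a => f (Pi.single a 1), fun h0 => hf ?_, fun z => ?_⟩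
    · exact (Pi.basisFun K ι).ext fun a => by
        rw [Pi.basisFun_apply]
        exact congrFun h0 a
    · have h1 : f (fun a => val a z) = 0 := hle (Submodule.subset_span ⟨z, rfl⟩)
      rw [LinearMap.pi_apply_eq_sum_univ] at h1
      rw [← h1]
      refine Finset.sum_congr rfl fun a _ => ?_
      rw [smul_eq_mul, mul_comm]
      refine congrArg (fun g => val a z * f g) (_root_.funext fun b => ?_)
      rw [Pi.single_apply]
      exact if_congr eq_comm rfl rfl

theorem LinAlg_sum_perm {ι : Type*} [Fintype ι] [DecidableEq ι] {x : ℂ}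
    (t : Equiv.Perm ι → ℂ) (B : ℝ) (hx : x = ∑ σ, ((Equiv.Perm.sign σ : ℤ) : ℂ) * t σ)
    (h : ∀ σ, ‖t σ‖ ≤ B) : ‖x‖ ≤ (Fintype.card ι).factorial * B := by
  rw [hx]
  refine (norm_sum_le _ _).trans ((Finset.sum_le_card_nsmul _ _ B fun σ _ => ?_).trans_eq ?_)
  · rw [norm_mul]
    rcases Int.units_eq_one_or (Equiv.Perm.sign σ) with h1 | h1 <;> simpa [h1] using h σ
  · rw [Finset.card_univ, Fintype.card_perm, nsmul_eq_mul]

/-- Crude bound with row sizes. -/
theorem det_le_rows {ι : Type*} [Fintype ι] [DecidableEq ι] (A : Matrix ι ι ℂ) (r : ι → ℝ)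
    (h : ∀ a b, ‖A a b‖ ≤ r a) : ‖A.det‖ ≤ (Fintype.card ι).factorial * ∏ a, r a := by
  refine LinAlg_sum_perm _ _ (Matrix.det_apply' A) fun σ => ?_
  rw [norm_prod, ← Equiv.prod_comp σ r]
  exact Finset.prod_le_prod (fun _ _ => norm_nonneg _) fun i _ => h _ _

/-- Column multilinearity (`A = Cf * V`):
`det A = ∑_φ det (Cf a (φ b)) ∏_b V (φ b) b`; a term with nonzero minor has `φ` injective. -/
theorem det_le_abstract {ι μ : Type*} [Fintype ι] [DecidableEq ι] [Fintype μ]
    (Cf : ι → μ → ℂ) (V : μ → ι → ℂ) (K Bd : ℝ) (hK : 0 ≤ K) (hB : 0 ≤ Bd)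
    (hC : ∀ a m, ‖Cf a m‖ ≤ K)
    (hV : ∀ φ : ι → μ, Function.Injective φ → (Matrix.of fun a b => Cf a (φ b)).det ≠ 0 →
      ∏ b, ‖V (φ b) b‖ ≤ Bd) :
    ‖(Matrix.of fun a b => ∑ m, Cf a m * V m b).det‖ ≤
      (Fintype.card μ : ℝ) ^ Fintype.card ι * (Fintype.card ι).factorial * K ^ Fintype.card ι * Bd := by
  classical
  have h1 : (Matrix.of fun a b => ∑ m, Cf a m * V m b).det =
      ∑ φ : ι → μ, (Matrix.of fun a b => Cf a (φ b)).det * ∏ b, V (φ b) b := by
    simp only [Matrix.det_apply', Matrix.of_apply, Finset.prod_univ_sum, Fintype.piFinset_univ,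
      Finset.mul_sum, Finset.sum_mul, Finset.prod_mul_distrib, mul_assoc]
    exact Finset.sum_comm
  rw [h1]
  refine (norm_sum_le _ _).trans ((Finset.sum_le_card_nsmul _ _
    ((Fintype.card ι).factorial * K ^ Fintype.card ι * Bd) fun φ _ => ?_).trans_eq ?_)
  · by_cases h0 : (Matrix.of fun a b => Cf a (φ b)).det = 0
    · rw [h0, zero_mul, norm_zero]
      positivity
    · have h2 := det_le_rows (Matrix.of fun a b => Cf a (φ b)) (fun _ => K) fun a b => hC a _
      rw [Finset.prod_const, Finset.card_univ] at h2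
      rw [norm_mul, norm_prod]
      refine mul_le_mul h2 (hV φ (fun i j hij => by_contra fun hne => h0 ?_) h0)
        (Finset.prod_nonneg fun _ _ => norm_nonneg _) (by positivity)
      exact Matrix.det_zero_of_column_eq hne fun a => by rw [Matrix.of_apply, Matrix.of_apply, hij]
  · rw [Finset.card_univ, Fintype.card_fun, nsmul_eq_mul]
    push_cast
    ring

theorem LinAlg_prod_sub {ι : Type*} {a b : ι → ℂ} {K e : ℝ} (hK : 1 ≤ K) (ha : ∀ i, ‖a i‖ ≤ K)
    (hb : ∀ i, ‖b i‖ ≤ K) (he : ∀ i, ‖a i - b i‖ ≤ e) (s : Finset ι) :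
    ‖∏ i ∈ s, a i - ∏ i ∈ s, b i‖ ≤ s.card * (K ^ s.card * e) := by
  induction s using Finset.cons_induction with
  | empty => simp
  | cons j s hj ih =>
    have h0 : 0 ≤ e := (norm_nonneg _).trans (he j)
    have h1 : ‖∏ i ∈ s, a i‖ ≤ K ^ s.card := by
      rw [norm_prod, ← Finset.prod_const]
      exact Finset.prod_le_prod (fun _ _ => norm_nonneg _) fun i _ => ha i
    rw [Finset.prod_cons, Finset.prod_cons, Finset.card_cons,
      show a j * ∏ i ∈ s, a i - b j * ∏ i ∈ s, b i =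
        (a j - b j) * ∏ i ∈ s, a i + b j * (∏ i ∈ s, a i - ∏ i ∈ s, b i) by ring]
    refine (norm_add_le _ _).trans ?_
    rw [norm_mul, norm_mul, pow_succ]
    push_cast
    have h2 := mul_le_mul (he j) h1 (norm_nonneg _) h0
    have h3 := mul_le_mul (hb j) ih (norm_nonneg _) (by linarith)
    nlinarith [mul_le_mul_of_nonneg_left hK (show 0 ≤ K ^ s.card * e by positivity)]

/-- Perturbation of a determinant. -/
theorem det_sub_le {ι : Type*} [Fintype ι] [DecidableEq ι] (A A' : Matrix ι ι ℂ) (K e : ℝ)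
    (hK : 1 ≤ K) (hA : ∀ a b, ‖A a b‖ ≤ K) (hA' : ∀ a b, ‖A' a b‖ ≤ K)
    (he : ∀ a b, ‖A a b - A' a b‖ ≤ e) :
    ‖A.det - A'.det‖ ≤ (Fintype.card ι).factorial * Fintype.card ι * K ^ Fintype.card ι * e := by
  rw [mul_assoc, mul_assoc]
  refine LinAlg_sum_perm (fun σ => ∏ i, A (σ i) i - ∏ i, A' (σ i) i) _ ?_ fun σ => ?_
  · simp only [Matrix.det_apply', mul_sub, Finset.sum_sub_distrib]
  · exact LinAlg_prod_sub hK (fun i => hA _ _) (fun i => hA' _ _) (fun i => he _ _) _

end Crest.Agent.R22
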