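import Crest.Agent.R22.Basic
import Crest.Agent.R22.LinAlg
import Crest.Agent.R22.Bezout

set_option autoImplicit false
open Polynomial IntermediateField

namespace Crest.Agent.R22

variable {d : ℕ}

theorem CNF.unit {h : ℂ[X][X]} (h0 : h ≠ 0) (h1 : h.natDegree = 0) (h2 : degT h = 0) :
    IsUnit h := by
  have h3 : h.coeff 0 ≠ 0 := fun e => h0 (by rw [eq_C_of_natDegree_eq_zero h1, e, C_0])
  have h4 : (h.coeff 0).natDegree = 0 := Nat.le_zero.1
    ((Finset.le_sup (f := fun i => (h.coeff i).natDegree) (mem_support_iff.2 h3)).trans h2.le)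
  rw [eq_C_of_natDegree_eq_zero h1, isUnit_C, eq_C_of_natDegree_eq_zero h4, isUnit_C]
  exact Ne.isUnit fun e => h3 (by rw [eq_C_of_natDegree_eq_zero h4, e, C_0])

theorem CNF.hev2_eq {R S : Type*} [CommRing R] [CommRing S] [Algebra R S] {g : R[X][X]} {E : ℕ}
    (hg : g.natDegree ≤ E) (x y n : S) :
    hev2 g E x y n = ∑ p : Fin (E + 1) × Fin (E + 1), x ^ p.2.val * y ^ (E - p.2.val) *
      n ^ p.1.val * algebraMap R S ((g.coeff p.1).coeff p.2) := by
  rw [hev2, Finset.sum_subset (supp_subset_range (Nat.lt_succ_of_le hg)) fun i _ hi => by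
    simp [notMem_support_iff.1 hi, hev], Fintype.sum_prod_type, Finset.sum_range]
  refine Finset.sum_congr rfl fun j _ => ?_
  rw [hev, Finset.sum_range, Finset.sum_mul]
  exact Finset.sum_congr rfl fun i _ => by ring

theorem CNF.hev2_eval {g : ℂ[X][X]} {E : ℕ} (hg : DegLE g E) (x y n : ℂ) (hy : y ≠ 0) :
    hev2 g E x y n = y ^ E * g.evalEval (x / y) n := by
  rw [hev2, evalEval, eval_eq_sum (p := g), Polynomial.sum, eval_finsetSum, Finset.mul_sum]
  refine Finset.sum_congr rfl fun i _ => ?_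
  rw [hev_eq_eval _ _ (hg.2 i) _ _ hy, coe_aeval_eq_eval, eval_mul, eval_pow, eval_C, mul_assoc]

theorem CNF.irr (E : ℕ) : ∃ C : ℕ, ∀ g : ℂ[X][X], Irreducible g → DegLE g E → ∀ H : ℝ, 2 ≤ H →
    ∀ {ι : Type} (S : Finset ι) (x y n : ι → ℤ), (∀ P ∈ S, ∀ Q ∈ S, n P = n Q → P = Q) →
      (∀ P ∈ S, y P ≠ 0 ∧ |(x P : ℝ)| ≤ H ∧ |(y P : ℝ)| ≤ H ∧ |(n P : ℝ)| ≤ H ∧
        g.evalEval ((x P : ℂ) / y P) (n P : ℂ) = 0) →
      S.card ≤ C ∨ ∃ g', Curve g' E (H ^ C) ∧ ∀ P ∈ S, hev2 g' E (x P) (y P) (n P) = 0 := by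
  classical
  obtain ⟨C1, h1⟩ := bezout E
  obtain ⟨C2, h2⟩ := ker_bounded.{0, 0} (Fin (E + 1) × Fin (E + 1))
  refine ⟨C1 + (2 * E + 1) * C2, fun g hg hE H hH ι S x y n hn hS => ?_⟩
  have hH1 : 1 ≤ H := by linarith
  have hH2 : 2 ≤ H ^ (2 * E + 1) := hH.trans (le_self_pow₀ hH1 (by omega))
  let A : S ⊕ Fin (E + 1) × Fin (E + 1) → Fin (E + 1) × Fin (E + 1) → ℤ := fun z p =>
    match z with
    | .inl P => x P ^ p.2.val * y P ^ (E - p.2.val) * n P ^ p.1.val
    | .inr q => if p = q ∧ (g.natDegree < q.1.val ∨ degT g < q.2.val) then 1 else 0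
  have hA : ∀ z p, |(A z p : ℝ)| ≤ H ^ (2 * E + 1) := by
    rintro (P | q) p
    · obtain ⟨-, a1, a2, a3, -⟩ := hS P P.2
      have : 2 * E + 1 = p.2.val + (E - p.2.val) + p.1.val + (E + 1 - p.1.val) := by omega
      simp only [A]
      push_cast
      rw [this, pow_add, pow_add, pow_add, abs_mul, abs_mul, abs_pow, abs_pow, abs_pow]
      refine le_trans ?_ (le_mul_of_one_le_right (by positivity) (one_le_pow₀ hH1))
      gcongr
    · simp only [A]
      split_ifs
      · simpa using one_le_pow₀ hH1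
      · simpa using pow_nonneg (by linarith) _
  have hv := h2 _ A _ hH2 hA (fun p => (g.coeff p.1).coeff p.2) (by
    rintro (P | q)
    · obtain ⟨a0, -, -, -, a4⟩ := hS P P.2
      have := CNF.hev2_eval hE (x P) (y P) (n P) (by exact_mod_cast a0)
      rw [a4, mul_zero, CNF.hev2_eq hE.1] at this
      simpa [A] using this
    · rw [Finset.sum_eq_single q (fun p _ hp => by simp [A, hp]) (by simp)]
      simp only [A, true_and]
      split_ifs with h
      · rcases h with h | h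
        · simp [coeff_eq_zero_of_natDegree_lt h]
        · by_cases h0 : g.coeff q.1 = 0
          · simp [h0]
          · rw [coeff_eq_zero_of_natDegree_lt (lt_of_le_of_lt (Finset.le_sup
              (f := fun i => (g.coeff i).natDegree) (mem_support_iff.2 h0)) h), mul_zero]
      · simp)
  obtain ⟨w, hw0, hw1, hw2⟩ : ∃ w : Fin (E + 1) × Fin (E + 1) → ℤ, w ≠ 0 ∧
      (∀ z, ∑ i, A z i * w i = 0) ∧ ∀ i, |(w i : ℝ)| ≤ (H ^ (2 * E + 1)) ^ C2 := by
    by_contra hc
    rw [Submodule.span_eq_bot.2, Submodule.mem_bot] at hv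
    · refine hg.ne_zero (Polynomial.ext fun j => Polynomial.ext fun i => ?_)
      by_cases a1 : j < E + 1
      · by_cases a2 : i < E + 1
        · simpa using congrFun hv (⟨j, a1⟩, ⟨i, a2⟩)
        · simpa using coeff_eq_zero_of_natDegree_lt (lt_of_le_of_lt (hE.2 j) (by omega))
      · simp [coeff_eq_zero_of_natDegree_lt (lt_of_le_of_lt hE.1 (by omega : E < j))]
    · rintro w' ⟨w, a1, a2, a3⟩
      obtain rfl : w = 0 := by_contra fun h => hc ⟨w, h, a2, a3⟩
      exact funext fun i => by simp [a1]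
  let g' : ℤ[X][X] := ∑ p : Fin (E + 1) × Fin (E + 1), monomial p.1 (monomial p.2 (w p))
  have c1 : ∀ j i, (g'.coeff j).coeff i =
      if h : j < E + 1 ∧ i < E + 1 then w (⟨j, h.1⟩, ⟨i, h.2⟩) else 0 := by
    intro j i
    simp only [g', finsetSum_coeff, coeff_monomial, apply_ite (fun p : ℤ[X] => p.coeff i),
      coeff_zero]
    split_ifs with h
    · rw [Finset.sum_eq_single (⟨j, h.1⟩, ⟨i, h.2⟩) (fun p _ hp => ?_) (by simp)]
      · simp
      · split_ifs with a1 a2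
        · exact absurd (Prod.ext (Fin.ext a1) (Fin.ext a2)) hp
        all_goals rfl
    · refine Finset.sum_eq_zero fun p _ => ?_
      split_ifs with a1 a2
      · exact absurd ⟨a1 ▸ p.1.2, a2 ▸ p.2.2⟩ h
      all_goals rfl
  have c2 : ∀ j i, g.natDegree < j ∨ degT g < i → (g'.coeff j).coeff i = 0 := by
    intro j i h
    rw [c1]
    split_ifs with a
    · have := hw1 (.inr (⟨j, a.1⟩, ⟨i, a.2⟩))
      rw [Finset.sum_eq_single (⟨j, a.1⟩, ⟨i, a.2⟩) (fun p _ hp => by simp [A, hp])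
        (by simp)] at this
      simpa [A, h] using this
    · rfl
  have c3 : g'.natDegree ≤ g.natDegree :=
    natDegree_le_iff_coeff_eq_zero.2 fun j hj => Polynomial.ext fun i => c2 j i (.inl hj)
  have c4 : ∀ j, (g'.coeff j).natDegree ≤ degT g := fun j =>
    natDegree_le_iff_coeff_eq_zero.2 fun i hi => c2 j i (.inr hi)
  have c5 : DegLE g' E := ⟨c3.trans hE.1, fun j => (c4 j).trans (Finset.sup_le fun i _ => hE.2 i)⟩
  have c6 : ∀ P ∈ S, hev2 g' E (x P) (y P) (n P) = 0 := fun P hP => by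
    rw [CNF.hev2_eq c5.1, ← hw1 (.inl ⟨P, hP⟩)]
    refine Finset.sum_congr rfl fun p _ => ?_
    rw [c1, dif_pos ⟨p.1.2, p.2.2⟩]
    rfl
  have c7 : toC2 g' ≠ 0 := fun h => hw0 (funext fun p => by
    have := congrArg (fun q : ℂ[X][X] => (q.coeff p.1).coeff p.2) h
    simpa [toC2, c1, p.1.is_le, p.2.is_le] using this)
  by_cases hd : g ∣ toC2 g'
  · refine .inr ⟨g', ⟨?_, c5, fun j i => ?_⟩, c6⟩
    · obtain ⟨h, e⟩ := hd
      have h0 : h ≠ 0 := fun a => c7 (by rw [e, a, mul_zero])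
      have a1 := natDegree_mul hg.ne_zero h0
      have a2 := degT_mul hg.ne_zero h0
      have a3 : degT (toC2 g') ≤ degT g := Finset.sup_le fun j _ => by
        rw [toC2, coeff_map, coe_mapRingHom]
        exact natDegree_map_le.trans (c4 j)
      rw [← e] at a1 a2
      rw [natDegree_toC2] at a1
      rw [e]
      exact (irreducible_mul_isUnit (CNF.unit h0 (by omega) (by omega))).2 hg
    · rw [c1]
      split_ifs
      · refine (hw2 _).trans ?_
        rw [← pow_mul]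
        exact pow_le_pow_right₀ hH1 (by omega)
      · simpa using pow_nonneg (by linarith) _
  · refine .inl (le_trans ?_ (Nat.le_add_right _ _))
    rw [← Finset.card_image_of_injOn (f := fun P => (((x P : ℂ) / y P, (n P : ℂ)) : ℂ × ℂ))
      fun P hP Q hQ e => hn P hP Q hQ (Int.cast_injective (α := ℂ) (Prod.ext_iff.1 e).2)]
    refine h1 g _ hg hd hE (degLE_toC2 c5) _ fun z hz => ?_
    obtain ⟨P, hP, rfl⟩ := Finset.mem_image.1 hz
    have a0 := (hS P hP).1
    have := hev2_cast g' E c5.2 (x P) (y P) (n P) a0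
    rw [c6 P hP, Int.cast_zero] at this
    exact ⟨(hS P hP).2.2.2.2, (mul_eq_zero.1 this.symm).resolve_left
      (pow_ne_zero _ (by exact_mod_cast a0))⟩

/-- Curve normal form. Factor `g0` into `≤ 2E` irreducibles. For a factor `g` with more than the
Bezout bound of points: by `ker_bounded` (unknowns: coefficients of bidegree
`≤ (degT g, natDegree g)`, equations: the points, entries `x^i y^(E-i) n^j`) there is a nonzero
integer polynomial `g'` of at most that bidegree vanishing at the points; `g ∣ g'` by `bezout`, and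
comparing bidegrees `g'` is a constant multiple of `g`. -/
theorem cnf (E : ℕ) : ∃ C : ℕ, ∀ g0 : ℂ[X][X], g0 ≠ 0 → DegLE g0 E → ∀ H : ℝ, 2 ≤ H →
    ∀ {ι : Type} (S : Finset ι) (x y n : ι → ℤ), (∀ P ∈ S, ∀ Q ∈ S, n P = n Q → P = Q) →
      (∀ P ∈ S, y P ≠ 0 ∧ |(x P : ℝ)| ≤ H ∧ |(y P : ℝ)| ≤ H ∧ |(n P : ℝ)| ≤ H ∧
        g0.evalEval ((x P : ℂ) / y P) (n P : ℂ) = 0) →
      ∃ (G : Finset ℤ[X][X]) (S0 : Finset ι), G.card ≤ C ∧ S0.card ≤ C ∧
        (∀ g ∈ G, Curve g E (H ^ C)) ∧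
        ∀ P ∈ S, P ∉ S0 → ∃ g ∈ G, hev2 g E (x P) (y P) (n P) = 0 := by
  classical
  obtain ⟨C1, h1⟩ := CNF.irr E
  refine ⟨2 * E * (C1 + 1) + C1, fun g0 h0 hE H hH ι S x y n hn hS => ?_⟩
  have key : ∀ (m : ℕ) (g0 : ℂ[X][X]), g0 ≠ 0 → DegLE g0 E → g0.natDegree + degT g0 ≤ m →
      ∀ S : Finset ι, (∀ P ∈ S, ∀ Q ∈ S, n P = n Q → P = Q) →
      (∀ P ∈ S, y P ≠ 0 ∧ |(x P : ℝ)| ≤ H ∧ |(y P : ℝ)| ≤ H ∧ |(n P : ℝ)| ≤ H ∧
        g0.evalEval ((x P : ℂ) / y P) (n P : ℂ) = 0) →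
      ∃ (G : Finset ℤ[X][X]) (S0 : Finset ι), G.card ≤ m ∧ S0.card ≤ m * C1 ∧
        (∀ g ∈ G, Curve g E (H ^ C1)) ∧
        ∀ P ∈ S, P ∉ S0 → ∃ g ∈ G, hev2 g E (x P) (y P) (n P) = 0 := by
    intro m
    induction m using Nat.strong_induction_on with
    | _ m ih =>
    intro g0 h0 hE hm S hn hS
    by_cases hu : IsUnit g0
    · refine ⟨∅, ∅, by simp, by simp, by simp, fun P hP _ => ?_⟩
      exact absurd (hS P hP).2.2.2.2 (hu.map (evalEvalRingHom _ _)).ne_zero
    obtain ⟨g, hg, h, rfl⟩ := WfDvdMonoid.exists_irreducible_factor hu h0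
    have hh : h ≠ 0 := right_ne_zero_of_mul h0
    have a1 := natDegree_mul hg.ne_zero hh
    have a2 := degT_mul hg.ne_zero hh
    have a3 : 0 < g.natDegree + degT g := Nat.pos_of_ne_zero fun e =>
      hg.not_isUnit (CNF.unit hg.ne_zero (by omega) (by omega))
    obtain ⟨m, rfl⟩ : ∃ m', m = m' + 1 := ⟨m - 1, by omega⟩
    obtain ⟨G, S0, b1, b2, b3, b4⟩ := ih m (by omega) h hh (hE.of_dvd h0 (dvd_mul_left _ _))
      (by omega) (S.filter fun P => h.evalEval ((x P : ℂ) / y P) (n P : ℂ) = 0)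
      (fun P hP Q hQ => hn P (Finset.mem_filter.1 hP).1 Q (Finset.mem_filter.1 hQ).1)
      fun P hP => by
        obtain ⟨hP, e⟩ := Finset.mem_filter.1 hP
        obtain ⟨e1, e2, e3, e4, -⟩ := hS P hP
        exact ⟨e1, e2, e3, e4, e⟩
    have b5 : ∀ P ∈ S, P ∈ S.filter (fun P => g.evalEval ((x P : ℂ) / y P) (n P : ℂ) = 0) ∨
        P ∈ S.filter fun P => h.evalEval ((x P : ℂ) / y P) (n P : ℂ) = 0 := fun P hP => by
      simpa [hP, evalEval_mul] using (hS P hP).2.2.2.2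
    rcases h1 g hg (hE.of_dvd h0 (dvd_mul_right _ _)) H hH
      (S.filter fun P => g.evalEval ((x P : ℂ) / y P) (n P : ℂ) = 0) x y n
      (fun P hP Q hQ => hn P (Finset.mem_filter.1 hP).1 Q (Finset.mem_filter.1 hQ).1)
      (fun P hP => by
        obtain ⟨hP, e⟩ := Finset.mem_filter.1 hP
        obtain ⟨e1, e2, e3, e4, -⟩ := hS P hP
        exact ⟨e1, e2, e3, e4, e⟩) with b6 | ⟨g', b6, b7⟩
    · refine ⟨G, S0 ∪ _, by omega, (Finset.card_union_le _ _).trans
        ((add_le_add b2 b6).trans (by rw [add_mul, one_mul])), b3, fun P hP hP0 => ?_⟩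
      rw [Finset.mem_union, not_or] at hP0
      exact b4 P ((b5 P hP).resolve_left hP0.2) hP0.1
    · refine ⟨insert g' G, S0, (Finset.card_insert_le _ _).trans (by omega),
        b2.trans (Nat.mul_le_mul_right _ (by omega)), fun g hg => ?_, fun P hP hP0 => ?_⟩
      · rcases Finset.mem_insert.1 hg with rfl | hg
        exacts [b6, b3 g hg]
      · rcases b5 P hP with e | e
        · exact ⟨g', Finset.mem_insert_self _ _, b7 P e⟩
        · obtain ⟨g, e1, e2⟩ := b4 P e hP0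
          exact ⟨g, Finset.mem_insert_of_mem e1, e2⟩
  obtain ⟨G, S0, b1, b2, b3, b4⟩ := key (2 * E) g0 h0 hE (by
    have := hE.1
    have : degT g0 ≤ E := Finset.sup_le fun i _ => hE.2 i
    omega) S hn hS
  rw [mul_add, mul_one]
  refine ⟨G, S0, by omega, by omega, fun g hg => ⟨(b3 g hg).irr, (b3 g hg).deg, fun j i =>
    ((b3 g hg).ht j i).trans (pow_le_pow_right₀ (by linarith) (by omega))⟩, b4⟩

end Crest.Agent.R22
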