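import Crest.Agent.R22.CSmall

set_option autoImplicit false
open Polynomial

namespace Crest.Agent.R22

/-- A polynomial parametrisation of integer vectors by rational parameters can be taken integral,
small and with coprime coordinates.  Divide `b` by the gcd `g` of its coordinates (`b0`, degree
`s0`); put the roots of `g` in `E`.  If there are at most `2 s` further parameter values put them all in
`E`.  Otherwise take a small nonzero integer solution `b'` of degree `≤ s0` of the linear system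
`b' i (ψ) w j = b' j (ψ) w i` (`small_kernel_ne`); `b' i b0 j - b' j b0 i` has more than `2 s0`
roots, so vanishes; with `∑ u j b0 j = 1` get `b' = ρ b0`, `ρ = ∑ u j b' j`, and `ρ` is constant. -/
theorem small_param (s r : ℕ) : ∃ c : ℕ, ∀ (ι : Type) [Fintype ι], Fintype.card ι ≤ r →
    ∀ (K : Type) [Field K] [CharZero K] (H : ℝ), 2 ≤ H → ∀ (α : Type) (Z : Finset α) (ψ : α → ℚ)
    (w : α → ι → ℤ) (b : ι → K[X]), b ≠ 0 → (∀ i, (b i).natDegree ≤ s) →
    (∀ P ∈ Z, HtQ H (ψ P) ∧ w P ≠ 0 ∧ (∀ i, |(w P i : ℝ)| ≤ H) ∧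
      ∃ l : K, ∀ i, (b i).eval (ψ P : K) = l * (w P i : K)) →
    ∃ (E : Finset ℚ) (b' : ι → ℤ[X]), E.card ≤ 3 * s + 1 ∧ (∀ i, SmallP s (H ^ c) (b' i)) ∧
      (∃ u : ι → K[X], ∑ i, u i * (b' i).map (Int.castRingHom K) = 1) ∧
      ∀ P ∈ Z, ψ P ∉ E → ∃ l : ℚ, l ≠ 0 ∧ ∀ i, aeval (ψ P) (b' i) = l * (w P i : ℚ) := by
  sorry

/-- Normalisation of a rational normal curve through integer points.  If the `φ P` take at most
`s` values put them in `E`.  Otherwise choose points `P_1 … P_{s-1}` with distinct `φ`; integer vectors `z` with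
`∑ z i v P_a i = 0` give polynomials `∑ z i M i = ∏ (T - φ_a) (α + β T)`, and `(α, β)` is onto `K²`
(`α`, `β` are linear functionals: coefficients of the quotient by the monic product); by
`small_kernel_two` get `z, z'` small with `α β' ≠ α' β`; `ψ = (z' · v)/(z · v) = (α' + β' φ)/(α + β φ)`,
`φ = (α' - α ψ)/(β ψ - β')`, `M' i = ∑ coeff (M i) l (α' - α T)^l (β T - β')^(s-l)`. -/
theorem normalise (s r : ℕ) (hs : 1 ≤ s) : ∃ c : ℕ, ∀ (κ : Type) [Fintype κ], Fintype.card κ ≤ r →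
    ∀ (K : Type) [Field K] [CharZero K] (H : ℝ), 2 ≤ H → ∀ (α : Type) (Z : Finset α) (φ : α → K)
    (v : α → κ → ℤ) (M : κ → K[X]), (∀ i, (M i).natDegree ≤ s) →
    (∀ Q : K[X], Q.natDegree ≤ s → Q ∈ Submodule.span K (Set.range M)) →
    (∀ P ∈ Z, (∀ i, |(v P i : ℝ)| ≤ H) ∧ ∃ l : K, l ≠ 0 ∧ ∀ i, (v P i : K) = l * (M i).eval (φ P)) →
    ∃ (E : Finset K) (ψ : α → ℚ) (T : K[X] →ₗ[K] K[X]), E.card ≤ s ∧
      (∀ Q : K[X], Q.natDegree ≤ s → (T Q).natDegree ≤ s ∧ (Q ≠ 0 → T Q ≠ 0)) ∧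
      ∀ P ∈ Z, φ P ∉ E → HtQ (H ^ c) (ψ P) ∧ ∃ l : K, l ≠ 0 ∧
        ∀ Q : K[X], Q.natDegree ≤ s → (T Q).eval (ψ P : K) = l * Q.eval (φ P) := by
  sorry

end Crest.Agent.R22
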