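import Crest.Agent.R22.CSmall

set_option autoImplicit false
open Polynomial

namespace Crest.Agent.R22

/-- the Wronskian -/
noncomputable def wr (A B : ℤ[X]) : ℤ[X] := derivative A * B - A * derivative B

/-- `r'(ψ) (ψ' - ψ) den ψ' / den ψ` for `r = A / B`: the derivative of the degree zero function `A / B` at
`(num ψ, den ψ)` in the direction `(num ψ', den ψ')` -/
noncomputable def Qr (A B : ℤ[X]) (ψ ψ' : ℚ) : ℚ :=
  aeval ψ (wr A B) / (aeval ψ B) ^ 2 * ((ψ'.num * ψ.den - ψ.num * ψ'.den : ℤ) : ℚ) / (ψ.den : ℚ) ^ 2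

theorem wr_natDegree_le (A B : ℤ[X]) :
    (wr A B).natDegree ≤ 2 * max A.natDegree B.natDegree - 2 := by
  sorry

theorem Qr_mul (A B : ℤ[X]) (ψ ψ' : ℚ) (hB : aeval ψ B ≠ 0) (hW : wr A B ≠ 0) :
    Qr A B ψ ψ' * (hval (max A.natDegree B.natDegree) B ψ : ℚ) ^ 2 =
      (hval (2 * max A.natDegree B.natDegree - 2) (wr A B) ψ : ℚ) *
        ((ψ'.num * ψ.den - ψ.num * ψ'.den : ℤ) : ℚ) := by
  sorry

/-- the ratio `ℓ(w') / ℓ(w)` of the linear form `ℓ = w1 - α w2` -/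
noncomputable def ratio {K : Type} [Field K] (ψ ψ' : ℚ) (α : K) : K :=
  ((ψ'.num : K) - α * (ψ'.den : K)) / ((ψ.num : K) - α * (ψ.den : K))

/-- Logarithmic derivative.  For `A1 = A - ω B` one has `wr A B = wr A1 B`, and
`Qr = (n - ω) (∑_{α root of A1} ratio α - ∑_{α root of B} ratio α + (deg B - deg A1) den ψ' / den ψ)`. -/
theorem Qr_eq {K : Type} [Field K] [CharZero K] [IsAlgClosed K] (A B : ℤ[X]) (ω n : ℤ) (ψ ψ' : ℚ)
    (hB : aeval ψ B ≠ 0) (hn : aeval ψ A = (n : ℚ) * aeval ψ B) (hω : n ≠ ω) :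
    ((Qr A B ψ ψ' : ℚ) : K) = ((n - ω : ℤ) : K) *
      (((((A - C ω * B).map (Int.castRingHom K)).roots).map (ratio ψ ψ')).sum -
        (((B.map (Int.castRingHom K)).roots).map (ratio ψ ψ')).sum +
        ((B.natDegree : K) - ((A - C ω * B).natDegree : K)) * ((ψ'.den : K) / (ψ.den : K))) := by
  sorry

open Classical in
/-- Archimedean classes: `⌊log₂ |num - α den|⌋` for the complex roots `α` of `A B`, and `⌊log₂ den⌋`.
All these quantities lie in `[X^(-c), X^c]`: the roots are bounded by `1 + X^C0`, and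
`|hval A ψ| ≥ 1`, `|hval B ψ| ≥ 1` are products of them and a leading coefficient. -/
theorem rat_arch (s C0 : ℕ) (ε : ℝ) (hε : 0 < ε) : ∃ C : ℝ, 0 < C ∧ ∀ X : ℝ, 2 ≤ X →
    ∀ (A B : ℤ[X]) (Ψ : Finset ℚ) (n : ℚ → ℤ), SmallP s (X ^ C0) A → SmallP s (X ^ C0) B →
    (∀ ψ ∈ Ψ, HtQ (X ^ C0) ψ ∧ 1 ≤ n ψ ∧ (n ψ : ℝ) ≤ X ∧ aeval ψ B ≠ 0 ∧
      aeval ψ A = (n ψ : ℚ) * aeval ψ B) →
    ∃ (α : Type) (cls : ℚ → α), ((Ψ.image cls).card : ℝ) ≤ C * X ^ ε ∧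
      ∀ ψ ∈ Ψ, ∀ ψ' ∈ Ψ, cls ψ = cls ψ' → |(Qr A B ψ ψ' : ℝ)| ≤ 6 * s * X := by
  sorry

end Crest.Agent.R22
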