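import Crest.Agent.R22.CRatFin
import Crest.Agent.R22.CNum

set_option autoImplicit false
open Polynomial

namespace Crest.Agent.R22

/-- The product formula lemma.  If `ψ, ψ'` are in the same class at every place then `Qr` is an integer of
size `≤ 6 s X < p` divisible by `p` (`Qr_mul`), so `ψ = ψ'`. -/
theorem rat_core (s C0 : ℕ) (ε : ℝ) (hε : 0 < ε) : ∃ C : ℝ, 0 < C ∧ ∀ X : ℝ, 2 ≤ X →
    ∀ (A B : ℤ[X]) (ρ : ℤ) (Ψ : Finset ℚ) (n : ℚ → ℤ) (p : ℚ → ℕ),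
    SmallP s (X ^ C0) A → SmallP s (X ^ C0) B → ρ ≠ 0 → |(ρ : ℝ)| ≤ X ^ C0 →
    (∀ ψ ∈ Ψ, HtQ (X ^ C0) ψ ∧ 1 ≤ n ψ ∧ (n ψ : ℝ) ≤ X ∧ aeval ψ A = (n ψ : ℚ) * aeval ψ B ∧
      hval (max A.natDegree B.natDegree) B ψ ∣ ρ ∧ (p ψ).Prime ∧ 6 * s * X < p ψ ∧
      ¬ (p ψ : ℤ) ∣ ρ ∧ (p ψ : ℤ) ∣ hval (2 * max A.natDegree B.natDegree - 2) (wr A B) ψ ∧
      aeval ψ (wr A B) ≠ 0) →
    (Ψ.card : ℝ) ≤ C * X ^ ε := by
  sorry

/-- `hval B ψ` divides a fixed small integer: Bezout identities for `(A, B)` and for the reversed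
polynomials `reflect N A`, `reflect N B` (also coprime), `num` and `den` being coprime. -/
theorem rat_res (s : ℕ) : ∃ c : ℕ, ∀ (K : Type) [Field K] [CharZero K] [IsAlgClosed K] (H : ℝ), 2 ≤ H →
    ∀ A B : ℤ[X], SmallP s H A → SmallP s H B →
    IsCoprime (A.map (Int.castRingHom K)) (B.map (Int.castRingHom K)) →
    ∃ ρ : ℤ, ρ ≠ 0 ∧ |(ρ : ℝ)| ≤ H ^ c ∧ ∀ (ψ : ℚ) (n : ℤ), aeval ψ A = (n : ℚ) * aeval ψ B →
      hval (max A.natDegree B.natDegree) B ψ ∣ ρ := by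
  sorry

end Crest.Agent.R22
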