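import Crest.Agent.R22.CRatArch
import Crest.Agent.R22.CRoots

set_option autoImplicit false
open Polynomial

namespace Crest.Agent.R22

variable {F : Type} [Field F] [CharZero F] [IsAlgClosed F] {d : ℕ}

/-- `Nb W^m ∈ (Φ, Nb^2)` when every multiple root of `Φ` is a root of `W` and `m ≥ deg Φ`: compare root
multiplicities with `gcd (Φ, Nb^2)`. -/
theorem exists_comb (Φ Nb W : F[X]) (m : ℕ) (hΦ : Φ ≠ 0) (hN : Nb ≠ 0) (hW : W ≠ 0)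
    (hm : Φ.natDegree ≤ m) (h : ∀ γ : F, 2 ≤ Φ.rootMultiplicity γ → W.IsRoot γ) :
    ∃ u y : F[X], u * Φ + y * Nb ^ 2 = Nb * W ^ m := by
  sorry

/-- The prime divides the Wronskian.  `Φ = ∏ (A - θ_j B)` is the integer polynomial
`∑ f_i A^i B^(d-i)`, `Nb = NF(b)` (`Roots.exists_normForm`).  `ρ` is the product of the coefficient of
`T^(d N)` in `Φ` (nonzero by `Roots.lin_ne`; it forces `p ∤ den ψ`), of a Bezout constant for the `b i` (it forces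
`v_p(l) = 0`, so `v_p(Nb(ψ)) = 1`) and of the constant in `ρ Nb W^m = u Φ + y Nb^2` (`small_bezout`). -/
theorem rat_div (R : Roots F d) (hd : 2 ≤ d) (s : ℕ) : ∃ c : ℕ, ∀ H : ℝ, 2 ≤ H →
    ∀ (A B : ℤ[X]) (b : Fin d → ℤ[X]), SmallP s H A → SmallP s H B → (∀ i, SmallP s H (b i)) →
    IsCoprime (A.map (Int.castRingHom F)) (B.map (Int.castRingHom F)) → wr A B ≠ 0 →
    (∃ u : Fin d → F[X], ∑ i, u i * (b i).map (Int.castRingHom F) = 1) →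
    ∃ ρ : ℤ, ρ ≠ 0 ∧ |(ρ : ℝ)| ≤ H ^ c ∧ ∀ (ψ l : ℚ) (n a : ℤ) (p : ℕ) (w : Fin d → ℤ), p.Prime →
      ¬ (p : ℤ) ∣ ρ → aeval ψ A = (n : ℚ) * aeval ψ B → (∀ i, aeval ψ (b i) = l * (w i : ℚ)) →
      ∏ j, cjZ R.θ w j = ((a * p : ℤ) : F) → ¬ (p : ℤ) ∣ a → (p : ℤ) ^ 2 ∣ R.f.eval n →
      (p : ℤ) ∣ hval (2 * max A.natDegree B.natDegree - 2) (wr A B) ψ := by
  sorry

end Crest.Agent.R22
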