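import Crest.Agent.R22.CRatCore
import Crest.Agent.R22.CRatDiv
import Crest.Agent.R22.CParam
import Crest.Agent.R22.CPts

set_option autoImplicit false
open Polynomial

namespace Crest.Agent.R22

variable {F : Type} [Field F] [CharZero F] [IsAlgClosed F] {d : ℕ}

/-- Points on a rational curve.  Apply `small_param` to `(A, B)` with the vectors `(n, 1)` and to `b` with the
vectors `P.b`.  A parameter value determines `[β]`, hence `p` (`Pt.p_eq`), hence at most `d` values of `n`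
(for the finitely many exceptional values where `b(ψ) = 0` or `B(ψ) = 0` use that `A(ψ) = n B(ψ)`,
`b(ψ) = l β` are assumed with `B(ψ) ≠ 0`).  If the Wronskian vanishes identically `n` is constant.  Primes
`p > X` dividing `ρ` are at most `c` in number. -/
theorem ratCount (R : Roots F d) (hd : 2 ≤ d) (k : ℕ) (c0 : ℤ) (s C0 : ℕ) (ε : ℝ) (hε : 0 < ε) :
    ∃ C : ℝ, 0 < C ∧ ∀ X C1 : ℝ, 2 ≤ X → 6 * s + 1 ≤ C1 → ∀ (Z : Finset (Pt d)) (ψ : Pt d → ℚ)
    (A B : F[X]) (b : Fin d → F[X]), A.natDegree ≤ s → B.natDegree ≤ s → b ≠ 0 →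
    (∀ i, (b i).natDegree ≤ s) →
    (∀ P ∈ Z, P.Ok R k c0 C1 X C0 ∧ HtQ (X ^ C0) (ψ P) ∧ B.eval (ψ P : F) ≠ 0 ∧
      A.eval (ψ P : F) = (P.n : F) * B.eval (ψ P : F) ∧
      ∃ l : F, ∀ i, (b i).eval (ψ P : F) = l * (P.b i : F)) →
    (nN Z : ℝ) ≤ C * X ^ ε := by
  sorry

theorem Pt.Ok.mono {R : Roots F d} {k : ℕ} {c0 : ℤ} {C1 C1' X : ℝ} {C0 C0' : ℕ} {P : Pt d}
    (h : P.Ok R k c0 C1 X C0) (hX : 1 ≤ X) (h1 : C1' ≤ C1) (h0 : C0 ≤ C0') :
    P.Ok R k c0 C1' X C0' := by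
  sorry

end Crest.Agent.R22
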