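import Crest.Agent.R22.CSp

set_option autoImplicit false
open Polynomial

namespace Crest.Agent.R22

variable {F : Type} [Field F] [CharZero F]

/-- a valuation subring above `q` (`Ideal.image_subset_nonunits_valuationSubring` for the subring
`range (ℤ → F)` and the ideal generated by `q`) -/
theorem exists_valSub (F : Type) [Field F] [CharZero F] (q : ℕ) (hq : q.Prime) :
    ∃ O : ValuationSubring F, O.valuation (q : F) < 1 := by
  sorry

theorem mem_of_isIntegral (O : ValuationSubring F) {x : F} (hx : IsIntegral ℤ x) : x ∈ O := by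
  sorry

theorem val_int_eq_one (O : ValuationSubring F) {q : ℕ} (hq : q.Prime) (h : O.valuation (q : F) < 1)
    {z : ℤ} (hz : ¬ (q : ℤ) ∣ z) : O.valuation (z : F) = 1 := by
  sorry

theorem val_int_lt_one (O : ValuationSubring F) {q : ℕ} (h : O.valuation (q : F) < 1)
    {z : ℤ} (hz : (q : ℤ) ∣ z) : O.valuation (z : F) < 1 := by
  sorry

theorem val_qunit (O : ValuationSubring F) {q : ℕ} (hq : q.Prime) (h : O.valuation (q : F) < 1)
    {r : ℚ} (hr : QUnit q r) : O.valuation (r : F) = 1 := by
  sorry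

theorem rat_mem (O : ValuationSubring F) {q : ℕ} (hq : q.Prime) (h : O.valuation (q : F) < 1)
    {r : ℚ} (hr : ¬ q ∣ r.den) : (r : F) ∈ O := by
  sorry

theorem not_dvd_den_of_mem (O : ValuationSubring F) {q : ℕ} (hq : q.Prime)
    (h : O.valuation (q : F) < 1) {r : ℚ} (hr : (r : F) ∈ O) : ¬ q ∣ r.den := by
  sorry

/-- valuation of a nonzero integer -/
theorem val_int_eq_pow (O : ValuationSubring F) {q : ℕ} (hq : q.Prime) (h : O.valuation (q : F) < 1)
    {z : ℤ} (hz : z ≠ 0) : O.valuation (z : F) = O.valuation (q : F) ^ (padicValInt q z) := by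
  sorry

theorem q_mem_max (O : ValuationSubring F) {q : ℕ} (h : O.valuation (q : F) < 1) :
    (q : O) ∈ IsLocalRing.maximalIdeal O := by
  sorry

theorem int_dvd_of_dvd (O : ValuationSubring F) {q : ℕ} (hq : q.Prime) (h : O.valuation (q : F) < 1)
    (m : ℕ) (z : ℤ) (hz : (q : O) ^ m ∣ (z : O)) : (q : ℤ) ^ m ∣ z := by
  sorry

/-- a nonzero algebraic `a` divides a nonzero integer in `O` -/
theorem eq_zero_of_forall_dvd [Algebra.IsAlgebraic ℚ F] (O : ValuationSubring F) {q : ℕ}
    (hq : q.Prime) (h : O.valuation (q : F) < 1) (a : O) (ha : ∀ m : ℕ, (q : O) ^ m ∣ a) : a = 0 := by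
  sorry

/-- Construction of a `Branch`.  `I` = series over `O` that have a `q`-adic value at every point;
`B` = its `F`-span; the `F`-span of the pairs `(f, a)` with `Sp q (τ P) f a` is the graph of a linear map
(rescale finitely many coefficients into `O`, then `eq_zero_of_forall_dvd`), extend it to `e P`. -/
theorem exists_branch [Algebra.IsAlgebraic ℚ F] (O : ValuationSubring F) {q : ℕ} (hq : q.Prime)
    (h : O.valuation (q : F) < 1) {ι : Type} (Z : Finset ι) (τ : ι → O)
    (hτ : ∀ P ∈ Z, (q : O) ∣ τ P) :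
    ∃ Br : Branch F q Z, ∀ (f : PowerSeries O) (a : ι → O), (∀ P ∈ Z, Sp (q : O) (τ P) f (a P)) →
      PowerSeries.map O.subtype f ∈ Br.I ∧
        ∀ P ∈ Z, Br.e P (PowerSeries.map O.subtype f) = (a P : F) := by
  sorry

end Crest.Agent.R22
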