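import Crest.Agent.R22.CRatArch
import Crest.Agent.R22.CVal

set_option autoImplicit false
open Polynomial

namespace Crest.Agent.R22

/-- Gauss lemma in a valuation ring: `v(lc) ∏ max(1, v α) ≤ 1`.  The factors `X - α` (`v α ≤ 1`) or
`α⁻¹ X - 1` (`v α > 1`) lie in `O[X]` and are nonzero modulo the maximal ideal, hence so is their product. -/
theorem gauss_val {F : Type} [Field F] [CharZero F] [IsAlgClosed F] (O : ValuationSubring F)
    (A : ℤ[X]) (hA : A ≠ 0) :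
    O.valuation (A.leadingCoeff : F) *
      (((A.map (Int.castRingHom F)).roots).map (fun α => max 1 (O.valuation α))).prod ≤ 1 := by
  sorry

open Classical in
/-- `q`-adic classes.  Work in `F = AlgebraicClosure ℚ` with `O` above `q`, `v = O.valuation`.
`ω = 0` if `q ∤ n`, `ω = 1` if `q ∣ n`, so `v (n - ω) = 1`.  Put `ν_α(ψ) = v(num - α den) / max(1, v α) ≤ 1`,
`ν_∞ = v den`.  From `hval N (A - ω B) ψ = (n - ω) hval N B ψ`, `hval N B ψ ∣ ρ` and `gauss_val` all relevant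
`ν` (roots of `A - ω B` and of `B`; `∞` if one of the degrees is `< N`) are `≥ v ρ = v(q)^e`.  The class of `ψ` is
the flag together with, for each root of `A B (A - B)` and `∞`, the least `j ≤ e` with `j = e ∨ v(q)^j ≤ ν`.
In the same class `v(Δ(w,w')) ≤ max(ν(w), ν(w')) < v(q)^(j-1)`, so `≤ v(q)^j ≤ ν(w)` since `Δ` is an
integer, and then `ν(w') ≤ ν(w)`; conclude with `Qr_eq`. -/
theorem rat_fin (s q : ℕ) (hq : q.Prime) (A B : ℤ[X]) (hA : A.natDegree ≤ s) (hB : B.natDegree ≤ s)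
    (ρ : ℤ) (hρ : ρ ≠ 0) (Ψ : Finset ℚ) (n : ℚ → ℤ)
    (h : ∀ ψ ∈ Ψ, aeval ψ A = (n ψ : ℚ) * aeval ψ B ∧
      hval (max A.natDegree B.natDegree) B ψ ∣ ρ) (hW : wr A B ≠ 0) :
    ∃ (α : Type) (cls : ℚ → α),
      ((Ψ.image cls).card : ℝ) ≤ 2 * (1 + (ρ.natAbs.factorization q : ℝ)) ^ (3 * s + 1) ∧
      ∀ ψ ∈ Ψ, ∀ ψ' ∈ Ψ, cls ψ = cls ψ' → ¬ q ∣ (Qr A B ψ ψ').den := by
  sorry

end Crest.Agent.R22
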