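import Crest.Agent.R22.CKer

set_option autoImplicit false
open Polynomial

namespace Crest.Agent.R22

/-- homogenised value `den^N P(num/den)` -/
noncomputable def hval (N : ℕ) (P : ℤ[X]) (r : ℚ) : ℤ :=
  ∑ i ∈ Finset.range (N + 1), P.coeff i * r.num ^ i * (r.den : ℤ) ^ (N - i)

theorem hval_eq {N : ℕ} {P : ℤ[X]} (h : P.natDegree ≤ N) (r : ℚ) :
    (hval N P r : ℚ) = (r.den : ℚ) ^ N * aeval r P := by
  sorry

theorem hval_le {N : ℕ} {P : ℤ[X]} {r : ℚ} {H H' : ℝ} (hP : ∀ i, |(P.coeff i : ℝ)| ≤ H)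
    (hr : HtQ H' r) : |(hval N P r : ℝ)| ≤ (N + 1) * H * H' ^ N := by
  sorry

theorem SmallP.mono {s s' : ℕ} {H H' : ℝ} {P : ℤ[X]} (h : SmallP s H P) (hs : s ≤ s')
    (hH : H ≤ H') : SmallP s' H' P := by
  sorry

theorem SmallP.add {s : ℕ} {H H' : ℝ} {P Q : ℤ[X]} (h : SmallP s H P) (h' : SmallP s H' Q) :
    SmallP s (H + H') (P + Q) := by
  sorry

theorem SmallP.sub {s : ℕ} {H H' : ℝ} {P Q : ℤ[X]} (h : SmallP s H P) (h' : SmallP s H' Q) :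
    SmallP s (H + H') (P - Q) := by
  sorry

theorem SmallP.mul {s s' : ℕ} {H H' : ℝ} {P Q : ℤ[X]} (h : SmallP s H P) (h' : SmallP s' H' Q) :
    SmallP (s + s') ((s + 1) * H * H') (P * Q) := by
  sorry

theorem SmallP.deriv {s : ℕ} {H : ℝ} {P : ℤ[X]} (h : SmallP s H P) :
    SmallP s (s * H) (derivative P) := by
  sorry

theorem SmallP.pow (s m : ℕ) : ∃ c : ℕ, ∀ (H : ℝ), 2 ≤ H → ∀ P : ℤ[X], SmallP s H P →
    SmallP (s * m) (H ^ c) (P ^ m) := by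
  sorry

/-- substitution of small polynomials in a fixed multivariate polynomial -/
theorem SmallP.eval₂_mv {κ : Type} (NF : MvPolynomial κ ℤ) (s : ℕ) : ∃ s' c : ℕ, ∀ (H : ℝ), 2 ≤ H →
    ∀ w : κ → ℤ[X], (∀ i, SmallP s H (w i)) →
    SmallP s' (H ^ c) (MvPolynomial.eval₂ (Int.castRingHom ℤ[X]) w NF) := by
  sorry

/-- Effective Bezout identity.  Over `K` one may assume `deg u i ≤ 2 s` (if `P i0 ≠ 0` reduce the
other `u i` modulo `P i0`); then apply `small_kernel_fun` to the unknowns (coefficients of `u`, `ρ`)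
of `∑ u i P i - ρ Q = 0` and the functional `ρ`. -/
theorem small_bezout (s r : ℕ) : ∃ c : ℕ, ∀ (ι : Type) [Fintype ι], Fintype.card ι ≤ r →
    ∀ (K : Type) [Field K] [CharZero K] (H : ℝ), 2 ≤ H → ∀ (P : ι → ℤ[X]) (Q : ℤ[X]),
    (∀ i, SmallP s H (P i)) → SmallP s H Q →
    (∃ u : ι → K[X], ∑ i, u i * (P i).map (Int.castRingHom K) = Q.map (Int.castRingHom K)) →
    ∃ (ρ : ℤ) (u : ι → ℤ[X]), ρ ≠ 0 ∧ |(ρ : ℝ)| ≤ H ^ c ∧ ∑ i, u i * P i = C ρ * Q := by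
  sorry

end Crest.Agent.R22
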