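import Crest.Agent.R22.CDefs

set_option autoImplicit false
open Polynomial

namespace Crest.Agent.R22

variable {A : Type} [CommRing A]

/-- `a` is the `q`-adic value of the power series `f` at `τ` (`q ∣ τ`).  It may be convenient to build
the ring homomorphism `A⟦X⟧ →+* A ⧸ span {q^m}`, `f ↦ (trunc m f)(τ)` first. -/
def Sp (q τ : A) (f : PowerSeries A) (a : A) : Prop :=
  ∀ m : ℕ, q ^ m ∣ a - (PowerSeries.trunc m f).eval τ

theorem Sp.C (q τ a : A) : Sp q τ (PowerSeries.C a) a := by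
  sorry

theorem Sp.X {q τ : A} (h : q ∣ τ) : Sp q τ PowerSeries.X τ := by
  sorry

theorem Sp.add {q τ : A} {f g : PowerSeries A} {a b : A} (hf : Sp q τ f a) (hg : Sp q τ g b) :
    Sp q τ (f + g) (a + b) := by
  sorry

theorem Sp.neg {q τ : A} {f : PowerSeries A} {a : A} (hf : Sp q τ f a) : Sp q τ (-f) (-a) := by
  sorry

theorem Sp.sub {q τ : A} {f g : PowerSeries A} {a b : A} (hf : Sp q τ f a) (hg : Sp q τ g b) :
    Sp q τ (f - g) (a - b) := by
  sorry

theorem Sp.mul {q τ : A} (h : q ∣ τ) {f g : PowerSeries A} {a b : A} (hf : Sp q τ f a)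
    (hg : Sp q τ g b) : Sp q τ (f * g) (a * b) := by
  sorry

theorem Sp.pow {q τ : A} (h : q ∣ τ) {f : PowerSeries A} {a : A} (hf : Sp q τ f a) (n : ℕ) :
    Sp q τ (f ^ n) (a ^ n) := by
  sorry

theorem Sp.sum {q τ : A} {ι : Type} (s : Finset ι) {f : ι → PowerSeries A} {a : ι → A}
    (hf : ∀ i ∈ s, Sp q τ (f i) (a i)) : Sp q τ (∑ i ∈ s, f i) (∑ i ∈ s, a i) := by
  sorry

theorem Sp.zero_dvd {q τ a : A} (h : Sp q τ 0 a) (m : ℕ) : q ^ m ∣ a := by
  sorry

/-- the value is congruent to the constant coefficient -/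
theorem Sp.dvd_sub {q τ : A} (h : q ∣ τ) {f : PowerSeries A} {a : A} (hf : Sp q τ f a) :
    q ∣ a - PowerSeries.constantCoeff f := by
  sorry

/-- The `q`-adic determinant estimate: modulo `q^m`, `m = M.choose 2`, the matrix is a product
`(τ_i^l) (coeff l (f j))`; expand the determinant multilinearly, terms with a repeated `l` vanish,
the others are divisible by `q^(∑ l)`, `∑ l ≥ 0 + 1 + … + (M-1)`. -/
theorem Sp.det {q : A} (M : ℕ) (τ : Fin M → A) (hτ : ∀ i, q ∣ τ i) (f : Fin M → PowerSeries A)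
    (a : Matrix (Fin M) (Fin M) A) (h : ∀ i l, Sp q (τ i) (f l) (a i l)) :
    q ^ (M.choose 2) ∣ a.det := by
  sorry

/-- Hensel's lemma in `A⟦X⟧` (simplified Newton iteration `y ↦ y - c P(y)`, `c` the inverse of the
derivative at `a0`; the coefficients stabilise). -/
theorem hensel_exists (P : (PowerSeries A)[X]) (a0 : A)
    (h0 : (P.map PowerSeries.constantCoeff).eval a0 = 0)
    (h1 : IsUnit ((derivative (P.map PowerSeries.constantCoeff)).eval a0)) :
    ∃ y : PowerSeries A, PowerSeries.constantCoeff y = a0 ∧ P.eval y = 0 := by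
  sorry

/-- Uniqueness of Hensel lifts in the local ring `A ⧸ q^m`
(`IsLocalRing.eq_of_eval_eq_zero_of_not_isUnit_sub`). -/
theorem Sp.hensel [IsLocalRing A] {q τ : A} (hq : q ∈ IsLocalRing.maximalIdeal A) (h : q ∣ τ)
    (P : (PowerSeries A)[X]) (p : A[X]) (hP : ∀ i, Sp q τ (P.coeff i) (p.coeff i))
    (y : PowerSeries A) (hy : P.eval y = 0)
    (h1 : IsUnit ((derivative (P.map PowerSeries.constantCoeff)).eval (PowerSeries.constantCoeff y)))
    (a : A) (ha : p.eval a = 0)
    (hc : a - PowerSeries.constantCoeff y ∈ IsLocalRing.maximalIdeal A) : Sp q τ y a := by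
  sorry

/-- cancellation of a unit -/
theorem Sp.cancel [IsLocalRing A] {q τ : A} (hq : q ∈ IsLocalRing.maximalIdeal A) (h : q ∣ τ)
    {f g : PowerSeries A} {a b : A} (hf : Sp q τ f a) (hu : IsUnit (PowerSeries.constantCoeff f))
    (hfg : Sp q τ (f * g) (a * b)) : Sp q τ g b := by
  sorry

end Crest.Agent.R22
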