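import Crest.Agent.R22.Defs

set_option autoImplicit false
open Polynomial IntermediateField

namespace Crest.Agent.R22

variable {d : ℕ}

theorem Card_pi (D : ℕ) :
    6 * (Finset.piAntidiag (Finset.univ : Finset (Fin 4)) D).card = (D + 1) * (D + 2) * (D + 3) := by
  have h1 : (Finset.piAntidiag (Finset.univ : Finset (Fin 4)) D).card
      = (Finset.finsuppAntidiag (Finset.univ : Finset (Fin 4)) D).card := by
    rw [Finset.finsuppAntidiag, Finset.card_map, Finset.card_attach]
  rw [h1, Finset.card_finsuppAntidiag_nat_eq_choose]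
  have h2 : (Finset.univ : Finset (Fin 4)).card + D - 1 = D + 3 := by
    simp only [Finset.card_univ, Fintype.card_fin]; omega
  rw [h2, Nat.choose_symm_add]
  have h3 := Nat.descFactorial_eq_factorial_mul_choose (D + 3) 3
  have h4 : (D + 3).descFactorial 3 = (D + 1) * (D + 2) * (D + 3) := by
    simp only [Nat.descFactorial_succ, Nat.descFactorial_zero]
    have e1 : D + 3 - 2 = D + 1 := by omega
    have e2 : D + 3 - 1 = D + 2 := by omega
    have e3 : D + 3 - 0 = D + 3 := by omega
    rw [e1, e2, e3]; ring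
  rw [← h4, h3]; rfl

theorem Card_shift (v : Fin 4 → ℕ) (E : ℕ) :
    ((Finset.piAntidiag (Finset.univ : Finset (Fin 4)) (E + ∑ i, v i)).filter
      fun m => ∀ i, v i ≤ m i).card = (Finset.piAntidiag (Finset.univ : Finset (Fin 4)) E).card := by
  symm
  refine Finset.card_bij (fun m _ => m + v) ?_ ?_ ?_
  · intro m hm
    simp only [Finset.mem_piAntidiag, Finset.mem_univ, implies_true, and_true,
      Finset.mem_filter] at hm ⊢
    refine ⟨?_, fun i => by simp⟩
    simp only [Pi.add_apply, Finset.sum_add_distrib]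
    rw [← hm]
  · intro a _ b _ h
    exact add_right_cancel h
  · intro m hm
    simp only [Finset.mem_piAntidiag, Finset.mem_univ, implies_true, and_true,
      Finset.mem_filter] at hm
    obtain ⟨h1, h2⟩ := hm
    refine ⟨m - v, ?_, ?_⟩
    · simp only [Finset.mem_piAntidiag, Finset.mem_univ, implies_true, and_true]
      have h3 : ∑ i, m i = ∑ i, (m - v) i + ∑ i, v i := by
        rw [← Finset.sum_add_distrib]
        refine Finset.sum_congr rfl fun i _ => ?_
        have := h2 i
        simp only [Pi.sub_apply]; omega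
      have h4 : ∑ i, m i = E + ∑ i, v i := h1
      show ∑ i, (m - v) i = E
      omega
    · funext i
      have := h2 i
      simp only [Pi.add_apply, Pi.sub_apply]; omega

theorem Card_none (v : Fin 4 → ℕ) (D : ℕ) (h : D < ∑ i, v i) :
    ((Finset.piAntidiag (Finset.univ : Finset (Fin 4)) D).filter
      fun m => ∀ i, v i ≤ m i).card = 0 := by
  rw [Finset.card_eq_zero, Finset.filter_eq_empty_iff]
  intro m hm h2
  simp only [Finset.mem_piAntidiag, Finset.mem_univ, implies_true, and_true] at hm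
  have h3 : ∑ i, v i ≤ ∑ i, m i := Finset.sum_le_sum fun i _ => h2 i
  have h4 : ∑ i, m i = D := hm
  omega

theorem Card_B (D : ℕ) : (stdB D).card + ((Finset.piAntidiag (Finset.univ : Finset (Fin 4)) D).filter
      fun m => ∀ i, (![4, 0, 0, 0] : Fin 4 → ℕ) i ≤ m i).card
      = (Finset.piAntidiag (Finset.univ : Finset (Fin 4)) D).card := by
  rw [← Finset.card_filter_add_card_filter_not (s := Finset.piAntidiag Finset.univ D)
    (fun m : Fin 4 → ℕ => m 0 ≤ 3)]
  congr 2
  refine Finset.filter_congr fun m _ => ?_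
  simp only [Fin.forall_fin_succ, Matrix.cons_val_zero, Matrix.cons_val_succ, zero_le,
    IsEmpty.forall_iff, and_true, not_le]
  omega

theorem Card_C (k D : ℕ) :
    ((Finset.piAntidiag (Finset.univ : Finset (Fin 4)) D).filter
      fun m => ∀ i, (![0, 0, k, k] : Fin 4 → ℕ) i ≤ m i).card + (stdC k D).card
      = (Finset.piAntidiag (Finset.univ : Finset (Fin 4)) D).card := by
  rw [← Finset.card_filter_add_card_filter_not (s := Finset.piAntidiag Finset.univ D)
    (fun m : Fin 4 → ℕ => k ≤ m 2 ∧ k ≤ m 3)]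
  congr 2
  refine Finset.filter_congr fun m _ => ?_
  simp [Fin.forall_fin_succ]

theorem card_stdB (D : ℕ) : 2 * D ^ 2 ≤ (stdB D).card ∧ (stdB D).card ≤ 2 * D ^ 2 + 2 := by
  have h1 := Card_B D
  have h2 := Card_pi D
  have hs : ∑ i, (![4, 0, 0, 0] : Fin 4 → ℕ) i = 4 := by simp [Fin.sum_univ_four]
  rcases lt_or_ge D 4 with hD | hD
  · rw [Card_none _ D (by rw [hs]; exact hD)] at h1
    interval_cases D <;> omega
  · obtain ⟨E, rfl⟩ := Nat.exists_eq_add_of_le' hD
    have h3 := Card_shift ![4, 0, 0, 0] E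
    rw [hs] at h3
    rw [h3] at h1
    have h4 := Card_pi E
    constructor <;> nlinarith

theorem card_stdC (k : ℕ) : ∃ C : ℝ, 0 ≤ C ∧ ∀ D : ℕ, (k : ℝ) * D ^ 2 - C * D ≤ (stdC k D).card ∧
    ((stdC k D).card : ℝ) ≤ k * D ^ 2 + C * D + C := by
  refine ⟨2 * (k + 2) ^ 3, by positivity, fun D => ?_⟩
  have h1 := Card_C k D
  have h2 := Card_pi D
  have hs : ∑ i, (![0, 0, k, k] : Fin 4 → ℕ) i = 2 * k := by simp [Fin.sum_univ_four]; ring
  have hk : (0 : ℝ) ≤ k := Nat.cast_nonneg k
  rcases lt_or_ge D (2 * k) with hD | hD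
  · rw [Card_none _ D (by rw [hs]; exact hD), zero_add] at h1
    rw [← h1] at h2
    have h3 : (6 : ℝ) * (stdC k D).card = (D + 1) * (D + 2) * (D + 3) := by exact_mod_cast h2
    have h4 : (D : ℝ) ≤ 2 * k := by exact_mod_cast hD.le
    have h5 : (0 : ℝ) ≤ D := Nat.cast_nonneg D
    have h6 : (0 : ℝ) ≤ (stdC k D).card := Nat.cast_nonneg _
    constructor
    · have : (k : ℝ) * D ≤ 2 * (k + 2) ^ 3 := by
        have : (k : ℝ) * D ≤ k * (2 * k) := mul_le_mul_of_nonneg_left h4 hk
        nlinarith [pow_nonneg hk 2, pow_nonneg hk 3]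
      nlinarith [mul_le_mul_of_nonneg_right this h5]
    · have a1 : ((D : ℝ) + 1) * (D + 2) * (D + 3) ≤ (2 * (k + 2)) * (2 * (k + 2)) * (2 * (k + 2)) := by
        gcongr <;> linarith
      have a2 : (0 : ℝ) ≤ k * D ^ 2 := by positivity
      have a3 : (0 : ℝ) ≤ 2 * (k + 2) ^ 3 * D := by positivity
      have a4 : (0 : ℝ) ≤ (k + 2) ^ 3 := by positivity
      nlinarith
  · obtain ⟨E, rfl⟩ := Nat.exists_eq_add_of_le' hD
    have h3 := Card_shift ![0, 0, k, k] E
    rw [hs] at h3
    rw [h3] at h1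
    have h4 := Card_pi E
    have h5 : (E + 1) * (E + 2) * (E + 3) + 6 * (stdC k (E + 2 * k)).card
        = (E + 2 * k + 1) * (E + 2 * k + 2) * (E + 2 * k + 3) := by omega
    have h6 : ((E : ℝ) + 1) * (E + 2) * (E + 3) + 6 * (stdC k (E + 2 * k)).card
        = (E + 2 * k + 1) * (E + 2 * k + 2) * (E + 2 * k + 3) := by exact_mod_cast h5
    have hE : (0 : ℝ) ≤ E := Nat.cast_nonneg E
    push_cast
    have p1 := mul_nonneg hk hE
    have p2 := mul_nonneg (pow_nonneg hk 2) hE
    have p3 := mul_nonneg (pow_nonneg hk 3) hE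
    have p4 := pow_nonneg hk 2
    have p5 := pow_nonneg hk 3
    have p6 := pow_nonneg hk 4
    constructor <;> nlinarith

end Crest.Agent.R22
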