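import Crest.Agent.R22.Roots

set_option autoImplicit false
open Polynomial IntermediateField

namespace Crest.Agent.R22

variable {d : ℕ}

theorem Padic_exists_poly {Λ Z : Type*} [CommRing Λ] {τ G : Z → Λ}
    (hG : G ∈ Algebra.adjoin Λ {τ}) : ∃ P : Λ[X], ∀ z, G z = P.eval (τ z) := by
  rw [Algebra.adjoin_singleton_eq_range_aeval] at hG
  obtain ⟨P, rfl⟩ := hG
  exact ⟨P, fun z => by simp⟩

theorem Padic_sum_le {ι : Type*} [Fintype ι] {φ : ι → ℕ} (hφ : Function.Injective φ) :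
    Fintype.card ι * (Fintype.card ι - 1) / 2 ≤ ∑ b, φ b := by
  have hinj : Function.Injective fun b => (φ b : ℤ) := fun a b h => hφ (Nat.cast_injective h)
  have h := Finset.sum_range_le_sum (s := Finset.univ.image fun b => (φ b : ℤ)) (c := 0)
    (fun x hx => by
      obtain ⟨b, -, rfl⟩ := Finset.mem_image.1 hx
      exact Int.natCast_nonneg _)
  rw [Finset.sum_image fun a _ b _ h => hinj h, Finset.card_image_of_injective _ hinj,
    Finset.card_univ] at h
  rw [← Finset.sum_range_id]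
  simp only [zero_add] at h
  rw [← Nat.cast_sum, ← Nat.cast_sum] at h
  exact Nat.cast_le.1 h

theorem Padic_eval_mem {A σ : Type*} [CommRing A] [SetLike σ A] [SubringClass σ A] (S : σ)
    {p : A[X]} (hp : ∀ i, p.coeff i ∈ S) {x : A} (hx : x ∈ S) : p.eval x ∈ S := by
  rw [eval_eq_sum_range]
  exact sum_mem fun i _ => mul_mem (hp i) (pow_mem hx i)

theorem Padic_dvd_iff {Λ Z : Type*} [CommRing Λ] (q : Λ) (G : Z → Λ) :
    algebraMap Λ (Z → Λ) q ∣ G ↔ ∀ z, q ∣ G z := by
  constructor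
  · rintro ⟨H, rfl⟩ z
    exact ⟨H z, rfl⟩
  · intro h
    choose H hH using h
    exact ⟨H, funext hH⟩

/-- Write `f a = P_a(τ)`; by column multilinearity the determinant is a combination of products
`∏_b τ(z b)^(φ b)` with `φ` injective, and `∑ φ b ≥ M (M-1) / 2`. -/
theorem padic_det {Λ Z ι : Type*} [CommRing Λ] [Fintype ι] [DecidableEq ι] (q : Λ) (τ : Z → Λ)
    (hτ : ∀ z, q ∣ τ z) (f : ι → Z → Λ) (hf : ∀ a, f a ∈ Algebra.adjoin Λ {τ}) (z : ι → Z) :
    q ^ (Fintype.card ι * (Fintype.card ι - 1) / 2) ∣ (Matrix.of fun a b => f a (z b)).det := by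
  choose P hP using fun a => Padic_exists_poly (hf a)
  obtain ⟨N, hN⟩ : ∃ N, ∀ a, (P a).natDegree < N :=
    ⟨Finset.univ.sup (fun a => (P a).natDegree) + 1, fun a =>
      Nat.lt_succ_of_le (Finset.le_sup (f := fun a => (P a).natDegree) (Finset.mem_univ a))⟩
  have e : (Matrix.of fun a b => f a (z b)).det =
      ∑ φ ∈ Fintype.piFinset fun _ : ι => Finset.range N,
        (∏ b, τ (z b) ^ φ b) * (Matrix.of fun a b => (P a).coeff (φ b)).det := by
    simp only [Matrix.det_apply', Matrix.of_apply, hP, eval_eq_sum_range' (hN _),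
      Finset.prod_univ_sum, Finset.mul_sum]
    rw [Finset.sum_comm]
    refine Finset.sum_congr rfl fun φ _ => Finset.sum_congr rfl fun σ _ => ?_
    rw [Finset.prod_mul_distrib]
    ring
  rw [e]
  refine Finset.dvd_sum fun φ _ => ?_
  by_cases hφ : Function.Injective φ
  · refine Dvd.dvd.mul_right ((pow_dvd_pow q (Padic_sum_le hφ)).trans ?_) _
    rw [← Finset.prod_pow_eq_pow_sum]
    exact Finset.prod_dvd_prod_of_dvd _ _ fun b _ => pow_dvd_pow_of_dvd (hτ _) _
  · simp only [Function.Injective, not_forall] at hφ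
    obtain ⟨a, b, h1, h2⟩ := hφ
    rw [Matrix.det_zero_of_column_eq h2 fun k => by simp only [Matrix.of_apply, h1], mul_zero]
    exact dvd_zero _

/-- Elements of `Λ[τ]` are constant modulo `q`. -/
theorem const_mod {Λ Z : Type*} [CommRing Λ] (q : Λ) (τ : Z → Λ) (hτ : ∀ z, q ∣ τ z)
    (G : Z → Λ) (hG : G ∈ Algebra.adjoin Λ {τ}) (z z' : Z) : q ∣ G z - G z' := by
  obtain ⟨P, hP⟩ := Padic_exists_poly hG
  rw [hP, hP]
  exact (dvd_sub (hτ z) (hτ z')).trans (sub_dvd_eval_sub _ _ _)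

/-- Hensel. Fix `z0`, `u = (h'(F) z0)⁻¹`, `F_0 = F z0` (constant), `F_{j+1} = F_j - u h(F_j)`.
Then `F - F_{j+1} = (F - F_j)(1 - u Δ)` with `Δ ≡ h'(F) z0 (mod q)` pointwise, so
`q^(j+1) ∣ F z - F_j z`. -/
theorem hensel_mem {Λ Z : Type*} [CommRing Λ] (q : Λ) (hq : IsNilpotent q) (τ : Z → Λ)
    (hτ : ∀ z, q ∣ τ z) (h : (Z → Λ)[X]) (hh : ∀ i, h.coeff i ∈ Algebra.adjoin Λ {τ})
    (F : Z → Λ) (hc : ∀ z z', q ∣ F z - F z') (h0 : h.eval F = 0)
    (hu : ∀ z, IsUnit ((derivative h).eval F z)) : F ∈ Algebra.adjoin Λ {τ} := by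
  rcases isEmpty_or_nonempty Z with hZ | ⟨⟨z0⟩⟩
  · rw [Subsingleton.elim F 0]; exact zero_mem _
  obtain ⟨u, hu0⟩ := (hu z0).exists_left_inv
  have hD : ∀ z, q ∣ (derivative h).eval F z0 - (derivative h).eval F z := by
    intro z
    have key : ∀ G : Z → Λ, G ∈ RingHom.eqLocus
        ((Ideal.Quotient.mk (Ideal.span {q})).comp (Pi.evalRingHom (fun _ : Z => Λ) z0))
        ((Ideal.Quotient.mk (Ideal.span {q})).comp (Pi.evalRingHom (fun _ : Z => Λ) z)) ↔
        q ∣ G z0 - G z := fun G => by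
      rw [← Ideal.mem_span_singleton, ← Ideal.Quotient.eq]
      rfl
    rw [← key]
    refine Padic_eval_mem _ (fun i => ?_) ((key F).2 (hc _ _))
    rw [coeff_derivative]
    exact mul_mem ((key _).2 (const_mod q τ hτ _ (hh _) _ _))
      (add_mem (natCast_mem _ _) (one_mem _))
  have hQ : algebraMap Λ (Z → Λ) q ∣ 1 - algebraMap Λ (Z → Λ) u * (derivative h).eval F := by
    rw [Padic_dvd_iff]
    intro z
    have e : (1 - algebraMap Λ (Z → Λ) u * (derivative h).eval F) z =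
        u * ((derivative h).eval F z0 - (derivative h).eval F z) := by
      rw [mul_sub, hu0]; rfl
    rw [e]
    exact (hD z).mul_left u
  have main : ∀ j : ℕ, ∃ G ∈ Algebra.adjoin Λ {τ}, algebraMap Λ (Z → Λ) q ^ (j + 1) ∣ G - F := by
    intro j
    induction j with
    | zero =>
      refine ⟨algebraMap Λ (Z → Λ) (F z0), Subalgebra.algebraMap_mem _ _, ?_⟩
      rw [zero_add, pow_one, Padic_dvd_iff]
      exact fun z => hc z0 z
    | succ j ih =>
      obtain ⟨G, hG, hd⟩ := ih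
      refine ⟨G - algebraMap Λ (Z → Λ) u * h.eval G, sub_mem hG
        (mul_mem (Subalgebra.algebraMap_mem _ _) (Padic_eval_mem _ hh hG)), ?_⟩
      obtain ⟨k, hk⟩ := h.binomExpansion F (G - F)
      rw [add_sub_cancel, h0, zero_add] at hk
      have e : G - algebraMap Λ (Z → Λ) u * h.eval G - F = (G - F) *
          ((1 - algebraMap Λ (Z → Λ) u * (derivative h).eval F) -
            algebraMap Λ (Z → Λ) u * k * (G - F)) := by
        rw [hk]; ring
      rw [e, pow_succ]
      exact mul_dvd_mul hd (dvd_sub hQ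
        (((dvd_pow_self _ (Nat.succ_ne_zero j)).trans hd).mul_left _))
  obtain ⟨n, hn⟩ := hq
  obtain ⟨G, hG, hd⟩ := main n
  rw [pow_succ, ← map_pow, hn, map_zero, zero_mul, zero_dvd_iff, sub_eq_zero] at hd
  exact hd ▸ hG

theorem inv_mem {Λ Z : Type*} [CommRing Λ] (q : Λ) (hq : IsNilpotent q) (τ : Z → Λ)
    (hτ : ∀ z, q ∣ τ z) (G F : Z → Λ) (hG : G ∈ Algebra.adjoin Λ {τ}) (hGF : G * F = 1) :
    F ∈ Algebra.adjoin Λ {τ} := by
  have h1 : ∀ z, G z * F z = 1 := fun z => congrFun hGF z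
  refine hensel_mem q hq τ hτ (C G * X - 1) (fun i => ?_) F (fun z z' => ?_) (by simp [hGF])
    fun z => ?_
  · rw [coeff_sub, coeff_C_mul, coeff_X, coeff_one]
    refine sub_mem (mul_mem hG ?_) ?_ <;> split_ifs <;> first | exact one_mem _ | exact zero_mem _
  · have e : F z - F z' = F z * F z' * (G z' - G z) := by
      linear_combination (-F z) * h1 z' + F z' * h1 z
    rw [e]
    exact (const_mod q τ hτ G hG z' z).mul_left _
  · simpa using IsUnit.of_mul_eq_one _ (h1 z)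

end Crest.Agent.R22
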