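import Crest.Agent.R22.NF
import Crest.Agent.R22.Padic

set_option autoImplicit false
open Polynomial IntermediateField

namespace Crest.Agent.R22

variable {d : ℕ}

theorem ClsC_card {F R : Type} [Field F] [CommRing R] [Algebra F R] [Module.Finite F R] {m0 k : ℕ}
    (hm : Module.finrank F R ≤ m0) (hk : (k : F) ≠ 0) (a : Fin d → R) (ha : IsUnit a)
    (T : Finset (Fin d → R)) (hT : ∀ ρ ∈ T, ρ ^ k = a) : T.card ≤ k ^ (d * m0) := by
  refine card_roots_le (F := F) (d * m0) k ?_ hk a ha T hT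
  rw [Module.finrank_pi_fintype, Finset.sum_const, Finset.card_univ, Fintype.card_fin,
    smul_eq_mul]
  exact Nat.mul_le_mul_left d hm

/-- The quotient `AA / q`. -/
theorem ClsC_quot (c : Ctx d) : ∃ m0 : ℕ, ∀ q : ℕ, q.Prime → ∃ (R : Type) (_ : CommRing R)
    (_ : c.AA →+* R), (∀ m : ℤ, (m : R) = 0 ↔ (q : ℤ) ∣ m) ∧
      (∀ m : ℤ, ¬ (q : ℤ) ∣ m → IsUnit (m : R)) ∧
      ∀ k : ℕ, ¬ (q : ℤ) ∣ k → ∀ a : Fin d → R, IsUnit a → ∀ T : Finset (Fin d → R),
        (∀ ρ ∈ T, ρ ^ k = a) → T.card ≤ k ^ (d * m0) := by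
  have := AA_finite c
  obtain ⟨m0, s, hs⟩ := Module.Finite.exists_fin (R := ℤ) (M := c.AA)
  refine ⟨m0, fun q hq => ?_⟩
  have : Fact q.Prime := ⟨hq⟩
  have hnu : (q : c.AA) ∈ nonunits c.AA := by
    intro hu
    obtain ⟨w, hw⟩ := hu.exists_right_inv
    have h1 : ((1 : ℤ) : ℂ) = ((q : ℤ) : ℂ) * w := by
      simpa using (congrArg Subtype.val hw).symm
    have h2 := int_dvd_of_AA c q 1 (Int.natCast_ne_zero.2 hq.ne_zero) w w.2 h1
    exact hq.not_dvd_one (Int.natCast_dvd_natCast.1 h2)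
  have hch := CharP.quotient c.AA q hnu
  set I : Ideal c.AA := Ideal.span {(q : c.AA)}
  let _ : Algebra (ZMod q) (c.AA ⧸ I) := ZMod.algebra _ q
  have hsp : Submodule.span (ZMod q) (Set.range fun i => Ideal.Quotient.mk I (s i)) = ⊤ := by
    refine eq_top_iff.2 fun x _ => ?_
    obtain ⟨a, rfl⟩ := Ideal.Quotient.mk_surjective x
    have ha : a ∈ Submodule.span ℤ (Set.range s) := hs ▸ Submodule.mem_top
    induction ha using Submodule.span_induction with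
    | mem x hx =>
      obtain ⟨i, rfl⟩ := hx
      exact Submodule.subset_span ⟨i, rfl⟩
    | zero => rw [map_zero]; exact zero_mem _
    | add x y _ _ hx hy => rw [map_add]; exact add_mem (hx trivial) (hy trivial)
    | smul a x _ hx => rw [map_zsmul]; exact zsmul_mem (hx trivial) a
  have : Module.Finite (ZMod q) (c.AA ⧸ I) :=
    ⟨hsp ▸ Submodule.fg_span (Set.finite_range _)⟩
  have hfr : Module.finrank (ZMod q) (c.AA ⧸ I) ≤ m0 := by
    have h1 := finrank_range_le_card (R := ZMod q) fun i => Ideal.Quotient.mk I (s i)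
    rwa [Set.finrank, hsp, finrank_top, Fintype.card_fin] at h1
  refine ⟨c.AA ⧸ I, inferInstance, Ideal.Quotient.mk I, fun m => CharP.intCast_eq_zero_iff _ q m,
    fun m hm => ?_, fun k hk a ha T hT => ?_⟩
  · have h1 : (m : ZMod q) ≠ 0 := fun h => hm ((ZMod.intCast_zmod_eq_zero_iff_dvd m q).1 h)
    simpa using h1.isUnit.map (algebraMap (ZMod q) (c.AA ⧸ I))
  · exact ClsC_card hfr
      (fun h => hk (Int.natCast_dvd_natCast.2 ((ZMod.natCast_eq_zero_iff k q).1 h))) a ha T hT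

/-- Conjugates as elements of `AA`. -/
noncomputable def ClsC_sg (c : Ctx d) (j : Fin d) (v : Fin d → ℤ) : c.AA :=
  ⟨c.sg j v, sg_mem_AA c j v⟩

/-- Roots as elements of `AA`. -/
def ClsC_th (c : Ctx d) (j : Fin d) : c.AA := ⟨c.th j, th_mem_AA c j⟩

theorem ClsC_rel {c : Ctx d} {k : ℕ} (P : Pt c k) (j : Fin d) :
    ClsC_sg c j P.mu * ClsC_sg c j P.be ^ k = (P.cc : c.AA) * ((P.n : c.AA) - ClsC_th c j) :=
  Subtype.ext (by simpa [ClsC_sg, ClsC_th] using P.rel j)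

theorem ClsC_nrm {c : Ctx d} {k : ℕ} (P : Pt c k) :
    ∏ j, ClsC_sg c j P.be = ((P.ka * P.p : ℤ) : c.AA) :=
  Subtype.ext (by simpa [ClsC_sg] using P.nrm)

theorem ClsC_prod (c : Ctx d) (n : ℤ) :
    ∏ j, ((n : c.AA) - ClsC_th c j) = ((c.F.eval n : ℤ) : c.AA) := by
  have h := prod_sub_th c (algebraMap ℤ ℂ n)
  rw [aeval_algebraMap_apply_eq_algebraMap_eval] at h
  exact Subtype.ext (by simpa [ClsC_th] using h)

theorem ClsC_line (c : Ctx d) (j : Fin d) (b1 b2 : Fin d → ℤ) (x y : ℤ) :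
    ClsC_sg c j (x • b1 + y • b2) = (x : c.AA) * ClsC_sg c j b1 + (y : c.AA) * ClsC_sg c j b2 :=
  Subtype.ext (by simp [ClsC_sg, -zsmul_eq_mul, sg_add, sg_smul])

theorem ClsC_co (c : Ctx d) {DF : ℤ}
    (hDF : ∀ l j, (DF : ℂ) * (Matrix.vandermonde c.th)⁻¹ l j ∈ c.AA) (v : Fin d → ℤ) (l : Fin d) :
    ((DF * v l : ℤ) : c.AA) = ∑ j, (⟨_, hDF l j⟩ : c.AA) * ClsC_sg c j v := by
  refine Subtype.ext ?_
  have h := co_sg c v l
  simp only [Ctx.co, smul_eq_mul] at h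
  simp [ClsC_sg, ← h, Finset.mul_sum, mul_assoc]

/-- Scheme C: within a class of `(t, n)`, the tuples `ρ_j = σ_jβ / σ_{i0}β ∈ AA/q` satisfy
`ρ_j^k = a_j` with fixed units `a_j`; `card_roots_le` (`AA/q` has dimension `≤ m0`, the number of
generators of `AA`). Equal tuples give `σ_iβ σ_jβ' ≡ σ_jβ σ_iβ'`, so `DF² (β_l β'_m - β_m β'_l) ∈ q AA`. -/
theorem classes_C (c : Ctx d) (hd : 1 ≤ d) (k E : ℕ) (DF : ℤ)
    (hDF : ∀ l j, (DF : ℂ) * (Matrix.vandermonde c.th)⁻¹ l j ∈ c.AA) : ∃ C : ℕ,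
    ∀ (b1 b2 : Fin d → ℤ) (g : ℤ[X][X]) (q : ℕ), q.Prime → ∀ T : Finset (LPt c k),
      (∀ P ∈ T, P.mu = P.x • b1 + P.y • b2 ∧ ¬ (q : ℤ) ∣ badC DF g E P) →
      (∀ P ∈ T, ∀ Q ∈ T, SameTN q P Q) → ∃ PP : Finset (Finset (LPt c k)), PP.card ≤ C ∧
        (∀ P ∈ T, ∃ T' ∈ PP, P ∈ T') ∧ ∀ T' ∈ PP, T' ⊆ T ∧ ∀ P ∈ T', ∀ Q ∈ T', ∀ l m,
          (q : ℤ) ∣ P.be l * Q.be m - P.be m * Q.be l := by
  classical
  obtain ⟨m0, hm0⟩ := ClsC_quot c
  refine ⟨k ^ (d * m0), fun b1 b2 g q hq T hT hS => ?_⟩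
  obtain ⟨R, _, φ, h0, hu, hc⟩ := hm0 q hq
  rcases T.eq_empty_or_nonempty with rfl | ⟨P0, hP0⟩
  · exact ⟨∅, by simp, by simp, by simp⟩
  have i0 : Fin d := ⟨0, hd⟩
  -- the factors of the bad integer
  have hbad : ∀ P ∈ T, ¬ (q : ℤ) ∣ P.y ∧ ¬ (q : ℤ) ∣ DF ∧ ¬ (q : ℤ) ∣ P.ka * P.p ∧
      ¬ (q : ℤ) ∣ k ∧ ¬ (q : ℤ) ∣ P.cc ∧ ¬ (q : ℤ) ∣ c.F.eval P.n := by
    intro P hP
    have h := (hT P hP).2
    unfold badC badB at h
    refine ⟨fun h' => h ?_, fun h' => h ?_, fun h' => h ?_, fun h' => h ?_, fun h' => h ?_,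
      fun h' => h ?_⟩
    · exact (((h'.mul_right _).mul_right _).mul_right _).mul_right _
    · exact (((h'.mul_left _).mul_right _).mul_right _).mul_right _
    · exact ((h'.mul_left _).mul_right _).mul_right _
    · exact ((h'.mul_right _).mul_right _).mul_left _
    · exact ((h'.mul_left _).mul_right _).mul_left _
    · exact (h'.mul_left _).mul_left _
  let β : LPt c k → Fin d → R := fun P j => φ (ClsC_sg c j P.be)
  let μ : LPt c k → Fin d → R := fun P j => φ (ClsC_sg c j P.mu)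
  have hβ : ∀ P ∈ T, ∀ j, IsUnit (β P j) := by
    intro P hP j
    have h1 := hu _ (hbad P hP).2.2.1
    rw [← map_intCast φ, ← ClsC_nrm, map_prod] at h1
    exact isUnit_of_dvd_unit (Finset.dvd_prod_of_mem _ (Finset.mem_univ j)) h1
  have hrel : ∀ (P : LPt c k) j, μ P j * β P j ^ k = (P.cc : R) * ((P.n : R) - φ (ClsC_th c j)) := by
    intro P j
    simpa only [map_mul, map_pow, map_sub, map_intCast] using congrArg φ (ClsC_rel P.toPt j)
  have hμ : ∀ P ∈ T, ∀ j, IsUnit (μ P j) := by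
    intro P hP j
    have h1 := hu _ (hbad P hP).2.2.2.2.2
    rw [← map_intCast φ, ← ClsC_prod, map_prod] at h1
    have h2 := isUnit_of_dvd_unit (Finset.dvd_prod_of_mem _ (Finset.mem_univ j)) h1
    rw [map_sub, map_intCast] at h2
    have h3 := (hu _ (hbad P hP).2.2.2.2.1).mul h2
    rw [← hrel] at h3
    exact isUnit_of_mul_isUnit_left h3
  have hline : ∀ P ∈ T, ∀ j,
      μ P j = (P.x : R) * φ (ClsC_sg c j b1) + (P.y : R) * φ (ClsC_sg c j b2) := by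
    intro P hP j
    simp only [μ, (hT P hP).1, ClsC_line, map_add, map_mul, map_intCast]
  -- `β_j(P)^k` is proportional to `β_j(P0)^k`
  have hpow : ∀ P ∈ T, ∀ j,
      (P.cc : R) * P0.y * β P0 j ^ k = (P0.cc : R) * P.y * β P j ^ k := by
    intro P hP j
    have h1 := (h0 _).2 (hS P hP P0 hP0).1
    have h2 := (h0 _).2 (hS P hP P0 hP0).2
    push_cast at h1 h2
    have h3 : (P0.y : R) * μ P j = (P.y : R) * μ P0 j := by
      rw [hline P hP, hline P0 hP0]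
      linear_combination φ (ClsC_sg c j b1) * h1
    refine (hμ P hP j).mul_left_cancel ?_
    linear_combination (P.cc * β P0 j ^ k) * h3 + (P.cc * P.y : R) * hrel P0 j -
      (P0.cc * P.y : R) * hrel P j - (P.cc * P.y * P0.cc : R) * h2
  let Φ : LPt c k → Fin d → R := fun P j => β P j * Ring.inverse (β P i0)
  have hΦ : ∀ P ∈ T, ∀ j, Φ P j * β P i0 = β P j := fun P hP j =>
    Ring.inverse_mul_cancel_right _ _ (hβ P hP i0)
  have hΦu : IsUnit (Φ P0 ^ k) := by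
    refine (Pi.isUnit_iff.2 fun j => ?_).pow k
    have h1 := hβ P0 hP0 j
    rw [← hΦ P0 hP0 j] at h1
    exact isUnit_of_mul_isUnit_left h1
  have hΦk : ∀ P ∈ T, Φ P ^ k = Φ P0 ^ k := by
    intro P hP
    funext j
    rw [Pi.pow_apply, Pi.pow_apply]
    have h1 := hpow P hP j
    rw [← hΦ P hP j, ← hΦ P0 hP0 j, mul_pow, mul_pow] at h1
    refine (((hu _ (hbad P0 hP0).2.2.2.2.1).mul (hu _ (hbad P hP).1)).mul
      ((hβ P hP i0).pow k)).mul_left_cancel ?_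
    linear_combination -h1 + Φ P0 j ^ k * hpow P hP i0
  refine ⟨(T.image Φ).image fun v => T.filter fun P => Φ P = v, Finset.card_image_le.trans ?_,
    fun P hP => ⟨_, Finset.mem_image_of_mem _ (Finset.mem_image_of_mem _ hP),
      Finset.mem_filter.2 ⟨hP, rfl⟩⟩, fun T' hT' => ?_⟩
  · refine hc k (hbad P0 hP0).2.2.2.1 _ hΦu _ fun ρ hρ => ?_
    obtain ⟨P, hP, rfl⟩ := Finset.mem_image.1 hρ
    exact hΦk P hP
  · obtain ⟨v, -, rfl⟩ := Finset.mem_image.1 hT'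
    refine ⟨Finset.filter_subset _ _, fun P hP Q hQ l m => ?_⟩
    obtain ⟨hP, hPv⟩ := Finset.mem_filter.1 hP
    obtain ⟨hQ, hQv⟩ := Finset.mem_filter.1 hQ
    have hco : ∀ P ∈ T, Φ P = v → ∀ l, (DF : R) * (P.be l : R) =
        (∑ j, φ ⟨_, hDF l j⟩ * v j) * β P i0 := by
      intro P hP hv l
      have h1 := congrArg φ (ClsC_co c hDF P.be l)
      rw [map_intCast, Int.cast_mul, map_sum] at h1
      rw [h1, Finset.sum_mul]
      refine Finset.sum_congr rfl fun j _ => ?_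
      rw [map_mul, mul_assoc, ← hv, hΦ P hP j]
    have hD := hu _ (hbad P0 hP0).2.1
    refine (h0 _).1 ((hD.mul hD).mul_left_cancel ?_)
    push_cast
    have e : (DF : R) * DF * (P.be l * Q.be m - P.be m * Q.be l) =
        (DF * P.be l) * (DF * Q.be m) - (DF * P.be m) * (DF * Q.be l) := by ring
    rw [e, hco P hP hPv, hco P hP hPv, hco Q hQ hQv, hco Q hQ hQv]
    ring

end Crest.Agent.R22
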