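import Crest.Agent.R22.Basic
import Crest.Agent.R22.Bezout

set_option autoImplicit false
open Polynomial IntermediateField

namespace Crest.Agent.R22

variable {d : ℕ}

theorem clsTN_cast {K : Type*} [Field K] (g : ℤ[X][X]) (E : ℕ)
    (hg : ∀ i, (g.coeff i).natDegree ≤ E) (x y n : ℤ) (hy : (y : K) ≠ 0) :
    ((hev2 g E x y n : ℤ) : K) =
      (y : K) ^ E * (g.map (mapRingHom (Int.castRingHom K))).evalEval ((x : K) / y) (n : K) := by
  rw [hev2, evalEval, eval_map, eval₂_eq_sum, Polynomial.sum, eval_finsetSum,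
    Finset.mul_sum, Int.cast_sum]
  refine Finset.sum_congr rfl fun i _ => ?_
  have h : ((hev (g.coeff i) E x y : ℤ) : K) =
      hev ((g.coeff i).map (Int.castRingHom K)) E (x : K) (y : K) := by simp [hev]
  rw [Int.cast_mul, h, hev_eq_eval _ E (natDegree_map_le.trans (hg i)) _ _ hy]
  simp [mul_assoc]

theorem clsTN_deg {R : Type*} [CommRing R] {g : R[X][X]} {E : ℕ} (h : DegLE g E) :
    DegLE (derivative g) E := by
  refine ⟨(natDegree_derivative_le g).trans ((Nat.sub_le _ _).trans h.1), fun i => ?_⟩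
  rw [coeff_derivative]
  refine natDegree_mul_le.trans ?_
  rw [← Nat.cast_succ, natDegree_natCast]
  exact h.2 _

theorem clsTN_ht {g : ℤ[X][X]} {E : ℕ} {H : ℝ} (h : DegLE g E) (hH : HtLE2 g H) :
    HtLE2 (derivative g) (E * H) := by
  intro i j
  have h0 : 0 ≤ H := (abs_nonneg _).trans (hH 0 0)
  rw [coeff_derivative]
  by_cases hi : i + 1 ≤ E
  · rw [← Nat.cast_succ, coeff_mul_natCast, Int.cast_mul, abs_mul, mul_comm, Int.cast_natCast,
      Nat.abs_cast]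
    exact mul_le_mul (Nat.cast_le.2 hi) (hH _ _) (abs_nonneg _) (by positivity)
  · rw [coeff_eq_zero_of_natDegree_lt (h.1.trans_lt (not_le.1 hi))]
    simpa using by positivity

/-- Classes of `(x/y, n) mod q`: zeros of `g mod q`, which is nonzero because its `n`-derivative does
not vanish at the point; `card_zeros_mod`. -/
theorem classes_tn (c : Ctx d) (k E : ℕ) (DF : ℤ) (g : ℤ[X][X]) (hg : DegLE g E) (q : ℕ)
    (hq : q.Prime) (S : Finset (LPt c k)) (hS : ∀ P ∈ S, hev2 g E P.x P.y P.n = 0) :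
    ∃ PP : Finset (Finset (LPt c k)), PP.card ≤ 2 * E * q ∧
      (∀ P ∈ S, ¬ (q : ℤ) ∣ badB DF g E P → ∃ T ∈ PP, P ∈ T) ∧
      ∀ T ∈ PP, T ⊆ S ∧ (∀ P ∈ T, ¬ (q : ℤ) ∣ badB DF g E P) ∧ ∀ P ∈ T, ∀ Q ∈ T, SameTN q P Q := by
  classical
  have : Fact q.Prime := ⟨hq⟩
  let S' := S.filter fun P => ¬ (q : ℤ) ∣ badB DF g E P
  let φ : LPt c k → ZMod q × ZMod q := fun P => ((P.x : ZMod q) / P.y, (P.n : ZMod q))
  have hy : ∀ P ∈ S', (P.y : ZMod q) ≠ 0 := fun P hP h => (Finset.mem_filter.1 hP).2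
    ((((ZMod.intCast_zmod_eq_zero_iff_dvd _ _).1 h).mul_right _ |>.mul_right _).mul_right _)
  refine ⟨(S'.image φ).image fun z => S'.filter fun P => φ P = z, Finset.card_image_le.trans ?_,
    fun P hP h => ?_, fun T hT => ?_⟩
  · rcases S'.eq_empty_or_nonempty with h | ⟨P₀, h₀⟩
    · simp [h]
    refine card_zeros_mod q E (g.map (mapRingHom (Int.castRingHom (ZMod q)))) (fun h => ?_)
      ⟨natDegree_map_le.trans hg.1, fun i => by
        rw [coeff_map]; exact natDegree_map_le.trans (hg.2 i)⟩ _ fun z hz => ?_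
    · refine (Finset.mem_filter.1 h₀).2 (Dvd.dvd.mul_left
        ((ZMod.intCast_zmod_eq_zero_iff_dvd _ _).1 ?_) _)
      rw [clsTN_cast _ E (clsTN_deg hg).2 _ _ _ (hy P₀ h₀), ← derivative_map, h]
      simp
    · obtain ⟨P, hP, rfl⟩ := Finset.mem_image.1 hz
      have h1 := clsTN_cast g E hg.2 P.x P.y P.n (hy P hP)
      rw [hS P (Finset.mem_filter.1 hP).1, Int.cast_zero] at h1
      exact (mul_eq_zero.1 h1.symm).resolve_left (pow_ne_zero _ (hy P hP))
  · have hP' : P ∈ S' := Finset.mem_filter.2 ⟨hP, h⟩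
    exact ⟨_, Finset.mem_image_of_mem _ (Finset.mem_image_of_mem φ hP'),
      Finset.mem_filter.2 ⟨hP', rfl⟩⟩
  · obtain ⟨z, -, rfl⟩ := Finset.mem_image.1 hT
    refine ⟨fun P hP => (Finset.mem_filter.1 (Finset.mem_filter.1 hP).1).1,
      fun P hP => (Finset.mem_filter.1 (Finset.mem_filter.1 hP).1).2, fun P hP Q hQ => ?_⟩
    obtain ⟨a1, a2⟩ := Finset.mem_filter.1 hP
    obtain ⟨b1, b2⟩ := Finset.mem_filter.1 hQ
    obtain ⟨e1, e2⟩ := Prod.mk.inj (a2.trans b2.symm)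
    rw [div_eq_div_iff (hy P a1) (hy Q b1)] at e1
    constructor <;> rw [← ZMod.intCast_zmod_eq_zero_iff_dvd] <;> push_cast
    exacts [sub_eq_zero.2 e1, sub_eq_zero.2 e2]

/-- Points where the `n`-derivative vanishes (`bezout` with `derivative (toC2 g)`). -/
theorem card_sing (c : Ctx d) (k E : ℕ) : ∃ C : ℕ, ∀ (g : ℤ[X][X]) (H : ℝ) (S : Finset (LPt c k)),
    Curve g E H → 1 ≤ g.natDegree → InjN S →
    (∀ P ∈ S, P.y ≠ 0 ∧ hev2 g E P.x P.y P.n = 0 ∧ hev2 (derivative g) E P.x P.y P.n = 0) →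
    S.card ≤ C := by
  classical
  obtain ⟨C, hC⟩ := bezout E
  refine ⟨C, fun g H S hg h1 hS h => ?_⟩
  rw [← natDegree_toC2] at h1
  have h2 : ¬ toC2 g ∣ derivative (toC2 g) := fun hd => by
    have h3 : derivative (toC2 g) ≠ 0 := fun h0 => by
      have := derivative_eq_zero.1 h0
      omega
    have h4 := natDegree_le_of_dvd hd h3
    have h5 := natDegree_derivative_lt (p := toC2 g) (by omega)
    omega
  rw [← Finset.card_image_of_injOn (f := fun P : LPt c k => ((P.x : ℂ) / P.y, (P.n : ℂ)))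
    fun P hP Q hQ e => hS P hP Q hQ (by exact_mod_cast (Prod.mk.inj e).2)]
  refine hC _ _ hg.irr h2 (degLE_toC2 hg.deg) (clsTN_deg (degLE_toC2 hg.deg)) _ fun z hz => ?_
  obtain ⟨P, hP, rfl⟩ := Finset.mem_image.1 hz
  obtain ⟨a1, a2, a3⟩ := h P hP
  have hy : (P.y : ℂ) ^ E ≠ 0 := pow_ne_zero _ (by exact_mod_cast a1)
  have b1 := hev2_cast g E hg.deg.2 P.x P.y P.n a1
  have b2 := hev2_cast _ E (clsTN_deg hg.deg).2 P.x P.y P.n a1
  rw [a2, Int.cast_zero] at b1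
  rw [a3, Int.cast_zero, toC2, ← derivative_map] at b2
  exact ⟨(mul_eq_zero.1 b1.symm).resolve_left hy, (mul_eq_zero.1 b2.symm).resolve_left hy⟩

/-- Size of the bad integers. -/
theorem bad_le (c : Ctx d) (k E : ℕ) (hk : 1 ≤ k) (DF : ℤ) (C0 C1 : ℝ) (h0 : 1 ≤ C0) :
    ∃ C : ℝ, ∀ (X B : ℝ) (g : ℤ[X][X]) (P : LPt c k), 2 ≤ X → DegLE g E →
      HtLE2 g ((2 * X) ^ C1) → Sz C0 X B P.toPt → |(P.x : ℝ)| ≤ C0 * X → |(P.y : ℝ)| ≤ C0 * X →
      2 ≤ d → |((badB DF g E P : ℤ) : ℝ)| ≤ X ^ C ∧ |((badC DF g E P : ℤ) : ℝ)| ≤ X ^ C := by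
  obtain ⟨C, hC, hth, -⟩ := norm_equiv c
  obtain ⟨N, hN⟩ := pow_unbounded_of_one_lt (C0 * |(DF : ℝ)| * (C0 * (2 + C) ^ d) *
    ((E + 1) ^ 2 * E * (2 * C0) ^ (2 * E)) * (k * C0 * (2 + C) ^ d)) (one_lt_two (α := ℝ))
  refine ⟨(N + (1 + d + 2 * E + d) : ℕ) + 2 * |C1|, fun X B g P hX hg hH hP hx hy hd => ?_⟩
  have hX0 : 0 < X := by linarith
  have hn : |(P.n : ℝ)| ≤ 2 * X := by
    rw [abs_of_nonneg (hX0.le.trans hP.n1)]
    exact hP.n2
  have e1 : ∏ j, ((P.n : ℂ) - c.th j) = ((c.F.eval P.n : ℤ) : ℂ) := by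
    rw [prod_sub_th]
    exact aeval_algebraMap_apply_eq_algebraMap_eval (A := ℂ) P.n c.F
  have hF : |((c.F.eval P.n : ℤ) : ℝ)| ≤ ((2 + C) * X) ^ d := by
    rw [← Complex.norm_intCast, ← e1, norm_prod]
    refine (Finset.prod_le_prod (g := fun _ => (2 + C) * X) (fun _ _ => norm_nonneg _)
      fun j _ => ?_).trans_eq (by simp)
    refine (norm_sub_le _ _).trans ?_
    rw [Complex.norm_intCast]
    nlinarith [hth j]
  have hF0 : c.F.eval P.n ≠ 0 := fun h => by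
    rw [h, Int.cast_zero] at e1
    exact Finset.prod_ne_zero_iff.2 (fun j _ => th_ne_int c hd j P.n) e1
  have hp : |((P.p : ℤ) : ℝ)| ≤ ((2 + C) * X) ^ d := by
    refine le_trans ?_ hF
    have h1 := Int.natAbs_le_of_dvd_ne_zero ((dvd_pow_self _ (by omega)).trans P.pk) hF0
    rw [← Int.cast_abs, ← Int.cast_abs, Int.abs_eq_natAbs, Int.abs_eq_natAbs]
    exact_mod_cast h1
  have hH' : (2 * X) ^ C1 ≤ X ^ (2 * |C1|) := by
    refine (Real.rpow_le_rpow_of_exponent_le (by linarith) (le_abs_self _)).trans ?_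
    rw [Real.rpow_mul hX0.le, Real.rpow_two]
    exact Real.rpow_le_rpow (by positivity) (by nlinarith) (abs_nonneg _)
  have hh := hev2_bound E _ (E * X ^ (2 * |C1|)) (2 * C0 * X) (clsTN_deg hg)
    (clsTN_ht hg fun i j => (hH i j).trans hH') (by nlinarith) P.x P.y P.n
    (hx.trans (by nlinarith)) (hy.trans (by nlinarith)) (hn.trans (by nlinarith))
  have hB : |((badB DF g E P : ℤ) : ℝ)| ≤ C0 * X * |(DF : ℝ)| * (C0 * ((2 + C) * X) ^ d) *
      ((E + 1) ^ 2 * (E * X ^ (2 * |C1|)) * (2 * C0 * X) ^ (2 * E)) := by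
    simp only [badB, Int.cast_mul, abs_mul]
    gcongr
    exact hP.ka
  have hK : |((k * P.cc * c.F.eval P.n : ℤ) : ℝ)| ≤ k * C0 * ((2 + C) * X) ^ d := by
    simp only [Int.cast_mul, abs_mul, Int.cast_natCast, Nat.abs_cast]
    gcongr
    exact hP.cc
  have hK1 : 1 ≤ k * C0 * ((2 + C) * X) ^ d :=
    one_le_mul_of_one_le_of_one_le (one_le_mul_of_one_le_of_one_le (by exact_mod_cast hk) h0)
      (one_le_pow₀ (by nlinarith))
  have hT : C0 * X * |(DF : ℝ)| * (C0 * ((2 + C) * X) ^ d) *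
      ((E + 1) ^ 2 * (E * X ^ (2 * |C1|)) * (2 * C0 * X) ^ (2 * E)) *
      (k * C0 * ((2 + C) * X) ^ d) ≤ X ^ (((N + (1 + d + 2 * E + d) : ℕ) : ℝ) + 2 * |C1|) := by
    rw [Real.rpow_add hX0, Real.rpow_natCast, pow_add, mul_assoc (X ^ N)]
    refine le_trans (le_of_eq ?_) (mul_le_mul_of_nonneg_right
      (hN.le.trans (pow_le_pow_left₀ zero_le_two hX N)) (by positivity))
    simp only [mul_pow, pow_add]
    ring
  refine ⟨hB.trans ((le_mul_of_one_le_right ((abs_nonneg _).trans hB) hK1).trans hT), ?_⟩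
  rw [badC, Int.cast_mul, abs_mul]
  exact (mul_le_mul hB hK (abs_nonneg _) ((abs_nonneg _).trans hB)).trans hT

end Crest.Agent.R22
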