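import Crest.Agent.R22.FF
import Crest.Agent.R22.Basic

set_option autoImplicit false
open Polynomial IntermediateField

namespace Crest.Agent.R22

variable {d : ℕ}

section deg
variable {g h : ℂ[X][X]} {a b : ℕ}

theorem Red_mono (hg : DegLE g a) (hab : a ≤ b) : DegLE g b :=
  ⟨hg.1.trans hab, fun i => (hg.2 i).trans hab⟩

theorem Red_mul (hg : DegLE g a) (hh : DegLE h b) : DegLE (g * h) (a + b) := by
  refine ⟨natDegree_mul_le.trans (add_le_add hg.1 hh.1), fun i => ?_⟩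
  rw [coeff_mul]
  exact natDegree_sum_le_of_forall_le _ _ fun p _ =>
    natDegree_mul_le.trans (add_le_add (hg.2 _) (hh.2 _))

theorem Red_C {p : ℂ[X]} (hp : p.natDegree ≤ a) : DegLE (C p : ℂ[X][X]) a := by
  refine ⟨by simp, fun i => ?_⟩
  rw [coeff_C]
  split_ifs
  · exact hp
  · simp

theorem Red_pow (hg : DegLE g a) (n : ℕ) : DegLE (g ^ n) (a * n) := by
  induction n with
  | zero => simpa using Red_C (p := 1) (a := 0) (by simp)
  | succ n ih => rw [pow_succ, Nat.mul_succ]; exact Red_mul ih hg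

theorem Red_sum {ι : Type} (s : Finset ι) (f : ι → ℂ[X][X]) (hf : ∀ i ∈ s, DegLE (f i) a) :
    DegLE (∑ i ∈ s, f i) a := by
  refine ⟨natDegree_sum_le_of_forall_le _ _ fun i hi => (hf i hi).1, fun j => ?_⟩
  rw [finsetSum_coeff]
  exact natDegree_sum_le_of_forall_le _ _ fun i hi => (hf i hi).2 j

theorem Red_prod {ι : Type} (s : Finset ι) (f : ι → ℂ[X][X]) (hf : ∀ i ∈ s, DegLE (f i) a) :
    DegLE (∏ i ∈ s, f i) (s.card * a) := by
  classical
  induction s using Finset.induction_on with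
  | empty => simpa using Red_C (p := 1) (a := 0) (by simp)
  | insert i s hi ih =>
    rw [Finset.prod_insert hi, Finset.card_insert_of_notMem hi, Nat.succ_mul, add_comm]
    exact Red_mul (hf i (Finset.mem_insert_self _ _))
      (ih fun j hj => hf j (Finset.mem_insert_of_mem hj))

theorem Red_X (c : ℂ) : DegLE (X - C (C c) : ℂ[X][X]) 1 := by
  refine ⟨(natDegree_X_sub_C _).le, fun i => ?_⟩
  rw [coeff_sub, coeff_X, coeff_C]
  split_ifs <;> simp

theorem Red_lin (c : Ctx d) (b1 b2 : Fin d → ℤ) (j : Fin d) :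
    DegLE (C (c.lin b1 b2 j) : ℂ[X][X]) 1 :=
  Red_C natDegree_linear_le

end deg

theorem Red_factor {R : Type} [CommRing R] {k T M a : ℕ} (h1 : a / k ≤ T) (h2 : a / k ≤ M)
    {u l r v : R} (h : r ^ k * u * l = v) :
    u ^ T * l ^ M * r ^ a = u ^ (T - a / k) * l ^ (M - a / k) * v ^ (a / k) * r ^ (a % k) := by
  obtain ⟨T', rfl⟩ := Nat.exists_eq_add_of_le h1
  obtain ⟨M', rfl⟩ := Nat.exists_eq_add_of_le h2
  rw [Nat.add_sub_cancel_left, Nat.add_sub_cancel_left, ← h]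
  conv_lhs => rw [← Nat.div_add_mod a k]
  rw [Nat.div_add_mod a k]
  have e : r ^ a = (r ^ k) ^ (a / k) * r ^ (a % k) := by
    rw [← pow_mul, ← pow_add, Nat.div_add_mod]
  rw [e]
  generalize r ^ k = s
  ring

/-- Reduction of exponents: `h^m Φ ≡ ∑_{e < k} Φ_e(t, n) ρ^e` at every solution of `RelC`, where
`h = (n - θ_{i0}) ∏_j lin_j(t)` (monomial by monomial: `ρ_j^(k a + e) ((n-θ_{i0}) lin_j)^a =
ρ_j^e ((n - θ_j) lin_{i0})^a`). The degrees depend only on the degree bound `T`. If all exponents of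
`Φ` are multiples of `k`, only `e = 0` occurs. -/
theorem red_exp (k : ℕ) (hk : 1 ≤ k) (T : ℕ) : ∃ m T' : ℕ, ∀ (c : Ctx d) (b1 b2 : Fin d → ℤ)
    (i0 : Fin d) (Φ : MvPolynomial (Fin d) ℂ[X][X]), Φ.totalDegree ≤ T →
    (∀ a, DegLE (Φ.coeff a) T) → ∃ A : (Fin d → Fin k) → ℂ[X][X], (∀ e, DegLE (A e) T') ∧
      ((∀ a ∈ Φ.support, ∀ j, k ∣ a j) → ∀ e, (∃ j, (e j : ℕ) ≠ 0) → A e = 0) ∧
      ∀ (R : Type) [CommRing R] [Algebra ℂ R] (t n : R) (ρ : Fin d → R), c.RelC k b1 b2 i0 t n ρ →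
        ((n - algebraMap ℂ R (c.th i0)) * ∏ j, aeval t (c.lin b1 b2 j)) ^ m * evR t n ρ Φ =
          ∑ e, aevalAeval t n (A e) * ∏ j, ρ j ^ (e j : ℕ) := by
  classical
  refine ⟨d * T, T + d * (T + d * T + 2 * T), fun c b1 b2 i0 Φ hT hΦ => ?_⟩
  have ha : ∀ a ∈ Φ.support, ∀ j, a j / k ≤ T := fun a ha j =>
    (Nat.div_le_self _ _).trans (((Finsupp.le_degree j a).trans
      (MvPolynomial.le_totalDegree ha)).trans hT)
  have hd : 1 ≤ d := i0.pos
  refine ⟨fun e => ∑ a ∈ Φ.support with (fun j => (⟨a j % k, Nat.mod_lt _ hk⟩ : Fin k)) = e,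
    Φ.coeff a * ∏ j, (X - C (C (c.th i0))) ^ (T - a j / k) *
      C (c.lin b1 b2 j) ^ (d * T - a j / k) *
      ((X - C (C (c.th j))) * C (c.lin b1 b2 i0)) ^ (a j / k), fun e => ?_, ?_, ?_⟩
  · refine Red_sum _ _ fun a h => Red_mul (hΦ a) ?_
    have h1 := ha a (Finset.mem_filter.1 h).1
    have h2 := Red_prod (a := T + d * T + 2 * T) Finset.univ _ fun j _ =>
      Red_mono (Red_mul (Red_mul (Red_pow (Red_X (c.th i0)) (T - a j / k))
        (Red_pow (Red_lin c b1 b2 j) (d * T - a j / k)))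
        (Red_pow (Red_mul (Red_X (c.th j)) (Red_lin c b1 b2 i0)) (a j / k)))
        (by have := h1 j; omega)
    rwa [Finset.card_univ, Fintype.card_fin] at h2
  · rintro h e ⟨j, hj⟩
    refine Finset.sum_eq_zero fun a ha' => ?_
    obtain ⟨h1, rfl⟩ := Finset.mem_filter.1 ha'
    exact absurd (Nat.mod_eq_zero_of_dvd (h a h1 j)) hj
  · intro R _ _ t n ρ hρ
    have e1 : evR t n ρ Φ = ∑ a ∈ Φ.support, aevalAeval t n (Φ.coeff a) * ∏ j, ρ j ^ a j :=
      MvPolynomial.eval₂_eq' _ _ _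
    rw [e1, Finset.mul_sum, ← Finset.sum_fiberwise Φ.support
      fun a j => (⟨a j % k, Nat.mod_lt _ hk⟩ : Fin k)]
    refine Finset.sum_congr rfl fun e _ => ?_
    rw [map_sum, Finset.sum_mul]
    refine Finset.sum_congr rfl fun a ha' => ?_
    obtain ⟨h1, rfl⟩ := Finset.mem_filter.1 ha'
    have e2 : ∀ z : ℂ, aevalAeval t n (X - C (C z) : ℂ[X][X]) = n - algebraMap ℂ R z := by
      intro z; simp
    have e3 : ∀ p : ℂ[X], aevalAeval t n (C p : ℂ[X][X]) = aeval t p := by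
      intro p; simp
    have e4 : (n - algebraMap ℂ R (c.th i0)) ^ (d * T) =
        ∏ _j : Fin d, (n - algebraMap ℂ R (c.th i0)) ^ T := by
      rw [Finset.prod_const, Finset.card_univ, Fintype.card_fin, ← pow_mul, mul_comm]
    rw [map_mul, map_prod, mul_assoc, ← Finset.prod_mul_distrib, mul_left_comm, mul_pow, e4,
      ← Finset.prod_pow, ← Finset.prod_mul_distrib, ← Finset.prod_mul_distrib]
    congr 1
    refine Finset.prod_congr rfl fun j _ => ?_
    simp only [map_mul, map_pow, e2, e3]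
    exact Red_factor (ha a h1 j) ((ha a h1 j).trans (Nat.le_mul_of_pos_left T hd)) (hρ j)

end Crest.Agent.R22
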