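import Crest.Agent.R22.FF
import Crest.Agent.R22.Basic
import Crest.Agent.R22.Red

set_option autoImplicit false
open Polynomial IntermediateField

namespace Crest.Agent.R22

variable {d : ℕ}

theorem Comp_map {L M : Type*} [Field L] [Algebra ℂ L] [Field M] [Algebra ℂ M] (φ : L →ₐ[ℂ] M)
    (t n : L) (h : ℂ[X][X]) : aevalAeval (φ t) (φ n) h = φ (aevalAeval t n h) := by
  have e : aevalAeval (φ t) (φ n) = φ.comp (aevalAeval t n : ℂ[X][X] →ₐ[ℂ] L) := by
    ext <;> simp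
  rw [e]
  rfl

theorem Comp_isFF {L M : Type*} [Field L] [Algebra ℂ L] [Field M] [Algebra ℂ M] (φ : L →ₐ[ℂ] M)
    {t n : L} {g : ℂ[X][X]} : IsFF g (φ t) (φ n) ↔ IsFF g t n :=
  forall_congr' fun h => by rw [Comp_map, map_eq_zero]

theorem Comp_deg (Φ : MvPolynomial (Fin d) ℂ[X][X]) :
    ∃ T, Φ.totalDegree ≤ T ∧ ∀ a, DegLE (Φ.coeff a) T := by
  refine ⟨Φ.totalDegree + Φ.support.sup fun a => (Φ.coeff a).natDegree + degT (Φ.coeff a),
    Nat.le_add_right _ _, fun a => ?_⟩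
  by_cases ha : a ∈ Φ.support
  · have h := Finset.le_sup (f := fun a => (Φ.coeff a).natDegree + degT (Φ.coeff a)) ha
    refine ⟨by omega, fun i => ?_⟩
    by_cases hi : i ∈ (Φ.coeff a).support
    · have h2 : ((Φ.coeff a).coeff i).natDegree ≤ degT (Φ.coeff a) :=
        Finset.le_sup (f := fun i => ((Φ.coeff a).coeff i).natDegree) hi
      omega
    · simp [notMem_support_iff.1 hi]
  · rw [MvPolynomial.notMem_support_iff.1 ha]
    exact ⟨by simp, fun i => by simp⟩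

theorem Comp_grid {L : Type*} [Field L] {k : ℕ} (a : (Fin d → Fin k) → L) (S : Fin d → Finset L)
    (hS : ∀ j, k ≤ (S j).card) (hk : 1 ≤ k)
    (h : ∀ x : Fin d → L, (∀ j, x j ∈ S j) → ∑ e, a e * ∏ j, x j ^ (e j : ℕ) = 0)
    (e : Fin d → Fin k) : a e = 0 := by
  classical
  let ι : (Fin d → Fin k) → (Fin d →₀ ℕ) := fun e => Finsupp.equivFunOnFinite.symm fun j => e j
  have hι : Function.Injective ι := fun e e' h =>
    funext fun j => Fin.ext (congrFun (Finsupp.equivFunOnFinite.symm.injective h) j)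
  have h0 := MvPolynomial.eq_zero_of_eval_zero_at_prod_finset
    (∑ e, MvPolynomial.monomial (ι e) (a e)) S (fun j => ?_) (fun x hx => ?_)
  · have h1 := congrArg (MvPolynomial.coeff (ι e)) h0
    rw [MvPolynomial.coeff_sum, Finset.sum_eq_single e (fun e' _ he => by
      rw [MvPolynomial.coeff_monomial, if_neg fun h => he (hι h)]) (by simp)] at h1
    simpa using h1
  · refine lt_of_le_of_lt (MvPolynomial.degreeOf_sum_le _ _ _) (lt_of_lt_of_le ?_ (hS j))
    refine (Finset.sup_lt_iff hk).2 fun e _ => lt_of_le_of_lt ?_ (e j).2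
    by_cases he : a e = 0
    · simp [he]
    · rw [MvPolynomial.degreeOf_monomial_eq _ _ he]
      rfl
  · rw [← h x hx, map_sum]
    refine Finset.sum_congr rfl fun e _ => ?_
    rw [MvPolynomial.eval_monomial, Finsupp.prod_fintype _ _ fun j => pow_zero _]
    rfl

theorem Comp_one (c : Ctx d) (k : ℕ) (hk : 1 ≤ k) (b1 b2 : Fin d → ℤ) (hb : b1 ≠ 0) (i0 : Fin d)
    (g : ℂ[X][X]) (hg : Irreducible g) (h1 : 1 ≤ g.natDegree)
    (hn : ∀ j, ¬ g ∣ X - C (C (c.th j))) :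
    ∃ (L : Type) (_ : Field L) (_ : Algebra ℂ L) (t n : L) (ρ : Fin d → L),
      CF c k b1 b2 i0 g t n ρ := by
  obtain ⟨L0, _, _, t0, n0, hff0, -⟩ := exists_FF g hg
  let φ : L0 →ₐ[ℂ] AlgebraicClosure L0 := IsScalarTower.toAlgHom ℂ L0 _
  obtain ⟨t, n, hff⟩ : ∃ t n : AlgebraicClosure L0, IsFF g t n := ⟨_, _, (Comp_isFF φ).2 hff0⟩
  have hn' : ∀ j, n - algebraMap ℂ _ (c.th j) ≠ 0 := fun j h =>
    hn j ((hff _).1 (by simpa using h))
  have hl : ∀ j, aeval t (c.lin b1 b2 j) ≠ 0 := fun j h => by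
    refine hff.trans_t hg h1 ⟨_, fun h0 => sg_ne_zero c j hb ?_, h⟩
    simpa [Ctx.lin] using congrArg (fun p => coeff p 1) h0
  choose ρ hρ using fun j => IsAlgClosed.exists_pow_nat_eq
    ((n - algebraMap ℂ _ (c.th j)) * aeval t (c.lin b1 b2 i0) /
      ((n - algebraMap ℂ _ (c.th i0)) * aeval t (c.lin b1 b2 j))) hk
  let K := IntermediateField.adjoin ℂ ({t, n} ∪ Set.range ρ)
  have ht : t ∈ K := subset_adjoin _ _ (Or.inl (Or.inl rfl))
  have hn1 : n ∈ K := subset_adjoin _ _ (Or.inl (Or.inr rfl))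
  have hr : ∀ j, ρ j ∈ K := fun j => subset_adjoin _ _ (Or.inr ⟨j, rfl⟩)
  have ha : ∀ p : ℂ[X], K.val (aeval (⟨t, ht⟩ : K) p) = aeval t p := fun p =>
    (aeval_algHom_apply K.val _ p).symm
  have hi : Function.Injective K.val := Subtype.val_injective
  refine ⟨K, inferInstance, inferInstance, ⟨t, ht⟩, ⟨n, hn1⟩, fun j => ⟨ρ j, hr j⟩,
    (Comp_isFF K.val).1 hff, fun j => hi ?_, ?_, fun j h => hn' j ?_,
    fun j h => hl j ?_⟩
  · simp only [map_mul, map_pow, map_sub, AlgHom.commutes, ha]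
    change ρ j ^ k * (n - _) * _ = (n - _) * _
    rw [hρ, mul_assoc, div_mul_cancel₀ _ (mul_ne_zero (hn' i0) (hl j))]
  · refine IntermediateField.map_injective K.val ?_
    rw [adjoin_map, ← AlgHom.fieldRange_eq_map, fieldRange_val, Set.image_union,
      Set.image_pair, ← Set.range_comp]
    rfl
  · simpa using congrArg K.val h
  · rw [← ha, h, map_zero]

/-- Components of the Kummer cover. `L0` from `exists_FF`; choose `k`-th roots `ρ0 j` in an algebraic
closure, `L = L0(ρ0)`, `R = {ζ ρ0 : ζ ∈ μ_k^d}`. If a point is compatible with no member of `R`, the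
product `Φ` of the witnesses vanishes at all `ζ ρ0` but not at the point; by `red_exp` and
orthogonality of the characters of `μ_k^d` every `A e (t, n) ρ0^e` vanishes, so `g ∣ A e`, so
`h^m Φ` vanishes at the point. -/
theorem comp (c : Ctx d) (k : ℕ) (hk : 1 ≤ k) (b1 b2 : Fin d → ℤ) (hb : b1 ≠ 0) (i0 : Fin d)
    (g : ℂ[X][X]) (hg : Irreducible g) (h1 : 1 ≤ g.natDegree)
    (hn : ∀ j, ¬ g ∣ X - C (C (c.th j))) :
    ∃ (L : Type) (_ : Field L) (_ : Algebra ℂ L) (t n : L) (R : Finset (Fin d → L)),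
      R.card ≤ k ^ d ∧ (∀ ρ ∈ R, CF c k b1 b2 i0 g t n ρ) ∧
      ∀ (t' n' : ℂ) (ρ' : Fin d → ℂ), g.evalEval t' n' = 0 → c.RelC k b1 b2 i0 t' n' ρ' →
        n' ≠ c.th i0 → (∀ j, (c.lin b1 b2 j).eval t' ≠ 0) → ∃ ρ ∈ R, Compat t n ρ t' n' ρ' := by
  classical
  obtain ⟨L, _, _, t, n, ρ0, h0⟩ := Comp_one c k hk b1 b2 hb i0 g hg h1 hn
  have hρ : ∀ j, ρ0 j ≠ 0 := fun j h => by
    have h2 := h0.rel j
    rw [h, zero_pow (by omega), zero_mul, zero_mul] at h2
    exact mul_ne_zero (h0.hn j) (h0.hl i0) h2.symm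
  let S : Fin d → Finset L := fun j =>
    (nthRootsFinset k (1 : ℂ)).image fun z => algebraMap ℂ L z * ρ0 j
  have hS : ∀ j, (S j).card = k := fun j => by
    rw [Finset.card_image_of_injective _ fun z z' h =>
      (algebraMap ℂ L).injective (mul_right_cancel₀ (hρ j) h),
      (Complex.isPrimitiveRoot_exp k (by omega)).card_nthRootsFinset]
  have hCF : ∀ ρ ∈ Fintype.piFinset S, CF c k b1 b2 i0 g t n ρ := fun ρ hρ => by
    have h2 : ∀ j, ∃ z : ℂ, z ^ k = 1 ∧ algebraMap ℂ L z * ρ0 j = ρ j := fun j => by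
      obtain ⟨z, hz, e⟩ := Finset.mem_image.1 (Fintype.mem_piFinset.1 hρ j)
      exact ⟨z, (mem_nthRootsFinset hk 1).1 hz, e⟩
    choose z hz e using h2
    refine ⟨h0.ff, fun j => ?_, ?_, h0.hn, h0.hl⟩
    · rw [← e, mul_pow, ← map_pow, hz, map_one, one_mul]
      exact h0.rel j
    · rw [eq_top_iff, ← h0.gen, adjoin_le_iff]
      rintro x (hx | ⟨j, rfl⟩)
      · exact subset_adjoin _ _ (Or.inl hx)
      · have hz0 : z j ≠ 0 := fun h => by
          have h3 := hz j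
          rw [h, zero_pow (by omega)] at h3
          exact zero_ne_one h3
        have e2 : ρ0 j = algebraMap ℂ L (z j)⁻¹ * ρ j := by
          rw [← e, ← mul_assoc, ← map_mul, inv_mul_cancel₀ hz0, map_one, one_mul]
        rw [e2]
        exact mul_mem (IntermediateField.algebraMap_mem _ _) (subset_adjoin _ _ (Or.inr ⟨j, rfl⟩))
  refine ⟨L, inferInstance, inferInstance, t, n, Fintype.piFinset S, by simp [hS], hCF,
    fun t' n' ρ' hg' hrel hn' hl' => ?_⟩
  by_contra! hc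
  simp only [Compat, not_forall] at hc
  choose Ψ hΨ1 hΨ2 using hc
  let Φ := ∏ ρ ∈ (Fintype.piFinset S).attach, Ψ ρ.1 ρ.2
  obtain ⟨T, hT1, hT2⟩ := Comp_deg Φ
  obtain ⟨m, T', hred⟩ := red_exp (d := d) k hk T
  obtain ⟨A, -, -, hA⟩ := hred c b1 b2 i0 Φ hT1 hT2
  have hA0 := Comp_grid (fun e => aevalAeval t n (A e)) S (fun j => (hS j).ge) hk fun x hx => by
    have hx' := Fintype.mem_piFinset.2 hx
    rw [← hA L t n x (hCF x hx').rel, map_prod,
      Finset.prod_eq_zero (Finset.mem_attach _ ⟨x, hx'⟩) (hΨ1 x hx'), mul_zero]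
  have h3 := hA ℂ t' n' ρ' hrel
  rw [Finset.sum_eq_zero fun e _ => by
    obtain ⟨q, hq⟩ := (h0.ff _).1 (hA0 e)
    rw [hq, map_mul, coe_aevalAeval_eq_evalEval, hg', zero_mul, zero_mul]] at h3
  refine mul_ne_zero (pow_ne_zero _ (mul_ne_zero (sub_ne_zero.2 hn') ?_)) ?_ h3
  · exact Finset.prod_ne_zero_iff.2 fun j _ => by simpa using hl' j
  · rw [map_prod]
    exact Finset.prod_ne_zero_iff.2 fun ρ _ => hΨ2 ρ.1 ρ.2

end Crest.Agent.R22
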