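import Crest.Agent.R22.LineCount

set_option autoImplicit false
open Polynomial IntermediateField

namespace Crest.Agent.R22

variable {d : ℕ}

theorem card_le_lines {α β : Type*} [DecidableEq β] (S : Finset α) (l : α → β) (M N : ℝ)
    (hM0 : 0 ≤ M) (hM : ∀ b ∈ S.image l, ((S.filter fun P => l P = b).card : ℝ) ≤ M)
    (hN : ((S.image l).card : ℝ) ≤ N) : (S.card : ℝ) ≤ M * N := by
  have h1 : S.card = ∑ b ∈ S.image l, (S.filter fun P => l P = b).card :=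
    Finset.card_eq_sum_card_image l S
  have h2 : (S.card : ℝ) ≤ ∑ _b ∈ S.image l, M := by
    rw [h1, Nat.cast_sum]
    exact Finset.sum_le_sum hM
  rw [Finset.sum_const, nsmul_eq_mul] at h2
  calc (S.card : ℝ) ≤ (S.image l).card * M := h2
    _ ≤ N * M := mul_le_mul_of_nonneg_right hN hM0
    _ = M * N := mul_comm _ _

theorem InjN.mono {c : Ctx d} {k : ℕ} {S T : Finset (LPt c k)} (h : InjN S) (hT : T ⊆ S) :
    InjN T := fun P hP Q hQ e => h P (hT hP) Q (hT hQ) e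

/-- Lines in a cell. -/
theorem card_lines_cell (hd : 1 ≤ d) : ∃ C : ℝ, 0 ≤ C ∧ ∀ (X ε g1 g2 G1 G2 : ℝ)
    (T : Finset ((Fin d → ℤ) × (Fin d → ℤ))), 1 ≤ X → G1 ≤ X ^ (g1 + ε) → G2 ≤ X ^ (g2 + ε) →
      (∀ l ∈ T, LH l.1 l.2 G1 G2) → (T.card : ℝ) ≤ C * X ^ mainE d ε g1 g2 := by
  obtain ⟨C, hC0, hC⟩ := card_lines hd
  refine ⟨C, hC0, fun X ε g1 g2 G1 G2 T hX h1 h2 hT => ?_⟩
  have hX0 : 0 < X := by linarith
  rcases T.eq_empty_or_nonempty with rfl | ⟨l, hl⟩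
  · simp only [Finset.card_empty, Nat.cast_zero]; positivity
  have g1' := (hT l hl).g1
  have g2' := (hT l hl).g2
  refine (hC G1 G2 T g1' g2' hT).trans ?_
  rw [mul_assoc]
  refine mul_le_mul_of_nonneg_left ?_ hC0
  have e : X ^ mainE d ε g1 g2 = (X ^ (g1 + ε)) ^ (d + 1) * (X ^ (g2 + ε)) ^ (d - 1) := by
    rw [← Real.rpow_natCast, ← Real.rpow_natCast, ← Real.rpow_mul hX0.le, ← Real.rpow_mul hX0.le,
      ← Real.rpow_add hX0, mainE, Nat.cast_sub hd]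
    congr 1
    push_cast
    ring
  rw [e]
  gcongr

/-- `A / G + 1 ≤ 2 X ^ max (a - g) 0`. -/
theorem div_add_one_le (X A G a g : ℝ) (hX : 1 ≤ X) (hA : A ≤ X ^ a) (hG : X ^ g ≤ G) :
    A / G + 1 ≤ 2 * X ^ max (a - g) 0 := by
  have hX0 : 0 < X := by linarith
  have hg : 0 < X ^ g := Real.rpow_pos_of_pos hX0 g
  have h1 : A / G ≤ X ^ (a - g) := by
    rw [Real.rpow_sub hX0]
    have : A / G ≤ X ^ a / G := div_le_div_of_nonneg_right hA (by linarith)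
    refine this.trans ?_
    exact div_le_div_of_nonneg_left (Real.rpow_pos_of_pos hX0 a).le hg hG
  have h2 : X ^ (a - g) ≤ X ^ max (a - g) 0 :=
    Real.rpow_le_rpow_of_exponent_le hX (le_max_left _ _)
  have h3 : 1 ≤ X ^ max (a - g) 0 := Real.one_le_rpow hX (le_max_right _ _)
  linarith

/-- If `X ^ a ≤ K X ^ b` and `K < X ^ ε` then `a ≤ b + ε`. -/
theorem exp_le_of (X K a b ε : ℝ) (hX : 1 < X) (h : X ^ a ≤ K * X ^ b) (hK : K ≤ X ^ ε) :
    a ≤ b + ε := by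
  have hX0 : 0 < X := by linarith
  have : X ^ a ≤ X ^ (b + ε) := by
    rw [Real.rpow_add hX0]
    have := Real.rpow_pos_of_pos hX0 b
    nlinarith
  exact (Real.rpow_le_rpow_left_iff hX).1 this

theorem exists_X0 (K ε : ℝ) (hε : 0 < ε) : ∃ X0 : ℝ, 1 < X0 ∧ ∀ X, X0 ≤ X → K ≤ X ^ ε := by
  have h := (tendsto_rpow_atTop hε).eventually_ge_atTop K
  obtain ⟨a, ha⟩ := Filter.eventually_atTop.1 h
  exact ⟨max a 2, lt_of_lt_of_le (by norm_num) (le_max_right _ _),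
    fun X hX => ha X ((le_max_left _ _).trans hX)⟩

theorem etaC_nonneg (σ lam : ℝ) (e0 N0 al io : ℕ) (h1 : 0 ≤ σ) (h2 : 0 ≤ lam) :
    0 ≤ etaC σ lam e0 N0 al io := by
  unfold etaC
  positivity

/-- `X / C0 ≤ p ≤ (C0 B)^d`. -/
theorem Sz.X_le {c : Ctx d} {k : ℕ} {C0 X B : ℝ} {P : Pt c k} (h : Sz C0 X B P) (h0 : 1 ≤ C0) :
    X ≤ C0 ^ (d + 1) * B ^ d := by
  have h1 : (P.p : ℝ) ≤ (C0 * B) ^ d := by
    have e : ‖∏ j, c.sg j P.be‖ = |(P.ka : ℝ)| * P.p := by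
      rw [P.nrm]
      push_cast
      rw [norm_mul, Complex.norm_intCast, Complex.norm_natCast]
    have hk : (1 : ℝ) ≤ |(P.ka : ℝ)| := by
      rw [← Int.cast_abs]
      exact_mod_cast Int.one_le_abs P.ka0
    have h2 : ‖∏ j, c.sg j P.be‖ ≤ (C0 * B) ^ d := by
      rw [norm_prod]
      calc ∏ j, ‖c.sg j P.be‖ ≤ ∏ _j : Fin d, (C0 * B) :=
            Finset.prod_le_prod (fun j _ => norm_nonneg _) fun j _ => h.be2 j
        _ = (C0 * B) ^ d := by simp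
    have hp : (0 : ℝ) ≤ P.p := Nat.cast_nonneg _
    nlinarith
  have h2 := h.p1
  rw [div_le_iff₀ (by linarith)] at h2
  calc X ≤ P.p * C0 := h2
    _ ≤ (C0 * B) ^ d * C0 := by gcongr
    _ = C0 ^ (d + 1) * B ^ d := by rw [mul_pow]; ring

end Crest.Agent.R22
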