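import Crest.Agent.R22.Basic

set_option autoImplicit false
open Polynomial IntermediateField

namespace Crest.Agent.R22

variable {d : ℕ}

/-- the rational vector of an integer vector -/
def DegC_q (v : Fin d → ℤ) : Fin d → ℚ := fun l => (v l : ℚ)

/-- the degenerate partners of `b1` lie in a subspace of dimension `≤ d / 2` -/
theorem DegC_space (c : Ctx d) {b1 : Fin d → ℤ} (hb : b1 ≠ 0) {i j : Fin d} (hij : i ≠ j) :
    ∃ V : Submodule ℚ (Fin d → ℚ), 2 * Module.finrank ℚ V ≤ d ∧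
      ∀ b2, c.pl b1 b2 i j = 0 → DegC_q b2 ∈ V := by
  have : Fact (Irreducible (c.F.map (Int.castRingHom ℚ))) := ⟨c.irr⟩
  set f := c.F.map (Int.castRingHom ℚ) with hf
  have hf0 : f ≠ 0 := c.irr.ne_zero
  have hroot : ∀ j, aeval (c.th j) f = 0 := fun j => by
    have h := c.root j
    rw [hf, ← algebraMap_int_eq, aeval_map_algebraMap]
    exact h
  let σ : Fin d → AdjoinRoot f →ₐ[ℚ] ℂ := fun j =>
    AdjoinRoot.liftAlgHom f (Algebra.ofId ℚ ℂ) (c.th j) (hroot j)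
  have hσ : ∀ j, σ j (AdjoinRoot.root f) = c.th j := fun j => AdjoinRoot.liftAlgHom_root _ _ _ _
  have : FiniteDimensional ℚ (AdjoinRoot f) := (AdjoinRoot.powerBasis hf0).finite
  have hK : Module.finrank ℚ (AdjoinRoot f) = d := by
    rw [(AdjoinRoot.powerBasis hf0).finrank, AdjoinRoot.powerBasis_dim, hf, c.monic.natDegree_map,
      c.deg]
  let ι : (Fin d → ℚ) →ₗ[ℚ] AdjoinRoot f :=
    Fintype.linearCombination ℚ fun l : Fin d => AdjoinRoot.root f ^ (l : ℕ)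
  have hι : ∀ j w, σ j (ι w) = ∑ l, (w l : ℂ) * c.th j ^ (l : ℕ) := fun j w => by
    simp only [ι, Fintype.linearCombination_apply, map_sum, Rat.smul_def, map_mul, map_ratCast,
      map_pow, hσ]
  have hιi : Function.Injective ι := by
    refine (injective_iff_map_eq_zero ι).2 fun w hw => ?_
    have h := Matrix.eq_zero_of_forall_index_sum_mul_pow_eq_zero (v := fun l => (w l : ℂ)) c.inj
      fun j => by rw [← hι, hw, map_zero]
    funext l
    have h' : (w l : ℂ) = 0 := congrFun h l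
    exact Rat.cast_eq_zero.1 h'
  have hsg : ∀ j v, σ j (ι (DegC_q v)) = c.sg j v := fun j v => by
    rw [hι]; simp [DegC_q, Ctx.sg]
  let W : Submodule ℚ (AdjoinRoot f) := LinearMap.ker
    (c.sg i b1 • (σ j).toLinearMap - c.sg j b1 • (σ i).toLinearMap)
  have hW : ∀ z, z ∈ W ↔ c.sg i b1 * σ j z = c.sg j b1 * σ i z := fun z => by
    simp [W, sub_eq_zero]
  have h1 : 2 * Module.finrank ℚ W ≤ d := by
    let φ : W × W →ₗ[ℚ] AdjoinRoot f :=
      W.subtype.coprod ((LinearMap.mulLeft ℚ (AdjoinRoot.root f)).comp W.subtype)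
    have hφ : Function.Injective φ := by
      refine (injective_iff_map_eq_zero φ).2 fun z hz => ?_
      have e : (z.1 : AdjoinRoot f) = -(AdjoinRoot.root f * z.2) := eq_neg_of_add_eq_zero_left hz
      have a1 := (hW _).1 z.1.2
      have a2 := (hW _).1 z.2.2
      rw [e, map_neg, map_neg, map_mul, map_mul, hσ, hσ] at a1
      have a3 : (c.th j - c.th i) * (c.sg i b1 * σ j z.2) = 0 := by
        linear_combination (-1) * a1 - c.th i * a2
      have a4 : σ j z.2 = 0 :=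
        ((mul_eq_zero.1 ((mul_eq_zero.1 a3).resolve_left
          (sub_ne_zero.2 fun h => hij (c.inj h).symm))).resolve_left (sg_ne_zero c i hb))
      have a5 : (z.2 : AdjoinRoot f) = 0 := (map_eq_zero (σ j)).1 a4
      rw [a5, mul_zero, neg_zero] at e
      exact Prod.ext (Subtype.ext e) (Subtype.ext a5)
    have := LinearMap.finrank_le_finrank_of_injective hφ
    rw [Module.finrank_prod, hK] at this
    omega
  refine ⟨W.comap ι, le_trans (Nat.mul_le_mul_left 2 ?_) h1, fun b2 h => ?_⟩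
  · exact LinearMap.finrank_le_finrank_of_injective (f := ι.submoduleComap W)
      fun x y hxy => Subtype.ext (hιi (congrArg Subtype.val hxy))
  · rw [Submodule.mem_comap, hW, hsg, hsg]
    exact sub_eq_zero.1 h

theorem DegC_Icc {R : ℝ} (hR : 1 ≤ R) :
    ((Finset.Icc (-(⌊2 * R⌋₊ : ℤ)) (⌊2 * R⌋₊ : ℤ)).card : ℝ) ≤ 5 * R := by
  have h : (Finset.Icc (-(⌊2 * R⌋₊ : ℤ)) (⌊2 * R⌋₊ : ℤ)).card = 2 * ⌊2 * R⌋₊ + 1 := by
    rw [Int.card_Icc]; omega
  have h2 : (⌊2 * R⌋₊ : ℝ) ≤ 2 * R := Nat.floor_le (by linarith)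
  rw [h]
  push_cast
  linarith

theorem DegC_mem_Icc {R : ℝ} {v : Fin d → ℤ} (h : ‖v‖ ≤ 2 * R) (l : Fin d) :
    v l ∈ Finset.Icc (-(⌊2 * R⌋₊ : ℤ)) (⌊2 * R⌋₊ : ℤ) := by
  have h1 : ((v l).natAbs : ℝ) ≤ 2 * R := by
    have := (norm_le_pi_norm v l).trans h
    rwa [Int.norm_eq_abs, ← Int.cast_abs, ← Int.natCast_natAbs, Int.cast_natCast] at this
  have h2 := Nat.le_floor h1
  rw [Finset.mem_Icc]
  omega

/-- integer points of a rational subspace -/
theorem DegC_count (V : Submodule ℚ (Fin d → ℚ)) {r : ℕ} (hr : Module.finrank ℚ V ≤ r) {R : ℝ}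
    (hR : 1 ≤ R) (S : Finset (Fin d → ℤ)) (hS : ∀ v ∈ S, DegC_q v ∈ V ∧ ‖v‖ ≤ 2 * R) :
    (S.card : ℝ) ≤ (5 * R) ^ r := by
  classical
  let φ : Fin d → Module.Dual ℚ V := fun l => (LinearMap.proj l).comp V.subtype
  obtain ⟨κ, a, ha, hsp, hli⟩ := exists_linearIndependent' ℚ φ
  have : Finite κ := Finite.of_injective a ha
  have : Fintype κ := Fintype.ofFinite κ
  have h1 : Fintype.card κ ≤ r := by
    have := hli.fintype_card_le_finrank
    rw [Subspace.dual_finrank_eq] at this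
    exact this.trans hr
  have h2 : S.card ≤ (Fintype.piFinset fun _ : κ =>
      Finset.Icc (-(⌊2 * R⌋₊ : ℤ)) (⌊2 * R⌋₊ : ℤ)).card := by
    refine Finset.card_le_card_of_injOn (fun v k => v (a k))
      (fun v hv => Finset.mem_coe.2 (Fintype.mem_piFinset.2 fun k =>
        DegC_mem_Icc (hS v hv).2 _)) fun v hv w hw h => ?_
    let z : V := ⟨DegC_q v - DegC_q w, V.sub_mem (hS v hv).1 (hS w hw).1⟩
    have h3 : Submodule.span ℚ (Set.range (φ ∘ a)) ≤ LinearMap.ker (Module.Dual.eval ℚ V z) := by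
      rw [Submodule.span_le]
      rintro _ ⟨k, rfl⟩
      have := congrFun h k
      simp only at this
      simp [φ, z, DegC_q, this]
    funext l
    have h4 := h3 (hsp ▸ Submodule.subset_span (Set.mem_range_self (f := φ) l))
    simpa [φ, z, DegC_q, sub_eq_zero] using h4
  rw [Fintype.card_piFinset, Finset.prod_const, Finset.card_univ] at h2
  calc (S.card : ℝ) ≤ ((Finset.Icc (-(⌊2 * R⌋₊ : ℤ)) (⌊2 * R⌋₊ : ℤ)).card : ℝ) ^ Fintype.card κ := by
        exact_mod_cast h2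
    _ ≤ (5 * R) ^ Fintype.card κ := pow_le_pow_left₀ (Nat.cast_nonneg _) (DegC_Icc hR) _
    _ ≤ (5 * R) ^ r := pow_le_pow_right₀ (by linarith) h1

theorem DegC_unit {g : ℤ} (h : ∀ l : ℕ, l.Prime → ¬ (l : ℤ) ∣ g) : g = 1 ∨ g = -1 := by
  by_contra hg
  have : g.natAbs ≠ 1 := by omega
  obtain ⟨p, hp, hd⟩ := Nat.exists_prime_and_dvd this
  exact h p hp (Int.natCast_dvd.2 hd)

theorem DegC_par {ι : Type} [Fintype ι] {v u : ι → ℤ} (hv : ∀ l : ℕ, l.Prime → ∃ i, ¬ (l : ℤ) ∣ v i)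
    (h : ∀ a b, v a * u b = v b * u a) : ∃ m : ℤ, ∀ a, u a = m * v a := by
  classical
  obtain ⟨g, hg⟩ := Finset.gcd_eq_sum_mul Finset.univ v
  have h1 : Finset.univ.gcd v * Finset.univ.gcd v = 1 := by
    rcases DegC_unit (g := Finset.univ.gcd v) (fun l hl hd => by
      obtain ⟨i, hi⟩ := hv l hl
      exact hi (hd.trans (Finset.gcd_dvd (Finset.mem_univ i)))) with h1 | h1 <;> simp [h1]
  refine ⟨Finset.univ.gcd v * ∑ b, u b * g b, fun a => ?_⟩
  calc u a = Finset.univ.gcd v * (Finset.univ.gcd v * u a) := by rw [← mul_assoc, h1, one_mul]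
    _ = _ := by
      rw [mul_assoc]
      congr 1
      rw [hg, Finset.sum_mul, Finset.sum_mul]
      exact Finset.sum_congr rfl fun b _ => by linear_combination (g b) * h b a

/-- two primitive lattices of rank two in a plane with the same first vector -/
theorem DegC_two {V : Submodule ℚ (Fin d → ℚ)} (hV : Module.finrank ℚ V ≤ 2) {b1 b2 b3 : Fin d → ℤ}
    (h1 : DegC_q b1 ∈ V) (h2 : DegC_q b2 ∈ V) (h3 : DegC_q b3 ∈ V) (l2 : IsLine b1 b2)
    (l3 : IsLine b1 b3) : ∃ ε m : ℤ, (ε = 1 ∨ ε = -1) ∧ ∀ a, b3 a = ε * b2 a + m * b1 a := by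
  have hdep : ¬ LinearIndependent ℚ (![⟨_, h1⟩, ⟨_, h2⟩, ⟨_, h3⟩] : Fin 3 → V) := fun h => by
    have := h.fintype_card_le_finrank
    rw [Fintype.card_fin] at this
    omega
  obtain ⟨g, hg, i, hi⟩ := Fintype.not_linearIndependent_iff.1 hdep
  have hrel : ∀ a, g 0 * b1 a + g 1 * b2 a + g 2 * b3 a = 0 := fun a => by
    have := congrFun (congrArg Subtype.val hg) a
    simpa [Fin.sum_univ_three, DegC_q] using this
  have hz : g 2 ≠ 0 := by
    intro hz
    obtain ⟨a, b, hab⟩ := l2.prim 2 Nat.prime_two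
    have hw : ((b1 a * b2 b - b1 b * b2 a : ℤ) : ℚ) ≠ 0 := by
      exact Int.cast_ne_zero.2 fun h => hab (by rw [h]; exact dvd_zero _)
    have hy : g 1 = 0 := by
      refine (mul_eq_zero.1 ?_).resolve_right hw
      push_cast
      have e1 := hrel a
      have e2 := hrel b
      rw [hz] at e1 e2
      linear_combination (b1 a : ℚ) * e2 - (b1 b : ℚ) * e1
    obtain ⟨p, hp⟩ := Function.ne_iff.1 l2.ne
    have hx : g 0 = 0 := by
      have e1 := hrel p
      rw [hz, hy, zero_mul, zero_mul, add_zero, add_zero] at e1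
      exact (mul_eq_zero.1 e1).resolve_right (by exact_mod_cast hp)
    fin_cases i
    exacts [hi hx, hi hy, hi hz]
  obtain ⟨ε, hε⟩ := DegC_par (ι := Fin d × Fin d)
    (v := fun p => b1 p.1 * b2 p.2 - b1 p.2 * b2 p.1)
    (u := fun p => b1 p.1 * b3 p.2 - b1 p.2 * b3 p.1)
    (fun l hl => by
      obtain ⟨a, b, h⟩ := l2.prim l hl
      exact ⟨(a, b), h⟩) (fun p q => by
      have : (((b1 p.1 * b2 p.2 - b1 p.2 * b2 p.1) * (b1 q.1 * b3 q.2 - b1 q.2 * b3 q.1) : ℤ) : ℚ) =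
          ((b1 q.1 * b2 q.2 - b1 q.2 * b2 q.1) * (b1 p.1 * b3 p.2 - b1 p.2 * b3 p.1) : ℤ) := by
        refine mul_left_cancel₀ hz ?_
        push_cast
        linear_combination
          (b1 p.1 * b2 p.2 - b1 p.2 * b2 p.1 : ℚ) * ((b1 q.1 : ℚ) * hrel q.2 - (b1 q.2 : ℚ) * hrel q.1) -
          (b1 q.1 * b2 q.2 - b1 q.2 * b2 q.1 : ℚ) * ((b1 p.1 : ℚ) * hrel p.2 - (b1 p.2 : ℚ) * hrel p.1)
      exact_mod_cast this)
  have hε1 : ε = 1 ∨ ε = -1 := DegC_unit fun l hl hd => by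
    obtain ⟨a, b, h⟩ := l3.prim l hl
    exact h (by rw [hε (a, b)]; exact hd.mul_right _)
  obtain ⟨m, hm⟩ := DegC_par (v := b1) (u := fun a => b3 a - ε * b2 a) (fun l hl => by
    by_contra h
    push Not at h
    obtain ⟨a, b, hab⟩ := l2.prim l hl
    exact hab (dvd_sub ((h a).mul_right _) ((h b).mul_right _))) fun a b => by
      linear_combination hε (a, b)
  exact ⟨ε, m, hε1, fun a => by linear_combination hm a⟩

theorem DegC_count2 {V : Submodule ℚ (Fin d → ℚ)} (hV : Module.finrank ℚ V ≤ 2) {b1 : Fin d → ℤ}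
    (h1 : DegC_q b1 ∈ V) (S : Finset (Fin d → ℤ)) (hS : ∀ v ∈ S, DegC_q v ∈ V ∧ IsLine b1 v) :
    S.card ≤ 4 * d := by
  classical
  rcases S.eq_empty_or_nonempty with rfl | ⟨b2, hb2⟩
  · simp
  have hsub : S ⊆ ((Finset.univ : Finset (Fin d)) ×ˢ ({1, -1} : Finset ℤ) ×ˢ ({0, 1} : Finset ℤ)).image
      fun p => fun a => p.2.1 * b2 a + (⌊-(p.2.1 * b2 p.1 : ℝ) / b1 p.1⌋ + p.2.2) * b1 a := by
    intro b3 hb3
    obtain ⟨ε, m, hε, hm⟩ := DegC_two hV h1 (hS b2 hb2).1 (hS b3 hb3).1 (hS b2 hb2).2 (hS b3 hb3).2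
    obtain ⟨a, ha1, ha2⟩ := (hS b3 hb3).2.red
    have hn : 0 < ‖b1‖ := norm_pos_iff.2 (hS b3 hb3).2.ne
    have ha0 : (b1 a : ℝ) ≠ 0 := fun h => by rw [h, abs_zero] at ha1; linarith
    set x : ℝ := -(ε * b2 a : ℝ) / b1 a with hx
    have e : (b3 a : ℝ) = (m - x) * b1 a := by
      rw [hm a, hx]; push_cast; field_simp; ring
    have h2 : |m - x| ≤ 1 / 2 := by
      rw [e, abs_mul, ha1] at ha2
      nlinarith
    obtain ⟨h3, h4⟩ := abs_le.1 h2
    have h5 : ⌊x⌋ - 1 < m := by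
      have : ((⌊x⌋ - 1 : ℤ) : ℝ) < m := by push_cast; linarith [Int.floor_le x]
      exact_mod_cast this
    have h6 : m < ⌊x⌋ + 2 := by
      have : (m : ℝ) < ((⌊x⌋ + 2 : ℤ) : ℝ) := by push_cast; linarith [Int.lt_floor_add_one x]
      exact_mod_cast this
    refine Finset.mem_image.2 ⟨(a, ε, m - ⌊x⌋), ?_, funext fun b => ?_⟩
    · simp only [Finset.mem_product, Finset.mem_univ, Finset.mem_insert, Finset.mem_singleton,
        true_and]
      exact ⟨hε, by omega⟩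
    · simp only [← hx, add_sub_cancel]
      exact (hm b).symm
  refine (Finset.card_le_card hsub).trans (Finset.card_image_le.trans ?_)
  rw [Finset.card_product, Finset.card_product, Finset.card_univ, Fintype.card_fin,
    Finset.card_pair (by norm_num), Finset.card_pair (by norm_num)]
  omega

theorem DegC_main (c : Ctx d) {G1 G2 N : ℝ} (h1 : 1 ≤ G1) (hN : 0 ≤ N)
    (h : ∀ (b1 : Fin d → ℤ) (i j : Fin d) (S : Finset (Fin d → ℤ)), b1 ≠ 0 → i ≠ j →
      (∀ b2 ∈ S, LH b1 b2 G1 G2 ∧ c.pl b1 b2 i j = 0) → (S.card : ℝ) ≤ N)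
    (T : Finset ((Fin d → ℤ) × (Fin d → ℤ))) (hT : ∀ l ∈ T, LH l.1 l.2 G1 G2 ∧ ¬ c.Nondeg l.1 l.2) :
    (T.card : ℝ) ≤ (5 * G1) ^ d * d ^ 2 * N := by
  classical
  set A := T.image Prod.fst with hA
  have hA' : (A.card : ℝ) ≤ (5 * G1) ^ d :=
    DegC_count ⊤ (by rw [finrank_top, Module.finrank_fin_fun]) h1 A fun v hv => by
      obtain ⟨l, hl, rfl⟩ := Finset.mem_image.1 hv
      exact ⟨trivial, (hT l hl).1.u1⟩
  have hsub : T ⊆ (A ×ˢ (Finset.univ : Finset (Fin d × Fin d))).biUnion fun p =>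
      T.filter fun l => l.1 = p.1 ∧ p.2.1 ≠ p.2.2 ∧ c.pl l.1 l.2 p.2.1 p.2.2 = 0 := by
    intro l hl
    have := (hT l hl).2
    rw [Ctx.Nondeg] at this
    push Not at this
    obtain ⟨i, j, hij, h0⟩ := this
    exact Finset.mem_biUnion.2 ⟨(l.1, i, j),
      Finset.mem_product.2 ⟨Finset.mem_image_of_mem _ hl, Finset.mem_univ _⟩,
      Finset.mem_filter.2 ⟨hl, rfl, hij, h0⟩⟩
  have h2 : ∀ p ∈ A ×ˢ (Finset.univ : Finset (Fin d × Fin d)),
      ((T.filter fun l => l.1 = p.1 ∧ p.2.1 ≠ p.2.2 ∧ c.pl l.1 l.2 p.2.1 p.2.2 = 0).card : ℝ) ≤ N := by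
    intro p _
    rcases (T.filter fun l => l.1 = p.1 ∧ p.2.1 ≠ p.2.2 ∧
      c.pl l.1 l.2 p.2.1 p.2.2 = 0).eq_empty_or_nonempty with h0 | ⟨l₀, hl₀⟩
    · rw [h0]; simpa using hN
    obtain ⟨a1, a2, a3, -⟩ := Finset.mem_filter.1 hl₀
    rw [← Finset.card_image_of_injOn (f := Prod.snd) fun l hl l' hl' e => Prod.ext
      ((Finset.mem_filter.1 hl).2.1.trans (Finset.mem_filter.1 hl').2.1.symm) e]
    refine h p.1 p.2.1 p.2.2 _ (a2 ▸ (hT l₀ a1).1.line.ne) a3 fun b2 hb2 => ?_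
    obtain ⟨l, hl, rfl⟩ := Finset.mem_image.1 hb2
    obtain ⟨b1, b2, -, b4⟩ := Finset.mem_filter.1 hl
    rw [← b2]
    exact ⟨(hT l b1).1, b4⟩
  calc (T.card : ℝ) ≤ ∑ p ∈ A ×ˢ (Finset.univ : Finset (Fin d × Fin d)),
        ((T.filter fun l => l.1 = p.1 ∧ p.2.1 ≠ p.2.2 ∧ c.pl l.1 l.2 p.2.1 p.2.2 = 0).card : ℝ) := by
        exact_mod_cast (Finset.card_le_card hsub).trans Finset.card_biUnion_le
    _ ≤ (A ×ˢ (Finset.univ : Finset (Fin d × Fin d))).card • N := Finset.sum_le_card_nsmul _ _ _ h2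
    _ = A.card * d ^ 2 * N := by
        rw [nsmul_eq_mul, Finset.card_product, Finset.card_univ, Fintype.card_prod, Fintype.card_fin]
        push_cast; ring
    _ ≤ _ := by gcongr

/-- Number of degenerate lines. For `i ≠ j` the set `k_ij = {z ∈ K : σ_i z = σ_j z}` is a proper
subfield, of degree `r ≤ d/2` (tower law), and `b2 ∈ b1 k_ij`, a `ℚ`-subspace of dimension `r`: its
integer points of size `≤ 2 G2` are determined by `r` coordinates. For `d = 4`: `r ≤ 2`, the subspace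
is spanned by `b1, b2`; for two admissible `b2, b2'` primitivity (`IsLine.prim`) gives
`b2' = ± b2 + m b1`, and `red` leaves boundedly many `m`. -/
theorem card_lines_deg (c : Ctx d) : ∃ C : ℝ, 0 ≤ C ∧ ∀ (G1 G2 : ℝ)
    (T : Finset ((Fin d → ℤ) × (Fin d → ℤ))), 1 ≤ G1 → 1 ≤ G2 →
      (∀ l ∈ T, LH l.1 l.2 G1 G2 ∧ ¬ c.Nondeg l.1 l.2) →
      (T.card : ℝ) ≤ C * G1 ^ d * G2 ^ degExp d := by
  classical
  by_cases hd : d = 4
  · refine ⟨5 ^ d * d ^ 2 * (4 * d), by positivity, fun G1 G2 T h1 h2 hT => ?_⟩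
    refine (DegC_main c (N := 4 * d) h1 (by positivity) (fun b1 i j S hb hij hS => ?_) T hT).trans_eq ?_
    · obtain ⟨V, hV, hV'⟩ := DegC_space c hb hij
      exact_mod_cast DegC_count2 (V := V) (by omega) (hV' b1 (by rw [Ctx.pl]; ring)) S
        fun v hv => ⟨hV' v (hS v hv).2, (hS v hv).1.line⟩
    · rw [degExp, if_pos hd]; ring
  · refine ⟨5 ^ d * d ^ 2 * 5 ^ (d / 2), by positivity, fun G1 G2 T h1 h2 hT => ?_⟩
    refine (DegC_main c (N := (5 * G2) ^ (d / 2)) h1 (by positivity)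
      (fun b1 i j S hb hij hS => ?_) T hT).trans_eq ?_
    · obtain ⟨V, hV, hV'⟩ := DegC_space c hb hij
      exact DegC_count V (by omega) h2 S fun v hv => ⟨hV' v (hS v hv).2, (hS v hv).1.u2⟩
    · rw [degExp, if_neg hd]; ring

end Crest.Agent.R22
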