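import Crest.Agent.R22.Basic

set_option autoImplicit false
open Polynomial IntermediateField

namespace Crest.Agent.R22

variable {d : ℕ}

theorem th_mem_AA (c : Ctx d) (j : Fin d) : c.th j ∈ c.AA := by
  exact Algebra.subset_adjoin ⟨j, rfl⟩

theorem sg_mem_AA (c : Ctx d) (j : Fin d) (v : Fin d → ℤ) : c.sg j v ∈ c.AA := by
  exact Subalgebra.sum_mem _ fun i _ =>
    Subalgebra.mul_mem _ (intCast_mem _ _) (Subalgebra.pow_mem _ (th_mem_AA c j) _)

theorem AA_finite (c : Ctx d) : Module.Finite ℤ c.AA := by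
  refine Algebra.finite_adjoin_of_finite_of_isIntegral (Set.finite_range _) ?_
  rintro _ ⟨j, rfl⟩
  exact ⟨c.F, c.monic, c.root j⟩

/-- A nonzero element of `AA` divides a nonzero integer (constant term of a minimal equation). -/
theorem AA_dvd_int (c : Ctx d) (z : ℂ) (hz : z ∈ c.AA) (h0 : z ≠ 0) :
    ∃ m : ℤ, m ≠ 0 ∧ ∃ w ∈ c.AA, z * w = m := by
  have := AA_finite c
  have hi : IsIntegral ℤ (⟨z, hz⟩ : c.AA) := Algebra.IsIntegral.isIntegral _
  obtain ⟨m, hm, w, hw⟩ := hi.isAlgebraic.exists_nonzero_dvd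
    (mem_nonZeroDivisors_of_ne_zero fun h => h0 (congrArg Subtype.val h))
  refine ⟨m, hm, w, w.2, ?_⟩
  simpa using (congrArg Subtype.val hw).symm

/-- A rational number in `AA` is an integer. -/
theorem int_dvd_of_AA (c : Ctx d) (a m : ℤ) (ha : a ≠ 0) (w : ℂ) (hw : w ∈ c.AA)
    (h : (m : ℂ) = a * w) : a ∣ m := by
  have := AA_finite c
  have hi : IsIntegral ℤ w :=
    (Algebra.IsIntegral.isIntegral (R := ℤ) (⟨w, hw⟩ : c.AA)).map c.AA.val
  have ha' : (a : ℂ) ≠ 0 := by exact_mod_cast ha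
  have hq : w = algebraMap ℚ ℂ ((m : ℚ) / a) := by
    simp only [map_div₀, map_intCast]
    rw [h, mul_div_cancel_left₀ _ ha']
  rw [hq, isIntegral_algebraMap_iff (algebraMap ℚ ℂ).injective] at hi
  obtain ⟨y, hy⟩ := IsIntegrallyClosed.isIntegral_iff.1 hi
  refine ⟨y, ?_⟩
  have h1 : w = y := by rw [hq, ← hy]; simp
  rw [h1] at h
  exact_mod_cast h

/-- A common denominator of the inverse Vandermonde matrix (adjugate + `AA_dvd_int`). -/
theorem exists_DF (c : Ctx d) : ∃ DF : ℤ, DF ≠ 0 ∧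
    ∀ l j, (DF : ℂ) * (Matrix.vandermonde c.th)⁻¹ l j ∈ c.AA := by
  have hdet : (Matrix.vandermonde c.th).det ≠ 0 := Matrix.det_vandermonde_ne_zero_iff.2 c.inj
  let V : Matrix (Fin d) (Fin d) c.AA := Matrix.vandermonde fun j => ⟨c.th j, th_mem_AA c j⟩
  have hV : Matrix.vandermonde c.th = (c.AA.val : c.AA →+* ℂ).mapMatrix V := by
    ext i j
    simp [V]
  have h1 : (Matrix.vandermonde c.th).det ∈ c.AA := by
    rw [hV, ← RingHom.map_det]
    exact V.det.2
  obtain ⟨m, hm, w, hw, hmw⟩ := AA_dvd_int c _ h1 hdet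
  refine ⟨m, hm, fun l j => ?_⟩
  have h2 : (Matrix.vandermonde c.th).adjugate l j ∈ c.AA := by
    rw [hV, ← RingHom.map_adjugate]
    exact (V.adjugate l j).2
  rw [Matrix.inv_def, Matrix.smul_apply, Ring.inverse_eq_inv', ← hmw, smul_eq_mul,
    show ∀ x y z : ℂ, x * y * (x⁻¹ * z) = (x * x⁻¹) * (y * z) by intros; ring,
    mul_inv_cancel₀ hdet, one_mul]
  exact Subalgebra.mul_mem _ hw h2

end Crest.Agent.R22
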