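import Crest.Agent.R22.Basic

set_option autoImplicit false
open Polynomial IntermediateField

namespace Crest.Agent.R22

variable {d : ℕ}

theorem NFb_root (c : Ctx d) {z : ℂ} (hz : aeval z c.F = 0) : ∃ j, c.th j = z := by
  classical
  by_contra hn
  have hn' : z ∉ Finset.univ.image c.th := by simpa using hn
  have h0 : c.F.map (algebraMap ℤ ℂ) = 0 := by
    refine eq_zero_of_natDegree_lt_card_of_eval_eq_zero' _ (insert z (Finset.univ.image c.th))
      (fun i hi => ?_) ?_
    · rw [eval_map_algebraMap]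
      rcases Finset.mem_insert.1 hi with rfl | hi
      · exact hz
      · obtain ⟨j, -, rfl⟩ := Finset.mem_image.1 hi
        exact c.root j
    · rw [Finset.card_insert_of_notMem hn', Finset.card_image_of_injective _ c.inj,
        c.monic.natDegree_map, c.deg]
      simp
  exact (c.monic.map _).ne_zero h0

theorem NFb_prod {ι : Type*} (s : Finset ι) (f : ι → ℝ) (a : ι) (ha : a ∈ s) (h0 : ∀ i, 0 ≤ f i)
    (h1 : ∀ i, f i < 1) : ∏ i ∈ s, f i < 1 := by
  classical
  rw [← Finset.mul_prod_erase _ _ ha]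
  exact (mul_le_of_le_one_right (h0 _) (Finset.prod_le_one (fun _ _ => h0 _)
    fun σ _ => (h1 σ).le)).trans_lt (h1 _)

/-- An algebraic integer all of whose conjugates are `< 1` vanishes. The value lies in the number
field `K = ℚ(θ_1, …, θ_d)`; every embedding `K → ℂ` permutes the roots; the norm is an integer
of absolute value `< 1`. -/
theorem nf_zero (c : Ctx d) (Ψ : MvPolynomial (Fin d) ℤ)
    (h : ∀ π : Equiv.Perm (Fin d), ‖MvPolynomial.aeval (c.th ∘ π) Ψ‖ < 1) :
    MvPolynomial.aeval c.th Ψ = 0 := by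
  classical
  have hint : ∀ j, IsIntegral ℤ (c.th j) := fun j => ⟨c.F, c.monic, c.root j⟩
  let K : IntermediateField ℚ ℂ := adjoin ℚ (Set.range c.th)
  have : FiniteDimensional ℚ K := finiteDimensional_adjoin fun x hx => by
    obtain ⟨j, rfl⟩ := hx
    exact (hint j).tower_top
  let t : Fin d → K := fun j => ⟨c.th j, subset_adjoin _ _ ⟨j, rfl⟩⟩
  have hmap : ∀ σ : K →+* ℂ, σ (MvPolynomial.aeval t Ψ) = MvPolynomial.aeval (σ ∘ t) Ψ :=
    fun σ => MvPolynomial.comp_aeval_apply t σ.toIntAlgHom Ψ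
  have ht : ∀ j, aeval (t j) c.F = 0 := fun j => by
    apply (algebraMap K ℂ).injective
    rw [← aeval_algebraMap_apply, map_zero]
    exact c.root j
  have hσ : ∀ σ : K →ₐ[ℚ] ℂ, ‖σ (MvPolynomial.aeval t Ψ)‖ < 1 := fun σ => by
    have h1 : ∀ j, ∃ i, c.th i = σ (t j) := fun j => NFb_root c (by
      have := aeval_algHom_apply (σ : K →+* ℂ).toIntAlgHom (t j) c.F
      rw [ht, map_zero] at this
      exact this)
    choose π hπ using h1
    have hinj : Function.Injective π := fun i j hij => by
      have : σ (t i) = σ (t j) := by rw [← hπ, ← hπ, hij]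
      exact c.inj (congrArg Subtype.val (σ.injective this))
    have := h (Equiv.ofBijective π (Finite.injective_iff_bijective.1 hinj))
    have e : c.th ∘ Equiv.ofBijective π (Finite.injective_iff_bijective.1 hinj) =
        (σ : K →+* ℂ) ∘ t := funext hπ
    rwa [e, ← hmap] at this
  have hx : IsIntegral ℤ (MvPolynomial.aeval t Ψ) := by
    refine MvPolynomial.induction_on (motive := fun Ψ => IsIntegral ℤ (MvPolynomial.aeval t Ψ)) Ψ
      (fun a => ?_) (fun p q hp hq => ?_) fun p j hp => ?_
    · rw [MvPolynomial.aeval_C]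
      exact isIntegral_algebraMap
    · rw [map_add]
      exact hp.add hq
    · rw [map_mul, MvPolynomial.aeval_X]
      exact hp.mul ⟨c.F, c.monic, ht j⟩
  obtain ⟨N, hN⟩ := IsIntegrallyClosed.isIntegral_iff.1 (Algebra.isIntegral_norm ℚ hx)
  have h2 := Algebra.norm_eq_prod_embeddings ℚ ℂ (MvPolynomial.aeval t Ψ)
  have h3 : ‖(N : ℂ)‖ < 1 := by
    have e : (N : ℂ) = algebraMap ℚ ℂ (Algebra.norm ℚ (MvPolynomial.aeval t Ψ)) := by
      rw [← hN]
      simp
    rw [e, h2, norm_prod]
    exact NFb_prod _ _ K.val (@Finset.mem_univ _ (_) _) (fun _ => norm_nonneg _) hσ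
  have h4 : N = 0 := by
    rw [Complex.norm_intCast, ← Int.cast_abs, ← Int.cast_one, Int.cast_lt] at h3
    exact Int.abs_lt_one_iff.1 h3
  rw [h4, map_zero, eq_comm, Algebra.norm_eq_zero_iff] at hN
  have := hmap (algebraMap K ℂ)
  rw [hN, map_zero] at this
  exact this.symm

end Crest.Agent.R22
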