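import Crest.Agent.R22.Basic
import Crest.Agent.R22.NFa
import Crest.Agent.R22.NFb

set_option autoImplicit false
open Polynomial IntermediateField

namespace Crest.Agent.R22

variable {d : ℕ}

theorem NF_deg (c : Ctx d) (a : ℕ) : (X ^ a %ₘ c.F).degree < d := by
  have h := degree_modByMonic_lt (X ^ a) c.monic
  rwa [degree_eq_natDegree c.monic.ne_zero, c.deg] at h

theorem NF_aeval (c : Ctx d) (a : ℕ) (j : Fin d) :
    aeval (c.th j) (X ^ a %ₘ c.F) = c.th j ^ a := by
  rw [aeval_modByMonic_eq_self_of_root (c.root j), aeval_X_pow]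

theorem NF_pow (c : Ctx d) (a : ℕ) (j : Fin d) :
    ∑ m : Fin d, (((X ^ a %ₘ c.F).coeff m : ℤ) : ℂ) * c.th j ^ (m : ℕ) = c.th j ^ a := by
  have h1 : (X ^ a %ₘ c.F).natDegree < d := by
    by_cases h0 : X ^ a %ₘ c.F = 0
    · rw [h0, natDegree_zero]; exact j.pos
    · exact (natDegree_lt_iff_degree_lt h0).2 (NF_deg c a)
  rw [← NF_aeval c a j, aeval_eq_sum_range' h1, Finset.sum_range]
  simp only [zsmul_eq_mul]

/-- The norm form has integer coefficients (determinant of the multiplication matrix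
`∑ v_i M^i`, `M` the companion matrix, diagonalised by the Vandermonde matrix; or `resultant`). -/
theorem exists_normForm (c : Ctx d) : ∃ N : MvPolynomial (Fin d) ℤ, N.IsHomogeneous d ∧
    ∀ v : Fin d → ℂ, MvPolynomial.aeval v N = ∏ j, ∑ i, v i * c.th j ^ (i : ℕ) := by
  let A : Matrix (Fin d) (Fin d) (MvPolynomial (Fin d) ℤ) := Matrix.of fun l m =>
    ∑ i : Fin d, MvPolynomial.C ((X ^ ((i : ℕ) + l) %ₘ c.F).coeff m) * MvPolynomial.X i
  refine ⟨A.det, ?_, fun v => ?_⟩
  · rw [Matrix.det_apply']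
    refine MvPolynomial.IsHomogeneous.sum _ _ _ fun σ _ => ?_
    have h1 : (∏ i, A (σ i) i).IsHomogeneous (∑ _i : Fin d, 1) :=
      MvPolynomial.IsHomogeneous.prod _ _ _ fun l _ => by
        simp only [A, Matrix.of_apply]
        exact MvPolynomial.IsHomogeneous.sum _ _ _ fun i _ =>
          (MvPolynomial.isHomogeneous_X _ i).C_mul _
    rw [Finset.sum_const, Finset.card_univ, Fintype.card_fin, smul_eq_mul, mul_one] at h1
    exact h1.C_mul ((Equiv.Perm.sign σ : ℤˣ) : ℤ)
  · rw [AlgHom.map_det]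
    have hV : (Matrix.vandermonde c.th).transpose.det ≠ 0 := by
      rw [Matrix.det_transpose]
      exact Matrix.det_vandermonde_ne_zero_iff.2 c.inj
    refine mul_right_cancel₀ hV ?_
    rw [← Matrix.det_mul, ← Matrix.det_diagonal, mul_comm, ← Matrix.det_mul]
    congr 1
    ext l j
    rw [Matrix.mul_diagonal, Matrix.mul_apply]
    simp only [A, AlgHom.mapMatrix_apply, Matrix.map_apply, Matrix.of_apply, map_sum, map_mul,
      MvPolynomial.aeval_X, Matrix.transpose_apply, map_intCast,
      Matrix.vandermonde_apply, Finset.sum_mul, Finset.mul_sum, eq_intCast]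
    rw [Finset.sum_comm]
    refine Finset.sum_congr rfl fun i _ => ?_
    have h := NF_pow c (i + l) j
    calc _ = v i * ∑ m : Fin d, (((X ^ ((i : ℕ) + l) %ₘ c.F).coeff m : ℤ) : ℂ) *
          c.th j ^ (m : ℕ) := by
          rw [Finset.mul_sum]
          exact Finset.sum_congr rfl fun m _ => by ring
      _ = _ := by rw [h, pow_add]; ring

/-- Euler's sums `∑ θ_j^a / F'(θ_j)` are integers (`0, …, 0, 1` for `a < d` by Lagrange
interpolation, then the recurrence of the monic `F`). -/
theorem euler_int (c : Ctx d) (a : ℕ) : ∃ m : ℤ, ∑ j, om c.th j * c.th j ^ a = m := by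
  refine ⟨(X ^ a %ₘ c.F).coeff (d - 1), ?_⟩
  have h := Lagrange.coeff_eq_sum (s := (Finset.univ : Finset (Fin d))) (v := c.th) c.inj.injOn
    (P := (X ^ a %ₘ c.F).map (algebraMap ℤ ℂ)) (by
      rw [Finset.card_univ, Fintype.card_fin]
      exact degree_map_le.trans_lt (NF_deg c a))
  rw [Finset.card_univ, Fintype.card_fin, coeff_map, eq_intCast] at h
  rw [h]
  refine Finset.sum_congr rfl fun j _ => ?_
  rw [eval_map_algebraMap, NF_aeval, om, div_eq_inv_mul]

end Crest.Agent.R22
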