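import Crest.Agent.R22.SameP
import Crest.Agent.R22.NF
import Crest.Agent.R22.DegC

set_option autoImplicit false
open Polynomial IntermediateField

namespace Crest.Agent.R22

variable {d : ℕ}

/-- On a degenerate line the norm is `N(b1)` times a proper power of a rational number. -/
theorem Deg_key (c : Ctx d) {b1 v : Fin d → ℤ} (hb : b1 ≠ 0) {i j : Fin d} (hij : i ≠ j)
    (h : c.pl b1 v i j = 0) :
    ∃ e : ℕ, e ≠ 1 ∧ ∃ r : ℚ, ∏ j, c.sg j v = (∏ j, c.sg j b1) * (r : ℂ) ^ e := by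
  have : Fact (Irreducible (c.F.map (Int.castRingHom ℚ))) := ⟨c.irr⟩
  set f := c.F.map (Int.castRingHom ℚ) with hf
  have hf0 : f ≠ 0 := c.irr.ne_zero
  have hroot : ∀ j, aeval (c.th j) f = 0 := fun j => by
    have h := c.root j
    rw [hf, ← algebraMap_int_eq, aeval_map_algebraMap]
    exact h
  let σ : Fin d → AdjoinRoot f →ₐ[ℚ] ℂ := fun j =>
    AdjoinRoot.liftAlgHom f (Algebra.ofId ℚ ℂ) (c.th j) (hroot j)
  have hσ : ∀ j, σ j (AdjoinRoot.root f) = c.th j := fun j => AdjoinRoot.liftAlgHom_root _ _ _ _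
  have : FiniteDimensional ℚ (AdjoinRoot f) := (AdjoinRoot.powerBasis hf0).finite
  have hK : Module.finrank ℚ (AdjoinRoot f) = d := by
    rw [(AdjoinRoot.powerBasis hf0).finrank, AdjoinRoot.powerBasis_dim, hf, c.monic.natDegree_map,
      c.deg]
  have hinj : Function.Injective σ := fun a b hab => c.inj (by rw [← hσ, ← hσ, hab])
  have hbij : Function.Bijective σ := (Fintype.bijective_iff_injective_and_card σ).2
    ⟨hinj, by rw [AlgHom.card, hK, Fintype.card_fin]⟩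
  let ι : (Fin d → ℤ) → AdjoinRoot f := fun w =>
    ∑ l, (w l : AdjoinRoot f) * AdjoinRoot.root f ^ (l : ℕ)
  have hι : ∀ j w, σ j (ι w) = c.sg j w := fun j w => by
    simp only [ι, map_sum, map_mul, map_intCast, map_pow, hσ, Ctx.sg]
  have hw : ∀ j, σ j (ι v / ι b1) = c.sg j v / c.sg j b1 := fun j => by rw [map_div₀, hι, hι]
  refine ⟨Module.finrank ℚ⟮ι v / ι b1⟯ (AdjoinRoot f), fun h1 => hij (hinj ?_),
    Algebra.norm ℚ (AdjoinSimple.gen ℚ (ι v / ι b1)), ?_⟩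
  · rw [finrank_eq_one_iff_eq_top] at h1
    have h2 : σ i (ι v / ι b1) = σ j (ι v / ι b1) := by
      rw [hw, hw, div_eq_div_iff (sg_ne_zero c i hb) (sg_ne_zero c j hb)]
      rw [Ctx.pl] at h
      linear_combination -h
    have h3 := adjoin_algHom_ext ℚ (s := {ι v / ι b1}) (φ₁ := (σ i).comp (val _))
      (φ₂ := (σ j).comp (val _)) fun x hx => by
        obtain rfl := Set.mem_singleton_iff.1 hx
        exact h2
    exact AlgHom.ext fun x => DFunLike.congr_fun h3 ⟨x, h1 ▸ mem_top⟩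
  · have h2 := Algebra.norm_eq_prod_embeddings ℚ ℂ (ι v / ι b1)
    rw [Algebra.norm_eq_norm_adjoin, map_pow, eq_ratCast, ← hbij.prod_comp] at h2
    refine Eq.trans ?_ (congrArg (_ * ·) h2.symm)
    rw [← Finset.prod_mul_distrib]
    exact Finset.prod_congr rfl fun l _ => by
      rw [hw, mul_div_cancel₀ _ (sg_ne_zero c l hb)]

theorem Deg_dvd {p e : ℕ} (hp : p.Prime) (he : e ≠ 1) {a R : ℤ} (ha : ¬ (p : ℤ) ∣ a) {r : ℚ}
    (h : ((a * p : ℤ) : ℚ) = R * r ^ e) : (p : ℤ) ∣ R := by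
  by_contra hR
  have : Fact p.Prime := ⟨hp⟩
  have ha0 : (a : ℚ) ≠ 0 := Int.cast_ne_zero.2 fun h0 => ha (h0 ▸ dvd_zero _)
  have hp0 : (p : ℚ) ≠ 0 := Nat.cast_ne_zero.2 hp.ne_zero
  push_cast at h
  have h0 := h ▸ mul_ne_zero ha0 hp0
  have h1 := congrArg (padicValRat p) h
  rw [padicValRat.mul ha0 hp0, padicValRat.mul (left_ne_zero_of_mul h0) (right_ne_zero_of_mul h0),
    padicValRat.of_int, padicValRat.of_int, padicValInt.eq_zero_of_not_dvd ha,
    padicValInt.eq_zero_of_not_dvd hR, padicValRat.self hp.one_lt, padicValRat.pow] at h1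
  exact he (Int.natCast_dvd_natCast.1 (⟨_, by simpa using h1⟩ : (e : ℤ) ∣ (1 : ℕ)) |>
    Nat.dvd_one.1)

/-- Degenerate lines, scheme B. In `K = ℚ[X]/(F)` let `z = -b2/b1`. `Ψ = ∏_j lin_j ∈ ℤ[X]`
(`exists_normForm`); its roots `σ_j z` are roots of the primitive irreducible `Ψ0` attached to the
minimal polynomial of `z`, so `Ψ = κ0 Ψ0^e`, and `e ≥ 2` because two roots coincide while `Ψ0` is
separable. `ka p = hev Ψ d x y = κ0 (hev Ψ0 ..)^e`, `p ∤ ka` (large `X`), so `p ∣ κ0 ∣ N(b1) ≠ 0`;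
`card_dvd_fixed`. -/
theorem lineB_deg (c : Ctx d) (k : ℕ) (hk : 1 ≤ k) (C0 : ℝ) (h0 : 1 ≤ C0) : ∃ C : ℝ,
    ∀ (X B G1 G2 : ℝ) (b1 b2 : Fin d → ℤ) (S : Finset (LPt c k)), 1 ≤ X → G1 ≤ X →
      LH b1 b2 G1 G2 → ¬ c.Nondeg b1 b2 → InjN S → (∀ P ∈ S, OnB C0 X B G1 G2 b1 b2 P) →
      (S.card : ℝ) ≤ C := by
  obtain ⟨N, -, hN⟩ := exists_normForm c
  obtain ⟨A, hA1, -, -, hA⟩ := norm_equiv c
  obtain ⟨m, hm⟩ := pow_unbounded_of_one_lt A (one_lt_two (α := ℝ))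
  obtain ⟨C, hC⟩ := card_dvd_fixed c k hk C0 (((m + 1) * d : ℕ) : ℝ) h0
  refine ⟨max C (C0 ^ 2 + 1), fun X B G1 G2 b1 b2 S hX hG hL hnd hI hS => ?_⟩
  rcases le_or_gt X (C0 ^ 2) with hX2 | hX2
  · exact le_max_of_le_right ((card_le_X c k C0 X B hX S hI fun P hP => (hS P hP).sz).trans
      (by linarith))
  have hR : ((MvPolynomial.aeval b1 N : ℤ) : ℂ) = ∏ j, c.sg j b1 :=
    (MvPolynomial.comp_aeval_apply b1 (Int.castRingHom ℂ).toIntAlgHom N).trans (hN _)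
  have hb := hL.line.ne
  refine le_max_of_le_left (hC X B hX (MvPolynomial.aeval b1 N) S hI (fun h => ?_) ?_
    fun P hP => ⟨(hS P hP).sz, ?_⟩)
  · rw [h, Int.cast_zero] at hR
    exact Finset.prod_ne_zero_iff.2 (fun j _ => sg_ne_zero c j hb) hR.symm
  · rw [← Complex.norm_intCast, hR, norm_prod, Real.rpow_natCast, pow_mul]
    refine (Finset.prod_le_prod (g := fun _ => (2 * X) ^ (m + 1)) (fun _ _ => norm_nonneg _)
      fun j _ => ((hA b1).1 j).trans ?_).trans_eq (by simp)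
    rw [pow_succ]
    exact mul_le_mul (hm.le.trans (pow_le_pow_left₀ zero_le_two (by linarith) _))
      (hL.u1.trans (by linarith)) (norm_nonneg _) (by positivity)
  · simp only [Ctx.Nondeg, not_forall, not_not] at hnd
    obtain ⟨i, j, hij, hpl⟩ := hnd
    obtain ⟨e, he, r, hr⟩ := Deg_key c (v := P.be) hb hij (by
      rw [Ctx.pl] at hpl ⊢
      rw [(hS P hP).eq, sg_add, sg_add, sg_smul, sg_smul, sg_smul, sg_smul]
      linear_combination (P.y : ℂ) * hpl)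
    rw [P.nrm, ← hR] at hr
    refine Deg_dvd P.pp he (a := P.ka) (r := r) (fun hd => ?_) (by exact_mod_cast hr)
    have h1 : (P.p : ℝ) ≤ |(P.ka : ℝ)| := by
      exact_mod_cast Int.le_of_dvd (abs_pos.2 P.ka0) ((dvd_abs _ _).2 hd)
    have h2 := (hS P hP).sz.p1
    have h3 := (hS P hP).sz.ka
    rw [div_le_iff₀ (by linarith)] at h2
    nlinarith

end Crest.Agent.R22
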