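import Crest.Agent.R22.Defs

set_option autoImplicit false
open Polynomial IntermediateField

namespace Crest.Agent.R22

variable {d : ℕ}

theorem Num_cell {ε : ℝ} (hε : 0 < ε) {X B : ℝ} (hX : 1 ≤ X) (hB : 1 ≤ B) (hBX : B ≤ X) :
    ∃ i : Fin (⌊1 / ε⌋₊ + 1), X ^ ((i : ℕ) * ε) ≤ B ∧ B ≤ X ^ ((i : ℕ) * ε + ε) := by
  rcases hX.eq_or_lt with rfl | hX1
  · exact ⟨0, by simpa using hB, by simpa using hBX⟩
  have hX0 : 0 < X := by linarith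
  have h0 : 0 ≤ Real.logb X B := Real.logb_nonneg hX1 hB
  have h1 : Real.logb X B ≤ 1 := by
    rw [Real.logb_le_iff_le_rpow hX1 (by linarith), Real.rpow_one]
    exact hBX
  have e : X ^ Real.logb X B = B := Real.rpow_logb hX0 hX1.ne' (by linarith)
  refine ⟨⟨⌊Real.logb X B / ε⌋₊, Nat.lt_succ_of_le (Nat.floor_le_floor (by gcongr))⟩, ?_, ?_⟩
  · refine le_of_le_of_eq (Real.rpow_le_rpow_of_exponent_le hX ?_) e
    exact (le_div_iff₀ hε).1 (Nat.floor_le (by positivity))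
  · refine le_of_eq_of_le e.symm (Real.rpow_le_rpow_of_exponent_le hX ?_)
    have := (div_lt_iff₀ hε).1 (Nat.lt_floor_add_one (Real.logb X B / ε))
    simp only
    linarith

/-- Finitely many cells `[i ε, (i+1) ε]³`. -/
theorem cells (ε : ℝ) (hε : 0 < ε) (Q : ℝ → ℝ → ℝ → ℝ → ℝ → Prop)
    (mono : ∀ C C' X B G1 G2, 1 ≤ X → C ≤ C' → Q C X B G1 G2 → Q C' X B G1 G2)
    (h : ∀ b g1 g2 : ℝ, 0 ≤ b → 0 ≤ g1 → 0 ≤ g2 → ∃ C, ∀ X B G1 G2 : ℝ, 1 ≤ X → X ^ b ≤ B →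
      B ≤ X ^ (b + ε) → X ^ g1 ≤ G1 → G1 ≤ X ^ (g1 + ε) → X ^ g2 ≤ G2 → G2 ≤ X ^ (g2 + ε) →
      Q C X B G1 G2) :
    ∃ C, ∀ X B G1 G2 : ℝ, 1 ≤ X → 1 ≤ B → B ≤ X → 1 ≤ G1 → G1 ≤ X → 1 ≤ G2 → G2 ≤ X →
      Q C X B G1 G2 := by
  choose! Cf hC using h
  obtain ⟨C, hle⟩ := Finite.bddAbove_range
    fun t : Fin (⌊1 / ε⌋₊ + 1) × Fin (⌊1 / ε⌋₊ + 1) × Fin (⌊1 / ε⌋₊ + 1) =>
      Cf ((t.1 : ℕ) * ε) ((t.2.1 : ℕ) * ε) ((t.2.2 : ℕ) * ε)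
  refine ⟨C, fun X B G1 G2 hX hB hB' h1 h1' h2 h2' => ?_⟩
  obtain ⟨i, a1, a2⟩ := Num_cell hε hX hB hB'
  obtain ⟨j, a3, a4⟩ := Num_cell hε hX h1 h1'
  obtain ⟨l, a5, a6⟩ := Num_cell hε hX h2 h2'
  exact mono _ _ _ _ _ _ hX (hle ⟨(i, j, l), rfl⟩)
    (hC _ _ _ (by positivity) (by positivity) (by positivity) X B G1 G2 hX a1 a2 a3 a4 a5 a6)

theorem Num_theta {k r b : ℝ} (hk : 0 < k) (hb : 0 < b) (h : 9 / 8 * b ^ 2 < k * r) :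
    0 < r ∧ k * b < Theta k 0 0 r (3 / 2 * b) 0 := by
  have hr : 0 < r := (mul_pos_iff_of_pos_left hk).1 (lt_of_le_of_lt (by positivity) h)
  refine ⟨hr, ?_⟩
  have h1 : (3 / 2 * b) ^ 3 / (6 * r) < k * b / 2 := by
    rw [div_lt_iff₀ (by positivity)]
    nlinarith [mul_lt_mul_of_pos_left h hb]
  simp only [Theta]
  linarith [show (0 : ℝ) * (3 / 2 * b) ^ 2 / (2 * r) = 0 by simp]

theorem Num_eta (σ lam : ℝ) (k : ℕ) : etaC σ lam 3 (3 * k + 2) 0 1 = lam / (3 * k + 2) := by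
  have : (3 * k + 2 : ℝ) ≠ 0 := by positivity
  simp only [etaC]
  push_cast
  field_simp
  ring

theorem Num_core (k : ℕ) (hk : 0 < k) {ε η0 b g1 M : ℝ} (hb : 0 < b + ε)
    (h : 9 / 8 * (b + ε) ^ 2 < k * (1 - η0 - M - ((1 - g1) / (3 * k + 2) + 1 / 10000))) :
    ∃ (r rho η : ℝ) (al io : ℕ), 0 < r ∧ 0 ≤ rho ∧ k * (b + ε) < Theta k 0 0 r rho 0 ∧
      0 < 3 * al + (3 * k + 2) * io ∧ etaC (b + ε) (1 - g1) 3 (3 * k + 2) al io < η ∧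
      M + r + η ≤ 1 - η0 := by
  obtain ⟨h1, h2⟩ := Num_theta (Nat.cast_pos.2 hk) hb h
  refine ⟨_, _, (1 - g1) / (3 * k + 2) + 1 / 10000, 0, 1, h1, by positivity, h2, by omega, ?_,
    by linarith⟩
  rw [Num_eta]
  linarith

/-- Scheme C. Take `ε = 1/100000`, `η0 = 1/1000`, `b' = b + ε`, `rho = 3 b'/2`,
`r = (9/4) b'²/(2k) + 1/10000` (then `k b' < Theta`), `(al, io) = (0, 1)` (so `etaC = (1 - g1)/(3k+2)`),
`η = etaC + 1/10000`. Checked numerically: the totals are at most `.994, .989, .991, .9953, .992` for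
`d = 4, …, 8`, the degenerate totals `≤ .92`. -/
theorem numC (hd : 4 ≤ d ∧ d ≤ 8) (k : ℕ) (hk : k + 2 = d) : ∃ ε η0 : ℝ, 0 < ε ∧ 0 < η0 ∧
    ∀ b g1 g2 : ℝ, CellC d k ε b g1 g2 → 0 ≤ 1 - g1 ∧
      d * (g1 + ε) + degExp d * (g2 + ε) + max (1 - k * b - g1) 0 + max (1 - k * b - g2) 0 ≤
        1 - η0 ∧
      ∃ (r rho η : ℝ) (al io : ℕ), 0 < r ∧ 0 ≤ rho ∧ k * (b + ε) < Theta k 0 0 r rho 0 ∧
        0 < 3 * al + (3 * k + 2) * io ∧ etaC (b + ε) (1 - g1) 3 (3 * k + 2) al io < η ∧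
        mainE d ε g1 g2 + r + η ≤ 1 - η0 := by
  refine ⟨1 / 100000, 1 / 1000, by norm_num, by norm_num, fun b g1 g2 h => ?_⟩
  obtain ⟨hg1, hg2, b1, b2, g12, hs⟩ := h
  subst hk
  have hk : k = 2 ∨ k = 3 ∨ k = 4 ∨ k = 5 ∨ k = 6 := by omega
  rcases hk with rfl | rfl | rfl | rfl | rfl
  all_goals
    simp only [uStar, degExp, max_def] at b1 b2 hs ⊢
    norm_num at b1 b2 hs
    refine ⟨by split_ifs at hs <;> linarith, ?_, Num_core _ (by norm_num) (by linarith) ?_⟩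
    · norm_num
      split_ifs at hs ⊢ <;> linarith
    · simp only [mainE]
      norm_num
      split_ifs at hs <;> nlinarith [mul_nonneg (sub_nonneg.2 b1) (sub_nonneg.2 b2)]

end Crest.Agent.R22
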