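import Crest.Agent.R22.NumB5

set_option autoImplicit false
open Polynomial IntermediateField

namespace Crest.Agent.R22

variable {d : ℕ}

theorem NumB_half {α r : ℝ} (hr : 0 < r) (hα : 0 ≤ α) (h : α < 5 / 12 + 4 * r - 32 / 3 * r ^ 2) :
    SurfPar 4 2 r (4 * r) (1 / 2) α := by
  refine ⟨hr, by positivity, by norm_num, by norm_num, hα, h.trans_eq ?_⟩
  simp only [Theta, Nat.cast_ofNat]
  field_simp
  ring

theorem NumB_zero {α r : ℝ} (hα : 0 < α) (h : 9 / 64 * α ^ 2 < r) :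
    SurfPar 4 2 r (3 / 4 * α) 0 α := by
  have hr : 0 < r := lt_of_le_of_lt (by positivity) h
  refine ⟨hr, by positivity, le_rfl, by norm_num, hα.le, ?_⟩
  have h1 : (3 / 4 * α) ^ 3 / (6 * r) < α / 2 := by
    rw [div_lt_iff₀ (by positivity)]
    nlinarith [mul_lt_mul_of_pos_left h hα]
  simp only [Theta, Nat.cast_ofNat]
  linarith [show (0 : ℝ) * (3 / 4 * α) ^ 2 / (2 * r) = 0 by simp]

theorem NumB_par {α : ℝ} (h1 : 455 / 1000 ≤ α) (h2 : α ≤ 101 / 100) :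
    ∃ r rho k0 : ℝ, SurfPar 4 2 r rho k0 α ∧ r ≤ 3 / 10 * α - 126 / 1000 := by
  rcases le_total α (6 / 10) with h | h
  · refine ⟨_, _, _, NumB_half (r := 3 / 10 * α - 126 / 1000) (by linarith) (by linarith) ?_, le_rfl⟩
    nlinarith [mul_nonneg (sub_nonneg.2 h1) (sub_nonneg.2 h)]
  · refine ⟨_, _, _, NumB_zero (r := 3 / 10 * α - 126 / 1000) (by linarith) ?_, le_rfl⟩
    nlinarith [mul_nonneg (sub_nonneg.2 h) (sub_nonneg.2 h2)]

theorem NumB_e1 (σ lam : ℝ) : etaC σ lam 7 11 1 1 = σ / 9 + 11 / 324 * lam := by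
  simp only [etaC, Nat.cast_ofNat, Nat.cast_one]
  ring

theorem NumB_e2 (σ lam : ℝ) : etaC σ lam 5 9 2 3 = 4 / 37 * σ + 81 / 1369 * lam := by
  simp only [etaC, Nat.cast_ofNat]
  ring

/-- Scheme B, `d = 4`. `ε = 1/100000`, `η0 = 1/1000`, `u = 1 - 2b`, `s = g1 + g2`,
`α = 2u - 2s/3`. First alternative if `3 s ≤ u - 1/500`. Otherwise `ν = 3/100`, `(al, io) = (2, 3)`,
`η = max (…) (…) + 1/10000`, `η' = etaC + 1/10000`, and: for `u ≤ 35/100`, `a = α - 5/12 ∈ (0, .21)`,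
`r = a/4 + a²/4 + 1/10000`, `rho = 4 r`, `k0 = 1/2` (`Theta = 5/12 + 4 r - 32 r²/3`); for `u ≥ 35/100`,
`r = 9 α²/64 + 1/10000`, `rho = 3α/4`, `k0 = 0`. Checked numerically: totals `≤ .9971`, `≤ .9965`.
For the `min` use the first entry when `g2 - g1` is large and the second one otherwise. -/
theorem numB4 : ∃ ε η0 : ℝ, 0 < ε ∧ 0 < η0 ∧
    ∀ b g1 g2 : ℝ, CellB 4 2 ε b g1 g2 → 0 ≤ 1 - 2 * g1 ∧
      (mainE 4 ε g1 g2 + max (b + ε - g1) 0 + max (b + ε - g2) 0 ≤ 1 - η0 ∨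
      ∃ (r rho k0 η η' ν : ℝ) (al io : ℕ),
        SurfPar 4 2 r rho k0 (2 * (1 - 2 * b) - 2 / 3 * (g1 + g2)) ∧ 0 ≤ ν ∧ 12 * ν < 1 ∧
        2 * (1 - 2 * b) / 5 - (1 - 12 * ν) / 10 < η ∧ etaC (1 - 2 * b) (1 - 2 * g1) 7 11 1 1 < η ∧
        mainE 4 ε g1 g2 + r + η ≤ 1 - η0 ∧ 0 < 5 * al + 9 * io ∧
        etaC (1 - 2 * b) (1 - 2 * g1) 5 9 al io < η' ∧
        min (mainE 4 ε g1 g2) (max (4 * (g1 + ε) + 4 * (g2 + ε) - 2 / 3 * ν)
          (max (2 * (g1 + ε) + 4 * (g2 + ε)) (4 * (g1 + ε) + 3 * (g2 + ε)))) + r + η' ≤ 1 - η0) := by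
  refine ⟨1 / 100000, 1 / 1000, by norm_num, by norm_num, fun b g1 g2 h => ?_⟩
  obtain ⟨hg1, hg2, b1, b2, g12, hs⟩ := h
  norm_num [uStar] at b1 b2 g12 hs
  have hm : mainE 4 (1 / 100000) g1 g2 = 5 * g1 + 3 * g2 + 8 / 100000 := by
    simp only [mainE, Nat.cast_ofNat]
    ring
  refine ⟨by linarith, ?_⟩
  rcases le_or_gt (4 * g1 + 2 * g2 + 2 * b + 1 / 10000) (1 - 1 / 1000) with h | h
  · left
    rw [hm, max_eq_left (by linarith), max_eq_left (by linarith)]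
    linarith
  right
  obtain ⟨r, rho, k0, hp, hr⟩ :=
    NumB_par (α := 2 * (1 - 2 * b) - 2 / 3 * (g1 + g2)) (by linarith) (by linarith)
  refine ⟨r, rho, k0, 1 - 1 / 1000 - (5 * g1 + 3 * g2 + 8 / 100000) - r,
    etaC (1 - 2 * b) (1 - 2 * g1) 5 9 2 3 + 1 / 10000, 3 / 100, 2, 3, hp, by norm_num, by norm_num,
    by linarith, by rw [NumB_e1]; linarith, by rw [hm]; linarith, by norm_num, by linarith, ?_⟩
  rw [NumB_e2, hm]
  rcases le_total (g1 + 2 / 100) g2 with h' | h'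
  · linarith [min_le_left (5 * g1 + 3 * g2 + 8 / 100000 : ℝ)
      (max (4 * (g1 + 1 / 100000) + 4 * (g2 + 1 / 100000) - 2 / 3 * (3 / 100))
        (max (2 * (g1 + 1 / 100000) + 4 * (g2 + 1 / 100000))
          (4 * (g1 + 1 / 100000) + 3 * (g2 + 1 / 100000))))]
  · rw [max_eq_left (max_le (by linarith) (by linarith))]
    linarith [min_le_right (5 * g1 + 3 * g2 + 8 / 100000 : ℝ)
      (4 * (g1 + 1 / 100000) + 4 * (g2 + 1 / 100000) - 2 / 3 * (3 / 100))]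

end Crest.Agent.R22
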