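import Crest.Agent.R22.LineBC
import Crest.Agent.R22.CountAux
import Crest.Agent.R22.Deg
import Crest.Agent.R22.Num
import Crest.Agent.R22.NumB

set_option autoImplicit false
open Polynomial IntermediateField

namespace Crest.Agent.R22

variable {d : ℕ}

/-- Bound for one line, degenerate or not. -/
theorem lineB_all (c : Ctx d) (hd : 4 ≤ d ∧ d ≤ 8) (k : ℕ) (hk : k + 2 = d)
    (C0 r rho k0 α u lam η : ℝ)
    (h0 : 1 ≤ C0) (hp : SurfPar d k r rho k0 α) (al io : ℕ)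
    (hpos : 0 < eMin d * al + (eMin d + 2 * k) * io) (hu : 0 ≤ u) (hl : 0 ≤ lam)
    (h : etaC u lam (eMin d) (eMin d + 2 * k) al io < η) : ∃ C : ℝ, 0 ≤ C ∧
    ∀ (X B G1 G2 : ℝ) (b1 b2 : Fin d → ℤ) (S : Finset (LPt c k)), 1 ≤ X →
      SizeB d k X B G1 G2 u lam α → LH b1 b2 G1 G2 → InjN S →
      (∀ P ∈ S, OnB C0 X B G1 G2 b1 b2 P) → (S.card : ℝ) ≤ C * X ^ (r + η) := by
  obtain ⟨C1, h1⟩ := lineB c hd k hk C0 r rho k0 α u lam η h0 hp al io hpos hu hl h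
  obtain ⟨C2, h2⟩ := lineB_deg c k (by omega) C0 h0
  refine ⟨|C1| + |C2|, by positivity, fun X B G1 G2 b1 b2 S hX hs hL hS hP => ?_⟩
  have he : 1 ≤ X ^ (r + η) := Real.one_le_rpow hX (by
    have := etaC_nonneg u lam (eMin d) (eMin d + 2 * k) al io hu hl
    have := hp.r0
    linarith)
  have a1 := le_abs_self C1
  have a2 := le_abs_self C2
  have b1' := abs_nonneg C1
  have b2' := abs_nonneg C2
  by_cases hn : c.Nondeg b1 b2
  · have := h1 X B G1 G2 b1 b2 S hX hs hL hn hS hP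
    nlinarith
  · have := h2 X B G1 G2 b1 b2 S hX hs.g1 hL hn hS hP
    nlinarith

/-- The size hypotheses in a cell. -/
theorem sizeB_cell (k : ℕ) (hd : 4 ≤ d) (X B G1 G2 b g1 g2 : ℝ) (hX : 1 ≤ X) (hB : 1 ≤ B)
    (hBk : B ^ k ≤ X) (h1 : G1 ≤ X) (h2 : G2 ≤ X) (hb : X ^ b ≤ B) (hg1 : X ^ g1 ≤ G1)
    (hg2 : X ^ g2 ≤ G2) :
    SizeB d k X B G1 G2 (1 - k * b) (1 - k * g1)
      ((d - 2 : ℝ) * k / 2 * (1 - k * b) - hg d * (g1 + g2)) := by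
  have hX0 : 0 < X := by linarith
  have key : ∀ A a : ℝ, X ^ a ≤ A → X / A ^ k ≤ X ^ (1 - k * a) := by
    intro A a hA
    have hp : 0 < X ^ a := Real.rpow_pos_of_pos hX0 a
    rw [Real.rpow_sub hX0, Real.rpow_one, mul_comm, Real.rpow_mul hX0.le, Real.rpow_natCast]
    exact div_le_div_of_nonneg_left hX0.le (by positivity) (by gcongr)
  have hhg : 0 ≤ hg d := by unfold hg; split_ifs <;> norm_num
  refine ⟨hB, hBk, h1, h2, key B b hb, key G1 g1 hg1, ?_⟩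
  have hd' : (0 : ℝ) ≤ (d - 2 : ℝ) * k / 2 := by
    have : (4 : ℝ) ≤ d := by exact_mod_cast hd
    have : (0 : ℝ) ≤ d - 2 := by linarith
    positivity
  have e1 : (X / B ^ k) ^ ((d - 2 : ℝ) * k / 2) ≤ (X ^ (1 - k * b)) ^ ((d - 2 : ℝ) * k / 2) :=
    Real.rpow_le_rpow (by positivity) (key B b hb) hd'
  have e2 : (X ^ (g1 + g2)) ^ hg d ≤ (G1 * G2) ^ hg d := by
    refine Real.rpow_le_rpow (by positivity) ?_ hhg
    rw [Real.rpow_add hX0]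
    have := Real.rpow_pos_of_pos hX0 g1
    have := Real.rpow_pos_of_pos hX0 g2
    gcongr
    linarith
  refine e1.trans (le_trans (le_of_eq ?_) (mul_le_mul_of_nonneg_left e2 (by positivity)))
  rw [← Real.rpow_mul hX0.le, ← Real.rpow_mul hX0.le, ← Real.rpow_add hX0]
  congr 1
  ring

/-- For large `X` a nonempty cell satisfies `CellB`. -/
theorem cellB_of (c : Ctx d) (hd : 4 ≤ d) (k : ℕ) (C0 ε X B G1 G2 b g1 g2 : ℝ) (h0 : 1 ≤ C0)
    (hε : 0 < ε) (hX : 1 < X) (hK : 2 * C0 ^ (d + 1) ≤ X ^ ε) (hg1 : 0 ≤ g1) (hg2 : 0 ≤ g2)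
    (hb : X ^ b ≤ B) (hb' : B ≤ X ^ (b + ε)) (h1 : X ^ g1 ≤ G1) (h2 : X ^ g2 ≤ G2)
    (h2' : G2 ≤ X ^ (g2 + ε)) (hBk : B ^ k ≤ X ^ (1 - uStar d))
    (hG : G1 * G2 ≤ C0 * B ^ (((d : ℝ) - 2) / (d - 1))) (b1 b2 : Fin d → ℤ) (P : Pt c k)
    (hL : LH b1 b2 G1 G2) (hP : Sz C0 X B P) : CellB d k ε b g1 g2 := by
  have hX0 : 0 < X := by linarith
  have hd' : (4 : ℝ) ≤ d := by exact_mod_cast hd
  have hC : 1 ≤ C0 ^ (d + 1) := one_le_pow₀ h0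
  have hC' : C0 ≤ C0 ^ (d + 1) := le_self_pow₀ h0 (by omega)
  have hB0 : 0 < B := lt_of_lt_of_le (Real.rpow_pos_of_pos hX0 b) hb
  refine ⟨hg1, hg2, ?_, ?_, ?_, ?_⟩
  · have h3 := hP.X_le h0
    have h4 : X ^ (1 : ℝ) ≤ C0 ^ (d + 1) * X ^ ((b + ε) * d) := by
      rw [Real.rpow_one, Real.rpow_mul hX0.le, Real.rpow_natCast]
      refine h3.trans ?_
      gcongr
    have h5 := exp_le_of X _ _ _ ε hX h4 (by linarith)
    rw [sub_le_iff_le_add, div_le_iff₀ (by linarith)]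
    nlinarith
  · have h4 : X ^ (k * b) ≤ X ^ (1 - uStar d) := by
      refine le_trans ?_ hBk
      rw [mul_comm, Real.rpow_mul hX0.le, Real.rpow_natCast]
      have := Real.rpow_pos_of_pos hX0 b
      gcongr
    exact (Real.rpow_le_rpow_left_iff hX).1 h4
  · have h4 : X ^ g1 ≤ 2 * X ^ (g2 + ε) := by
      have := hL.l1
      have := hL.u2
      have := hL.line.le
      linarith
    have h5 := exp_le_of X _ _ _ ε hX h4 (by linarith)
    linarith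
  · have hq : (0 : ℝ) ≤ ((d : ℝ) - 2) / (d - 1) := div_nonneg (by linarith) (by linarith)
    have h4 : X ^ (g1 + g2) ≤ C0 * X ^ ((b + ε) * (((d : ℝ) - 2) / (d - 1))) := by
      rw [Real.rpow_add hX0, Real.rpow_mul hX0.le]
      have p1 := Real.rpow_pos_of_pos hX0 g1
      have p2 := Real.rpow_pos_of_pos hX0 g2
      calc X ^ g1 * X ^ g2 ≤ G1 * G2 := by gcongr; linarith
        _ ≤ C0 * B ^ (((d : ℝ) - 2) / (d - 1)) := hG
        _ ≤ _ := by gcongr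
    have h5 := exp_le_of X _ _ _ ε hX h4 (by linarith)
    linarith

/-- The statement in one cell. -/
def CellBd (c : Ctx d) (k : ℕ) (C0 ε η0 b g1 g2 : ℝ) : Prop :=
  ∃ C : ℝ, ∀ (X B G1 G2 : ℝ) (S : Finset (LPt c k))
    (l : LPt c k → (Fin d → ℤ) × (Fin d → ℤ)), 1 ≤ X → 1 ≤ B → B ^ k ≤ X → G1 ≤ X → G2 ≤ X →
    X ^ b ≤ B → B ≤ X ^ (b + ε) → X ^ g1 ≤ G1 → G1 ≤ X ^ (g1 + ε) → X ^ g2 ≤ G2 →
    G2 ≤ X ^ (g2 + ε) → InjN S →
    (∀ P ∈ S, LH (l P).1 (l P).2 G1 G2 ∧ OnB C0 X B G1 G2 (l P).1 (l P).2 P) →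
    (S.card : ℝ) ≤ C * X ^ (1 - η0)

/-- Summation over lines: `M` per line, `N` lines. -/
theorem sum_linesB {c : Ctx d} {k : ℕ} {C0 X B G1 G2 : ℝ} (S : Finset (LPt c k))
    (l : LPt c k → (Fin d → ℤ) × (Fin d → ℤ)) (Q : (Fin d → ℤ) × (Fin d → ℤ) → Prop) (M N : ℝ)
    (hM0 : 0 ≤ M) (hS : InjN S)
    (hP : ∀ P ∈ S, LH (l P).1 (l P).2 G1 G2 ∧ OnB C0 X B G1 G2 (l P).1 (l P).2 P)
    (hQ : ∀ P ∈ S, Q (l P))
    (hM : ∀ (b1 b2 : Fin d → ℤ) (T : Finset (LPt c k)), LH b1 b2 G1 G2 → Q (b1, b2) → InjN T →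
      (∀ P ∈ T, OnB C0 X B G1 G2 b1 b2 P) → (T.card : ℝ) ≤ M)
    (hN : ∀ T : Finset ((Fin d → ℤ) × (Fin d → ℤ)), (∀ m ∈ T, LH m.1 m.2 G1 G2 ∧ Q m) →
      (T.card : ℝ) ≤ N) : (S.card : ℝ) ≤ M * N := by
  classical
  refine card_le_lines S l M N hM0 (fun m hm => ?_) (hN _ fun m hm => ?_)
  · obtain ⟨P, hPS, rfl⟩ := Finset.mem_image.1 hm
    refine hM (l P).1 (l P).2 _ (hP P hPS).1 (hQ P hPS) (hS.mono (Finset.filter_subset _ _)) ?_
    intro R hR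
    obtain ⟨hR1, hR2⟩ := Finset.mem_filter.1 hR
    rw [← hR2]
    exact (hP R hR1).2
  · obtain ⟨P, hPS, rfl⟩ := Finset.mem_image.1 hm
    exact ⟨(hP P hPS).1, hQ P hPS⟩

theorem rpow_mul_le (X A B a b e : ℝ) (hX : 1 ≤ X) (hA : 0 ≤ A) (hB : 0 ≤ B) (h : a + b ≤ e) :
    A * X ^ a * (B * X ^ b) ≤ A * B * X ^ e := by
  have hX0 : 0 < X := by linarith
  have : X ^ a * X ^ b ≤ X ^ e := by
    rw [← Real.rpow_add hX0]
    exact Real.rpow_le_rpow_of_exponent_le hX h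
  calc A * X ^ a * (B * X ^ b) = A * B * (X ^ a * X ^ b) := by ring
    _ ≤ A * B * X ^ e := by gcongr

theorem cellBd_triv (c : Ctx d) (hd : 4 ≤ d) (k : ℕ) (hk : 1 ≤ k) (C0 ε η0 b g1 g2 : ℝ)
    (h0 : 1 ≤ C0)
    (h : mainE d ε g1 g2 + max (b + ε - g1) 0 + max (b + ε - g2) 0 ≤ 1 - η0) :
    CellBd c k C0 ε η0 b g1 g2 := by
  obtain ⟨C1, p1, h1⟩ := line_trivB c k hk C0 h0
  obtain ⟨C2, p2, h2⟩ := card_lines_cell (d := d) (by omega)
  refine ⟨C1 * 4 * C2, fun X B G1 G2 S l hX hB _ _ _ _ hb' hg1 hg1' hg2 hg2' hS hP => ?_⟩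
  have hX0 : 0 < X := by linarith
  have q1 := Real.rpow_pos_of_pos hX0 g1
  have q2 := Real.rpow_pos_of_pos hX0 g2
  refine (sum_linesB S l (fun _ => True)
    (C1 * 4 * X ^ (max (b + ε - g1) 0 + max (b + ε - g2) 0)) (C2 * X ^ mainE d ε g1 g2)
    (by positivity) hS hP (fun _ _ => trivial) (fun b1 b2 T _ _ hT hT' => ?_)
    (fun T hT => h2 X ε g1 g2 G1 G2 T hX hg1' hg2' fun m hm => (hT m hm).1)).trans ?_
  · refine (h1 X B G1 G2 b1 b2 T hX (by linarith) (by linarith) (by linarith) hT hT').trans ?_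
    have e1 := div_add_one_le X B G1 (b + ε) g1 hX hb' hg1
    have e2 := div_add_one_le X B G2 (b + ε) g2 hX hb' hg2
    have : 0 ≤ B / G1 + 1 := by have : 0 < G1 := by linarith
                                positivity
    have : 0 ≤ B / G2 + 1 := by have : 0 < G2 := by linarith
                                positivity
    rw [Real.rpow_add hX0]
    calc C1 * (B / G1 + 1) * (B / G2 + 1)
        ≤ C1 * (2 * X ^ max (b + ε - g1) 0) * (2 * X ^ max (b + ε - g2) 0) := by gcongr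
      _ = _ := by ring
  · exact rpow_mul_le X _ _ _ _ _ hX (by positivity) p2 (by linarith)

theorem cellBd_gen (c : Ctx d) (hd : 4 ≤ d ∧ d ≤ 8) (k : ℕ) (hk : k + 2 = d)
    (C0 ε η0 b g1 g2 r rho k0 η : ℝ) (al io : ℕ) (h0 : 1 ≤ C0) (hu : 0 ≤ 1 - k * b)
    (hl : 0 ≤ 1 - k * g1)
    (hp : SurfPar d k r rho k0 ((d - 2 : ℝ) * k / 2 * (1 - k * b) - hg d * (g1 + g2)))
    (hpos : 0 < eMin d * al + (eMin d + 2 * k) * io)
    (h : etaC (1 - k * b) (1 - k * g1) (eMin d) (eMin d + 2 * k) al io < η)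
    (ht : mainE d ε g1 g2 + r + η ≤ 1 - η0) : CellBd c k C0 ε η0 b g1 g2 := by
  obtain ⟨C1, p1, h1⟩ := lineB_all c hd k hk C0 r rho k0 _ _ _ η h0 hp al io hpos hu hl h
  obtain ⟨C2, p2, h2⟩ := card_lines_cell (d := d) (by omega)
  refine ⟨C1 * C2, fun X B G1 G2 S l hX hB hBk hG1 hG2 hb _ hg1 hg1' hg2 hg2' hS hP => ?_⟩
  have hX0 : 0 < X := by linarith
  have hs := sizeB_cell k hd.1 X B G1 G2 b g1 g2 hX hB hBk hG1 hG2 hb hg1 hg2
  refine (sum_linesB S l (fun _ => True) (C1 * X ^ (r + η)) (C2 * X ^ mainE d ε g1 g2)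
    (by positivity) hS hP (fun _ _ => trivial)
    (fun b1 b2 T hL _ hT hT' => h1 X B G1 G2 b1 b2 T hX hs hL hT hT')
    (fun T hT => h2 X ε g1 g2 G1 G2 T hX hg1' hg2' fun m hm => (hT m hm).1)).trans ?_
  exact rpow_mul_le X _ _ _ _ _ hX p1 p2 (by linarith)

/-- Non-separated lines in a cell. -/
theorem card_nonsep_cell (c : Ctx 4) : ∃ C : ℝ, 0 ≤ C ∧ ∀ (X ε g1 g2 G1 G2 ν : ℝ)
    (T : Finset ((Fin 4 → ℤ) × (Fin 4 → ℤ))), 1 ≤ X → 0 ≤ ν → G1 ≤ X ^ (g1 + ε) →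
      G2 ≤ X ^ (g2 + ε) →
      (∀ l ∈ T, LH l.1 l.2 G1 G2 ∧
        ¬ ∀ i j, i ≠ j → X ^ (-ν) * (G1 * G2) ≤ ‖c.pl l.1 l.2 i j‖) →
      (T.card : ℝ) ≤ C * X ^ min (mainE 4 ε g1 g2) (max (4 * (g1 + ε) + 4 * (g2 + ε) - 2 / 3 * ν)
          (max (2 * (g1 + ε) + 4 * (g2 + ε)) (4 * (g1 + ε) + 3 * (g2 + ε)))) := by
  obtain ⟨C1, p1, h1⟩ := card_lines_nonsep c (by norm_num)
  obtain ⟨C2, p2, h2⟩ := card_lines_cell (d := 4) (by omega)
  refine ⟨3 * C1 + C2, by positivity, fun X ε g1 g2 G1 G2 ν T hX hν hg1 hg2 hT => ?_⟩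
  have hX0 : 0 < X := by linarith
  rcases T.eq_empty_or_nonempty with rfl | ⟨l, hl⟩
  · simp only [Finset.card_empty, Nat.cast_zero]; positivity
  have g1' := (hT l hl).1.g1
  have g2' := (hT l hl).1.g2
  set m := max (4 * (g1 + ε) + 4 * (g2 + ε) - 2 / 3 * ν)
          (max (2 * (g1 + ε) + 4 * (g2 + ε)) (4 * (g1 + ε) + 3 * (g2 + ε))) with hm
  have a2 := h2 X ε g1 g2 G1 G2 T hX hg1 hg2 fun m hm => (hT m hm).1
  have a1 : (T.card : ℝ) ≤ 3 * C1 * X ^ m := by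
    have hδ : X ^ (-ν) ≤ 1 := Real.rpow_le_one_of_one_le_of_nonpos hX (by linarith)
    refine (h1 G1 G2 (X ^ (-ν)) T g1' g2' (Real.rpow_pos_of_pos hX0 _) hδ
      fun m hm => ⟨(hT m hm).1, ?_⟩).trans ?_
    · have := (hT m hm).2
      push Not at this
      obtain ⟨i, j, hij, h⟩ := this
      exact ⟨i, j, hij, h.le⟩
    have pw : ∀ (a b : ℕ), G1 ^ a * G2 ^ b ≤ X ^ (a * (g1 + ε) + b * (g2 + ε)) := by
      intro a b
      rw [Real.rpow_add hX0, mul_comm (a : ℝ), mul_comm (b : ℝ), Real.rpow_mul hX0.le,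
        Real.rpow_mul hX0.le, Real.rpow_natCast, Real.rpow_natCast]
      gcongr
    have t1 : (X ^ (-ν)) ^ (2 / 3 : ℝ) * G1 ^ 4 * G2 ^ 4 ≤ X ^ m := by
      have := pw 4 4
      calc (X ^ (-ν)) ^ (2 / 3 : ℝ) * G1 ^ 4 * G2 ^ 4
          = X ^ (-ν * (2 / 3)) * (G1 ^ 4 * G2 ^ 4) := by rw [Real.rpow_mul hX0.le]; ring
        _ ≤ X ^ (-ν * (2 / 3)) * X ^ (((4 : ℕ) : ℝ) * (g1 + ε) + ((4 : ℕ) : ℝ) * (g2 + ε)) := by
          gcongr
        _ ≤ X ^ m := by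
          rw [← Real.rpow_add hX0]
          refine Real.rpow_le_rpow_of_exponent_le hX (le_trans (le_of_eq ?_) (le_max_left _ _))
          push_cast
          ring
    have t2 : G1 ^ (4 - 2) * G2 ^ 4 ≤ X ^ m := by
      refine (pw (4 - 2) 4).trans (Real.rpow_le_rpow_of_exponent_le hX ?_)
      refine le_trans (le_of_eq ?_) ((le_max_left _ _).trans (le_max_right _ _))
      norm_num
    have t3 : G1 ^ 4 * G2 ^ (4 - 1) ≤ X ^ m := by
      refine (pw 4 (4 - 1)).trans (Real.rpow_le_rpow_of_exponent_le hX ?_)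
      refine le_trans (le_of_eq ?_) ((le_max_right _ _).trans (le_max_right _ _))
      norm_num
    have := mul_le_mul_of_nonneg_left (add_le_add (add_le_add t1 t2) t3) p1
    linarith
  rcases min_choice (mainE 4 ε g1 g2) m with e | e <;> rw [e]
  · have := Real.rpow_pos_of_pos hX0 (mainE 4 ε g1 g2)
    nlinarith
  · have := Real.rpow_pos_of_pos hX0 m
    nlinarith

theorem cellBd_four (c : Ctx 4) (C0 ε η0 b g1 g2 r rho k0 η η' ν : ℝ) (al io : ℕ) (h0 : 1 ≤ C0)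
    (hu : 0 ≤ 1 - 2 * b) (hl : 0 ≤ 1 - 2 * g1)
    (hp : SurfPar 4 2 r rho k0 (2 * (1 - 2 * b) - 2 / 3 * (g1 + g2))) (hν : 0 ≤ ν)
    (hν1 : 12 * ν < 1) (h5 : 2 * (1 - 2 * b) / 5 - (1 - 12 * ν) / 10 < η)
    (h7 : etaC (1 - 2 * b) (1 - 2 * g1) 7 11 1 1 < η) (ht : mainE 4 ε g1 g2 + r + η ≤ 1 - η0)
    (hpos : 0 < 5 * al + 9 * io) (h9 : etaC (1 - 2 * b) (1 - 2 * g1) 5 9 al io < η')
    (ht' : min (mainE 4 ε g1 g2) (max (4 * (g1 + ε) + 4 * (g2 + ε) - 2 / 3 * ν)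
          (max (2 * (g1 + ε) + 4 * (g2 + ε)) (4 * (g1 + ε) + 3 * (g2 + ε)))) + r + η' ≤ 1 - η0) :
    CellBd c 2 C0 ε η0 b g1 g2 := by
  classical
  obtain ⟨C1, p1, h1⟩ := lineB_all c (by norm_num) 2 (by norm_num) C0 r rho k0 _ _ _ η' h0 hp al io
    (by simpa [eMin] using hpos) hu hl (by simpa [eMin] using h9)
  obtain ⟨C2, p2, h2⟩ := card_lines_cell (d := 4) (by omega)
  obtain ⟨C3, h3⟩ := lineB_sep c C0 r rho k0 _ _ _ ν η h0 hp hu hl hν hν1 h5 h7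
  obtain ⟨C4, p4, h4⟩ := card_nonsep_cell c
  refine ⟨|C3| * C2 + C1 * C4,
    fun X B G1 G2 S l hX hB hBk hG1 hG2 hb _ hg1 hg1' hg2 hg2' hS hP => ?_⟩
  have hX0 : 0 < X := by linarith
  have hs : SizeB 4 2 X B G1 G2 (1 - 2 * b) (1 - 2 * g1) (2 * (1 - 2 * b) - 2 / 3 * (g1 + g2)) := by
    have := sizeB_cell (d := 4) 2 le_rfl X B G1 G2 b g1 g2 hX hB hBk hG1 hG2 hb hg1 hg2
    convert this using 1 <;> norm_num [hg]
  set Q : (Fin 4 → ℤ) × (Fin 4 → ℤ) → Prop := fun m =>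
    ∀ i j, i ≠ j → X ^ (-ν) * (G1 * G2) ≤ ‖c.pl m.1 m.2 i j‖ with hQ
  have e : S.card = (S.filter fun P => Q (l P)).card + (S.filter fun P => ¬ Q (l P)).card :=
    (Finset.card_filter_add_card_filter_not _).symm
  have a1 : ((S.filter fun P => Q (l P)).card : ℝ) ≤ |C3| * C2 * X ^ (1 - η0) := by
    refine (sum_linesB _ l Q (|C3| * X ^ (r + η)) (C2 * X ^ mainE 4 ε g1 g2)
      (by positivity) (hS.mono (Finset.filter_subset _ _))
      (fun P hP' => hP P (Finset.mem_filter.1 hP').1) (fun P hP' => (Finset.mem_filter.1 hP').2)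
      (fun b1 b2 T hL hq hT hT' => (h3 X B G1 G2 b1 b2 T hX hs hL hq hT hT').trans ?_)
      (fun T hT => h2 X ε g1 g2 G1 G2 T hX hg1' hg2' fun m hm => (hT m hm).1)).trans ?_
    · have := le_abs_self C3
      gcongr
    · exact rpow_mul_le X _ _ _ _ _ hX (abs_nonneg _) p2 (by linarith)
  have a2 : ((S.filter fun P => ¬ Q (l P)).card : ℝ) ≤ C1 * C4 * X ^ (1 - η0) := by
    refine (sum_linesB _ l (fun m => ¬ Q m) (C1 * X ^ (r + η')) _
      (by positivity) (hS.mono (Finset.filter_subset _ _))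
      (fun P hP' => hP P (Finset.mem_filter.1 hP').1) (fun P hP' => (Finset.mem_filter.1 hP').2)
      (fun b1 b2 T hL _ hT hT' => h1 X B G1 G2 b1 b2 T hX hs hL hT hT')
      (fun T hT => h4 X ε g1 g2 G1 G2 ν T hX hν hg1' hg2' hT)).trans ?_
    exact rpow_mul_le X _ _ _ _ _ hX p1 p4 (by linarith)
  rw [e]
  push_cast
  linarith

theorem uStar_pos : 0 < uStar d := by
  unfold uStar
  split_ifs <;> norm_num

theorem cellBd_all (c : Ctx d) (hd : 4 ≤ d ∧ d ≤ 8) (k : ℕ) (hk : k + 2 = d) (C0 : ℝ)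
    (h0 : 1 ≤ C0) : ∃ ε η0 : ℝ, 0 < ε ∧ 0 < η0 ∧ ∀ b g1 g2, CellB d k ε b g1 g2 →
      CellBd c k C0 ε η0 b g1 g2 := by
  by_cases h4 : d = 4
  · subst h4
    obtain rfl : k = 2 := by omega
    obtain ⟨ε, η0, hε, hη, h⟩ := numB4
    refine ⟨ε, η0, hε, hη, fun b g1 g2 hc => ?_⟩
    obtain ⟨hl, h1 | ⟨r, rho, k0, η, η', ν, al, io, hp, hν, hν1, h5, h7, ht, hpos, h9, ht'⟩⟩ :=
      h b g1 g2 hc
    · exact cellBd_triv c le_rfl 2 (by norm_num) C0 ε η0 b g1 g2 h0 h1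
    · have hu := hc.b2
      have := uStar_pos (d := 4)
      push_cast at hu
      exact cellBd_four c C0 ε η0 b g1 g2 r rho k0 η η' ν al io h0 (by linarith) hl hp hν hν1 h5 h7
        ht hpos h9 ht'
  · obtain ⟨ε, η0, hε, hη, h⟩ := numB5 (d := d) (by omega) k hk
    refine ⟨ε, η0, hε, hη, fun b g1 g2 hc => ?_⟩
    obtain ⟨hl, r, rho, k0, η, al, io, hp, hpos, he, ht⟩ := h b g1 g2 hc
    have hu := hc.b2
    have := uStar_pos (d := d)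
    exact cellBd_gen c hd k hk C0 ε η0 b g1 g2 r rho k0 η al io h0 (by linarith) hl hp hpos he ht

/-- Scheme B at fixed dyadic sizes. -/
theorem countB (c : Ctx d) (hd : 4 ≤ d ∧ d ≤ 8) (k : ℕ) (hk : k + 2 = d) (C0 : ℝ) (h0 : 1 ≤ C0) :
    ∃ η C : ℝ, 0 < η ∧ ∀ (X B G1 G2 : ℝ) (S : Finset (LPt c k))
      (l : LPt c k → (Fin d → ℤ) × (Fin d → ℤ)), 1 ≤ X → 1 ≤ B → B ^ k ≤ X ^ (1 - uStar d) →
      G1 * G2 ≤ C0 * B ^ (((d : ℝ) - 2) / (d - 1)) → InjN S →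
      (∀ P ∈ S, LH (l P).1 (l P).2 G1 G2 ∧ OnB C0 X B G1 G2 (l P).1 (l P).2 P) →
      (S.card : ℝ) ≤ C * X ^ (1 - η) := by
  obtain ⟨ε, η0, hε, hη, hcell⟩ := cellBd_all c hd k hk C0 h0
  obtain ⟨X0, hX0, hK⟩ := exists_X0 (2 * C0 ^ (d + 1)) ε hε
  set η := min η0 1 with hηdef
  have hη1 : η ≤ 1 := min_le_right _ _
  have hη2 : η ≤ η0 := min_le_left _ _
  have hBX : ∀ X B : ℝ, 1 ≤ X → B ^ k ≤ X ^ (1 - uStar d) → B ^ k ≤ X := by
    intro X B hX hB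
    refine hB.trans ?_
    conv_rhs => rw [← Real.rpow_one X]
    exact Real.rpow_le_rpow_of_exponent_le hX (by linarith [uStar_pos (d := d)])
  obtain ⟨C, hC⟩ := cells ε hε (fun C X B G1 G2 => ∀ (S : Finset (LPt c k))
      (l : LPt c k → (Fin d → ℤ) × (Fin d → ℤ)), X0 ≤ X → 1 ≤ B → G1 ≤ X → G2 ≤ X →
      B ^ k ≤ X ^ (1 - uStar d) →
      G1 * G2 ≤ C0 * B ^ (((d : ℝ) - 2) / (d - 1)) → InjN S →
      (∀ P ∈ S, LH (l P).1 (l P).2 G1 G2 ∧ OnB C0 X B G1 G2 (l P).1 (l P).2 P) →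
      (S.card : ℝ) ≤ C * X ^ (1 - η))
    (fun C C' X B G1 G2 hX hCC h S l a1 a2 a3 a4 a5 a6 a7 a8 =>
      (h S l a1 a2 a3 a4 a5 a6 a7 a8).trans
        (mul_le_mul_of_nonneg_right hCC (Real.rpow_nonneg (by linarith) _)))
    (fun b g1 g2 _ hg1 hg2 => by
      by_cases hc : CellB d k ε b g1 g2
      · obtain ⟨C, hC⟩ := hcell b g1 g2 hc
        refine ⟨|C|, fun X B G1 G2 hX hb hb' h1 h1' h2 h2' S l _ a2 a3 a4 a5 _ a7 a8 => ?_⟩
        refine (hC X B G1 G2 S l hX a2 (hBX X B hX a5) a3 a4 hb hb' h1 h1' h2 h2' a7 a8).trans ?_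
        have := le_abs_self C
        have : X ^ (1 - η0) ≤ X ^ (1 - η) := Real.rpow_le_rpow_of_exponent_le hX (by linarith)
        have : 0 ≤ X ^ (1 - η0) := Real.rpow_nonneg (by linarith) _
        gcongr
      · refine ⟨0, fun X B G1 G2 hX hb hb' h1 h1' h2 h2' S l a1 a2 a3 a4 a5 a6 a7 a8 => ?_⟩
        rcases S.eq_empty_or_nonempty with rfl | ⟨P, hP⟩
        · simp
        · exact absurd (cellB_of c hd.1 k C0 ε X B G1 G2 b g1 g2 h0 hε (by linarith) (hK X a1)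
            hg1 hg2 hb hb' h1 h2 h2' a5 a6 _ _ P.toPt (a8 P hP).1 (a8 P hP).2.sz) hc)
  refine ⟨η, |C| + (max X0 (C0 ^ 2) + 1), lt_min hη one_pos,
    fun X B G1 G2 S l hX hB hBk hG hS hP => ?_⟩
  have hX1 : 1 ≤ X ^ (1 - η) := Real.one_le_rpow hX (by linarith)
  have hm : 0 ≤ max X0 (C0 ^ 2) + 1 := by positivity
  rcases S.eq_empty_or_nonempty with rfl | ⟨P, hPS⟩
  · simp only [Finset.card_empty, Nat.cast_zero]; positivity
  by_cases hl : max X0 (C0 ^ 2) ≤ X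
  · have hl1 : X0 ≤ X := (le_max_left _ _).trans hl
    have hl2 : C0 ^ 2 ≤ X := (le_max_right _ _).trans hl
    have g1 := (hP P hPS).1.g1
    have g2 := (hP P hPS).1.g2
    have hB2 : B ^ 2 ≤ X := (pow_le_pow_right₀ hB (by omega)).trans (hBX X B hX hBk)
    have hBle : B ≤ X := by nlinarith
    have hGG : G1 * G2 ≤ X := by
      have hd' : (4 : ℝ) ≤ d := by exact_mod_cast hd.1
      have : B ^ (((d : ℝ) - 2) / (d - 1)) ≤ B := by
        conv_rhs => rw [← Real.rpow_one B]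
        refine Real.rpow_le_rpow_of_exponent_le hB ?_
        rw [div_le_one (by linarith)]
        linarith
      have h3 : G1 * G2 ≤ C0 * B := hG.trans (by gcongr)
      nlinarith [sq_nonneg (C0 - B)]
    have hG1 : G1 ≤ X := by nlinarith
    have hG2 : G2 ≤ X := by nlinarith
    refine (hC X B G1 G2 hX hB hBle g1 hG1 g2 hG2 S l hl1 hB hG1 hG2 hBk hG hS hP).trans ?_
    have := le_abs_self C
    gcongr
    linarith
  · push Not at hl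
    have := card_le_X c k C0 X B hX S hS fun P hP' => (hP P hP').2.sz
    have := abs_nonneg C
    nlinarith

end Crest.Agent.R22
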