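import Crest.Agent.R22.LineBC
import Crest.Agent.R22.CountAux
import Crest.Agent.R22.Deg
import Crest.Agent.R22.Num

set_option autoImplicit false
open Polynomial IntermediateField

namespace Crest.Agent.R22

variable {d : ℕ}

theorem uStar_le : uStar d ≤ 1 / 2 := by
  unfold uStar
  split_ifs <;> norm_num

/-- `1 ≤ ‖μ‖ ≤ C0 X / B^k`. -/
theorem Sz.one_le {c : Ctx d} {k : ℕ} {C0 X B : ℝ} {P : Pt c k} (h : Sz C0 X B P) :
    1 ≤ C0 * (X / B ^ k) := by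
  refine le_trans ?_ h.mu3
  obtain ⟨i, hi⟩ := P.pmu 2 Nat.prime_two
  have h1 : P.mu i ≠ 0 := fun e => hi (by simp [e])
  have h2 : (1 : ℝ) ≤ ‖P.mu i‖ := by
    rw [Int.norm_eq_abs, ← Int.cast_abs]
    exact_mod_cast Int.one_le_abs h1
  exact h2.trans (norm_le_pi_norm P.mu i)

theorem div_pow_le_rpow (k : ℕ) (X A a : ℝ) (hX : 1 ≤ X) (hA : X ^ a ≤ A) :
    X / A ^ k ≤ X ^ (1 - k * a) := by
  have hX0 : 0 < X := by linarith
  have hp : 0 < X ^ a := Real.rpow_pos_of_pos hX0 a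
  rw [Real.rpow_sub hX0, Real.rpow_one, mul_comm, Real.rpow_mul hX0.le, Real.rpow_natCast]
  exact div_le_div_of_nonneg_left hX0.le (by positivity) (by gcongr)

/-- For large `X` a nonempty cell satisfies `CellC`. -/
theorem cellC_of (c : Ctx d) (hd : 4 ≤ d) (k : ℕ) (C0 ε X B G1 G2 b g1 g2 : ℝ) (h0 : 1 ≤ C0)
    (hX : 1 < X) (hK : 2 * C0 ≤ X ^ ε) (hg1 : 0 ≤ g1) (hg2 : 0 ≤ g2)
    (hb : X ^ b ≤ B) (hb' : B ≤ X ^ (b + ε)) (h1 : X ^ g1 ≤ G1) (h2 : X ^ g2 ≤ G2)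
    (h2' : G2 ≤ X ^ (g2 + ε)) (hBk : X ^ (1 - uStar d) ≤ B ^ k)
    (hG : G1 * G2 ≤ C0 * (X / B ^ k) ^ (((d : ℝ) - 2) / (d - 1))) (b1 b2 : Fin d → ℤ) (P : Pt c k)
    (hL : LH b1 b2 G1 G2) (hP : Sz C0 X B P) : CellC d k ε b g1 g2 := by
  have hX0 : 0 < X := by linarith
  have hd' : (4 : ℝ) ≤ d := by exact_mod_cast hd
  have hB0 : 0 < B := lt_of_lt_of_le (Real.rpow_pos_of_pos hX0 b) hb
  have pb := Real.rpow_pos_of_pos hX0 b
  refine ⟨hg1, hg2, ?_, ?_, ?_, ?_⟩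
  · have h4 : X ^ (1 - uStar d) ≤ X ^ (k * (b + ε)) := by
      refine hBk.trans ?_
      rw [mul_comm, Real.rpow_mul hX0.le, Real.rpow_natCast]
      gcongr
    exact (Real.rpow_le_rpow_left_iff hX).1 h4
  · have h3 := hP.one_le
    rw [← mul_div_assoc, le_div_iff₀ (by positivity), one_mul] at h3
    have h4 : X ^ (k * b) ≤ C0 * X ^ (1 : ℝ) := by
      rw [Real.rpow_one, mul_comm (k : ℝ), Real.rpow_mul hX0.le, Real.rpow_natCast]
      refine le_trans ?_ h3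
      gcongr
    exact exp_le_of X _ _ _ ε hX h4 (by linarith)
  · have h4 : X ^ g1 ≤ 2 * X ^ (g2 + ε) := by
      have := hL.l1
      have := hL.u2
      have := hL.line.le
      linarith
    have h5 := exp_le_of X _ _ _ ε hX h4 (by linarith)
    linarith
  · have hq : (0 : ℝ) ≤ ((d : ℝ) - 2) / (d - 1) := div_nonneg (by linarith) (by linarith)
    have h3 : X / B ^ k ≤ X ^ max (1 - k * b) 0 :=
      (div_pow_le_rpow k X B b hX.le hb).trans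
        (Real.rpow_le_rpow_of_exponent_le hX.le (le_max_left _ _))
    have h4 : X ^ (g1 + g2) ≤ C0 * X ^ (max (1 - k * b) 0 * (((d : ℝ) - 2) / (d - 1))) := by
      rw [Real.rpow_add hX0, Real.rpow_mul hX0.le]
      have p1 := Real.rpow_pos_of_pos hX0 g1
      have p2 := Real.rpow_pos_of_pos hX0 g2
      calc X ^ g1 * X ^ g2 ≤ G1 * G2 := by gcongr; linarith
        _ ≤ C0 * (X / B ^ k) ^ (((d : ℝ) - 2) / (d - 1)) := hG
        _ ≤ _ := by gcongr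
    have h5 := exp_le_of X _ _ _ ε hX h4 (by linarith)
    linarith

/-- Summation over lines: `M` per line, `N` lines. -/
theorem sum_linesC {c : Ctx d} {k : ℕ} {C0 X B G1 G2 : ℝ} (S : Finset (LPt c k))
    (l : LPt c k → (Fin d → ℤ) × (Fin d → ℤ)) (Q : (Fin d → ℤ) × (Fin d → ℤ) → Prop) (M N : ℝ)
    (hM0 : 0 ≤ M) (hS : InjN S)
    (hP : ∀ P ∈ S, LH (l P).1 (l P).2 G1 G2 ∧ OnC C0 X B G1 G2 (l P).1 (l P).2 P)
    (hQ : ∀ P ∈ S, Q (l P))
    (hM : ∀ (b1 b2 : Fin d → ℤ) (T : Finset (LPt c k)), LH b1 b2 G1 G2 → Q (b1, b2) → InjN T →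
      (∀ P ∈ T, OnC C0 X B G1 G2 b1 b2 P) → (T.card : ℝ) ≤ M)
    (hN : ∀ T : Finset ((Fin d → ℤ) × (Fin d → ℤ)), (∀ m ∈ T, LH m.1 m.2 G1 G2 ∧ Q m) →
      (T.card : ℝ) ≤ N) : (S.card : ℝ) ≤ M * N := by
  classical
  refine card_le_lines S l M N hM0 (fun m hm => ?_) (hN _ fun m hm => ?_)
  · obtain ⟨P, hPS, rfl⟩ := Finset.mem_image.1 hm
    refine hM (l P).1 (l P).2 _ (hP P hPS).1 (hQ P hPS) (hS.mono (Finset.filter_subset _ _)) ?_
    intro R hR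
    obtain ⟨hR1, hR2⟩ := Finset.mem_filter.1 hR
    rw [← hR2]
    exact (hP R hR1).2
  · obtain ⟨P, hPS, rfl⟩ := Finset.mem_image.1 hm
    exact ⟨(hP P hPS).1, hQ P hPS⟩

theorem rpow_mul_leC (X A B a b e : ℝ) (hX : 1 ≤ X) (hA : 0 ≤ A) (hB : 0 ≤ B) (h : a + b ≤ e) :
    A * X ^ a * (B * X ^ b) ≤ A * B * X ^ e := by
  have hX0 : 0 < X := by linarith
  have : X ^ a * X ^ b ≤ X ^ e := by
    rw [← Real.rpow_add hX0]
    exact Real.rpow_le_rpow_of_exponent_le hX h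
  calc A * X ^ a * (B * X ^ b) = A * B * (X ^ a * X ^ b) := by ring
    _ ≤ A * B * X ^ e := by gcongr

theorem cellC_bd (c : Ctx d) (hd : 4 ≤ d) (k : ℕ) (hk : 2 ≤ k) (C0 ε η0 b g1 g2 r rho η : ℝ)
    (al io : ℕ) (h0 : 1 ≤ C0) (hb0 : 0 ≤ b + ε) (hl : 0 ≤ 1 - g1)
    (hdeg : d * (g1 + ε) + degExp d * (g2 + ε) + max (1 - k * b - g1) 0 + max (1 - k * b - g2) 0 ≤
      1 - η0) (hr : 0 < r) (hrho : 0 ≤ rho) (hlt : k * (b + ε) < Theta k 0 0 r rho 0)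
    (hpos : 0 < 3 * al + (3 * k + 2) * io) (h : etaC (b + ε) (1 - g1) 3 (3 * k + 2) al io < η)
    (ht : mainE d ε g1 g2 + r + η ≤ 1 - η0) :
    ∃ C : ℝ, ∀ (X B G1 G2 : ℝ) (S : Finset (LPt c k))
      (l : LPt c k → (Fin d → ℤ) × (Fin d → ℤ)), 1 ≤ X → 1 ≤ B → B ≤ X → 1 ≤ G1 → 1 ≤ G2 →
      X ^ b ≤ B → B ≤ X ^ (b + ε) → X ^ g1 ≤ G1 → G1 ≤ X ^ (g1 + ε) → X ^ g2 ≤ G2 →
      G2 ≤ X ^ (g2 + ε) → InjN S →
      (∀ P ∈ S, LH (l P).1 (l P).2 G1 G2 ∧ OnC C0 X B G1 G2 (l P).1 (l P).2 P) →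
      (S.card : ℝ) ≤ C * X ^ (1 - η0) := by
  classical
  obtain ⟨C1, h1⟩ := lineC c hd k hk C0 r rho (b + ε) (1 - g1) η h0 hr hrho hb0 hlt al io hpos hl h
  obtain ⟨C2, p2, h2⟩ := card_lines_cell (d := d) (by omega)
  obtain ⟨C3, p3, h3⟩ := line_trivC c k hk C0 h0
  obtain ⟨C4, p4, h4⟩ := card_lines_deg c
  refine ⟨|C1| * C2 + C3 * 4 * C4,
    fun X B G1 G2 S l hX hB hBX hG1 hG2 hb hb' hg1 hg1' hg2 hg2' hS hP => ?_⟩
  have hX0 : 0 < X := by linarith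
  have hs : SizeC X B G1 (b + ε) (1 - g1) := ⟨hB, hBX, hb', by
    have := div_pow_le_rpow 1 X G1 g1 hX hg1
    simpa using this⟩
  set Q : (Fin d → ℤ) × (Fin d → ℤ) → Prop := fun m => c.Nondeg m.1 m.2 with hQ
  have e : S.card = (S.filter fun P => Q (l P)).card + (S.filter fun P => ¬ Q (l P)).card :=
    (Finset.card_filter_add_card_filter_not _).symm
  have a1 : ((S.filter fun P => Q (l P)).card : ℝ) ≤ |C1| * C2 * X ^ (1 - η0) := by
    refine (sum_linesC _ l Q (|C1| * X ^ (r + η)) (C2 * X ^ mainE d ε g1 g2)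
      (by positivity) (hS.mono (Finset.filter_subset _ _))
      (fun P hP' => hP P (Finset.mem_filter.1 hP').1) (fun P hP' => (Finset.mem_filter.1 hP').2)
      (fun b1 b2 T hL hq hT hT' => (h1 X B G1 G2 b1 b2 T hX hs hL hq hT hT').trans ?_)
      (fun T hT => h2 X ε g1 g2 G1 G2 T hX hg1' hg2' fun m hm => (hT m hm).1)).trans ?_
    · have := le_abs_self C1
      gcongr
    · exact rpow_mul_leC X _ _ _ _ _ hX (abs_nonneg _) p2 (by linarith)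
  have a2 : ((S.filter fun P => ¬ Q (l P)).card : ℝ) ≤ C3 * 4 * C4 * X ^ (1 - η0) := by
    refine (sum_linesC _ l (fun m => ¬ Q m)
      (C3 * 4 * X ^ (max (1 - k * b - g1) 0 + max (1 - k * b - g2) 0))
      (C4 * X ^ (d * (g1 + ε) + degExp d * (g2 + ε)))
      (by positivity) (hS.mono (Finset.filter_subset _ _))
      (fun P hP' => hP P (Finset.mem_filter.1 hP').1) (fun P hP' => (Finset.mem_filter.1 hP').2)
      (fun b1 b2 T hL _ hT hT' => ?_) (fun T hT => ?_)).trans ?_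
    · refine (h3 X B G1 G2 b1 b2 T hX (by linarith) (by linarith) (by linarith) hT hT').trans ?_
      have hU := div_pow_le_rpow k X B b hX hb
      have e1 := div_add_one_le X _ G1 _ g1 hX hU hg1
      have e2 := div_add_one_le X _ G2 _ g2 hX hU hg2
      rw [Real.rpow_add hX0]
      calc C3 * (X / B ^ k / G1 + 1) * (X / B ^ k / G2 + 1)
          ≤ C3 * (2 * X ^ max (1 - k * b - g1) 0) * (2 * X ^ max (1 - k * b - g2) 0) := by gcongr
        _ = _ := by ring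
    · refine (h4 G1 G2 T hG1 hG2 hT).trans ?_
      rw [Real.rpow_add hX0, mul_comm (d : ℝ), mul_comm (degExp d : ℝ), Real.rpow_mul hX0.le,
        Real.rpow_mul hX0.le, Real.rpow_natCast, Real.rpow_natCast, mul_assoc]
      gcongr
    · exact rpow_mul_leC X _ _ _ _ _ hX (by positivity) p4 (by linarith)
  rw [e]
  push_cast
  linarith

/-- Scheme C at fixed dyadic sizes. -/
theorem countC (c : Ctx d) (hd : 4 ≤ d ∧ d ≤ 8) (k : ℕ) (hk : k + 2 = d) (C0 : ℝ) (h0 : 1 ≤ C0) :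
    ∃ η C : ℝ, 0 < η ∧ ∀ (X B G1 G2 : ℝ) (S : Finset (LPt c k))
      (l : LPt c k → (Fin d → ℤ) × (Fin d → ℤ)), 1 ≤ X → 1 ≤ B → X ^ (1 - uStar d) ≤ B ^ k →
      G1 * G2 ≤ C0 * (X / B ^ k) ^ (((d : ℝ) - 2) / (d - 1)) → InjN S →
      (∀ P ∈ S, LH (l P).1 (l P).2 G1 G2 ∧ OnC C0 X B G1 G2 (l P).1 (l P).2 P) →
      (S.card : ℝ) ≤ C * X ^ (1 - η) := by
  obtain ⟨ε, η0, hε, hη, hnum⟩ := numC hd k hk
  obtain ⟨X0, hX0, hK⟩ := exists_X0 (2 * C0) ε hε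
  set η := min η0 1 with hηdef
  have hη1 : η ≤ 1 := min_le_right _ _
  have hη2 : η ≤ η0 := min_le_left _ _
  obtain ⟨C, hC⟩ := cells ε hε (fun C X B G1 G2 => ∀ (S : Finset (LPt c k))
      (l : LPt c k → (Fin d → ℤ) × (Fin d → ℤ)), X0 ≤ X → 1 ≤ B → B ≤ X → 1 ≤ G1 → 1 ≤ G2 →
      X ^ (1 - uStar d) ≤ B ^ k →
      G1 * G2 ≤ C0 * (X / B ^ k) ^ (((d : ℝ) - 2) / (d - 1)) → InjN S →
      (∀ P ∈ S, LH (l P).1 (l P).2 G1 G2 ∧ OnC C0 X B G1 G2 (l P).1 (l P).2 P) →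
      (S.card : ℝ) ≤ C * X ^ (1 - η))
    (fun C C' X B G1 G2 hX hCC h S l a1 a2 a3 a4 a4' a5 a6 a7 a8 =>
      (h S l a1 a2 a3 a4 a4' a5 a6 a7 a8).trans
        (mul_le_mul_of_nonneg_right hCC (Real.rpow_nonneg (by linarith) _)))
    (fun b g1 g2 hb0 hg1 hg2 => by
      by_cases hc : CellC d k ε b g1 g2
      · obtain ⟨hl, hdeg, r, rho, η', al, io, hr, hrho, hlt, hpos, he, ht⟩ := hnum b g1 g2 hc
        obtain ⟨C, hC⟩ := cellC_bd c hd.1 k (by omega) C0 ε η0 b g1 g2 r rho η' al io h0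
          (by linarith) hl hdeg hr hrho hlt hpos he ht
        refine ⟨|C|, fun X B G1 G2 hX hb hb' h1 h1' h2 h2' S l _ a2 a3 a4 a4' _ _ a7 a8 => ?_⟩
        refine (hC X B G1 G2 S l hX a2 a3 a4 a4' hb hb' h1 h1' h2 h2' a7 a8).trans ?_
        have := le_abs_self C
        have : X ^ (1 - η0) ≤ X ^ (1 - η) := Real.rpow_le_rpow_of_exponent_le hX (by linarith)
        have : 0 ≤ X ^ (1 - η0) := Real.rpow_nonneg (by linarith) _
        gcongr
      · refine ⟨0, fun X B G1 G2 hX hb hb' h1 h1' h2 h2' S l a1 a2 a3 a4 a4' a5 a6 a7 a8 => ?_⟩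
        rcases S.eq_empty_or_nonempty with rfl | ⟨P, hP⟩
        · simp
        · exact absurd (cellC_of c hd.1 k C0 ε X B G1 G2 b g1 g2 h0 (by linarith) (hK X a1)
            hg1 hg2 hb hb' h1 h2 h2' a5 a6 _ _ P.toPt (a8 P hP).1 (a8 P hP).2.sz) hc)
  refine ⟨η, |C| + (max X0 (C0 ^ 2) + 1), lt_min hη one_pos,
    fun X B G1 G2 S l hX hB hBk hG hS hP => ?_⟩
  have hXp : 0 < X := by linarith
  have hX1 : 1 ≤ X ^ (1 - η) := Real.one_le_rpow hX (by linarith)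
  have hm : 0 ≤ max X0 (C0 ^ 2) + 1 := by positivity
  rcases S.eq_empty_or_nonempty with rfl | ⟨P, hPS⟩
  · simp only [Finset.card_empty, Nat.cast_zero]; positivity
  by_cases hl : max X0 (C0 ^ 2) ≤ X
  · have hl1 : X0 ≤ X := (le_max_left _ _).trans hl
    have hl2 : C0 ^ 2 ≤ X := (le_max_right _ _).trans hl
    have g1 := (hP P hPS).1.g1
    have g2 := (hP P hPS).1.g2
    have h3 := (hP P hPS).2.sz.one_le
    rw [← mul_div_assoc, le_div_iff₀ (by positivity), one_mul] at h3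
    have hB2 : B ^ 2 ≤ C0 * X := (pow_le_pow_right₀ hB (by omega)).trans h3
    have hC0 : C0 ≤ X := by nlinarith
    have hBle : B ≤ X := by nlinarith
    have hGG : G1 * G2 ≤ X := by
      have hd' : (4 : ℝ) ≤ d := by exact_mod_cast hd.1
      have hq : (0 : ℝ) ≤ ((d : ℝ) - 2) / (d - 1) := div_nonneg (by linarith) (by linarith)
      have hq1 : ((d : ℝ) - 2) / (d - 1) ≤ 1 := by
        rw [div_le_one (by linarith)]
        linarith
      have hU : X / B ^ k ≤ X ^ (1 / 2 : ℝ) := by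
        rw [div_le_iff₀ (by positivity)]
        have e : X = X ^ (1 / 2 : ℝ) * X ^ (1 / 2 : ℝ) := by
          rw [← Real.rpow_add hXp]; norm_num
        have : X ^ (1 / 2 : ℝ) ≤ B ^ k :=
          (Real.rpow_le_rpow_of_exponent_le hX (by linarith [uStar_le (d := d)])).trans hBk
        calc X = X ^ (1 / 2 : ℝ) * X ^ (1 / 2 : ℝ) := e
          _ ≤ X ^ (1 / 2 : ℝ) * B ^ k := by gcongr
      have h12 : 1 ≤ X ^ (1 / 2 : ℝ) := Real.one_le_rpow hX (by norm_num)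
      have h4 : (X / B ^ k) ^ (((d : ℝ) - 2) / (d - 1)) ≤ X ^ (1 / 2 : ℝ) := by
        calc (X / B ^ k) ^ (((d : ℝ) - 2) / (d - 1))
            ≤ (X ^ (1 / 2 : ℝ)) ^ (((d : ℝ) - 2) / (d - 1)) :=
              Real.rpow_le_rpow (by positivity) hU hq
          _ ≤ (X ^ (1 / 2 : ℝ)) ^ (1 : ℝ) := Real.rpow_le_rpow_of_exponent_le h12 hq1
          _ = _ := Real.rpow_one _
      have h5 : (X ^ (1 / 2 : ℝ)) ^ 2 = X := by
        rw [← Real.rpow_natCast, ← Real.rpow_mul hXp.le]; norm_num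
      have h6 : G1 * G2 ≤ C0 * X ^ (1 / 2 : ℝ) := hG.trans (by gcongr)
      nlinarith [sq_nonneg (C0 - X ^ (1 / 2 : ℝ))]
    have hG1 : G1 ≤ X := by nlinarith
    have hG2 : G2 ≤ X := by nlinarith
    refine (hC X B G1 G2 hX hB hBle g1 hG1 g2 hG2 S l hl1 hB hBle g1 g2 hBk hG hS hP).trans ?_
    have := le_abs_self C
    gcongr
    linarith
  · push Not at hl
    have := card_le_X c k C0 X B hX S hS fun P hP' => (hP P hP').2.sz
    have := abs_nonneg C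
    nlinarith

end Crest.Agent.R22
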