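import Crest.Agent.R22.NF
import Crest.Agent.R22.Padic

set_option autoImplicit false
open Polynomial IntermediateField

namespace Crest.Agent.R22

variable {d : ℕ}

theorem TN_unit {q : ℕ} (hq : q.Prime) {Λ : Type*} [CommRing Λ] (hn : IsNilpotent (q : Λ)) {a : ℤ}
    (ha : ¬ (q : ℤ) ∣ a) : IsUnit (a : Λ) := by
  obtain ⟨u, v, h⟩ := (Nat.prime_iff_prime_int.1 hq).irreducible.coprime_iff_not_dvd.2 ha
  have h1 : (v : Λ) * a = 1 - u * q := by
    have := congrArg (Int.cast : ℤ → Λ) h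
    push_cast at this
    linear_combination this
  have h2 : IsUnit ((v : Λ) * a) := by
    rw [h1]
    exact ((Commute.all _ _).isNilpotent_mul_left hn).isUnit_one_sub
  exact isUnit_of_mul_isUnit_right h2

theorem TN_hev {Λ : Type*} [CommRing Λ] (A : ℤ[X]) {E : ℕ} (hA : A.natDegree ≤ E) (x y : ℤ)
    {yi : Λ} (h : (y : Λ) * yi = 1) :
    ((hev A E x y : ℤ) : Λ) = (y : Λ) ^ E * aeval ((x : Λ) * yi) A := by
  rw [aeval_eq_sum_range' (Nat.lt_succ_of_le hA), Finset.mul_sum, hev, Int.cast_sum]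
  refine Finset.sum_congr rfl fun i hi => ?_
  obtain ⟨j, rfl⟩ := Nat.exists_eq_add_of_le (Nat.lt_succ_iff.1 (Finset.mem_range.1 hi))
  have h1 : (y : Λ) ^ i * yi ^ i = 1 := by rw [← mul_pow, h, one_pow]
  rw [Nat.add_sub_cancel_left, zsmul_eq_mul, mul_pow, pow_add]
  simp only [algebraMap_int_eq, eq_intCast, Int.cast_id, Int.cast_mul, Int.cast_pow]
  linear_combination (-((A.coeff i : Λ) * (x : Λ) ^ i * (y : Λ) ^ j)) * h1

theorem TN_hev2 {Λ Z : Type*} [CommRing Λ] (g : ℤ[X][X]) {E : ℕ}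
    (hg : ∀ i, (g.coeff i).natDegree ≤ E) (x y n : Z → ℤ) {yi : Z → Λ}
    (h : ∀ z, (y z : Λ) * yi z = 1) (z : Z) :
    ((hev2 g E (x z) (y z) (n z) : ℤ) : Λ) = (y z : Λ) ^ E *
      (g.map (aeval fun z => (x z : Λ) * yi z : ℤ[X] →ₐ[ℤ] (Z → Λ)).toRingHom).eval
        (fun z => (n z : Λ)) z := by
  rw [hev2, eval_map, eval₂_eq_sum, Polynomial.sum, Finset.sum_apply, Finset.mul_sum, Int.cast_sum]
  refine Finset.sum_congr rfl fun i _ => ?_
  rw [Int.cast_mul, TN_hev _ (hg i) _ _ (h z), Int.cast_pow, mul_assoc]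
  congr 2
  exact aeval_algHom_apply (Pi.evalAlgHom ℤ (fun _ : Z => Λ) z) (fun z => (x z : Λ) * yi z) _

/-- Common part of the `p`-adic computations. `Λ` is any commutative ring in which `q` is nilpotent,
`T` a class; with `t P = x y⁻¹` and `τ P = t P - t P0`, both `t` and `n` lie in `Λ[τ]`
(`hensel_mem` with `h(Y) = g(t, Y)`; an integer prime to `q` is a unit of `Λ`). -/
theorem tn_mem (c : Ctx d) (k E : ℕ) (DF : ℤ) (g : ℤ[X][X]) (hg : DegLE g E) (q : ℕ) (hq : q.Prime)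
    (T : Finset (LPt c k)) (hT : ∀ P ∈ T, hev2 g E P.x P.y P.n = 0 ∧ ¬ (q : ℤ) ∣ badB DF g E P)
    (hS : ∀ P ∈ T, ∀ Q ∈ T, SameTN q P Q) (Λ : Type*) [CommRing Λ] (hn : IsNilpotent (q : Λ)) :
    ∃ yi τ : T → Λ, (∀ P, (P.1.y : Λ) * yi P = 1) ∧ (∀ P, (q : Λ) ∣ τ P) ∧
      (fun P : T => (P.1.x : Λ) * yi P) ∈ Algebra.adjoin Λ {τ} ∧
      (fun P : T => (P.1.n : Λ)) ∈ Algebra.adjoin Λ {τ} := by
  have hy : ∀ P : T, IsUnit (P.1.y : Λ) := fun P => TN_unit hq hn fun h => (hT P.1 P.2).2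
    (((h.mul_right _).mul_right _).mul_right _)
  have hd : ∀ P : T, IsUnit ((hev2 (derivative g) E P.1.x P.1.y P.1.n : ℤ) : Λ) := fun P =>
    TN_unit hq hn fun h => (hT P.1 P.2).2 (h.mul_left _)
  choose yi hyi using fun P => (hy P).exists_right_inv
  rcases isEmpty_or_nonempty T with hE | ⟨⟨P0⟩⟩
  · refine ⟨yi, 0, hyi, fun P => dvd_zero _, ?_, ?_⟩
    · rw [Subsingleton.elim (fun P : T => (P.1.x : Λ) * yi P) 0]
      exact zero_mem _
    · rw [Subsingleton.elim (fun P : T => (P.1.n : Λ)) 0]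
      exact zero_mem _
  have hcast : ∀ {a : ℤ}, (q : ℤ) ∣ a → (q : Λ) ∣ (a : Λ) := fun h => by
    simpa using (Int.castRingHom Λ).map_dvd h
  obtain ⟨τ, hτ⟩ : ∃ τ : T → Λ, τ = fun P => (P.1.x : Λ) * yi P - (P0.1.x : Λ) * yi P0 := ⟨_, rfl⟩
  have hτq : ∀ P, (q : Λ) ∣ τ P := fun P => by
    have h1 := (hcast (hS P.1 P.2 P0.1 P0.2).1).mul_right (yi P * yi P0)
    have e : τ P = ((P.1.x * P0.1.y - P0.1.x * P.1.y : ℤ) : Λ) * (yi P * yi P0) := by
      rw [hτ]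
      push_cast
      linear_combination (-(P.1.x : Λ) * yi P) * hyi P0 + (P0.1.x : Λ) * yi P0 * hyi P
    rwa [e]
  have ht : (fun P : T => (P.1.x : Λ) * yi P) ∈ Algebra.adjoin Λ {τ} := by
    have e : (fun P : T => (P.1.x : Λ) * yi P) =
        τ + algebraMap Λ (T → Λ) ((P0.1.x : Λ) * yi P0) := by
      funext P
      simp [hτ]
    rw [e]
    exact add_mem (Algebra.self_mem_adjoin_singleton Λ τ) (Subalgebra.algebraMap_mem _ _)
  refine ⟨yi, τ, hyi, hτq, ht, hensel_mem (q : Λ) hn τ hτq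
    (g.map (aeval fun P : T => (P.1.x : Λ) * yi P : ℤ[X] →ₐ[ℤ] (T → Λ)).toRingHom) (fun i => ?_) _
    (fun P Q => ?_) ?_ fun P => ?_⟩
  · rw [coeff_map]
    change aeval _ (g.coeff i) ∈ _
    rw [aeval_eq_sum_range]
    exact sum_mem fun j _ => zsmul_mem (pow_mem ht j) _
  · simpa using hcast (hS P.1 P.2 Q.1 Q.2).2
  · funext P
    have h1 := TN_hev2 g hg.2 (fun P : T => P.1.x) (fun P => P.1.y) (fun P => P.1.n) hyi P
    rw [(hT P.1 P.2).1, Int.cast_zero] at h1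
    exact ((hy P).pow E).mul_right_eq_zero.1 h1.symm
  · have h1 := TN_hev2 (derivative g) (E := E) (fun i => by
      rw [coeff_derivative]
      refine natDegree_mul_le.trans ?_
      rw [← Nat.cast_succ, natDegree_natCast]
      exact hg.2 _) (fun P : T => P.1.x) (fun P => P.1.y) (fun P => P.1.n) hyi P
    rw [derivative_map]
    exact isUnit_of_mul_isUnit_right (h1 ▸ hd P)

end Crest.Agent.R22
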