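import Crest.Agent.R22.NF
import Crest.Agent.R22.Padic
import Crest.Agent.R22.TN

set_option autoImplicit false
open Polynomial IntermediateField

namespace Crest.Agent.R22

variable {d : ℕ}

/-- An integer prime to `q` is a unit in a ring where `q` is nilpotent. -/
theorem PB_unit {Λ : Type*} [CommRing Λ] {q : ℕ} (hq : q.Prime) (hn : IsNilpotent (q : Λ)) {m : ℤ}
    (h : ¬ (q : ℤ) ∣ m) : IsUnit (m : Λ) := by
  obtain ⟨u, v, huv⟩ := (Nat.prime_iff_prime_int.1 hq).irreducible.coprime_iff_not_dvd.2 h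
  have h1 : (v : Λ) * m = 1 - u * q := by
    have := congrArg (Int.cast : ℤ → Λ) huv
    push_cast at this
    linear_combination this
  exact isUnit_of_mul_isUnit_right (h1 ▸ ((Commute.all _ _).isNilpotent_mul_left hn).isUnit_one_sub)

/-- The conjugates as elements of `AA`. -/
noncomputable def PB_sg (c : Ctx d) (j : Fin d) (v : Fin d → ℤ) : c.AA := ⟨c.sg j v, sg_mem_AA c j v⟩

theorem PB_sg_line (c : Ctx d) (j : Fin d) (b1 b2 : Fin d → ℤ) (x y : ℤ) :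
    PB_sg c j (x • b1 + y • b2) = x * PB_sg c j b1 + y * PB_sg c j b2 :=
  Subtype.ext (by
    change c.sg j _ = _
    rw [sg_add, sg_smul, sg_smul]
    rfl)

theorem PB_co (c : Ctx d) {DF : ℤ}
    (hDF : ∀ l j, (DF : ℂ) * (Matrix.vandermonde c.th)⁻¹ l j ∈ c.AA) (v : Fin d → ℤ) (l : Fin d) :
    (DF : c.AA) * v l = ∑ j, (⟨_, hDF l j⟩ : c.AA) * PB_sg c j v :=
  Subtype.ext (by
    have h := co_sg c v l
    rw [Ctx.co] at h
    push_cast
    rw [← h, Finset.mul_sum]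
    exact Finset.sum_congr rfl fun j _ => (mul_assoc _ _ _).symm)

theorem PB_nrm {c : Ctx d} {k : ℕ} (P : Pt c k) :
    ∏ j, PB_sg c j P.be = ((P.ka * P.p : ℤ) : c.AA) :=
  Subtype.ext (by
    rw [SubmonoidClass.coe_finsetProd]
    exact P.nrm)

theorem PB_rel {c : Ctx d} {k : ℕ} (P : Pt c k) (j : Fin d) :
    PB_sg c j P.mu * PB_sg c j P.be ^ k = P.cc * (P.n - ⟨c.th j, th_mem_AA c j⟩) :=
  Subtype.ext (P.rel j)

theorem PB_nilp (c : Ctx d) (q J : ℕ) :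
    (q : c.AA ⧸ Ideal.span {(q : c.AA) ^ J}) ^ J = 0 := by
  rw [← map_natCast (Ideal.Quotient.mk _), ← map_pow, Ideal.Quotient.eq_zero_iff_mem]
  exact Ideal.mem_span_singleton_self _

theorem PB_dvd (c : Ctx d) {q : ℕ} (hq : q ≠ 0) (J : ℕ) {m : ℤ}
    (h : (q : c.AA ⧸ Ideal.span {(q : c.AA) ^ J}) ^ J ∣ m) : (q : ℤ) ^ J ∣ m := by
  rw [PB_nilp, zero_dvd_iff, ← map_intCast (Ideal.Quotient.mk (Ideal.span {(q : c.AA) ^ J})),
    Ideal.Quotient.eq_zero_iff_mem, Ideal.mem_span_singleton] at h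
  obtain ⟨w, hw⟩ := h
  refine int_dvd_of_AA c _ m (pow_ne_zero _ (Int.natCast_ne_zero.2 hq)) w w.2 ?_
  simpa using congrArg Subtype.val hw

/-- The determinant step: every row is a column factor times an element of `Λ[τ]`. -/
theorem PB_det {Λ Z : Type*} [CommRing Λ] {M : ℕ} (q : Λ) (τ : Z → Λ) (hτ : ∀ z, q ∣ τ z)
    (f : Fin M → Z → Λ) (hf : ∀ a, f a ∈ Algebra.adjoin Λ {τ}) (z : Fin M → Z) (u : Fin M → Λ)
    (N : Matrix (Fin M) (Fin M) ℤ) (h : ∀ a b, (N a b : Λ) = u b * f a (z b)) :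
    q ^ (M * (M - 1) / 2) ∣ (N.det : Λ) := by
  have h1 := padic_det q τ hτ f hf z
  rw [Fintype.card_fin] at h1
  have h2 : N.map (fun x => (x : Λ)) =
      Matrix.of fun a b => u b * (Matrix.of fun a b => f a (z b)) a b := by
    ext a b
    exact h a b
  rw [Int.cast_det, h2, Matrix.det_mul_row]
  exact h1.mul_left _

/-- Scheme B. Work in `Λ = AA / (q^J)`, `J = M(M-1)/2`. A row is `y^(c0) y^(-k a)` (column unit) times
`∏ (μ_l y^k)^(α_l) t^j`; `DF μ_l = ∑ w'_{lj} σ_j μ`, and `(σ_j μ y^k) (σ_j b1 t + σ_j b2)^k = cc (n - θ_j)`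
with `σ_j β` a unit (it divides `ka p`): `inv_mem`, `padic_det`, `int_dvd_of_AA`. -/
theorem padicB (c : Ctx d) (k E : ℕ) (DF : ℤ)
    (hDF : ∀ l j, (DF : ℂ) * (Matrix.vandermonde c.th)⁻¹ l j ∈ c.AA) (b1 b2 : Fin d → ℤ)
    (g : ℤ[X][X]) (hg : DegLE g E) (q : ℕ) (hq : q.Prime) (cc : ℤ) (T : Finset (LPt c k))
    (hT : ∀ P ∈ T, P.be = P.x • b1 + P.y • b2 ∧ P.cc = cc ∧ hev2 g E P.x P.y P.n = 0 ∧
      ¬ (q : ℤ) ∣ badB DF g E P)
    (hS : ∀ P ∈ T, ∀ Q ∈ T, SameTN q P Q) {M : ℕ} (a c0 I : ℕ) (ρ : Fin M → Row d)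
    (hρ : ∀ i, (ρ i).Ok a 1 c0 k I) (z : Fin M → LPt c k) (hz : ∀ b, z b ∈ T) :
    (q : ℤ) ^ (M * (M - 1) / 2) ∣
      (Matrix.of fun i b => (ρ i).ev c0 k (z b).mu (z b).x (z b).y).det := by
  classical
  refine PB_dvd c hq.ne_zero _ ?_
  have hn : IsNilpotent (q : c.AA ⧸ Ideal.span {(q : c.AA) ^ (M * (M - 1) / 2)}) :=
    ⟨_, PB_nilp c q _⟩
  generalize Ideal.span {(q : c.AA) ^ (M * (M - 1) / 2)} = J at hn ⊢
  set φ := Ideal.Quotient.mk J
  obtain ⟨yi, τ, h1, h2, h3, h4⟩ := tn_mem c k E DF g hg q hq T (fun P hP => (hT P hP).2.2) hS _ hn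
  have hc : ∀ w : c.AA ⧸ J, (fun _ : T => w) ∈ Algebra.adjoin (c.AA ⧸ J) {τ} := fun w =>
    Subalgebra.algebraMap_mem _ w
  have u1 : ∀ P : T, IsUnit (DF : c.AA ⧸ J) := fun P => PB_unit hq hn fun h =>
    (hT P P.2).2.2.2 (((h.mul_left _).mul_right _).mul_right _)
  have u2 : ∀ (P : T) j, IsUnit (φ (PB_sg c j P.1.be)) := fun P j => by
    have h5 := PB_unit hq hn (m := P.1.ka * P.1.p) fun h =>
      (hT P P.2).2.2.2 ((h.mul_left _).mul_right _)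
    rw [← map_intCast φ, ← PB_nrm, map_prod] at h5
    exact isUnit_of_dvd_unit
      (Finset.dvd_prod_of_mem (fun j => φ (PB_sg c j P.1.be)) (Finset.mem_univ j)) h5
  have e1 : ∀ (P : T) j, φ (PB_sg c j P.1.be) =
      P.1.y * (P.1.x * yi P * φ (PB_sg c j b1) + φ (PB_sg c j b2)) := fun P j => by
    rw [(hT P P.2).1, PB_sg_line, map_add, map_mul, map_mul, map_intCast, map_intCast]
    linear_combination (-(P.1.x : c.AA ⧸ J) * φ (PB_sg c j b1)) * h1 P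
  have m1 : ∀ j, (fun P : T => φ (PB_sg c j P.1.mu) * (P.1.y : c.AA ⧸ J) ^ k) ∈
      Algebra.adjoin (c.AA ⧸ J) {τ} := fun j => by
    choose H hH using fun P : T =>
      (isUnit_of_mul_isUnit_right (e1 P j ▸ u2 P j)).exists_right_inv
    have h5 := inv_mem _ hn τ h2 _ H (add_mem (mul_mem h3 (hc (φ (PB_sg c j b1))))
      (hc (φ (PB_sg c j b2)))) (funext hH)
    have h6 := mul_mem (mul_mem (hc cc) (sub_mem h4 (hc (φ ⟨c.th j, th_mem_AA c j⟩))))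
      (pow_mem h5 k)
    convert h6 using 1
    funext P
    have h7 := congrArg φ (PB_rel P.1.toPt j)
    rw [map_mul, map_pow, e1, (hT P P.2).2.1, map_mul, map_sub, map_intCast, map_intCast] at h7
    change _ = (cc : c.AA ⧸ J) * (P.1.n - φ ⟨c.th j, th_mem_AA c j⟩) * H P ^ k
    rw [← h7, mul_assoc, ← mul_pow, mul_assoc, hH, mul_one]
  have m2 : ∀ l, (fun P : T => (P.1.mu l : c.AA ⧸ J) * (P.1.y : c.AA ⧸ J) ^ k) ∈
      Algebra.adjoin (c.AA ⧸ J) {τ} := fun l => by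
    have h5 := mul_mem (hc (Ring.inverse DF)) (Subalgebra.sum_mem _ (t := Finset.univ) fun j _ =>
      mul_mem (hc (φ ⟨_, hDF l j⟩)) (m1 j))
    convert h5 using 1
    funext P
    have h6 := congrArg φ (PB_co c hDF P.1.mu l)
    rw [map_mul, map_intCast, map_intCast, map_sum] at h6
    simp only [Pi.mul_apply, Finset.sum_apply, ← mul_assoc, ← map_mul]
    rw [← Finset.sum_mul, ← h6, ← mul_assoc, ← mul_assoc, Ring.inverse_mul_cancel _ (u1 P), one_mul]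
  refine PB_det _ τ h2 (fun i => (∏ l, (fun P : T => (P.1.mu l : c.AA ⧸ J) *
      (P.1.y : c.AA ⧸ J) ^ k) ^ (ρ i).al l) * (fun P : T => (P.1.x : c.AA ⧸ J) * yi P) ^ (ρ i).j)
    (fun i => mul_mem (Subalgebra.prod_mem _ fun l _ => pow_mem (m2 l) _) (pow_mem h3 _))
    (fun b => ⟨z b, hz b⟩) (fun b => ((z b).y : c.AA ⧸ J) ^ c0 * yi ⟨z b, hz b⟩ ^ (k * a)) _
    fun i b => ?_
  obtain ⟨r1, r2, -⟩ := hρ i
  have h5 : ((z b).y : c.AA ⧸ J) * yi ⟨z b, hz b⟩ = 1 := h1 ⟨z b, hz b⟩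
  obtain ⟨e, he⟩ := Nat.exists_eq_add_of_le r2
  simp only [Matrix.of_apply, Row.ev, Pi.mul_apply, Pi.pow_apply, Finset.prod_apply, mul_pow,
    Finset.prod_mul_distrib, Finset.prod_pow_eq_pow_sum, r1, he, Nat.add_sub_cancel_left]
  push_cast
  generalize yi ⟨z b, hz b⟩ = w at h5
  generalize ((z b).y : c.AA ⧸ J) = y at h5
  have h6 : y ^ c0 * w ^ (k * a) * (y ^ k) ^ (a + 1 * (ρ i).lv) * w ^ (ρ i).j = y ^ e := by
    calc _ = (y * w) ^ (k * a) * (y ^ (c0 + k * (ρ i).lv) * w ^ (ρ i).j) := by ring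
      _ = (y * w) ^ (k * a) * (y * w) ^ (ρ i).j * y ^ e := by rw [he]; ring
      _ = _ := by rw [h5, one_pow, one_pow, one_mul, one_mul]
  rw [← h6]
  ring

end Crest.Agent.R22
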