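import Crest.Agent.R22.Basic

set_option autoImplicit false
open Polynomial IntermediateField

namespace Crest.Agent.R22

variable {d : ℕ}

/-- Points of `[X, 2X]` in one class modulo `q`. -/
theorem SameP_class {c : Ctx d} {k : ℕ} {C0 X B : ℝ} (_hX : 0 ≤ X) {S : Finset (LPt c k)}
    (hS : InjN S) (h : ∀ P ∈ S, Sz C0 X B P.toPt) {q : ℕ} (hq : 0 < q)
    (hc : ∀ P ∈ S, ∀ Q ∈ S, (q : ℤ) ∣ P.n - Q.n) : S.card ≤ ⌊X / q⌋₊ + 1 := by
  rcases S.eq_empty_or_nonempty with rfl | hne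
  · simp
  obtain ⟨Q, hQ, hmin⟩ := S.exists_min_image (fun P => P.n) hne
  have hq' : (0 : ℤ) < q := by exact_mod_cast hq
  have hqR : (0 : ℝ) < q := by exact_mod_cast hq
  rw [← Finset.card_range (⌊X / q⌋₊ + 1)]
  refine Finset.card_le_card_of_injOn (fun P => ((P.n - Q.n) / q).toNat) (fun P hP => ?_)
    fun P hP P' hP' e => hS P hP P' hP' ?_
  · obtain ⟨t, ht⟩ := hc P hP Q hQ
    have h0 : 0 ≤ t := by
      have := hmin P hP
      exact nonneg_of_mul_nonneg_right (by rw [← ht]; omega) hq'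
    simp only [Finset.coe_range, Set.mem_Iio]
    rw [ht, Int.mul_ediv_cancel_left _ hq'.ne', Nat.lt_succ_iff]
    refine Nat.le_floor ?_
    have e : ((t.toNat : ℕ) : ℝ) = t := by exact_mod_cast congrArg (Int.cast : ℤ → ℝ) (Int.toNat_of_nonneg h0)
    have ht' : (P.n : ℝ) - Q.n = q * t := by exact_mod_cast ht
    rw [e, le_div_iff₀ hqR]
    linarith [(h P hP).n2, (h Q hQ).n1]
  · obtain ⟨t, ht⟩ := hc P hP Q hQ
    obtain ⟨t', ht'⟩ := hc P' hP' Q hQ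
    have h0 : 0 ≤ t := by
      have := hmin P hP
      exact nonneg_of_mul_nonneg_right (by rw [← ht]; omega) hq'
    have h0' : 0 ≤ t' := by
      have := hmin P' hP'
      exact nonneg_of_mul_nonneg_right (by rw [← ht']; omega) hq'
    simp only [ht, ht', Int.mul_ediv_cancel_left _ hq'.ne'] at e
    obtain rfl : t = t' := by omega
    omega

theorem SameP_le_X {c : Ctx d} {k : ℕ} {C0 X B : ℝ} (hX : 1 ≤ X) {S : Finset (LPt c k)}
    (hS : InjN S) (h : ∀ P ∈ S, Sz C0 X B P.toPt) : (S.card : ℝ) ≤ X + 1 := by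
  have h1 := SameP_class (by linarith) hS h one_pos fun _ _ _ _ => by simp
  have h2 : (S.card : ℝ) ≤ ⌊X / (1 : ℕ)⌋₊ + 1 := by exact_mod_cast h1
  have h3 := Nat.floor_le (a := X / (1 : ℕ)) (by positivity)
  simp only [Nat.cast_one, div_one] at h2 h3
  linarith

theorem SameP_nat {c : Ctx d} {k : ℕ} (hk : 1 ≤ k) {C0 X B : ℝ} (h0 : 1 ≤ C0) (hX : 1 ≤ X)
    {p : ℕ} {S : Finset (LPt c k)} (hS : InjN S) (h : ∀ P ∈ S, Sz C0 X B P.toPt ∧ P.p = p) :
    S.card ≤ (⌊C0⌋₊ + 1) * d := by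
  classical
  rcases S.eq_empty_or_nonempty with rfl | ⟨Q, hQ⟩
  · simp
  have hp : p.Prime := (h Q hQ).2 ▸ Q.pp
  have := Fact.mk hp
  have hm := c.monic.map (Int.castRingHom (ZMod p))
  have hcard : (c.F.map (Int.castRingHom (ZMod p))).roots.toFinset.card ≤ d :=
    (Multiset.toFinset_card_le _).trans ((card_roots' _).trans (natDegree_map_le.trans c.deg.le))
  refine le_trans (Finset.card_le_mul_card_image_of_maps_to (f := fun P => (P.n : ZMod p))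
    (fun P hP => ?_) _ fun r _ => ?_) (Nat.mul_le_mul_left _ hcard)
  · rw [Multiset.mem_toFinset, mem_roots hm.ne_zero, IsRoot, eval_intCast_map, eq_intCast,
      Int.cast_id, ZMod.intCast_zmod_eq_zero_iff_dvd, ← (h P hP).2]
    exact (dvd_pow_self _ (by omega)).trans P.pk
  · refine (SameP_class (B := B) (C0 := C0) (q := p) (by linarith) (fun P hP P' hP' =>
      hS P (Finset.mem_filter.1 hP).1 P' (Finset.mem_filter.1 hP').1)
      (fun P hP => (h P (Finset.mem_filter.1 hP).1).1) hp.pos fun P hP P' hP' => ?_).trans ?_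
    · rw [← ZMod.intCast_eq_intCast_iff_dvd_sub, (Finset.mem_filter.1 hP).2,
        (Finset.mem_filter.1 hP').2]
    · refine Nat.succ_le_succ (Nat.floor_le_floor ?_)
      have h1 := (h Q hQ).1.p1
      rw [(h Q hQ).2, div_le_iff₀ (by linarith)] at h1
      rw [div_le_iff₀ (by exact_mod_cast hp.pos)]
      linarith

/-- A prime `p ≥ X / C0` dividing `F(n)`: `n mod p` is one of `≤ d` roots of the monic polynomial
`F` modulo `p`, and `[X, 2X]` meets each class at most `C0 + 1` times. -/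
theorem card_same_p (c : Ctx d) (k : ℕ) (hk : 1 ≤ k) (C0 : ℝ) (h0 : 1 ≤ C0) :
    ∃ C : ℝ, ∀ X B : ℝ, 1 ≤ X → ∀ (p : ℕ) (S : Finset (LPt c k)), InjN S →
      (∀ P ∈ S, Sz C0 X B P.toPt ∧ P.p = p) → (S.card : ℝ) ≤ C := by
  exact ⟨((⌊C0⌋₊ + 1) * d : ℕ), fun X B hX p S hS h => Nat.cast_le.2 (SameP_nat hk h0 hX hS h)⟩

/-- The primes `P.p ≥ X / C0` all divide a fixed nonzero integer `R`, `|R| ≤ X^C1`: boundedly many
primes for `X ≥ C0^2` (their product divides `R`); for small `X` use `card ≤ X + 1`. -/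
theorem card_dvd_fixed (c : Ctx d) (k : ℕ) (hk : 1 ≤ k) (C0 C1 : ℝ) (h0 : 1 ≤ C0) :
    ∃ C : ℝ, ∀ X B : ℝ, 1 ≤ X → ∀ (R : ℤ) (S : Finset (LPt c k)), InjN S → R ≠ 0 →
      |(R : ℝ)| ≤ (2 * X) ^ C1 → (∀ P ∈ S, Sz C0 X B P.toPt ∧ (P.p : ℤ) ∣ R) →
      (S.card : ℝ) ≤ C := by
  classical
  refine ⟨(2 * C0 ^ 2 + 1) + (((⌊C0⌋₊ + 1) * d * (2 * ⌈C1⌉₊) : ℕ) : ℝ),
    fun X B hX R S hS hR0 hR h => ?_⟩
  by_cases hX0 : X ≤ 2 * C0 ^ 2
  · have := SameP_le_X hX hS fun P hP => (h P hP).1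
    have h2 : (0 : ℝ) ≤ (((⌊C0⌋₊ + 1) * d * (2 * ⌈C1⌉₊) : ℕ) : ℝ) := Nat.cast_nonneg _
    linarith
  refine le_trans (Nat.cast_le.2 ?_) (le_add_of_nonneg_left (by positivity))
  have hC : 0 < C0 := by linarith
  have hZ : 2 * C0 < X / C0 := by rw [lt_div_iff₀ hC]; linarith
  have hZ2 : 2 * X ≤ (X / C0) ^ 2 := by
    rw [div_pow, le_div_iff₀ (by positivity)]
    nlinarith
  have hT : (S.image fun P => P.p).card ≤ 2 * ⌈C1⌉₊ := by
    have h1 : ∏ q ∈ S.image (fun P => P.p), q ∣ R.natAbs := by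
      refine Finset.prod_primes_dvd _ (fun q hq => ?_) fun q hq => ?_
      · obtain ⟨P, -, rfl⟩ := Finset.mem_image.1 hq
        exact P.pp.prime
      · obtain ⟨P, hP, rfl⟩ := Finset.mem_image.1 hq
        exact Int.natCast_dvd.1 (h P hP).2
    have h2 : ((∏ q ∈ S.image (fun P => P.p), q : ℕ) : ℝ) ≤ |(R : ℝ)| := by
      rw [← Int.cast_abs, ← Nat.cast_natAbs]
      exact_mod_cast Nat.le_of_dvd (Int.natAbs_pos.2 hR0) h1
    have h3 : (X / C0) ^ (S.image fun P => P.p).card ≤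
        ((∏ q ∈ S.image (fun P => P.p), q : ℕ) : ℝ) := by
      rw [Nat.cast_prod, ← Finset.prod_const]
      refine Finset.prod_le_prod (fun _ _ => by positivity) fun q hq => ?_
      obtain ⟨P, hP, rfl⟩ := Finset.mem_image.1 hq
      exact (h P hP).1.p1
    have h4 : (2 * X) ^ C1 ≤ (X / C0) ^ (2 * ⌈C1⌉₊) := by
      refine (Real.rpow_le_rpow_of_exponent_le (by linarith) (Nat.le_ceil C1)).trans ?_
      rw [Real.rpow_natCast, pow_mul]
      exact pow_le_pow_left₀ (by linarith) hZ2 _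
    exact (pow_le_pow_iff_right₀ (by linarith)).1 (h3.trans (h2.trans (hR.trans h4)))
  refine le_trans (Finset.card_le_mul_card_image (f := fun P => P.p) S _ fun q _ => ?_)
    (Nat.mul_le_mul_left _ hT)
  exact SameP_nat (B := B) (p := q) hk h0 hX (fun P hP P' hP' =>
      hS P (Finset.mem_filter.1 hP).1 P' (Finset.mem_filter.1 hP').1)
    fun P hP => ⟨(h P (Finset.mem_filter.1 hP).1).1, (Finset.mem_filter.1 hP).2⟩

/-- Trivial bound. -/
theorem card_le_X (c : Ctx d) (k : ℕ) (C0 X B : ℝ) (hX : 1 ≤ X) (S : Finset (LPt c k))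
    (hS : InjN S) (h : ∀ P ∈ S, Sz C0 X B P.toPt) : (S.card : ℝ) ≤ X + 1 := by
  exact SameP_le_X hX hS h

/-- Points with the same `β`: `P.p ∣ N β = ka * p'`, so `p = p'` or `p ≤ C0` (then `X ≤ C0^2`). -/
theorem card_same_be (c : Ctx d) (k : ℕ) (hk : 1 ≤ k) (C0 : ℝ) (h0 : 1 ≤ C0) :
    ∃ C : ℝ, ∀ X B : ℝ, 1 ≤ X → ∀ (v : Fin d → ℤ) (S : Finset (LPt c k)), InjN S →
      (∀ P ∈ S, Sz C0 X B P.toPt ∧ P.be = v) → (S.card : ℝ) ≤ C := by
  refine ⟨(C0 ^ 2 + 1) + (((⌊C0⌋₊ + 1) * d : ℕ) : ℝ), fun X B hX v S hS h => ?_⟩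
  by_cases hX0 : X ≤ C0 ^ 2
  · have := SameP_le_X hX hS fun P hP => (h P hP).1
    have h2 : (0 : ℝ) ≤ (((⌊C0⌋₊ + 1) * d : ℕ) : ℝ) := Nat.cast_nonneg _
    linarith
  refine le_trans (Nat.cast_le.2 ?_) (le_add_of_nonneg_left (by positivity))
  rcases S.eq_empty_or_nonempty with rfl | ⟨Q, hQ⟩
  · simp
  refine SameP_nat (B := B) (p := Q.p) hk h0 hX hS fun P hP => ⟨(h P hP).1, ?_⟩
  have e : P.ka * P.p = Q.ka * Q.p := by
    apply Int.cast_injective (α := ℂ)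
    rw [← P.nrm, ← Q.nrm, (h P hP).2, (h Q hQ).2]
  have hp : Prime (P.p : ℤ) := Nat.prime_iff_prime_int.1 P.pp
  rcases hp.dvd_or_dvd (e ▸ dvd_mul_left (P.p : ℤ) P.ka) with h1 | h1
  · have h2 : (P.p : ℤ) ≤ |Q.ka| := Int.le_of_dvd (abs_pos.2 Q.ka0) ((dvd_abs _ _).2 h1)
    have h3 : (P.p : ℝ) ≤ |(Q.ka : ℝ)| := by exact_mod_cast h2
    have h4 := (h P hP).1.p1.trans (h3.trans (h Q hQ).1.ka)
    rw [div_le_iff₀ (by linarith)] at h4
    exact absurd (by rw [sq]; exact h4) hX0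
  · exact (Nat.prime_dvd_prime_iff_eq P.pp Q.pp).1 (Int.natCast_dvd_natCast.1 h1)

end Crest.Agent.R22
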