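import Crest.Agent.R22.Arch

set_option autoImplicit false
open Polynomial IntermediateField

namespace Crest.Agent.R22

variable {d : ℕ}

namespace SelAux

theorem ext {K V ι : Type*} [Field K] [AddCommGroup V] [Module K V] (g : ι → V) (s : Set ι)
    (T : Submodule K V) (hT : T ≤ Submodule.span K (g '' s)) {n : ℕ} (ρ : Fin n → ι)
    (hρ : LinearIndependent K fun b => g (ρ b)) (N : ℕ) (hd : n + N ≤ Module.finrank K T) :
    ∃ e : Fin N → ι, (∀ b, e b ∈ s) ∧ LinearIndependent K fun b => g (Fin.append ρ e b) := by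
  induction N with
  | zero =>
    refine ⟨Fin.elim0, fun b => b.elim0, ?_⟩
    rw [Fin.append_right_nil _ _ rfl]
    exact hρ
  | succ N ih =>
    obtain ⟨e, he, hi⟩ := ih (by omega)
    have hex : ∃ r ∈ s, g r ∉ Submodule.span K (Set.range fun b => g (Fin.append ρ e b)) := by
      by_contra hne
      push Not at hne
      have h1 : T ≤ Submodule.span K (Set.range fun b => g (Fin.append ρ e b)) :=
        hT.trans (Submodule.span_le.2 (by rintro _ ⟨r, hr, rfl⟩; exact hne r hr))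
      have := Module.Finite.span_of_finite K (Set.finite_range fun b => g (Fin.append ρ e b))
      have h2 := Submodule.finrank_mono h1
      rw [finrank_span_eq_card hi, Fintype.card_fin] at h2
      omega
    obtain ⟨r, hr, hg⟩ := hex
    refine ⟨Fin.snoc e r, fun b => ?_, ?_⟩
    · refine Fin.lastCases ?_ (fun b => ?_) b
      · simpa using hr
      · simpa using he b
    · rw [Fin.append_snoc]
      have h3 : (fun b => g (Fin.snoc (α := fun _ => ι) (Fin.append ρ e) r b))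
          = Fin.snoc (α := fun _ => V) (fun b => g (Fin.append ρ e b)) (g r) :=
        Fin.comp_snoc g (Fin.append ρ e) r
      have h4 := linearIndependent_finSnoc.2 ⟨hi, hg⟩
      rw [← h3] at h4
      exact h4

theorem pow_le {L : Type*} [Field L] [Algebra ℂ L] (ω : Fin d → L) (A : ℕ) :
    Submodule.span ℂ (Set.range ω) ^ A
      ≤ Submodule.span ℂ {z | ∃ al : Fin d → ℕ, ∑ l, al l = A ∧ z = ∏ l, ω l ^ al l} := by
  induction A with
  | zero =>
    rw [pow_zero, Submodule.one_eq_span]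
    exact Submodule.span_mono (by rintro _ rfl; exact ⟨0, by simp, by simp⟩)
  | succ A ih =>
    rw [pow_succ]
    refine (mul_le_mul_left ih _).trans ?_
    rw [Submodule.span_mul_span]
    refine Submodule.span_mono ?_
    rintro _ ⟨_, ⟨al, h1, rfl⟩, _, ⟨l, rfl⟩, rfl⟩
    refine ⟨al + Pi.single l 1, ?_, ?_⟩
    · simp [Finset.sum_add_distrib, h1]
    · simp only [Pi.add_apply, pow_add, Finset.prod_mul_distrib]
      congr 1
      rw [Finset.prod_eq_single l (fun b _ hb => by simp [hb]) (by simp)]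
      simp

theorem pow_le' {L : Type*} [Field L] [Algebra ℂ L] (t : L) (c : ℕ) :
    Submodule.span ℂ ({1, t} : Set L) ^ c ≤ Submodule.span ℂ {z | ∃ j ≤ c, z = t ^ j} := by
  induction c with
  | zero =>
    rw [pow_zero, Submodule.one_eq_span]
    exact Submodule.span_mono (by rintro _ rfl; exact ⟨0, le_rfl, by simp⟩)
  | succ c ih =>
    rw [pow_succ]
    refine (mul_le_mul_left ih _).trans ?_
    rw [Submodule.span_mul_span]
    refine Submodule.span_mono ?_
    rintro _ ⟨_, ⟨j, h1, rfl⟩, _, rfl | rfl, rfl⟩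
    · exact ⟨j, by omega, by simp⟩
    · exact ⟨j + 1, by omega, by simp [pow_succ]⟩

theorem level {L : Type*} [Field L] [Algebra ℂ L] (ω : Fin d → L) (t χ : L) (hχ : χ ≠ 0)
    (a s1 c0 s2 i : ℕ) {n : ℕ} (ρ : Fin n → Row d)
    (hρ : LinearIndependent ℂ fun b => χ ^ (ρ b).lv * (ρ b).ev c0 s2 ω t 1) (N : ℕ)
    (h : n + N ≤ Module.finrank ℂ
      ↥(Submodule.span ℂ (Set.range ω) ^ (a + s1 * i) * Submodule.span ℂ {1, t} ^ (c0 + s2 * i))) :
    ∃ e : Fin N → Row d, (∀ b, (e b).lv = i ∧ (e b).Ok a s1 c0 s2 i) ∧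
      LinearIndependent ℂ fun b =>
        χ ^ (Fin.append ρ e b).lv * (Fin.append ρ e b).ev c0 s2 ω t 1 := by
  have hinj : Function.Injective (LinearMap.mulLeft ℂ (χ ^ i)) :=
    mul_right_injective₀ (pow_ne_zero i hχ)
  refine ext (K := ℂ) (fun r : Row d => χ ^ r.lv * r.ev c0 s2 ω t 1)
    {r | r.lv = i ∧ r.Ok a s1 c0 s2 i}
    ((Submodule.span ℂ (Set.range ω) ^ (a + s1 * i) * Submodule.span ℂ {1, t} ^ (c0 + s2 * i)).map
      (LinearMap.mulLeft ℂ (χ ^ i))) ?_ ρ hρ N ?_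
  · refine (Submodule.map_mono (mul_le_mul' (pow_le ω _) (pow_le' t _))).trans ?_
    rw [Submodule.span_mul_span, Submodule.map_span]
    refine Submodule.span_mono ?_
    rintro _ ⟨_, ⟨_, ⟨al, h1, rfl⟩, _, ⟨j, hj, rfl⟩, rfl⟩, rfl⟩
    exact ⟨⟨i, al, j⟩, ⟨rfl, h1, hj, le_rfl⟩, by simp [Row.ev]⟩
  · rwa [← (Submodule.equivMapOfInjective _ hinj _).finrank_eq]

theorem det_le {M : ℕ} (A : Matrix (Fin M) (Fin M) ℝ) (r : Fin M → ℝ)
    (h : ∀ i b, |A i b| ≤ r i) : |A.det| ≤ M.factorial * ∏ i, r i := by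
  rw [Matrix.det_apply']
  refine (Finset.abs_sum_le_sum_abs _ _).trans ?_
  have h1 : ∀ σ : Equiv.Perm (Fin M),
      |((Equiv.Perm.sign σ : ℤ) : ℝ) * ∏ i, A (σ i) i| ≤ ∏ i, r i := by
    intro σ
    have h2 : |((Equiv.Perm.sign σ : ℤ) : ℝ)| = 1 := by
      rcases Int.units_eq_one_or (Equiv.Perm.sign σ) with h | h <;> simp [h]
    rw [abs_mul, h2, one_mul, Finset.abs_prod, ← Equiv.prod_comp σ r]
    exact Finset.prod_le_prod (fun i _ => abs_nonneg _) fun i _ => h _ _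
  refine (Finset.sum_le_sum fun σ _ => h1 σ).trans ?_
  simp [Fintype.card_perm]

end SelAux

/-- Greedy choice of rows. The level `i` monomials `χ^i ω^α t^j` span
`χ^i W^(a + s1 i) V^(c0 + s2 i)`, of dimension `≥ m0 + N0 i`; extend an independent family of
`m0 + N0 (i-1)` rows by `N0` monomials of level `i`. -/
theorem exists_rows {L : Type*} [Field L] [Algebra ℂ L] (ω : Fin d → L) (t χ : L) (hχ : χ ≠ 0)
    (a s1 c0 s2 m0 N0 I : ℕ)
    (h : ∀ i ≤ I, m0 + N0 * i ≤ Module.finrank ℂ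
      ↥(Submodule.span ℂ (Set.range ω) ^ (a + s1 * i) * Submodule.span ℂ {1, t} ^ (c0 + s2 * i))) :
    ∃ ρ : Fin (m0 + N0 * I) → Row d, (∀ b, (ρ b).Ok a s1 c0 s2 I) ∧
      2 * ∑ b, (ρ b).lv = N0 * I * (I + 1) ∧
      LinearIndependent ℂ fun b => χ ^ (ρ b).lv * (ρ b).ev c0 s2 ω t 1 := by
  induction I with
  | zero =>
    have h0 := h 0 le_rfl
    rw [show m0 + N0 * 0 = 0 + m0 by ring] at h0 ⊢
    obtain ⟨e, he, hi⟩ := SelAux.level ω t χ hχ a s1 c0 s2 0 Fin.elim0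
      linearIndependent_empty_type m0 h0
    refine ⟨Fin.append Fin.elim0 e, fun b => ?_, ?_, hi⟩
    · refine Fin.addCases (fun b => b.elim0) (fun b => ?_) b
      rw [Fin.append_right]
      exact (he b).2
    · simp [fun b => (he b).1]
  | succ I ih =>
    obtain ⟨ρ, h1, h2, h3⟩ := ih fun i hi => h i (by omega)
    have h0 := h (I + 1) le_rfl
    rw [show m0 + N0 * (I + 1) = m0 + N0 * I + N0 by ring] at h0 ⊢
    obtain ⟨e, he, hi⟩ := SelAux.level ω t χ hχ a s1 c0 s2 (I + 1) ρ h3 N0 h0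
    refine ⟨Fin.append ρ e, fun b => ?_, ?_, hi⟩
    · refine Fin.addCases (fun b => ?_) (fun b => ?_) b
      · rw [Fin.append_left]
        exact ⟨(h1 b).1, (h1 b).2.1, (h1 b).2.2.trans (by omega)⟩
      · rw [Fin.append_right]
        exact (he b).2
    · rw [Fin.sum_univ_add]
      simp only [Fin.append_left, Fin.append_right, fun b => (he b).1, Finset.sum_const,
        Finset.card_univ, Fintype.card_fin, smul_eq_mul]
      rw [mul_add, h2]
      ring

/-- Size of the determinant of rows (use `Matrix.det_le`-type expansion with row bounds). -/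
theorem det_rows_le {M : ℕ} (ρ : Fin M → Row d) (a s1 c0 s2 I : ℕ) (hρ : ∀ b, (ρ b).Ok a s1 c0 s2 I)
    (w : Fin M → Fin d → ℤ) (x y : Fin M → ℤ) (Sw Sx Sl : ℝ) (h1 : 1 ≤ Sw) (h2 : 1 ≤ Sx)
    (h3 : 1 ≤ Sl) (hw : ∀ b, ‖w b‖ ≤ Sw) (hx : ∀ b, |(x b : ℝ)| ≤ Sx ∧ |(y b : ℝ)| ≤ Sx)
    (hl : ∀ b, ‖w b‖ ^ s1 * max |(x b : ℝ)| |(y b : ℝ)| ^ s2 ≤ Sl) :
    |(((Matrix.of fun i b => (ρ i).ev c0 s2 (w b) (x b) (y b)).det : ℤ) : ℝ)| ≤
      M.factorial * Sw ^ (a * M) * Sx ^ (c0 * M) * Sl ^ (∑ b, (ρ b).lv) := by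
  rw [Int.cast_det]
  refine (SelAux.det_le _ (fun i => Sw ^ a * Sx ^ c0 * Sl ^ (ρ i).lv) fun i b => ?_).trans
    (le_of_eq ?_)
  · obtain ⟨o1, o2, -⟩ := hρ i
    set m := max |(x b : ℝ)| |(y b : ℝ)| with hm
    have hm0 : 0 ≤ m := (abs_nonneg _).trans (le_max_left _ _)
    have e1 : ∏ l, |(w b l : ℝ)| ^ (ρ i).al l ≤ ‖w b‖ ^ (a + s1 * (ρ i).lv) := by
      rw [← o1, ← Finset.prod_pow_eq_pow_sum]
      refine Finset.prod_le_prod (fun l _ => by positivity) fun l _ => ?_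
      exact pow_le_pow_left₀ (abs_nonneg _) (norm_le_pi_norm (w b) l) _
    have e2 : |(x b : ℝ)| ^ (ρ i).j * |(y b : ℝ)| ^ (c0 + s2 * (ρ i).lv - (ρ i).j)
        ≤ m ^ (c0 + s2 * (ρ i).lv) := by
      calc _ ≤ m ^ (ρ i).j * m ^ (c0 + s2 * (ρ i).lv - (ρ i).j) :=
            mul_le_mul (pow_le_pow_left₀ (abs_nonneg _) (le_max_left _ _) _)
              (pow_le_pow_left₀ (abs_nonneg _) (le_max_right _ _) _) (by positivity)
              (by positivity)
        _ = _ := by rw [← pow_add, Nat.add_sub_cancel' o2]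
    have e3 : ‖w b‖ ^ a ≤ Sw ^ a := pow_le_pow_left₀ (norm_nonneg _) (hw b) _
    have e4 : m ^ c0 ≤ Sx ^ c0 := pow_le_pow_left₀ hm0 (max_le (hx b).1 (hx b).2) _
    have e5 : (‖w b‖ ^ s1 * m ^ s2) ^ (ρ i).lv ≤ Sl ^ (ρ i).lv :=
      pow_le_pow_left₀ (by positivity) (hl b) _
    simp only [Matrix.map_apply, Matrix.of_apply, Row.ev, Int.cast_mul, Int.cast_prod,
      Int.cast_pow, abs_mul, Finset.abs_prod, abs_pow]
    calc _ ≤ ‖w b‖ ^ (a + s1 * (ρ i).lv) * m ^ (c0 + s2 * (ρ i).lv) := by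
          rw [mul_assoc]
          exact mul_le_mul e1 e2 (by positivity) (by positivity)
      _ = ‖w b‖ ^ a * m ^ c0 * (‖w b‖ ^ s1 * m ^ s2) ^ (ρ i).lv := by ring
      _ ≤ _ := mul_le_mul (mul_le_mul e3 e4 (by positivity) (by positivity)) e5 (by positivity)
          (by positivity)
  · simp only [Finset.prod_mul_distrib, Finset.prod_const, Finset.card_univ, Fintype.card_fin,
      Finset.prod_pow_eq_pow_sum]
    ring

end Crest.Agent.R22
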