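import Crest.Agent.R22.FF
import Crest.Agent.R22.Basic
import Crest.Agent.R22.Bezout

set_option autoImplicit false
open Polynomial IntermediateField

namespace Crest.Agent.R22

variable {d : ℕ}

theorem ZeroB_mono {g : ℂ[X][X]} {a b : ℕ} (h : DegLE g a) (hab : a ≤ b) : DegLE g b :=
  ⟨h.1.trans hab, fun i => (h.2 i).trans hab⟩

theorem ZeroB_sum {ι : Type*} (s : Finset ι) (f : ι → ℂ[X][X]) {a : ℕ}
    (h : ∀ i ∈ s, DegLE (f i) a) : DegLE (∑ i ∈ s, f i) a :=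
  ⟨natDegree_sum_le_of_forall_le _ _ fun i hi => (h i hi).1, fun j => by
    rw [finsetSum_coeff]
    exact natDegree_sum_le_of_forall_le _ _ fun i hi => (h i hi).2 j⟩

theorem ZeroB_mul {g h : ℂ[X][X]} {a b : ℕ} (hg : DegLE g a) (hh : DegLE h b) :
    DegLE (g * h) (a + b) :=
  ⟨natDegree_mul_le.trans (add_le_add hg.1 hh.1), fun j => by
    rw [coeff_mul]
    exact natDegree_sum_le_of_forall_le _ _ fun i _ =>
      natDegree_mul_le.trans (add_le_add (hg.2 _) (hh.2 _))⟩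

theorem ZeroB_C {A : ℂ[X]} {a : ℕ} (h : A.natDegree ≤ a) : DegLE (C A : ℂ[X][X]) a := by
  refine ⟨by simp, fun i => ?_⟩
  rw [coeff_C]
  split_ifs
  · exact h
  · simp

theorem ZeroB_CC (z : ℂ) {g : ℂ[X][X]} {a : ℕ} (h : DegLE g a) : DegLE (C (C z) * g) a := by
  simpa only [zero_add] using ZeroB_mul (ZeroB_C (natDegree_C z).le) h

theorem ZeroB_pow {g : ℂ[X][X]} {a : ℕ} (h : DegLE g a) (m : ℕ) : DegLE (g ^ m) (m * a) := by
  induction m with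
  | zero => simpa using ZeroB_C (A := 1) (a := 0) (by simp)
  | succ m ih => rw [pow_succ, add_mul, one_mul]; exact ZeroB_mul ih h

theorem ZeroB_prod {ι : Type*} (s : Finset ι) (f : ι → ℂ[X][X]) (a : ι → ℕ)
    (h : ∀ i, DegLE (f i) (a i)) : DegLE (∏ i ∈ s, f i) (∑ i ∈ s, a i) := by
  classical
  induction s using Finset.induction_on with
  | empty => simpa using ZeroB_C (A := 1) (a := 0) (by simp)
  | insert i s hi ih =>
    rw [Finset.prod_insert hi, Finset.sum_insert hi]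
    exact ZeroB_mul (h i) ih

theorem ZeroB_lin (c : Ctx d) (k : ℕ) (b1 b2 : Fin d → ℤ) (s : Finset (Fin d)) :
    (∏ l ∈ s, c.lin b1 b2 l ^ k).natDegree ≤ d * k := by
  refine (natDegree_prod_le _ _).trans ((Finset.sum_le_card_nsmul _ _ k fun l _ =>
    natDegree_pow_le.trans ?_).trans ?_)
  · exact (Nat.mul_le_mul_left k natDegree_linear_le).trans_eq (mul_one k)
  · exact Nat.mul_le_mul_right k ((Finset.card_le_univ s).trans_eq (Fintype.card_fin d))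

/-- Numerator of `cc · co (NB) l`. -/
noncomputable def ZeroB_W (c : Ctx d) (k : ℕ) (b1 b2 : Fin d → ℤ) (cc : ℤ) (l : Fin d) : ℂ[X][X] :=
  C (C (cc : ℂ)) * ∑ j, C (C ((Matrix.vandermonde c.th)⁻¹ l j)) * Urow c.th (c.lin b1 b2) k j

/-- The auxiliary polynomial. -/
noncomputable def ZeroB_H (c : Ctx d) (k : ℕ) (b1 b2 : Fin d → ℤ) (cc : ℤ) (I : ℕ) {M : ℕ}
    (ρ : Fin M → Row d) (lam : Fin M → ℂ) : ℂ[X][X] :=
  ∑ i, C (C (lam i)) * ((∏ l, ZeroB_W c k b1 b2 cc l ^ (ρ i).al l) * C (X ^ (ρ i).j) *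
    C ((∏ j, c.lin b1 b2 j ^ k) ^ (I - (ρ i).lv)))

theorem ZeroB_deg_W (c : Ctx d) (k : ℕ) (b1 b2 : Fin d → ℤ) (cc : ℤ) (l : Fin d) :
    DegLE (ZeroB_W c k b1 b2 cc l) (1 + d * k) := by
  refine ZeroB_CC _ (ZeroB_sum _ _ fun j _ => ZeroB_CC _
    (ZeroB_mul ⟨(natDegree_X_sub_C _).le, fun i => ?_⟩ (ZeroB_C (ZeroB_lin c k b1 b2 _))))
  rw [coeff_sub, coeff_X, coeff_C]
  refine (natDegree_sub_le _ _).trans (max_le ?_ ?_) <;> split_ifs <;> simp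

theorem ZeroB_deg_H (c : Ctx d) {k a c0 I M : ℕ} (b1 b2 : Fin d → ℤ) (cc : ℤ)
    {ρ : Fin M → Row d} (hρ : ∀ i, (ρ i).Ok a 1 c0 k I) (lam : Fin M → ℂ) :
    DegLE (ZeroB_H c k b1 b2 cc I ρ lam) ((a + I) * (1 + d * k) + (c0 + k * I) + I * (d * k)) := by
  refine ZeroB_sum _ _ fun i _ => ZeroB_CC _ (ZeroB_mul (ZeroB_mul (ZeroB_mono
    (ZeroB_prod _ _ _ fun l => ZeroB_pow (ZeroB_deg_W c k b1 b2 cc l) _) ?_) (ZeroB_C ?_))
    (ZeroB_C (natDegree_pow_le.trans (Nat.mul_le_mul (Nat.sub_le _ _) (ZeroB_lin c k b1 b2 _)))))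
  · rw [← Finset.sum_mul, (hρ i).1, one_mul]
    exact Nat.mul_le_mul_right _ (Nat.add_le_add_left (hρ i).2.2 _)
  · rw [natDegree_X_pow]
    exact (hρ i).2.1.trans (Nat.add_le_add_left (Nat.mul_le_mul_left _ (hρ i).2.2) _)

theorem ZeroB_ev_W (c : Ctx d) (k : ℕ) (b1 b2 : Fin d → ℤ) (cc : ℤ) {L : Type} [Field L]
    [Algebra ℂ L] (t n : L) (hl : ∀ j, aeval t (c.lin b1 b2 j) ≠ 0) (l : Fin d) :
    aevalAeval t n (ZeroB_W c k b1 b2 cc l) =
      (∏ j, aeval t (c.lin b1 b2 j) ^ k) * ((cc : L) * c.co (c.NB k b1 b2 t n) l) := by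
  rw [mul_left_comm, ZeroB_W, map_mul, aevalAeval_C, aeval_C, map_intCast, map_sum, Ctx.co,
    Finset.mul_sum _ _ (∏ j, _)]
  refine congrArg _ (Finset.sum_congr rfl fun j _ => ?_)
  have h := pow_ne_zero k (hl j)
  rw [← Finset.mul_prod_erase _ _ (Finset.mem_univ j), Algebra.smul_def]
  simp only [Urow, Ctx.NB, map_mul, map_sub, aevalAeval_C, aevalAeval_Y, aeval_C, map_prod,
    map_pow]
  field_simp

theorem ZeroB_ev_H (c : Ctx d) {k a c0 I M : ℕ} (b1 b2 : Fin d → ℤ) (cc : ℤ)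
    {ρ : Fin M → Row d} (hρ : ∀ i, (ρ i).Ok a 1 c0 k I) (lam : Fin M → ℂ) {L : Type} [Field L]
    [Algebra ℂ L] (t n : L) (hl : ∀ j, aeval t (c.lin b1 b2 j) ≠ 0) :
    aevalAeval t n (ZeroB_H c k b1 b2 cc I ρ lam) = (∏ j, aeval t (c.lin b1 b2 j) ^ k) ^ (a + I) *
      ∑ i, lam i • ((∏ l, ((cc : L) * c.co (c.NB k b1 b2 t n) l) ^ (ρ i).al l) * t ^ (ρ i).j) := by
  rw [ZeroB_H, map_sum, Finset.mul_sum]
  refine Finset.sum_congr rfl fun i _ => ?_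
  obtain ⟨e, he⟩ := Nat.exists_eq_add_of_le (hρ i).2.2
  simp only [map_mul, map_prod, map_pow, aevalAeval_C, aeval_C, aeval_X,
    ZeroB_ev_W c k b1 b2 cc t n hl]
  simp only [mul_pow (∏ j, aeval t (c.lin b1 b2 j) ^ k), Finset.prod_mul_distrib,
    Finset.prod_pow_eq_pow_sum, (hρ i).1, Algebra.smul_def]
  rw [he, Nat.add_sub_cancel_left]
  ring

/-- Scheme B: a row is `y^c0 y^(-k a)` times the value at `(t, n)` of `∏ ω^α t^j`,
`ω_l = cc · co (NB) l`; clearing the denominators `(∏ lin_j^k)^(a + I)` gives a polynomial not divisible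
by `g`; `bezout`. -/
theorem zeroB (k E a c0 I : ℕ) : ∃ C : ℕ, ∀ (c : Ctx d) (b1 b2 : Fin d → ℤ) (g : ℂ[X][X]),
    Irreducible g → DegLE g E → ∀ (L : Type) [Field L] [Algebra ℂ L] (t n : L), IsFF g t n →
    (∀ j, aeval t (c.lin b1 b2 j) ≠ 0) → ∀ (cc : ℤ) (M : ℕ) (ρ : Fin M → Row d),
      (∀ i, (ρ i).Ok a 1 c0 k I) →
      LinearIndependent ℂ (fun i => (1 : L) ^ (ρ i).lv *
        (ρ i).ev c0 k (fun l => (cc : L) * c.co (c.NB k b1 b2 t n) l) t 1) →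
      ∀ lam : Fin M → ℂ, lam ≠ 0 → ∀ S : Finset (LPt c k), InjN S →
        (∀ P ∈ S, P.be = P.x • b1 + P.y • b2 ∧ P.cc = cc ∧ P.y ≠ 0 ∧
          g.evalEval ((P.x : ℂ) / P.y) (P.n : ℂ) = 0 ∧
          ∑ i, lam i * (((ρ i).ev c0 k P.mu P.x P.y : ℤ) : ℂ) = 0) → S.card ≤ C := by
  classical
  obtain ⟨C, hC⟩ := bezout (max E ((a + I) * (1 + d * k) + (c0 + k * I) + I * (d * k)))
  refine ⟨C, fun c b1 b2 g hg hgE L _ _ t n hff hl cc M ρ hρ hli lam hlam S hS hP => ?_⟩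
  have hndvd : ¬ g ∣ ZeroB_H c k b1 b2 cc I ρ lam := fun hd => by
    have h1 := ZeroB_ev_H c b1 b2 cc hρ lam t n hl
    rw [(hff _).2 hd] at h1
    have h2 := (mul_eq_zero.1 h1.symm).resolve_left
      (pow_ne_zero _ (Finset.prod_ne_zero_iff.2 fun j _ => pow_ne_zero _ (hl j)))
    refine hlam (funext (Fintype.linearIndependent_iff.1 hli lam ?_))
    simpa only [Row.ev, one_pow, one_mul, mul_one] using h2
  have hinj : Set.InjOn (fun P : LPt c k => ((P.x : ℂ) / P.y, (P.n : ℂ))) S := by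
    intro P hP Q hQ h
    exact hS P hP Q hQ (Int.cast_injective (α := ℂ) (Prod.ext_iff.1 h).2)
  rw [← Finset.card_image_of_injOn hinj]
  refine hC g _ hg hndvd (ZeroB_mono hgE (le_max_left _ _))
    (ZeroB_mono (ZeroB_deg_H c b1 b2 cc hρ lam) (le_max_right _ _)) _ fun z hz => ?_
  obtain ⟨P, hPS, rfl⟩ := Finset.mem_image.1 hz
  obtain ⟨hbe, rfl, hy, h0, h1⟩ := hP P hPS
  refine ⟨h0, ?_⟩
  have hy' : (P.y : ℂ) ≠ 0 := Int.cast_ne_zero.2 hy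
  have hs : ∀ j, c.sg j P.be = P.y * aeval ((P.x : ℂ) / P.y) (c.lin b1 b2 j) := fun j => by
    rw [hbe, sg_line c b1 b2 _ _ hy, coe_aeval_eq_eval]
  have hl' : ∀ j, aeval ((P.x : ℂ) / P.y) (c.lin b1 b2 j) ≠ 0 := fun j => by
    have h2 : ∏ j, c.sg j P.be ≠ 0 := by
      rw [P.nrm]
      exact Int.cast_ne_zero.2 (mul_ne_zero P.ka0 (Nat.cast_ne_zero.2 P.pp.ne_zero))
    have h3 := Finset.prod_ne_zero_iff.1 h2 j (Finset.mem_univ j)
    rw [hs] at h3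
    exact right_ne_zero_of_mul h3
  have hw : ∀ l, (P.cc : ℂ) * c.co (c.NB k b1 b2 ((P.x : ℂ) / P.y) (P.n : ℂ)) l =
      (P.y : ℂ) ^ k * P.mu l := fun l => by
    rw [← co_sg c P.mu l]
    simp only [Ctx.co, Finset.mul_sum, smul_eq_mul]
    refine Finset.sum_congr rfl fun j _ => ?_
    have h2 := P.rel j
    have h3 := pow_ne_zero k (hl' j)
    rw [hs, mul_pow] at h2
    rw [Ctx.NB, mul_left_comm, mul_left_comm _ _ (c.sg j P.mu), ← mul_div_assoc,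
      Algebra.algebraMap_self_apply, ← h2, ← mul_assoc, mul_div_cancel_right₀ _ h3,
      mul_comm (c.sg j P.mu)]
  have h2 := ZeroB_ev_H c b1 b2 P.cc hρ lam ((P.x : ℂ) / P.y) (P.n : ℂ) hl'
  rw [coe_aevalAeval_eq_evalEval] at h2
  rw [h2]
  refine mul_eq_zero_of_right _ (mul_left_cancel₀ (pow_ne_zero c0 hy') ?_)
  rw [mul_zero, ← mul_zero ((P.y : ℂ) ^ (k * a)), ← h1, Finset.mul_sum, Finset.mul_sum]
  refine Finset.sum_congr rfl fun i _ => ?_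
  obtain ⟨e, he⟩ := Nat.exists_eq_add_of_le (hρ i).2.1
  have h3 : (P.y : ℂ) ^ c0 * (P.y : ℂ) ^ (k * (ρ i).lv) = (P.y : ℂ) ^ (ρ i).j * (P.y : ℂ) ^ e := by
    rw [← pow_add, ← pow_add, he]
  have h4 := pow_ne_zero (ρ i).j hy'
  simp only [hw, mul_pow, Finset.prod_mul_distrib, Finset.prod_pow_eq_pow_sum, (hρ i).1, Row.ev,
    he, Nat.add_sub_cancel_left, smul_eq_mul, one_mul, div_pow]
  push_cast
  rw [pow_add, ← pow_mul, ← pow_mul]
  field_simp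
  linear_combination lam i * (∏ l, (P.mu l : ℂ) ^ (ρ i).al l) * (P.x : ℂ) ^ (ρ i).j * h3

end Crest.Agent.R22
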