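import Crest.Agent.R22.ZC
import Crest.Agent.R22.ZeroB

set_option autoImplicit false
open Polynomial IntermediateField

namespace Crest.Agent.R22

variable {d : ℕ}

theorem ZeroBC_mono {Φ : MvPolynomial (Fin d) ℂ[X][X]} {a b : ℕ} (h : ZC_Bd Φ a) (hab : a ≤ b) :
    ZC_Bd Φ b :=
  ⟨h.1.trans hab, fun m => ZC_mono (h.2 m) hab⟩

theorem ZeroBC_sum {ι : Type*} (s : Finset ι) (f : ι → MvPolynomial (Fin d) ℂ[X][X]) {T : ℕ}
    (h : ∀ i ∈ s, ZC_Bd (f i) T) : ZC_Bd (∑ i ∈ s, f i) T :=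
  ⟨MvPolynomial.totalDegree_finsetSum_le fun i hi => (h i hi).1, fun m => by
    rw [MvPolynomial.coeff_sum]
    exact ZC_sum _ _ fun i hi => (h i hi).2 m⟩

theorem ZeroBC_prod {ι : Type*} (s : Finset ι) (f : ι → MvPolynomial (Fin d) ℂ[X][X]) (T : ι → ℕ)
    (h : ∀ i, ZC_Bd (f i) (T i)) : ZC_Bd (∏ i ∈ s, f i) (∑ i ∈ s, T i) := by
  classical
  induction s using Finset.induction_on with
  | empty => simpa using ZC_Bd_one
  | insert i s hi ih =>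
    rw [Finset.prod_insert hi, Finset.sum_insert hi]
    exact ZC_Bd_mul (h i) ih

theorem ZeroBC_pow {Φ : MvPolynomial (Fin d) ℂ[X][X]} (h : ZC_Bd Φ 1) (m : ℕ) :
    ZC_Bd (Φ ^ m) m := by
  induction m with
  | zero => simpa using ZC_Bd_one
  | succ m ih =>
    rw [pow_succ]
    exact ZC_Bd_mul ih h

theorem ZeroBC_zero (T : ℕ) : DegLE (0 : ℂ[X][X]) T := by
  simp [DegLE]

theorem ZeroBC_C {g : ℂ[X][X]} {T : ℕ} (h : DegLE g T) :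
    ZC_Bd (MvPolynomial.C g : MvPolynomial (Fin d) ℂ[X][X]) T := by
  classical
  refine ⟨by simp, fun m => ?_⟩
  rw [MvPolynomial.coeff_C]
  split_ifs
  · exact h
  · exact ZeroBC_zero T

theorem ZeroBC_X (j : Fin d) : ZC_Bd (MvPolynomial.X j : MvPolynomial (Fin d) ℂ[X][X]) 1 := by
  classical
  refine ⟨by simp, fun m => ?_⟩
  rw [MvPolynomial.coeff_X]
  split_ifs
  · exact ZC_mono (by simpa using ZC_CC 1) zero_le_one
  · exact ZeroBC_zero 1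

theorem ZeroBC_inner {q : ℂ[X]} {T : ℕ} (h : q.natDegree ≤ T) : DegLE (C q : ℂ[X][X]) T := by
  refine ⟨by simp, fun i => ?_⟩
  rw [coeff_C]
  split_ifs
  · exact h
  · simp

theorem ZeroBC_outer (z : ℂ) : DegLE (X - C (C z) : ℂ[X][X]) 1 := by
  refine ⟨(natDegree_X_sub_C _).le, fun i => ?_⟩
  have h : (X - C (C z) : ℂ[X][X]) = (X - C z : ℂ[X]).map C := by
    rw [Polynomial.map_sub, map_X, map_C]
  rw [h, coeff_map, natDegree_C]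
  exact Nat.zero_le _

/-- The linear form `co ρ l`. -/
noncomputable def ZeroBC_W (c : Ctx d) (l : Fin d) : MvPolynomial (Fin d) ℂ[X][X] :=
  ∑ j, MvPolynomial.C (C (C ((Matrix.vandermonde c.th)⁻¹ l j))) * MvPolynomial.X j

/-- A row with cleared denominator. -/
noncomputable def ZeroBC_row (c : Ctx d) (b1 b2 : Fin d → ℤ) (i0 : Fin d) (cc : ℤ) (I : ℕ)
    (z : ℂ) (r : Row d) : MvPolynomial (Fin d) ℂ[X][X] :=
  MvPolynomial.C (C (C z)) * MvPolynomial.C (C (C (cc : ℂ)) * (X - C (C (c.th i0)))) ^ r.lv *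
    MvPolynomial.C (C (c.lin b1 b2 i0)) ^ (I - r.lv) * (∏ l, ZeroBC_W c l ^ r.al l) *
    MvPolynomial.C (C X : ℂ[X][X]) ^ r.j

theorem ZeroBC_row_bd (c : Ctx d) (b1 b2 : Fin d → ℤ) (i0 : Fin d) (cc : ℤ) {I a k c0 : ℕ}
    (z : ℂ) {r : Row d} (h : r.Ok a k c0 1 I) :
    ZC_Bd (ZeroBC_row c b1 b2 i0 cc I z r) (I + (a + k * I) + (c0 + I)) := by
  have h1 : ∀ l, ZC_Bd (ZeroBC_W c l) 1 := fun l =>
    ZeroBC_sum _ _ fun j _ => ZC_Bd_mul (ZeroBC_C (ZC_CC _)) (ZeroBC_X j)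
  refine ZeroBC_mono (ZC_Bd_mul (ZC_Bd_mul (ZC_Bd_mul (ZC_Bd_mul (ZeroBC_C (ZC_CC z))
    (ZeroBC_pow (ZeroBC_C (ZC_mul (ZC_CC _) (ZeroBC_outer _))) _))
    (ZeroBC_pow (ZeroBC_C (ZeroBC_inner natDegree_linear_le)) _))
    (ZeroBC_prod _ _ _ fun l => ZeroBC_pow (h1 l) _))
    (ZeroBC_pow (ZeroBC_C (ZeroBC_inner natDegree_X_le)) _)) ?_
  obtain ⟨h2, h3, h4⟩ := h
  have h5 := Nat.mul_le_mul_left k h4
  omega

theorem ZeroBC_row_ev (c : Ctx d) (b1 b2 : Fin d → ℤ) (i0 : Fin d) (cc : ℤ) {I : ℕ} (c0 : ℕ)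
    (z : ℂ) {r : Row d} (h : r.lv ≤ I) {L : Type} [Field L] [Algebra ℂ L] (t n : L)
    (ρ : Fin d → L) (hl : aeval t (c.lin b1 b2 i0) ≠ 0) :
    evR t n ρ (ZeroBC_row c b1 b2 i0 cc I z r) = aeval t (c.lin b1 b2 i0) ^ I *
      z • (((cc : L) * (n - algebraMap ℂ L (c.th i0)) / aeval t (c.lin b1 b2 i0)) ^ r.lv *
        r.ev c0 1 (c.co ρ) t 1) := by
  have h1 : ∀ l, evR t n ρ (ZeroBC_W c l) = c.co ρ l := fun l => by
    simp only [ZeroBC_W, Ctx.co, map_sum, map_mul, ZC_ev_C, ZC_ev_X, aevalAeval_C, aeval_C,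
      Algebra.smul_def]
  obtain ⟨m, rfl⟩ := Nat.exists_eq_add_of_le h
  simp only [ZeroBC_row, map_mul, map_pow, map_prod, h1, ZC_ev_C, aevalAeval_C, aeval_C, aeval_X,
    map_sub, aevalAeval_Y, map_intCast, Row.ev, Algebra.smul_def, Nat.add_sub_cancel_left, one_pow,
    div_pow, pow_add]
  field_simp

theorem ZeroBC_ne {v : Fin d → ℤ} (h : Prim v) : v ≠ 0 := by
  rintro rfl
  obtain ⟨i, hi⟩ := h 2 Nat.prime_two
  exact hi (dvd_zero _)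

theorem ZeroBC_pt {c : Ctx d} {k : ℕ} {b1 b2 : Fin d → ℤ} (i0 : Fin d) (P : LPt c k)
    (h : P.mu = P.x • b1 + P.y • b2) (hy : P.y ≠ 0) {a c0 I : ℕ} {r : Row d}
    (hr : r.Ok a k c0 1 I) :
    ((P.cc : ℂ) * (P.n - algebraMap ℂ ℂ (c.th i0)) /
        aeval ((P.x : ℂ) / P.y) (c.lin b1 b2 i0)) ^ r.lv *
      r.ev c0 1 (c.co fun j => c.sg j P.be / c.sg i0 P.be) ((P.x : ℂ) / P.y) 1 =
      (c.sg i0 P.be ^ a * (P.y : ℂ) ^ c0)⁻¹ * ((r.ev c0 1 P.be P.x P.y : ℤ) : ℂ) := by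
  have h1 := sg_ne_zero c i0 (ZeroBC_ne P.pbe)
  have h2 := sg_ne_zero c i0 (ZeroBC_ne P.pmu)
  have hy' : (P.y : ℂ) ≠ 0 := Int.cast_ne_zero.2 hy
  have h3 : aeval ((P.x : ℂ) / P.y) (c.lin b1 b2 i0) = c.sg i0 P.mu / P.y := by
    rw [h, sg_line c b1 b2 _ _ hy, mul_div_cancel_left₀ _ hy', coe_aeval_eq_eval]
  have h4 : ∀ l, (c.co fun j => c.sg j P.be / c.sg i0 P.be) l = P.be l / c.sg i0 P.be := fun l => by
    rw [← co_sg c P.be l]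
    simp only [Ctx.co, smul_eq_mul, Finset.sum_div, mul_div_assoc]
  have h5 : (P.cc : ℂ) * (P.n - algebraMap ℂ ℂ (c.th i0)) / (c.sg i0 P.mu / P.y) =
      c.sg i0 P.be ^ k * P.y := by
    rw [Algebra.algebraMap_self_apply, ← P.rel i0]
    field_simp
  obtain ⟨h6, h7, -⟩ := hr
  obtain ⟨m, hm⟩ := Nat.exists_eq_add_of_le h7
  have h8 : (P.y : ℂ) ^ m = (P.y : ℂ) ^ c0 * (P.y : ℂ) ^ r.lv / (P.y : ℂ) ^ r.j := by
    rw [← pow_add, ← one_mul r.lv, hm, pow_add, mul_div_cancel_left₀ _ (pow_ne_zero _ hy')]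
  rw [h3, h5]
  simp only [Row.ev, h4, div_pow, Finset.prod_div_distrib, Finset.prod_pow_eq_pow_sum, h6, hm,
    Nat.add_sub_cancel_left, one_pow, mul_pow, ← pow_mul, pow_add]
  push_cast
  rw [h8]
  field_simp

/-- Scheme C: a row is `(σ_{i0}β)^a y^c0` times the value of `χ^i ∏ ω^α t^j`, `ω = co ρ`,
`χ = cc (n - θ_{i0}) / lin_{i0}(t)`; clear the denominator `lin_{i0}^I` and apply `zeros_C`. -/
theorem zeroC (k E a c0 I : ℕ) (hk : 1 ≤ k) : ∃ C : ℕ, ∀ (c : Ctx d) (b1 b2 : Fin d → ℤ)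
    (i0 : Fin d) (g : ℂ[X][X]), Irreducible g → DegLE g E → ∀ (L : Type) [Field L] [Algebra ℂ L]
    (t n : L) (ρ' : Fin d → L), CF c k b1 b2 i0 g t n ρ' → ∀ (cc : ℤ) (M : ℕ) (ρ : Fin M → Row d),
      (∀ i, (ρ i).Ok a k c0 1 I) →
      LinearIndependent ℂ (fun i =>
        ((cc : L) * (n - algebraMap ℂ L (c.th i0)) / aeval t (c.lin b1 b2 i0)) ^ (ρ i).lv *
          (ρ i).ev c0 1 (c.co ρ') t 1) →
      ∀ lam : Fin M → ℂ, lam ≠ 0 → ∀ S : Finset (LPt c k), InjN S →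
        (∀ P ∈ S, P.mu = P.x • b1 + P.y • b2 ∧ P.cc = cc ∧ P.y ≠ 0 ∧ P.CompatC i0 t n ρ' ∧
          ∑ i, lam i * (((ρ i).ev c0 1 P.be P.x P.y : ℤ) : ℂ) = 0) → S.card ≤ C := by
  obtain ⟨C, hC⟩ := zeros_C (d := d) k hk E (I + (a + k * I) + (c0 + I))
  refine ⟨C, fun c b1 b2 i0 g hg hE L _ _ t n ρ' hCF cc M ρ hρ hli lam hlam S hS hP => ?_⟩
  have hb := ZeroBC_sum Finset.univ (fun i => ZeroBC_row c b1 b2 i0 cc I (lam i) (ρ i))
    fun i _ => ZeroBC_row_bd c b1 b2 i0 cc (lam i) (hρ i)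
  refine hC c b1 b2 i0 g hg hE L t n ρ' hCF _ hb.1 hb.2 ?_ S hS fun P h => ?_
  · rw [map_sum, Finset.sum_congr rfl fun i _ =>
      ZeroBC_row_ev c b1 b2 i0 cc c0 (lam i) (hρ i).2.2 t n ρ' (hCF.hl i0), ← Finset.mul_sum]
    exact mul_ne_zero (pow_ne_zero _ (hCF.hl i0)) fun h =>
      hlam (funext (Fintype.linearIndependent_iff.1 hli lam h))
  · obtain ⟨h1, h2, h3, h4, h5⟩ := hP P h
    refine ⟨h3, h4, ?_⟩
    have h6 : aeval ((P.x : ℂ) / P.y) (c.lin b1 b2 i0) ≠ 0 := by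
      have h6 := sg_ne_zero c i0 (ZeroBC_ne P.pmu)
      rw [h1, sg_line c b1 b2 _ _ h3] at h6
      rw [coe_aeval_eq_eval]
      exact right_ne_zero_of_mul h6
    rw [map_sum, Finset.sum_congr rfl fun i _ =>
      ZeroBC_row_ev c b1 b2 i0 cc c0 (lam i) (hρ i).2.2 _ _ _ h6, ← Finset.mul_sum, ← h2]
    simp only [ZeroBC_pt i0 P h1 h3 (hρ _), smul_eq_mul, mul_left_comm (lam _)]
    rw [← Finset.mul_sum, h5, mul_zero, mul_zero]

end Crest.Agent.R22
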