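import Crest.Agent.R22.F1
import Crest.Agent.R22.Sel
import Crest.Agent.R22.ZeroBC
import Crest.Agent.R22.Asm
import Crest.Agent.R22.ClsTN
import Crest.Agent.R22.PB
import Crest.Agent.R22.SameP

set_option autoImplicit false
open Polynomial IntermediateField

namespace Crest.Agent.R22

variable {d : ℕ}

theorem curveBCore_lin_ne (c : Ctx d) {b1 b2 : Fin d → ℤ} (hb : b1 ≠ 0) {L : Type*} [Field L]
    [Algebra ℂ L] {t : L} (ht : Transcendental ℂ t) (j : Fin d) : aeval t (c.lin b1 b2 j) ≠ 0 := by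
  intro h
  apply ht
  refine ⟨c.lin b1 b2 j, ?_, h⟩
  intro h0
  have := congrArg (fun p : ℂ[X] => p.coeff 1) h0
  simp [Ctx.lin] at this
  exact sg_ne_zero c j hb this

theorem curveBCore_row_smul (r : Row d) (c0 s2 : ℕ) {R : Type*} [CommRing R] (u : R)
    (w : Fin d → R) (x y : R) :
    r.ev c0 s2 (fun l => u * w l) x y = u ^ (∑ l, r.al l) * r.ev c0 s2 w x y := by
  simp only [Row.ev, mul_pow, Finset.prod_mul_distrib, Finset.prod_pow_eq_pow_sum]
  ring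

theorem curveBCore_indep {L : Type*} [Field L] [Algebra ℂ L] {M : ℕ} (ρ : Fin M → Row d)
    (c0 s2 : ℕ) (χ : L) (w : Fin d → L) (t : L) (cc : ℤ) (hcc : cc ≠ 0)
    (h : LinearIndependent ℂ fun i => χ ^ (ρ i).lv * (ρ i).ev c0 s2 w t 1) :
    LinearIndependent ℂ fun i => χ ^ (ρ i).lv * (ρ i).ev c0 s2 (fun l => (cc : L) * w l) t 1 := by
  have hc : (cc : ℂ) ≠ 0 := by exact_mod_cast hcc
  have := h.units_smul (fun i => Units.mk0 ((cc : ℂ) ^ (∑ l, (ρ i).al l)) (pow_ne_zero _ hc))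
  convert this using 1
  funext i
  simp only [Pi.smul_apply', Units.smul_def, Units.val_mk0, curveBCore_row_smul, Algebra.smul_def,
    map_pow, map_intCast]
  ring

theorem curveBCore_eval {g : ℤ[X][X]} {E : ℕ} (hg : DegLE g E) {x y n : ℤ} (hy : y ≠ 0)
    (h : hev2 g E x y n = 0) : (toC2 g).evalEval ((x : ℂ) / y) (n : ℂ) = 0 := by
  have h1 := hev2_cast g E hg.2 x y n hy
  rw [h] at h1
  have hy' : (y : ℂ) ^ E ≠ 0 := pow_ne_zero _ (by exact_mod_cast hy)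
  simpa [hy'] using h1.symm

/-- Common part of the `p`-adic determinant method on a curve, scheme B: given independent rows and
a bound for the determinants. -/
theorem curveB_core (c : Ctx d) (hd : 2 ≤ d) (k : ℕ) (hk : 1 ≤ k) (E : ℕ) (C0 C1 η : ℝ)
    (h0 : 1 ≤ C0) (hη : 0 < η) (M a c0 I : ℕ) : ∃ C : ℝ, 0 ≤ C ∧
    ∀ (X B G1 G2 : ℝ) (b1 b2 : Fin d → ℤ) (g : ℤ[X][X]) (S : Finset (LPt c k)), 2 ≤ X → 0 ≤ B →
      B ≤ X → 1 ≤ G1 → 1 ≤ G2 → Curve g E ((2 * X) ^ C1) → 1 ≤ g.natDegree →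
      ∀ (L : Type) [Field L] [Algebra ℂ L] (t n : L), IsFF (toC2 g) t n →
        (∀ j, aeval t (c.lin b1 b2 j) ≠ 0) → ∀ ρ : Fin M → Row d, (∀ i, (ρ i).Ok a 1 c0 k I) →
        LinearIndependent ℂ (fun i => (1 : L) ^ (ρ i).lv *
          (ρ i).ev c0 k (c.co (c.NB k b1 b2 t n)) t 1) → InjN S →
        (∀ P ∈ S, OnB C0 X B G1 G2 b1 b2 P ∧ P.y ≠ 0 ∧ hev2 g E P.x P.y P.n = 0) →
        (∀ z : Fin M → LPt c k, (∀ b, z b ∈ S) →
          |(((Matrix.of fun i b => (ρ i).ev c0 k (z b).mu (z b).x (z b).y).det : ℤ) : ℝ)| <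
            (X ^ η) ^ (M * (M - 1) / 2)) →
        (S.card : ℝ) ≤ C * X ^ η := by
  classical
  obtain ⟨DF, hDF0, hDF⟩ := exists_DF c
  obtain ⟨Cb, hCb⟩ := bad_le c k E hk DF C0 C1 h0
  obtain ⟨Cz, hCz⟩ := zeroB (d := d) k E a c0 I
  obtain ⟨Cs, hCs⟩ := card_sing c k E
  obtain ⟨Ca, hCa0, hCa⟩ := asm M η Cb (2 * E) Cz hη (by positivity) (by positivity)
  set N : ℕ := ⌈C0⌉₊ with hN
  refine ⟨Cs + (2 * N + 1) * Ca, by positivity, ?_⟩
  intro X B G1 G2 b1 b2 g S hX hB0 hBX hG1 hG2 hcur hdeg L _ _ t n hff hlin ρ hρ hind hinj hS hdet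
  have hX1 : (1 : ℝ) ≤ X ^ η := Real.one_le_rpow (by linarith) hη.le
  have hC0 : 0 ≤ C0 := by linarith
  -- singular points
  set S1 := S.filter fun P => hev2 (derivative g) E P.x P.y P.n = 0 with hS1
  set S2 := S.filter fun P => ¬ hev2 (derivative g) E P.x P.y P.n = 0 with hS2
  have h1 : S1.card ≤ Cs := by
    refine hCs g _ S1 hcur hdeg ?_ ?_
    · intro P hP Q hQ
      exact hinj P (Finset.mem_filter.1 hP).1 Q (Finset.mem_filter.1 hQ).1
    · intro P hP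
      obtain ⟨hP1, hP2⟩ := Finset.mem_filter.1 hP
      exact ⟨(hS P hP1).2.1, (hS P hP1).2.2, hP2⟩
  have hle : ∀ (G : ℝ) (x : ℤ), 1 ≤ G → |(x : ℝ)| ≤ C0 * B / G → |(x : ℝ)| ≤ C0 * X := by
    intro G x hG hx
    calc |(x : ℝ)| ≤ C0 * B / G := hx
      _ ≤ C0 * B := div_le_self (by positivity) hG
      _ ≤ C0 * X := by gcongr
  -- each value of `cc`
  have h2 : ∀ cc : ℤ, ((S2.filter fun P => P.cc = cc).card : ℝ) ≤ Ca * X ^ η := by
    intro cc
    set T := S2.filter fun P => P.cc = cc with hT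
    have hTS : ∀ P ∈ T, P ∈ S ∧ ¬ hev2 (derivative g) E P.x P.y P.n = 0 ∧ P.cc = cc := by
      intro P hP
      obtain ⟨hP1, hP2⟩ := Finset.mem_filter.1 hP
      obtain ⟨hP3, hP4⟩ := Finset.mem_filter.1 hP1
      exact ⟨hP3, hP4, hP2⟩
    rcases T.eq_empty_or_nonempty with hE | ⟨P0, hP0⟩
    · rw [hE]; simp; positivity
    have hcc : cc ≠ 0 := (hTS P0 hP0).2.2 ▸ P0.cc0
    refine hCa X hX T (fun i P => (ρ i).ev c0 k P.mu P.x P.y) (badB DF g E) ?_ ?_ ?_ ?_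
    · intro P hP
      obtain ⟨hP1, hP2, -⟩ := hTS P hP
      obtain ⟨hon, hy, -⟩ := hS P hP1
      refine ⟨?_, (hCb X B g P hX hcur.deg hcur.ht hon.sz (hle G1 _ hG1 hon.hx)
        (hle G2 _ hG2 hon.hy) hd).1⟩
      unfold badB
      have hp : (P.p : ℤ) ≠ 0 := by exact_mod_cast P.pp.ne_zero
      exact mul_ne_zero (mul_ne_zero (mul_ne_zero hy hDF0) (mul_ne_zero P.ka0 hp)) hP2
    · intro q hq
      obtain ⟨PP, hPP1, hPP2, hPP3⟩ := classes_tn c k E DF g hcur.deg q hq T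
        (fun P hP => (hS P (hTS P hP).1).2.2)
      refine ⟨PP, by exact_mod_cast hPP1, hPP2, ?_⟩
      intro U hU
      obtain ⟨hU1, hU2, hU3⟩ := hPP3 U hU
      refine ⟨hU1, fun z hz => ?_⟩
      refine padicB c k E DF hDF b1 b2 g hcur.deg q hq cc U ?_ hU3 a c0 I ρ hρ z hz
      intro P hP
      obtain ⟨hP1, -, hP3⟩ := hTS P (hU1 hP)
      exact ⟨(hS P hP1).1.eq, hP3, (hS P hP1).2.2, hU2 P hP⟩
    · intro z hz
      exact hdet z fun b => (hTS _ (hz b)).1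
    · intro lam hlam U hU hzero
      have := hCz c b1 b2 (toC2 g) hcur.irr (degLE_toC2 hcur.deg) L t n hff hlin cc M ρ hρ
        (curveBCore_indep ρ c0 k 1 _ t cc hcc hind) lam hlam U
        (fun P hP Q hQ => hinj P (hTS P (hU hP)).1 Q (hTS Q (hU hQ)).1) (fun P hP => by
          obtain ⟨hP1, -, hP3⟩ := hTS P (hU hP)
          obtain ⟨hon, hy, hz⟩ := hS P hP1
          exact ⟨hon.eq, hP3, hy, curveBCore_eval hcur.deg hy hz, hzero P hP⟩)
      exact_mod_cast this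
  have h3 : (S2.card : ℝ) ≤ (2 * N + 1) * (Ca * X ^ η) := by
    have hmap : ∀ P ∈ S2, P.cc ∈ Finset.Icc (-(N : ℤ)) N := by
      intro P hP
      have hP1 := (hS P (Finset.mem_filter.1 hP).1).1.sz.cc
      have h4 : |(P.cc : ℝ)| ≤ N := hP1.trans (Nat.le_ceil _)
      rw [Finset.mem_Icc, ← abs_le]
      exact_mod_cast h4
    rw [Finset.card_eq_sum_card_fiberwise hmap]
    push_cast
    calc ∑ cc ∈ Finset.Icc (-(N : ℤ)) N, ((S2.filter fun P => P.cc = cc).card : ℝ)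
        ≤ ∑ cc ∈ Finset.Icc (-(N : ℤ)) N, Ca * X ^ η := Finset.sum_le_sum fun cc _ => h2 cc
      _ = (2 * N + 1) * (Ca * X ^ η) := by
        rw [Finset.sum_const, Int.card_Icc, nsmul_eq_mul]
        congr 1
        have : ((N : ℤ) + 1 - -(N : ℤ)).toNat = 2 * N + 1 := by omega
        rw [this]; push_cast; ring
  have h4 : S.card = S1.card + S2.card := (Finset.card_filter_add_card_filter_not _).symm
  have h5 : (S1.card : ℝ) ≤ Cs * X ^ η := by
    have : (S1.card : ℝ) ≤ Cs := by exact_mod_cast h1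
    exact this.trans (le_mul_of_one_le_right (by positivity) hX1)
  rw [h4]; push_cast
  nlinarith

end Crest.Agent.R22
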