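import Crest.Agent.R22.Basic

/-! Row 22: calculus of binary forms with bounded coefficients (auxiliary for `nhdet`). -/

set_option autoImplicit false
open Polynomial

namespace Crest.Agent.R22
noncomputable section

/-- A submultiplicative seminorm. -/
structure NHdet_SN {R : Type} [CommRing R] (ν : R → ℝ) : Prop where
  zero : ν 0 = 0
  nonneg : ∀ a, 0 ≤ ν a
  add : ∀ a b, ν (a + b) ≤ ν a + ν b
  mul : ∀ a b, ν (a * b) ≤ ν a * ν b

/-- The `ℓ¹` norm of the coefficients. -/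
def NHdet_ext {R : Type} [CommRing R] (ν : R → ℝ) (p : R[X]) : ℝ := ∑ i ∈ p.support, ν (p.coeff i)

section sn
variable {R : Type} [CommRing R] {ν : R → ℝ}

theorem NHdet_SN.sum (h : NHdet_SN ν) {ι : Type} (s : Finset ι) (f : ι → R) :
    ν (∑ i ∈ s, f i) ≤ ∑ i ∈ s, ν (f i) := by
  classical
  induction s using Finset.induction_on with
  | empty => simp [h.zero]
  | insert a s ha ih =>
    rw [Finset.sum_insert ha, Finset.sum_insert ha]
    exact (h.add _ _).trans (add_le_add le_rfl ih)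

theorem NHdet_SN.ext_eq (h : NHdet_SN ν) (p : R[X]) {s : Finset ℕ} (hs : p.support ⊆ s) :
    NHdet_ext ν p = ∑ i ∈ s, ν (p.coeff i) :=
  Finset.sum_subset hs fun i _ hi => by rw [notMem_support_iff.1 hi, h.zero]

theorem NHdet_SN.ext_monomial (h : NHdet_SN ν) (n : ℕ) (a : R) :
    NHdet_ext ν (monomial n a) = ν a := by
  rw [h.ext_eq _ (support_monomial_subset n a)]
  simp

theorem NHdet_SN.coeff_le (h : NHdet_SN ν) (p : R[X]) (i : ℕ) : ν (p.coeff i) ≤ NHdet_ext ν p := by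
  rw [h.ext_eq p (Finset.subset_insert i _)]
  exact Finset.single_le_sum (f := fun i => ν (p.coeff i)) (fun j _ => h.nonneg _)
    (Finset.mem_insert_self _ _)

theorem NHdet_SN.ext_add (h : NHdet_SN ν) (p q : R[X]) :
    NHdet_ext ν (p + q) ≤ NHdet_ext ν p + NHdet_ext ν q := by
  rw [h.ext_eq (p + q) support_add, h.ext_eq p (Finset.subset_union_left (s₂ := q.support)),
    h.ext_eq q (Finset.subset_union_right (s₁ := p.support)), ← Finset.sum_add_distrib]
  exact Finset.sum_le_sum fun i _ => by rw [coeff_add]; exact h.add _ _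

theorem NHdet_SN.ext (h : NHdet_SN ν) : NHdet_SN (NHdet_ext ν) := by
  have hsum : ∀ {ι : Type} (s : Finset ι) (f : ι → R[X]),
      NHdet_ext ν (∑ i ∈ s, f i) ≤ ∑ i ∈ s, NHdet_ext ν (f i) := by
    intro ι s f
    classical
    induction s using Finset.induction_on with
    | empty => simp [NHdet_ext]
    | insert a s ha ih =>
      rw [Finset.sum_insert ha, Finset.sum_insert ha]
      exact (h.ext_add _ _).trans (add_le_add le_rfl ih)
  refine ⟨by simp [NHdet_ext], fun p => Finset.sum_nonneg fun i _ => h.nonneg _, h.ext_add,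
    fun p q => ?_⟩
  rw [mul_eq_sum_sum]
  refine (hsum _ _).trans ?_
  rw [NHdet_ext, NHdet_ext, Finset.sum_mul_sum]
  refine Finset.sum_le_sum fun i _ => (hsum _ _).trans (Finset.sum_le_sum fun j _ => ?_)
  rw [h.ext_monomial]
  exact h.mul _ _

end sn

theorem NHdet_sn0 : NHdet_SN (fun a : ℂ => ‖a‖) :=
  ⟨norm_zero, norm_nonneg, norm_add_le, norm_mul_le⟩

theorem NHdet_sn1 : NHdet_SN (NHdet_ext fun a : ℂ => ‖a‖) := NHdet_sn0.ext

theorem NHdet_sn2 : NHdet_SN (NHdet_ext (NHdet_ext fun a : ℂ => ‖a‖)) := NHdet_sn1.ext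

section hev
variable {S : Type} [CommRing S] [Algebra ℂ S]

/-- `hev` as a linear map. -/
def NHdet_hevL (N : ℕ) (x y : S) : ℂ[X] →ₗ[ℂ] S where
  toFun A := hev A N x y
  map_add' A B := by simp [hev, add_mul, Finset.sum_add_distrib]
  map_smul' a A := by simp [hev, Algebra.smul_def, Finset.mul_sum, mul_assoc]

theorem NHdet_hevL_apply (N : ℕ) (x y : S) (A : ℂ[X]) : NHdet_hevL N x y A = hev A N x y := rfl

theorem NHdet_hev_zero (N : ℕ) (x y : S) : hev (0 : ℂ[X]) N x y = 0 := (NHdet_hevL N x y).map_zero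

theorem NHdet_hev_add (A B : ℂ[X]) (N : ℕ) (x y : S) :
    hev (A + B) N x y = hev A N x y + hev B N x y := (NHdet_hevL N x y).map_add A B

theorem NHdet_hev_C_mul (a : ℂ) (A : ℂ[X]) (N : ℕ) (x y : S) :
    hev (C a * A) N x y = algebraMap ℂ S a * hev A N x y := by
  rw [← smul_eq_C_mul, ← Algebra.smul_def]
  exact (NHdet_hevL N x y).map_smul a A

theorem NHdet_hev_sum {ι : Type} (s : Finset ι) (A : ι → ℂ[X]) (N : ℕ) (x y : S) :
    hev (∑ i ∈ s, A i) N x y = ∑ i ∈ s, hev (A i) N x y := map_sum (NHdet_hevL N x y) A s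

theorem NHdet_hev_C (a : ℂ) (x y : S) : hev (C a) 0 x y = algebraMap ℂ S a := by simp [hev]

theorem NHdet_hev_lin (a b : ℂ) (x y : S) :
    hev (C a * X + C b) 1 x y = algebraMap ℂ S a * x + algebraMap ℂ S b * y := by
  simp [hev, Finset.sum_range_succ, coeff_X, coeff_C, add_comm]

theorem NHdet_hev_pow {A : ℂ[X]} (hA : A.natDegree ≤ 1) (e : ℕ) (x y : S) :
    hev (A ^ e) e x y = hev A 1 x y ^ e := by
  induction e with
  | zero => simp [hev]
  | succ e ih =>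
    rw [pow_succ, hev_mul _ _ e 1 (natDegree_pow_le.trans (by nlinarith)) hA, ih, pow_succ]

end hev

theorem NHdet_lin_deg (a b : ℂ) : (C a * X + C b : ℂ[X]).natDegree ≤ 1 := by
  compute_degree

/-- The linear change of variables `(x, y) ↦ (u x, v (y + s x))` on forms of degree `N`. -/
def NHdet_T (N : ℕ) (u v s : ℂ) (p : ℂ[X]) : ℂ[X] :=
  hev p N (C u * X + C 0) (C (v * s) * X + C v)

theorem NHdet_T_deg (N : ℕ) (u v s : ℂ) (p : ℂ[X]) : (NHdet_T N u v s p).natDegree ≤ N := by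
  rw [NHdet_T, hev]
  refine natDegree_sum_le_of_forall_le _ _ fun i hi => ?_
  have hi' := Nat.lt_succ_iff.1 (Finset.mem_range.1 hi)
  have h1 := natDegree_pow_le_of_le i (NHdet_lin_deg u 0)
  have h2 := natDegree_pow_le_of_le (N - i) (NHdet_lin_deg (v * s) v)
  rw [Polynomial.algebraMap_apply, mul_assoc]
  refine (natDegree_C_mul_le _ _).trans (natDegree_mul_le.trans ?_)
  omega

theorem NHdet_hev_T (N : ℕ) (u v s : ℂ) (p : ℂ[X]) (x y : ℂ) :
    hev (NHdet_T N u v s p) N x y = hev p N (u * x) (v * (y + s * x)) := by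
  rw [NHdet_T, hev.eq_1 p, NHdet_hev_sum, hev.eq_1 p]
  refine Finset.sum_congr rfl fun i hi => ?_
  have hi' := Nat.lt_succ_iff.1 (Finset.mem_range.1 hi)
  have h := hev_mul ((C u * X + C 0 : ℂ[X]) ^ i) ((C (v * s) * X + C v) ^ (N - i)) i (N - i)
    (by simpa using natDegree_pow_le_of_le i (NHdet_lin_deg u 0))
    (by simpa using natDegree_pow_le_of_le (N - i) (NHdet_lin_deg (v * s) v)) x y
  rw [Nat.add_sub_cancel' hi', NHdet_hev_pow (NHdet_lin_deg _ _),
    NHdet_hev_pow (NHdet_lin_deg _ _), NHdet_hev_lin, NHdet_hev_lin] at h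
  rw [Polynomial.algebraMap_apply, mul_assoc, NHdet_hev_C_mul, h]
  simp only [Algebra.algebraMap_self, RingHom.id_apply]
  ring

theorem NHdet_T_eq_zero {N : ℕ} {u v s : ℂ} (hu : u ≠ 0) (hv : v ≠ 0) {p : ℂ[X]}
    (hp : p.natDegree ≤ N) (h : NHdet_T N u v s p = 0) : p = 0 := by
  refine Polynomial.funext fun t => ?_
  have h1 := NHdet_hev_T N u v s p (t / u) (1 / v - s * (t / u))
  rw [h, NHdet_hev_zero, show u * (t / u) = t by field_simp,
    show v * (1 / v - s * (t / u) + s * (t / u)) = 1 by field_simp; ring,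
    hev_eq_eval p N hp t 1 one_ne_zero] at h1
  simpa using h1.symm

theorem NHdet_T_dvd {u v s a b z : ℂ} (ha : a ≠ 0) (hz : (a * u + b * (v * s)) * z + b * v = 0)
    {e : ℕ} (he : e ≤ 10) {q : ℂ[X]} (hq : q.natDegree ≤ 10) (h : (C a * X + C b) ^ e ∣ q) :
    (X - C z) ^ e ∣ NHdet_T 10 u v s q := by
  obtain ⟨r, rfl⟩ := h
  by_cases hr : r = 0
  · simp [hr, NHdet_T, NHdet_hev_zero]
  have hL : (C a * X + C b : ℂ[X]).natDegree = 1 := natDegree_linear ha
  have hL0 : (C a * X + C b : ℂ[X]) ≠ 0 := fun h => by simp [h] at hL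
  rw [natDegree_mul (pow_ne_zero _ hL0) hr, natDegree_pow, hL, mul_one] at hq
  have h := hev_mul ((C a * X + C b : ℂ[X]) ^ e) r e (10 - e) (by rw [natDegree_pow, hL, mul_one])
    (by omega) (C u * X + C 0 : ℂ[X]) (C (v * s) * X + C v)
  rw [Nat.add_sub_cancel' he, NHdet_hev_pow hL.le, NHdet_hev_lin] at h
  rw [NHdet_T, h]
  refine Dvd.dvd.mul_right (pow_dvd_pow_of_dvd ?_ e) _
  rw [dvd_iff_isRoot]
  simp only [Polynomial.algebraMap_apply, Algebra.algebraMap_self, RingHom.id_apply, IsRoot.def,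
    eval_add, eval_mul, eval_C, eval_X]
  linear_combination hz

/-! ### two variables -/

theorem NHdet_hev2_eq (g : ℂ[X][X]) (N : ℕ) (x y n : ℂ) {s : Finset ℕ} (hs : g.support ⊆ s) :
    hev2 g N x y n = ∑ i ∈ s, hev (g.coeff i) N x y * n ^ i :=
  Finset.sum_subset hs fun i _ hi => by rw [notMem_support_iff.1 hi, NHdet_hev_zero, zero_mul]

theorem NHdet_hev2_add (f g : ℂ[X][X]) (N : ℕ) (x y n : ℂ) :
    hev2 (f + g) N x y n = hev2 f N x y n + hev2 g N x y n := by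
  rw [NHdet_hev2_eq (f + g) N x y n support_add,
    NHdet_hev2_eq f N x y n (Finset.subset_union_left (s₂ := g.support)),
    NHdet_hev2_eq g N x y n (Finset.subset_union_right (s₁ := f.support)),
    ← Finset.sum_add_distrib]
  exact Finset.sum_congr rfl fun i _ => by rw [coeff_add, NHdet_hev_add, add_mul]

theorem NHdet_hev2_sum {ι : Type} (s : Finset ι) (f : ι → ℂ[X][X]) (N : ℕ) (x y n : ℂ) :
    hev2 (∑ i ∈ s, f i) N x y n = ∑ i ∈ s, hev2 (f i) N x y n := by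
  classical
  induction s using Finset.induction_on with
  | empty => simp [hev2]
  | insert a s ha ih => rw [Finset.sum_insert ha, Finset.sum_insert ha, NHdet_hev2_add, ih]

theorem NHdet_hev2_monomial (i : ℕ) (p : ℂ[X]) (N : ℕ) (x y n : ℂ) :
    hev2 (monomial i p) N x y n = hev p N x y * n ^ i := by
  rw [NHdet_hev2_eq _ N x y n (support_monomial_subset i p)]
  simp

theorem NHdet_hev2_mul {f g : ℂ[X][X]} {N M : ℕ} (hf : ∀ i, (f.coeff i).natDegree ≤ N)
    (hg : ∀ i, (g.coeff i).natDegree ≤ M) (x y n : ℂ) :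
    hev2 (f * g) (N + M) x y n = hev2 f N x y n * hev2 g M x y n := by
  rw [mul_eq_sum_sum, NHdet_hev2_sum, hev2.eq_1 f, hev2.eq_1 g, Finset.sum_mul_sum]
  refine Finset.sum_congr rfl fun i _ => ?_
  rw [Polynomial.sum, NHdet_hev2_sum]
  refine Finset.sum_congr rfl fun j _ => ?_
  rw [NHdet_hev2_monomial, hev_mul _ _ N M (hf i) (hg j)]
  ring

/-- `v x y s` is a form of degree `T` in `(x, y)` and a polynomial of degree `≤ Ks` in `s`, with
`ℓ¹` norm `≤ K`. -/
def NHdet_Ex (T Ks : ℕ) (K : ℝ) (v : ℂ → ℂ → ℂ → ℂ) : Prop :=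
  ∃ F : ℂ[X][X], F.natDegree ≤ Ks ∧ (∀ i, (F.coeff i).natDegree ≤ T) ∧
    NHdet_ext (NHdet_ext fun a : ℂ => ‖a‖) F ≤ K ∧ ∀ x y s, hev2 F T x y s = v x y s

namespace NHdet_Ex

variable {T T' Ks Ks' : ℕ} {K K' : ℝ} {v v' : ℂ → ℂ → ℂ → ℂ}

theorem nonneg (h : NHdet_Ex T Ks K v) : 0 ≤ K := by
  obtain ⟨F, -, -, h3, -⟩ := h
  exact (NHdet_sn2.nonneg F).trans h3

theorem mono (h : NHdet_Ex T Ks K v) (hT : T = T') (hKs : Ks ≤ Ks') (hK : K ≤ K') :
    NHdet_Ex T' Ks' K' v := by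
  obtain ⟨F, h1, h2, h3, h4⟩ := h
  subst hT
  exact ⟨F, h1.trans hKs, h2, h3.trans hK, h4⟩

theorem add (h : NHdet_Ex T Ks K v) (h' : NHdet_Ex T Ks K' v') :
    NHdet_Ex T Ks (K + K') fun x y s => v x y s + v' x y s := by
  obtain ⟨F, h1, h2, h3, h4⟩ := h
  obtain ⟨G, g1, g2, g3, g4⟩ := h'
  exact ⟨F + G, natDegree_add_le_of_degree_le h1 g1, fun i => by
    rw [coeff_add]; exact natDegree_add_le_of_degree_le (h2 i) (g2 i),
    (NHdet_sn2.add F G).trans (add_le_add h3 g3), fun x y s => by rw [NHdet_hev2_add, h4, g4]⟩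

theorem mul (h : NHdet_Ex T Ks K v) (h' : NHdet_Ex T' Ks' K' v') :
    NHdet_Ex (T + T') (Ks + Ks') (K * K') fun x y s => v x y s * v' x y s := by
  have hK := h.nonneg
  obtain ⟨F, h1, h2, h3, h4⟩ := h
  obtain ⟨G, g1, g2, g3, g4⟩ := h'
  refine ⟨F * G, natDegree_mul_le.trans (add_le_add h1 g1), fun i => ?_,
    (NHdet_sn2.mul F G).trans (mul_le_mul h3 g3 (NHdet_sn2.nonneg G) hK),
    fun x y s => by rw [NHdet_hev2_mul h2 g2, h4, g4]⟩
  rw [coeff_mul]
  exact natDegree_sum_le_of_forall_le _ _ fun j _ =>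
    natDegree_mul_le.trans (add_le_add (h2 _) (g2 _))

theorem mon (i : ℕ) (p : ℂ[X]) (hp : p.natDegree ≤ T) (hK : NHdet_ext (fun a : ℂ => ‖a‖) p ≤ K)
    (hv : ∀ x y s, hev p T x y * s ^ i = v x y s) : NHdet_Ex T i K v :=
  ⟨monomial i p, natDegree_monomial_le _, fun j => by
    rw [coeff_monomial]; split_ifs; exacts [hp, by simp],
    by rwa [NHdet_sn1.ext_monomial], fun x y s => by rw [NHdet_hev2_monomial, hv]⟩

theorem const (i : ℕ) (a : ℂ) : NHdet_Ex 0 i ‖a‖ fun _ _ s => a * s ^ i :=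
  mon i (C a) (natDegree_C a).le (by rw [← monomial_zero_left, NHdet_sn0.ext_monomial])
    fun x y s => by simp [NHdet_hev_C]

theorem one : NHdet_Ex 0 0 1 fun _ _ _ => 1 := by simpa using const 0 1

theorem zero (T Ks : ℕ) : NHdet_Ex T Ks 0 fun _ _ _ => 0 :=
  ⟨0, by simp, by simp, NHdet_sn2.zero.le, fun x y s => by simp [hev2]⟩

theorem lin (a b : ℂ) : NHdet_Ex 1 0 (‖a‖ + ‖b‖) fun x y _ => a * x + b * y :=
  mon 0 (C a * X + C b) (NHdet_lin_deg a b) ((NHdet_sn1.add _ _).trans (by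
    rw [C_mul_X_eq_monomial, ← monomial_zero_left, NHdet_sn0.ext_monomial,
      NHdet_sn0.ext_monomial])) fun x y s => by simp [NHdet_hev_lin]

theorem pow (h : NHdet_Ex T Ks K v) (e : ℕ) :
    NHdet_Ex (T * e) (Ks * e) (K ^ e) fun x y s => v x y s ^ e := by
  induction e with
  | zero => simpa using one
  | succ e ih => simpa only [pow_succ, Nat.mul_succ] using ih.mul h

theorem sum {ι : Type} (t : Finset ι) {w : ι → ℂ → ℂ → ℂ → ℂ} (h : ∀ i ∈ t, NHdet_Ex T Ks K (w i)) :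
    NHdet_Ex T Ks (t.card * K) fun x y s => ∑ i ∈ t, w i x y s := by
  classical
  induction t using Finset.induction_on with
  | empty => simpa using zero T Ks
  | insert a t ha ih =>
    simp only [Finset.sum_insert ha, Finset.card_insert_of_notMem ha]
    exact ((h a (Finset.mem_insert_self _ _)).add
      (ih fun i hi => h i (Finset.mem_insert_of_mem hi))).mono rfl le_rfl
      (le_of_eq (by push_cast; ring))

theorem prod {ι : Type} (t : Finset ι) {w : ι → ℂ → ℂ → ℂ → ℂ} (e : ι → ℕ)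
    (h : ∀ i ∈ t, NHdet_Ex T Ks K (w i)) :
    NHdet_Ex (T * ∑ i ∈ t, e i) (Ks * ∑ i ∈ t, e i) (K ^ ∑ i ∈ t, e i)
      fun x y s => ∏ i ∈ t, w i x y s ^ e i := by
  classical
  induction t using Finset.induction_on with
  | empty => simpa using one
  | insert a t ha ih =>
    simp only [Finset.sum_insert ha, Finset.prod_insert ha, mul_add, pow_add]
    exact ((h a (Finset.mem_insert_self _ _)).pow _).mul
      (ih fun i hi => h i (Finset.mem_insert_of_mem hi))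

theorem out (h : NHdet_Ex T Ks K v) : ∃ F : ℂ[X][X], (F.natDegree ≤ Ks ∧
    (∀ i, (F.coeff i).natDegree ≤ T) ∧ CoLE F K) ∧ ∀ x y s, hev2 F T x y s = v x y s := by
  obtain ⟨F, h1, h2, h3, h4⟩ := h
  exact ⟨F, ⟨h1, h2, fun i j =>
    ((NHdet_sn0.coeff_le _ j).trans (NHdet_sn1.coeff_le F i)).trans h3⟩, h4⟩

end NHdet_Ex

/-- The normalised row. -/
theorem NHdet_row {Cn : ℝ} (hC : 1 ≤ Cn) (th al be : Fin 4 → ℂ) (w : Fin 4 → Fin 4 → ℂ) (s0 : ℂ)
    (hth : ∀ j, ‖th j‖ ≤ Cn) (hw : ∀ l j, ‖w l j‖ ≤ Cn) (hab : ∀ j, ‖al j‖ + ‖be j‖ ≤ 12 * Cn)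
    (hs : ‖s0‖ ≤ 4) {a c0 j0 : ℕ} (e : Fin 4 → ℕ) (he : ∑ l, e l = a) (hj : j0 ≤ c0) :
    NHdet_Ex (6 * a + c0) a ((4 * (Cn * (1 + Cn) * (12 * Cn) ^ 6)) ^ a * 5 ^ c0) fun x y s =>
      (∏ l, (∑ j, w l j * ((1 + -th j * s) *
        ∏ m ∈ Finset.univ.erase j, (al m * x + be m * y) ^ 2)) ^ e l) *
        (x ^ j0 * (y + s0 * x) ^ (c0 - j0)) := by
  have h1 : ∀ l j, NHdet_Ex 6 1 (Cn * (1 + Cn) * (12 * Cn) ^ 6) fun x y s =>
      w l j * ((1 + -th j * s) * ∏ m ∈ Finset.univ.erase j, (al m * x + be m * y) ^ 2) := by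
    intro l j
    have p1 := NHdet_Ex.prod (Finset.univ.erase j) (fun _ => 2)
      fun m _ => (NHdet_Ex.lin (al m) (be m)).mono rfl le_rfl (hab m)
    have p2 := ((NHdet_Ex.one.mono rfl zero_le_one le_rfl).add (NHdet_Ex.const 1 (-th j))).mono
      rfl le_rfl (add_le_add le_rfl (by simpa using hth j : ‖-th j‖ ≤ Cn))
    have p3 := ((NHdet_Ex.const 0 (w l j)).mono rfl le_rfl (hw l j)).mul (p2.mul p1)
    simpa [mul_assoc] using p3
  have h2 := NHdet_Ex.prod Finset.univ e fun l _ =>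
    NHdet_Ex.sum Finset.univ fun j _ => h1 l j
  have h3 := ((NHdet_Ex.lin 1 0).pow j0).mul
    (((NHdet_Ex.lin s0 1).mono (K' := 5) rfl le_rfl (by rw [norm_one]; linarith)).pow (c0 - j0))
  have h4 := (h2.mul h3).mono (T' := 6 * a + c0) (Ks' := a)
    (K' := (4 * (Cn * (1 + Cn) * (12 * Cn) ^ 6)) ^ a * 5 ^ c0) (by rw [he]; omega) (by simp [he])
    (by
      rw [he]
      simp only [Finset.card_univ, Fintype.card_fin, Nat.cast_ofNat, norm_one, norm_zero, add_zero,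
        one_pow, one_mul]
      exact mul_le_mul_of_nonneg_left (pow_le_pow_right₀ (by norm_num) (Nat.sub_le _ _))
        (by positivity))
  simpa only [one_mul, zero_mul, add_zero, add_comm (s0 * _)] using h4

/-- Choice of the shear. -/
theorem NHdet_shear {η : ℝ} (al be : Fin 4 → ℂ) (h : ∀ j, 11 * η ≤ ‖al j‖ + ‖be j‖) :
    ∃ s : Fin 5, ∀ j, η ≤ ‖al j + be j * (s : ℕ)‖ := by
  by_contra hn
  push Not at hn
  choose f hf using hn
  obtain ⟨s, s', hne, he⟩ := Fintype.exists_ne_map_eq_of_card_lt f (by simp)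
  have h1 := hf s
  have h2 := hf s'
  rw [← he] at h2
  have h3 : 1 ≤ ‖((s : ℕ) : ℂ) - (s' : ℕ)‖ := by
    have : ((s : ℕ) : ℤ) - (s' : ℕ) ≠ 0 := fun h => hne (Fin.ext (by omega))
    have h4 : (1 : ℝ) ≤ |((((s : ℕ) : ℤ) - (s' : ℕ) : ℤ) : ℝ)| := by exact_mod_cast Int.one_le_abs this
    rw [← Complex.norm_intCast] at h4
    simpa using h4
  have h4 : ‖be (f s)‖ * ‖((s : ℕ) : ℂ) - (s' : ℕ)‖ ≤
      ‖al (f s) + be (f s) * (s : ℕ)‖ + ‖al (f s) + be (f s) * (s' : ℕ)‖ := by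
    rw [← norm_mul]
    refine le_trans (le_of_eq ?_) (norm_sub_le _ _)
    congr 1
    ring
  have h5 : ‖al (f s)‖ ≤ ‖al (f s) + be (f s) * (s : ℕ)‖ + ‖be (f s)‖ * 4 := by
    have h6 : ‖((s : ℕ) : ℂ)‖ ≤ 4 := by
      rw [Complex.norm_natCast]
      exact_mod_cast Nat.lt_succ_iff.1 s.2
    have := norm_sub_le (al (f s) + be (f s) * (s : ℕ)) (be (f s) * (s : ℕ))
    rw [add_sub_cancel_right, norm_mul] at this
    nlinarith [norm_nonneg (be (f s))]
  nlinarith [h (f s), norm_nonneg (be (f s))]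

end
end Crest.Agent.R22
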