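import Crest.Agent.R22.Basic
import Crest.Agent.R22.LinAlg

set_option autoImplicit false
open Polynomial IntermediateField

namespace Crest.Agent.R22

variable {d : ℕ}

/-- `f b = ∑_{j < 10, i ≤ D} c j i * v^j w^(T-j) t^i` with coefficients bounded by `B`. -/
def PSD_Rep {ι : Type*} (T : ℕ) (v w t : ι → ℂ) (D : ℕ) (B : ℝ) (f : ι → ℂ) : Prop :=
  ∃ c : ℕ → ℕ → ℂ, (∀ j i, ‖c j i‖ ≤ B) ∧ ∀ b, f b =
    ∑ j ∈ Finset.range 10, ∑ i ∈ Finset.range (D + 1), c j i * (v b ^ j * w b ^ (T - j) * t b ^ i)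

section Rep

variable {ι : Type*} {T : ℕ} {v w t : ι → ℂ}

theorem PSD_Rep.nonneg {D : ℕ} {B : ℝ} {f : ι → ℂ} (h : PSD_Rep T v w t D B f) : 0 ≤ B := by
  obtain ⟨c, hc, -⟩ := h
  exact (norm_nonneg _).trans (hc 0 0)

theorem PSD_Rep.congr {D : ℕ} {B : ℝ} {f f' : ι → ℂ} (h : PSD_Rep T v w t D B f)
    (e : ∀ b, f' b = f b) : PSD_Rep T v w t D B f' := by
  obtain ⟨c, hc, hf⟩ := h
  exact ⟨c, hc, fun b => (e b).trans (hf b)⟩

theorem PSD_Rep.monoB {D : ℕ} {B B' : ℝ} {f : ι → ℂ} (h : PSD_Rep T v w t D B f) (hB : B ≤ B') :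
    PSD_Rep T v w t D B' f := by
  obtain ⟨c, hc, hf⟩ := h
  exact ⟨c, fun j i => (hc j i).trans hB, hf⟩

theorem PSD_Rep.monoD {D D' : ℕ} {B : ℝ} {f : ι → ℂ} (h : PSD_Rep T v w t D B f) (hD : D ≤ D') :
    PSD_Rep T v w t D' B f := by
  have hB := h.nonneg
  obtain ⟨c, hc, hf⟩ := h
  refine ⟨fun j i => if i < D + 1 then c j i else 0, fun j i => ?_, fun b => ?_⟩
  · by_cases hi : i < D + 1
    · simp only [hi, if_true]; exact hc j i
    · simp only [hi, if_false, norm_zero]; exact hB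
  · rw [hf b]
    refine Finset.sum_congr rfl fun j _ => ?_
    have hsub : Finset.range (D + 1) ⊆ Finset.range (D' + 1) :=
      Finset.range_subset_range.2 (by omega)
    rw [← Finset.sum_subset hsub]
    · refine Finset.sum_congr rfl fun i hi => ?_
      simp only [if_pos (Finset.mem_range.1 hi)]
    · intro i _ hi
      simp only [if_neg (fun h => hi (Finset.mem_range.2 h)), zero_mul]

theorem PSD_Rep.zero (D : ℕ) : PSD_Rep T v w t D 0 (fun _ => 0) :=
  ⟨fun _ _ => 0, fun _ _ => by simp, fun b => by simp⟩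

theorem PSD_Rep.add {D : ℕ} {B B' : ℝ} {f f' : ι → ℂ} (h : PSD_Rep T v w t D B f)
    (h' : PSD_Rep T v w t D B' f') : PSD_Rep T v w t D (B + B') (fun b => f b + f' b) := by
  obtain ⟨c, hc, hf⟩ := h
  obtain ⟨c', hc', hf'⟩ := h'
  refine ⟨fun j i => c j i + c' j i, fun j i => (norm_add_le _ _).trans
    (add_le_add (hc j i) (hc' j i)), fun b => ?_⟩
  simp only [hf b, hf' b, add_mul, Finset.sum_add_distrib]

theorem PSD_Rep.smul {D : ℕ} {B L : ℝ} {f : ι → ℂ} (h : PSD_Rep T v w t D B f) (a : ℂ)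
    (ha : ‖a‖ ≤ L) : PSD_Rep T v w t D (L * B) (fun b => a * f b) := by
  obtain ⟨c, hc, hf⟩ := h
  refine ⟨fun j i => a * c j i, fun j i => ?_, fun b => ?_⟩
  · rw [norm_mul]
    exact mul_le_mul ha (hc j i) (norm_nonneg _) ((norm_nonneg _).trans ha)
  · simp only [hf b, Finset.mul_sum, mul_assoc]

theorem PSD_Rep.mul_t {D : ℕ} {B : ℝ} {f : ι → ℂ} (h : PSD_Rep T v w t D B f) :
    PSD_Rep T v w t (D + 1) B (fun b => t b * f b) := by
  have hB := h.nonneg
  obtain ⟨c, hc, hf⟩ := h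
  refine ⟨fun j i => if i = 0 then 0 else c j (i - 1), fun j i => ?_, fun b => ?_⟩
  · by_cases hi : i = 0
    · simp only [hi, if_true, norm_zero]; exact hB
    · simp only [hi, if_false]; exact hc j _
  · beta_reduce
    rw [hf b, Finset.mul_sum]
    refine Finset.sum_congr rfl fun j _ => ?_
    rw [Finset.sum_range_succ' _ (D + 1), Finset.mul_sum]
    simp only [if_true, zero_mul, add_zero, Nat.add_sub_cancel, Nat.succ_ne_zero, if_false]
    refine Finset.sum_congr rfl fun i _ => ?_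
    ring

theorem PSD_Rep.mul_t_pow {D : ℕ} {B : ℝ} {f : ι → ℂ} (h : PSD_Rep T v w t D B f) (m : ℕ) :
    PSD_Rep T v w t (D + m) B (fun b => t b ^ m * f b) := by
  induction m with
  | zero => exact h.congr fun b => by simp
  | succ m ih => exact ih.mul_t.congr fun b => by ring

theorem PSD_Rep.sum {κ : Type*} {D : ℕ} {B : ℝ} (S : Finset κ) (f : κ → ι → ℂ)
    (h : ∀ k ∈ S, PSD_Rep T v w t D B (f k)) :
    PSD_Rep T v w t D (S.card * B) (fun b => ∑ k ∈ S, f k b) := by
  classical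
  induction S using Finset.induction_on with
  | empty => simpa using PSD_Rep.zero D
  | insert k S hk ih =>
    have h1 := (h k (Finset.mem_insert_self _ _)).add
      (ih fun k' hk' => h k' (Finset.mem_insert_of_mem hk'))
    refine (h1.congr fun b => by rw [Finset.sum_insert hk]).monoB (le_of_eq ?_)
    rw [Finset.card_insert_of_notMem hk]; push_cast; ring

theorem PSD_Rep.sum_range {D : ℕ} {B : ℝ} (hB : 0 ≤ B) (n N : ℕ) (hn : n ≤ N) (f : ℕ → ι → ℂ)
    (h : ∀ k < n, PSD_Rep T v w t D B (f k)) :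
    PSD_Rep T v w t D (N * B) (fun b => ∑ k ∈ Finset.range n, f k b) := by
  refine (PSD_Rep.sum (Finset.range n) f fun k hk => h k (Finset.mem_range.1 hk)).monoB ?_
  rw [Finset.card_range]
  exact mul_le_mul_of_nonneg_right (by exact_mod_cast hn) hB

theorem PSD_Rep.monom (k : ℕ) (hk : k < 10) :
    PSD_Rep T v w t 0 1 (fun b => v b ^ k * w b ^ (T - k)) := by
  refine ⟨fun j _ => if j = k then 1 else 0, fun j i => ?_, fun b => ?_⟩
  · by_cases hj : j = k <;> simp [hj]
  · rw [Finset.sum_eq_single k]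
    · simp
    · intro j _ hj; simp [hj]
    · intro h; exact absurd (Finset.mem_range.2 hk) h

/-- The reduction of all monomials of degree `T` modulo the relation. -/
theorem PSD_red (α : ι → ℂ) (G : ℕ → ℕ → ℂ) (hG : ∀ m i, i ≤ 10 → ‖G m i‖ ≤ 1) (s0 : ℕ)
    (hs0 : s0 ≤ 10)
    (hα : ∀ b, α b = ∑ m ∈ Finset.range 3, ∑ i ∈ Finset.range 11,
      G m i * (s0 : ℂ) ^ (10 - i) * t b ^ m)
    (hrel : ∀ b, ∑ m ∈ Finset.range 3, (∑ i ∈ Finset.range 11,
      G m i * v b ^ i * (w b + s0 * v b) ^ (10 - i)) * t b ^ m = 0) (n : ℕ) :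
    ∀ k ≤ T, k < 10 + n →
      PSD_Rep T v w t (2 * n) ((330 * 20 ^ 10) ^ n) (fun b => α b ^ n * (v b ^ k * w b ^ (T - k))) := by
  have hs : ∀ l ≤ 10, ‖(s0 : ℂ) ^ l‖ ≤ 10 ^ 10 := by
    intro l hl
    rw [norm_pow, Complex.norm_natCast]
    calc (s0 : ℝ) ^ l ≤ 10 ^ l := pow_le_pow_left₀ (by positivity) (by exact_mod_cast hs0) l
      _ ≤ 10 ^ 10 := pow_le_pow_right₀ (by norm_num) hl
  induction n with
  | zero =>
    intro k _ hk
    exact ((PSD_Rep.monom k hk).congr fun b => by simp).monoB (by simp)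
  | succ n ih =>
    intro k hkT hk
    have hA : (0 : ℝ) ≤ (330 * 20 ^ 10) ^ n := by positivity
    by_cases hk' : k < 10 + n
    · have h1 := ih k hkT hk'
      have h2 := PSD_Rep.sum_range (T := T) (v := v) (w := w) (t := t) (D := 2 * (n + 1))
        (B := (11 : ℕ) * (10 ^ 10 * (330 * 20 ^ 10) ^ n)) (by positivity) 3 3 le_rfl
        (fun m b => ∑ i ∈ Finset.range 11, G m i * (s0 : ℂ) ^ (10 - i) *
          (t b ^ m * (α b ^ n * (v b ^ k * w b ^ (T - k))))) (fun m hm => by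
            refine PSD_Rep.sum_range (by positivity) 11 11 le_rfl _ fun i hi => ?_
            refine ((h1.mul_t_pow m).monoD (by omega)).smul _ ?_
            rw [norm_mul]
            calc _ ≤ 1 * (10 : ℝ) ^ 10 :=
                  mul_le_mul (hG m i (by omega)) (hs _ (by omega)) (norm_nonneg _) zero_le_one
              _ = _ := one_mul _)
      refine (h2.congr fun b => ?_).monoB ?_
      · rw [pow_succ', hα b, mul_assoc, Finset.sum_mul]
        refine Finset.sum_congr rfl fun m _ => ?_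
        rw [Finset.sum_mul]
        refine Finset.sum_congr rfl fun i _ => ?_
        rw [← hα b]; ring
      · rw [pow_succ' _ n]; push_cast; nlinarith
    · have hkn : k = 10 + n := by omega
      have hrel' : ∀ b, α b * v b ^ 10 = ∑ m ∈ Finset.range 3, ∑ i ∈ Finset.range 11,
          ∑ l ∈ Finset.range (10 - i), -(G m i * (s0 : ℂ) ^ l * ((10 - i).choose l : ℂ)) *
            (t b ^ m * (v b ^ (i + l) * w b ^ (10 - i - l))) := by
        intro b
        have h0 := hrel b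
        rw [← sub_eq_zero, ← h0, hα b, Finset.sum_mul, ← Finset.sum_sub_distrib]
        refine Finset.sum_congr rfl fun m _ => ?_
        rw [Finset.sum_mul, Finset.sum_mul, ← Finset.sum_sub_distrib]
        refine Finset.sum_congr rfl fun i hi => ?_
        have hi' : i ≤ 10 := by have := Finset.mem_range.1 hi; omega
        rw [add_comm (w b), add_pow, Finset.sum_range_succ, Nat.sub_self, Nat.choose_self,
          mul_add, add_mul, Finset.mul_sum, Finset.sum_mul]
        have e1 : v b ^ 10 = v b ^ i * v b ^ (10 - i) := by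
          rw [← pow_add]; congr 1; omega
        rw [e1, sub_eq_add_neg, ← Finset.sum_neg_distrib, add_comm]
        congr 1
        · refine Finset.sum_congr rfl fun l _ => ?_
          rw [mul_pow, pow_add]; ring
        · rw [mul_pow]; simp only [pow_zero, Nat.cast_one]; ring
      have h2 := PSD_Rep.sum_range (T := T) (v := v) (w := w) (t := t) (D := 2 * (n + 1))
        (B := (11 : ℕ) * ((10 : ℕ) * (20 ^ 10 * (330 * 20 ^ 10) ^ n))) (by positivity) 3 3 le_rfl
        (fun m b => ∑ i ∈ Finset.range 11, ∑ l ∈ Finset.range (10 - i),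
          -(G m i * (s0 : ℂ) ^ l * ((10 - i).choose l : ℂ)) *
          (t b ^ m * (α b ^ n * (v b ^ (n + (i + l)) * w b ^ (T - (n + (i + l))))))) (fun m hm => by
            refine PSD_Rep.sum_range (by positivity) 11 11 le_rfl _ fun i hi => ?_
            refine PSD_Rep.sum_range (by positivity) (10 - i) 10 (by omega) _ fun l hl => ?_
            refine (((ih (n + (i + l)) (by omega) (by omega)).mul_t_pow m).monoD (by omega)).smul _ ?_
            rw [norm_neg, norm_mul, norm_mul, Complex.norm_natCast]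
            have hc : (((10 - i).choose l : ℕ) : ℝ) ≤ 2 ^ 10 := by
              have h3 : (10 - i).choose l ≤ 2 ^ (10 - i) := Nat.choose_le_two_pow _ _
              have h4 : 2 ^ (10 - i) ≤ 2 ^ 10 := Nat.pow_le_pow_right (by norm_num) (by omega)
              exact_mod_cast h3.trans h4
            calc _ ≤ 1 * (10 : ℝ) ^ 10 * 2 ^ 10 :=
                  mul_le_mul (mul_le_mul (hG m i (by omega)) (hs _ (by omega)) (norm_nonneg _)
                    zero_le_one) hc (by positivity) (by positivity)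
              _ = _ := by norm_num)
      refine (h2.congr fun b => ?_).monoB ?_
      · have e1 : α b ^ (n + 1) * (v b ^ k * w b ^ (T - k)) =
            (α b * v b ^ 10) * (α b ^ n * (v b ^ n * w b ^ (T - k))) := by
          rw [hkn, pow_add, pow_add]; ring
        rw [e1, hrel' b, Finset.sum_mul]
        refine Finset.sum_congr rfl fun m _ => ?_
        rw [Finset.sum_mul]
        refine Finset.sum_congr rfl fun i hi => ?_
        rw [Finset.sum_mul]
        refine Finset.sum_congr rfl fun l hl => ?_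
        have hl' := Finset.mem_range.1 hl
        have e2 : T - (n + (i + l)) = (10 - i - l) + (T - k) := by omega
        rw [e2, pow_add (v b) n, pow_add (w b)]; ring
      · rw [pow_succ' _ n]; push_cast; nlinarith

end Rep

theorem PSD_hev2 (g : ℂ[X][X]) (n N : ℕ) (hg : g.natDegree ≤ n) (x y s : ℂ) :
    hev2 g N x y s = ∑ m ∈ Finset.range (n + 1),
      (∑ i ∈ Finset.range (N + 1), (g.coeff m).coeff i * x ^ i * y ^ (N - i)) * s ^ m := by
  unfold hev2
  rw [Finset.sum_subset (s₂ := Finset.range (n + 1))]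
  · rfl
  · intro m hm
    exact Finset.mem_range.2 (Nat.lt_succ_of_le ((le_natDegree_of_mem_supp m hm).trans hg))
  · intro m _ hm
    rw [notMem_support_iff.1 hm]
    unfold hev
    simp

/-- Interpolation at `0, …, 10`. -/
theorem PSD_interp : ∃ W : ℝ, 0 < W ∧ ∀ a : ℕ → ℂ, ∀ i0 ≤ 10, 1 ≤ ‖a i0‖ →
    ∃ s0 : ℕ, s0 ≤ 10 ∧ 1 ≤ W * ‖∑ i ∈ Finset.range 11, a i * (s0 : ℂ) ^ (10 - i)‖ := by
  classical
  set V : Matrix (Fin 11) (Fin 11) ℂ := Matrix.vandermonde (fun s : Fin 11 => ((s : ℕ) : ℂ)) with hV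
  have hdet : IsUnit V.det := by
    rw [isUnit_iff_ne_zero, hV, Matrix.det_vandermonde_ne_zero_iff]
    intro s s' h
    exact Fin.ext (Nat.cast_injective (R := ℂ) h)
  refine ⟨∑ i, ∑ s, ‖V⁻¹ i s‖ + 1, by positivity, fun a i0 hi0 ha => ?_⟩
  set u : Fin 11 → ℂ := fun i => a (10 - i) with hu
  have hval : ∀ s : Fin 11, (V.mulVec u) s =
      ∑ i ∈ Finset.range 11, a i * ((s : ℕ) : ℂ) ^ (10 - i) := by
    intro s
    rw [← Finset.sum_range_reflect, Finset.sum_range]
    simp only [Matrix.mulVec, dotProduct, hV, Matrix.vandermonde_apply, hu]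
    refine Finset.sum_congr rfl fun i _ => ?_
    have e1 : 11 - 1 - (i : ℕ) = 10 - i := rfl
    have e2 : 10 - (10 - (i : ℕ)) = i := by have := i.2; omega
    rw [e1, e2, mul_comm]
  obtain ⟨s0, -, hs0⟩ := Finset.exists_max_image Finset.univ (fun s : Fin 11 => ‖(V.mulVec u) s‖)
    Finset.univ_nonempty
  refine ⟨s0, by have := s0.2; omega, ?_⟩
  rw [← hval s0]
  have hinv : V⁻¹.mulVec (V.mulVec u) = u := by
    rw [Matrix.mulVec_mulVec, Matrix.nonsing_inv_mul _ hdet, Matrix.one_mulVec]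
  let i1 : Fin 11 := ⟨10 - i0, by omega⟩
  have h1 : u i1 = a i0 := by
    simp only [hu, i1]; congr 1; omega
  have h2 : ‖u i1‖ ≤ (∑ s, ‖V⁻¹ i1 s‖) * ‖(V.mulVec u) s0‖ := by
    rw [← congrFun hinv i1, Finset.sum_mul]
    change ‖∑ s, V⁻¹ i1 s * (V.mulVec u) s‖ ≤ _
    refine (norm_sum_le _ _).trans (Finset.sum_le_sum fun s _ => ?_)
    rw [norm_mul]
    exact mul_le_mul_of_nonneg_left (hs0 s (Finset.mem_univ _)) (norm_nonneg _)
  have h3 : (∑ s, ‖V⁻¹ i1 s‖) ≤ ∑ i, ∑ s, ‖V⁻¹ i s‖ :=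
    Finset.single_le_sum (f := fun i => ∑ s, ‖V⁻¹ i s‖) (fun i _ => by positivity)
      (Finset.mem_univ i1)
  rw [h1] at h2
  refine ha.trans (h2.trans (mul_le_mul_of_nonneg_right (by linarith) (norm_nonneg _)))

theorem PSD_sum_ge (S : Finset ℕ) : S.card * (S.card - 1) ≤ 2 * ∑ k ∈ S, k := by
  induction S using Finset.induction_on_max with
  | empty => simp
  | insert a S hS ih =>
    have ha : a ∉ S := fun h => lt_irrefl _ (hS a h)
    have hc : S.card ≤ a := by
      have : S ⊆ Finset.range a := fun x hx => Finset.mem_range.2 (hS x hx)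
      simpa using Finset.card_le_card this
    rw [Finset.card_insert_of_notMem ha, Finset.sum_insert ha, Nat.add_sub_cancel]
    rcases Nat.eq_zero_or_pos S.card with h | h
    · rw [h]; omega
    · obtain ⟨n, hn⟩ : ∃ n, S.card = n + 1 := ⟨S.card - 1, by omega⟩
      rw [hn] at ih hc ⊢
      rw [Nat.add_sub_cancel] at ih
      nlinarith

theorem PSD_count {M D : ℕ} (φ : Fin M → Fin 10 × Fin D) (hφ : Function.Injective φ) :
    (M : ℝ) ^ 2 / 20 - M ≤ ((∑ b, ((φ b).2 : ℕ) : ℕ) : ℝ) := by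
  classical
  have hψ : Function.Injective (fun b => 10 * ((φ b).2 : ℕ) + ((φ b).1 : ℕ)) := by
    intro b b' h
    have h1 := (φ b).1.2
    have h2 := (φ b').1.2
    simp only at h
    apply hφ
    exact Prod.ext (Fin.ext (by omega)) (Fin.ext (by omega))
  have h1 := PSD_sum_ge (Finset.univ.image fun b => 10 * ((φ b).2 : ℕ) + ((φ b).1 : ℕ))
  rw [Finset.card_image_of_injective _ hψ, Finset.sum_image (fun a _ b _ h => hψ h),
    Finset.card_univ, Fintype.card_fin, Finset.sum_add_distrib, ← Finset.mul_sum] at h1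
  have h2 : ∑ b, ((φ b).1 : ℕ) ≤ M * 9 := by
    have := Finset.sum_le_card_nsmul Finset.univ (fun b => ((φ b).1 : ℕ)) 9
      (fun b _ => by have := (φ b).1.2; omega)
    simpa using this
  rcases Nat.eq_zero_or_pos M with h | h
  · subst h; simp
  · obtain ⟨n, rfl⟩ : ∃ n, M = n + 1 := ⟨M - 1, by omega⟩
    rw [Nat.add_sub_cancel] at h1
    have h3 : (n + 1) * n ≤ 20 * (∑ b, ((φ b).2 : ℕ)) + 18 * (n + 1) := by omega
    have h4 : ((n : ℝ) + 1) * n ≤ 20 * ((∑ b, ((φ b).2 : ℕ) : ℕ) : ℝ) + 18 * (n + 1) := by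
      exact_mod_cast h3
    push_cast at h4 ⊢
    nlinarith

/-- Pseudo-division. Divide `g` by the largest coefficient `ε' ≥ ε` of `g.coeff 0`, put `s~ = Λ s` (all coefficients of `g`, `F a` in `s~` are
bounded). By Lagrange interpolation some `s0 ∈ {0, …, 10}` has `‖hev (g.coeff 0) 10 1 s0‖ ≥ c`.
In the coordinates `(v, w) = (x, y - s0 x)` the coefficient of `v^10` in `g` is
`α(s~) = hev2 g 10 1 s0 s`, `‖α(s~_b)‖ ≥ c/2`. Homogeneous pseudo-division:
`α^T F = Q g + ∑_{j<10} v^j w^(T-j) R_j(s~)` with bounded coefficients and degrees. Apply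
`det_le_abstract` to the monomials `v^j w^(T-j) s~^i`, `j < 10`: `M` distinct ones have
`∑ i ≥ M²/20 - M`. -/
theorem psd (M T Ks : ℕ) (hT : 10 ≤ T) (C0 : ℝ) (h0 : 1 ≤ C0) : ∃ C η : ℝ, 0 < C ∧ 0 < η ∧
    ∀ (F : Fin M → ℂ[X][X]) (g : ℂ[X][X]) (K Λ ε σ : ℝ) (x y s : Fin M → ℂ), 0 ≤ K → 1 ≤ Λ →
      0 < ε → 0 < σ → Λ * σ ≤ η →
      (∀ a, (F a).natDegree ≤ Ks ∧ (∀ i, ((F a).coeff i).natDegree ≤ T) ∧ CoLE (F a) K) →
      g.natDegree ≤ 2 → (∀ i, (g.coeff i).natDegree ≤ 10) → (∃ i, ε ≤ ‖(g.coeff 0).coeff i‖) →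
      CoLE g (Λ * ε) →
      (∀ b, ‖x b‖ ≤ C0 ∧ ‖y b‖ ≤ C0 ∧ ‖s b‖ ≤ σ ∧ hev2 g 10 (x b) (y b) (s b) = 0) →
      ‖(Matrix.of fun a b => hev2 (F a) T (x b) (y b) (s b)).det‖ ≤
        C * K ^ M * (Λ * σ) ^ ((M : ℝ) ^ 2 / 20 - M) := by
  classical
  obtain ⟨W, hW, hint⟩ := PSD_interp
  set A : ℝ := (330 * 20 ^ 10) ^ T with hA
  set B : ℝ := ((Ks + 1 : ℕ) : ℝ) * (((T + 1 : ℕ) : ℝ) * (((T + 1 : ℕ) : ℝ) * (20 ^ T * A))) with hB
  have hA0 : 0 < A := by positivity
  have hB0 : 0 < B := by positivity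
  refine ⟨(2 * W) ^ (T * M) * (((10 * (2 * T + Ks + 1) : ℕ) : ℝ) ^ M * M.factorial * B ^ M *
    (11 * C0) ^ (T * M)), min 1 (1 / (44 * 10 ^ 10 * W)), by positivity, by positivity, ?_⟩
  intro F g K Λ ε σ x y s hK hΛ hε hσ hη hF hg hgc hgε hgΛ hpt
  have hτ1 : Λ * σ ≤ 1 := hη.trans (min_le_left _ _)
  have hτ2 : Λ * σ ≤ 1 / (44 * 10 ^ 10 * W) := hη.trans (min_le_right _ _)
  have hΛ0 : 0 < Λ := by linarith
  have hτ0 : 0 < Λ * σ := by positivity
  -- the largest coefficient of `g.coeff 0`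
  obtain ⟨i0, hi0, hmax⟩ := Finset.exists_max_image (Finset.range 11)
    (fun i => ‖(g.coeff 0).coeff i‖) ⟨0, by simp⟩
  have hi0' : i0 ≤ 10 := by have := Finset.mem_range.1 hi0; omega
  set e : ℝ := ‖(g.coeff 0).coeff i0‖ with he
  have hεe : ε ≤ e := by
    obtain ⟨i, hi⟩ := hgε
    by_cases h : i ≤ 10
    · exact hi.trans (hmax i (Finset.mem_range.2 (by omega)))
    · rw [coeff_eq_zero_of_natDegree_lt (lt_of_le_of_lt (hgc 0) (by omega)), norm_zero] at hi
      linarith
  have he0 : 0 < e := by linarith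
  set G : ℕ → ℕ → ℂ := fun m i => (g.coeff m).coeff i / ((e : ℂ) * (Λ : ℂ) ^ m) with hGd
  have hGn : ∀ m i, ‖G m i‖ = ‖(g.coeff m).coeff i‖ / (e * Λ ^ m) := by
    intro m i
    simp only [hGd, norm_div, norm_mul, norm_pow, Complex.norm_real, Real.norm_eq_abs,
      abs_of_pos he0, abs_of_pos hΛ0]
  have hG : ∀ m i, i ≤ 10 → ‖G m i‖ ≤ 1 := by
    intro m i hi
    rw [hGn, div_le_one (by positivity)]
    rcases Nat.eq_zero_or_pos m with hm | hm
    · subst hm
      rw [pow_zero, mul_one]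
      exact hmax i (Finset.mem_range.2 (by omega))
    · refine (hgΛ m i).trans ?_
      have h1 : Λ ≤ Λ ^ m := le_self_pow₀ hΛ (by omega)
      rw [mul_comm]
      exact mul_le_mul hεe h1 hΛ0.le he0.le
  obtain ⟨s0, hs0, hs0W⟩ := hint (G 0) i0 hi0' (by
    rw [hGn, pow_zero, mul_one, ← he, div_self he0.ne'])
  set t : Fin M → ℂ := fun b => (Λ : ℂ) * s b with ht
  set w : Fin M → ℂ := fun b => y b - s0 * x b with hw
  have hy : ∀ b, y b = w b + s0 * x b := fun b => by simp only [hw]; ring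
  have htn : ∀ b, ‖t b‖ ≤ Λ * σ := by
    intro b
    simp only [ht, norm_mul, Complex.norm_real, Real.norm_eq_abs, abs_of_pos hΛ0]
    exact mul_le_mul_of_nonneg_left (hpt b).2.2.1 hΛ0.le
  have hΛc : (Λ : ℂ) ≠ 0 := by exact_mod_cast hΛ0.ne'
  have hec : (e : ℂ) ≠ 0 := by exact_mod_cast he0.ne'
  set α : Fin M → ℂ := fun b => ∑ m ∈ Finset.range 3, ∑ i ∈ Finset.range 11,
      G m i * (s0 : ℂ) ^ (10 - i) * t b ^ m with hα
  have hrel : ∀ b, ∑ m ∈ Finset.range 3, (∑ i ∈ Finset.range 11,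
      G m i * x b ^ i * (w b + s0 * x b) ^ (10 - i)) * t b ^ m = 0 := by
    intro b
    have h1 := (hpt b).2.2.2
    rw [PSD_hev2 g 2 10 hg] at h1
    have h2 := congrArg (fun z => z / (e : ℂ)) h1
    simp only [zero_div] at h2
    rw [← h2, ← hy b, Finset.sum_div]
    refine Finset.sum_congr rfl fun m _ => ?_
    rw [Finset.sum_mul, Finset.sum_mul, Finset.sum_div]
    refine Finset.sum_congr rfl fun i _ => ?_
    simp only [hGd, ht, mul_pow]
    field_simp
  have hs : ∀ N l, l ≤ N → ‖(s0 : ℂ) ^ l‖ ≤ 10 ^ N := by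
    intro N l hl
    rw [norm_pow, Complex.norm_natCast]
    calc (s0 : ℝ) ^ l ≤ 10 ^ l := pow_le_pow_left₀ (by positivity) (by exact_mod_cast hs0) l
      _ ≤ 10 ^ N := pow_le_pow_right₀ (by norm_num) hl
  -- lower bound for `α`
  have hαl : ∀ b, 1 ≤ 2 * W * ‖α b‖ := by
    intro b
    have hin : ∀ m, ‖∑ i ∈ Finset.range 11, G m i * (s0 : ℂ) ^ (10 - i)‖ ≤ 11 * 10 ^ 10 := by
      intro m
      refine (norm_sum_le _ _).trans ?_
      have := Finset.sum_le_card_nsmul (Finset.range 11)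
        (fun i => ‖G m i * (s0 : ℂ) ^ (10 - i)‖) (10 ^ 10) (fun i hi => by
          have hi' := Finset.mem_range.1 hi
          rw [norm_mul]
          calc _ ≤ 1 * (10 : ℝ) ^ 10 :=
                mul_le_mul (hG m i (by omega)) (hs 10 _ (by omega)) (norm_nonneg _) zero_le_one
            _ = _ := one_mul _)
      rw [Finset.card_range, nsmul_eq_mul] at this
      exact_mod_cast this
    have e1 : (∑ i ∈ Finset.range 11, G 0 i * (s0 : ℂ) ^ (10 - i)) = α b -
        (∑ i ∈ Finset.range 11, G 1 i * (s0 : ℂ) ^ (10 - i)) * t b -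
        (∑ i ∈ Finset.range 11, G 2 i * (s0 : ℂ) ^ (10 - i)) * t b ^ 2 := by
      simp only [hα, ← Finset.sum_mul]
      rw [Finset.sum_range_succ _ 2, Finset.sum_range_succ _ 1, Finset.sum_range_one]
      ring
    have h1 : ‖(∑ i ∈ Finset.range 11, G 1 i * (s0 : ℂ) ^ (10 - i)) * t b‖ ≤
        11 * 10 ^ 10 * (Λ * σ) := by
      rw [norm_mul]
      exact mul_le_mul (hin 1) (htn b) (norm_nonneg _) (by positivity)
    have h2 : ‖(∑ i ∈ Finset.range 11, G 2 i * (s0 : ℂ) ^ (10 - i)) * t b ^ 2‖ ≤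
        11 * 10 ^ 10 * (Λ * σ) := by
      rw [norm_mul, norm_pow]
      refine mul_le_mul (hin 2) ?_ (by positivity) (by positivity)
      have := htn b
      have := norm_nonneg (t b)
      nlinarith
    have h3 : ‖∑ i ∈ Finset.range 11, G 0 i * (s0 : ℂ) ^ (10 - i)‖ ≤
        ‖α b‖ + 22 * 10 ^ 10 * (Λ * σ) := by
      rw [e1]
      refine (norm_sub_le _ _).trans ?_
      have := norm_sub_le (α b) ((∑ i ∈ Finset.range 11, G 1 i * (s0 : ℂ) ^ (10 - i)) * t b)
      linarith
    have h4 : W * (22 * 10 ^ 10 * (Λ * σ)) ≤ 1 / 2 := by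
      rw [le_div_iff₀ (by positivity)] at hτ2
      nlinarith
    have h5 := mul_le_mul_of_nonneg_left h3 hW.le
    nlinarith
  have hred := PSD_red (T := T) (v := x) (w := w) (t := t) α G hG s0 hs0 (fun b => rfl) hrel T
  -- representation of the rows
  have hrep : ∀ a, PSD_Rep T x w t (2 * T + Ks) (B * K)
      (fun b => α b ^ T * hev2 (F a) T (x b) (y b) (s b)) := by
    intro a
    have h2 := PSD_Rep.sum_range (T := T) (v := x) (w := w) (t := t) (D := 2 * T + Ks)
      (B := ((T + 1 : ℕ) : ℝ) * (((T + 1 : ℕ) : ℝ) * ((K * 20 ^ T) * A))) (by positivity)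
      (Ks + 1) (Ks + 1) le_rfl
      (fun m b => ∑ i ∈ Finset.range (T + 1), ∑ l ∈ Finset.range (T - i + 1),
        (((F a).coeff m).coeff i / (Λ : ℂ) ^ m * (s0 : ℂ) ^ l * ((T - i).choose l : ℂ)) *
        (t b ^ m * (α b ^ T * (x b ^ (i + l) * w b ^ (T - (i + l)))))) (fun m hm => by
          refine PSD_Rep.sum_range (by positivity) (T + 1) (T + 1) le_rfl _ fun i hi => ?_
          refine PSD_Rep.sum_range (by positivity) (T - i + 1) (T + 1) (by omega) _ fun l hl => ?_
          refine (((hred (i + l) (by omega) (by omega)).mul_t_pow m).monoD (by omega)).smul _ ?_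
          rw [norm_mul, norm_mul, Complex.norm_natCast]
          have hc : (((T - i).choose l : ℕ) : ℝ) ≤ 2 ^ T := by
            have h3 : (T - i).choose l ≤ 2 ^ (T - i) := Nat.choose_le_two_pow _ _
            have h4 : 2 ^ (T - i) ≤ 2 ^ T := Nat.pow_le_pow_right (by norm_num) (by omega)
            exact_mod_cast h3.trans h4
          have hq : ‖((F a).coeff m).coeff i / (Λ : ℂ) ^ m‖ ≤ K := by
            rw [norm_div, norm_pow, Complex.norm_real, Real.norm_eq_abs, abs_of_pos hΛ0]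
            exact (div_le_self (norm_nonneg _) (one_le_pow₀ hΛ)).trans ((hF a).2.2 m i)
          calc _ ≤ K * (10 : ℝ) ^ T * 2 ^ T :=
                mul_le_mul (mul_le_mul hq (hs T _ (by omega)) (norm_nonneg _) hK) hc
                  (by positivity) (by positivity)
            _ = _ := by rw [mul_assoc, ← mul_pow]; norm_num)
    refine (h2.congr fun b => ?_).monoB (le_of_eq (by rw [hB]; ring))
    rw [PSD_hev2 (F a) Ks T (hF a).1, Finset.mul_sum]
    refine Finset.sum_congr rfl fun m _ => ?_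
    rw [Finset.sum_mul, Finset.mul_sum]
    refine Finset.sum_congr rfl fun i hi => ?_
    rw [hy b, add_comm (w b), add_pow, Finset.mul_sum, Finset.sum_mul, Finset.mul_sum]
    refine Finset.sum_congr rfl fun l hl => ?_
    have e2 : T - (i + l) = T - i - l := by omega
    rw [e2, pow_add, mul_pow]
    simp only [ht, mul_pow]
    field_simp
  choose c hc hcf using hrep
  have hwn : ∀ b, ‖w b‖ ≤ 11 * C0 := by
    intro b
    refine (norm_sub_le _ _).trans ?_
    rw [norm_mul, Complex.norm_natCast]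
    have h1 : (s0 : ℝ) ≤ 10 := by exact_mod_cast hs0
    have h2 := (hpt b).1
    have h3 := (hpt b).2.1
    have h4 : (s0 : ℝ) * ‖x b‖ ≤ 10 * C0 := mul_le_mul h1 h2 (norm_nonneg _) (by norm_num)
    linarith
  have hdet := det_le_abstract (ι := Fin M) (μ := Fin 10 × Fin (2 * T + Ks + 1))
    (fun a m => c a m.1 m.2) (fun m b => x b ^ (m.1 : ℕ) * w b ^ (T - m.1) * t b ^ (m.2 : ℕ))
    (B * K) ((11 * C0) ^ (T * M) * (Λ * σ) ^ ((M : ℝ) ^ 2 / 20 - M)) (by positivity)
    (by positivity) (fun a m => hc a _ _) (fun φ hφ _ => by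
      have h1 : ∀ b, ‖x b ^ ((φ b).1 : ℕ) * w b ^ (T - (φ b).1) * t b ^ ((φ b).2 : ℕ)‖ ≤
          (11 * C0) ^ T * (Λ * σ) ^ ((φ b).2 : ℕ) := by
        intro b
        rw [norm_mul, norm_mul, norm_pow, norm_pow, norm_pow]
        refine mul_le_mul ?_ (pow_le_pow_left₀ (norm_nonneg _) (htn b) _) (by positivity)
          (by positivity)
        have e1 : T = ((φ b).1 : ℕ) + (T - (φ b).1) := by have := (φ b).1.2; omega
        conv_rhs => rw [e1, pow_add]
        refine mul_le_mul (pow_le_pow_left₀ (norm_nonneg _) ?_ _)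
          (pow_le_pow_left₀ (norm_nonneg _) (hwn b) _) (by positivity) (by positivity)
        have := (hpt b).1
        linarith
      refine (Finset.prod_le_prod (fun b _ => norm_nonneg _) (fun b _ => h1 b)).trans ?_
      rw [Finset.prod_mul_distrib, Finset.prod_const, Finset.card_univ, Fintype.card_fin,
        ← pow_mul, Finset.prod_pow_eq_pow_sum]
      refine mul_le_mul_of_nonneg_left ?_ (by positivity)
      rw [← Real.rpow_natCast]
      exact Real.rpow_le_rpow_of_exponent_ge hτ0 hτ1 (PSD_count φ hφ))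
  have hmat : (Matrix.of fun a b => ∑ m : Fin 10 × Fin (2 * T + Ks + 1), c a m.1 m.2 *
      (x b ^ (m.1 : ℕ) * w b ^ (T - m.1) * t b ^ (m.2 : ℕ))) =
      Matrix.of fun a b => α b ^ T * (Matrix.of fun a b => hev2 (F a) T (x b) (y b) (s b)) a b := by
    ext a b
    simp only [Matrix.of_apply]
    refine Eq.trans ?_ (hcf a b).symm
    rw [Fintype.sum_prod_type, Finset.sum_range]
    refine Finset.sum_congr rfl fun j _ => ?_
    rw [Finset.sum_range]
  rw [hmat, Matrix.det_mul_row, norm_mul, norm_prod, Fintype.card_prod, Fintype.card_fin,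
    Fintype.card_fin, Fintype.card_fin] at hdet
  have hlow : 1 ≤ (2 * W) ^ (T * M) * ∏ b, ‖α b ^ T‖ := by
    have e1 : (2 * W) ^ (T * M) * ∏ b, ‖α b ^ T‖ = ∏ b, (2 * W * ‖α b‖) ^ T := by
      simp only [mul_pow (2 * W), Finset.prod_mul_distrib, Finset.prod_const, Finset.card_univ,
        Fintype.card_fin, ← pow_mul, norm_pow]
    rw [e1]
    exact Finset.prod_induction _ (fun z : ℝ => 1 ≤ z) (fun a b ha hb => one_le_mul_of_one_le_of_one_le ha hb)
      le_rfl (fun b _ => one_le_pow₀ (hαl b))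
  calc _ ≤ ((2 * W) ^ (T * M) * ∏ b, ‖α b ^ T‖) *
        ‖(Matrix.of fun a b => hev2 (F a) T (x b) (y b) (s b)).det‖ :=
        le_mul_of_one_le_left (norm_nonneg _) hlow
    _ = (2 * W) ^ (T * M) * ((∏ b, ‖α b ^ T‖) *
        ‖(Matrix.of fun a b => hev2 (F a) T (x b) (y b) (s b)).det‖) := mul_assoc _ _ _
    _ ≤ (2 * W) ^ (T * M) * _ := mul_le_mul_of_nonneg_left hdet (by positivity)
    _ = _ := by rw [mul_pow B K]; ring

end Crest.Agent.R22
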