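import Crest.Agent.R22.NH
import Crest.Agent.R22.PSD
import Crest.Agent.R22.NHdetAux

set_option autoImplicit false
open Polynomial IntermediateField

namespace Crest.Agent.R22

variable {d : ℕ}

theorem NHdet_quad {g : ℂ[X][X]} (h : g.natDegree ≤ 2) :
    g = monomial 0 (g.coeff 0) + monomial 1 (g.coeff 1) + monomial 2 (g.coeff 2) := by
  conv_lhs => rw [g.as_sum_range' 3 (by omega)]
  simp only [Finset.sum_range_succ, Finset.range_zero, Finset.sum_empty, zero_add]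

theorem NHdet_taylor (p0 p1 p2 : ℂ[X]) (a : ℂ) :
    (taylor (C a) (monomial 0 p0 + monomial 1 p1 + monomial 2 p2 : ℂ[X][X])).coeff 0 =
      p0 + C a * p1 + C (a ^ 2) * p2 ∧
    (taylor (C a) (monomial 0 p0 + monomial 1 p1 + monomial 2 p2 : ℂ[X][X])).coeff 1 =
      p1 + C (2 * a) * p2 := by
  rw [taylor_coeff_zero, taylor_coeff_one]
  simp only [map_add, derivative_monomial, eval_add, eval_monomial, map_pow, map_mul]
  constructor
  · ring
  · have : (C (2 : ℂ) : ℂ[X]) = 2 := rfl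
    rw [this]
    push_cast
    ring

theorem NHdet_mono3 {p0 p1 p2 : ℂ[X]} (P : ℂ[X] → Prop) (h : P 0) (h0 : P p0) (h1 : P p1)
    (h2 : P p2) (i : ℕ) :
    P ((monomial 0 p0 + monomial 1 p1 + monomial 2 p2 : ℂ[X][X]).coeff i) := by
  rcases i with _ | _ | _ | i <;> simpa [coeff_monomial]

theorem NHdet_deg3 (p0 p1 p2 : ℂ[X]) :
    (monomial 0 p0 + monomial 1 p1 + monomial 2 p2 : ℂ[X][X]).natDegree ≤ 2 :=
  natDegree_add_le_of_degree_le (natDegree_add_le_of_degree_le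
    ((natDegree_monomial_le _).trans (by norm_num)) ((natDegree_monomial_le _).trans (by norm_num)))
    (natDegree_monomial_le _)

/-- The curve in the normalised coordinates. -/
theorem NHdet_curve (th : Fin 4 → ℂ) (hth : Function.Injective th) (C1 : ℝ) (h1 : 1 ≤ C1) :
    ∃ C2 : ℝ, 1 ≤ C2 ∧ ∀ (δ : ℝ) (u v s : ℂ) (sa sb z : Fin 4 → ℂ) (gh : ℂ[X][X]), 0 < δ → δ ≤ 1 →
      u ≠ 0 → v ≠ 0 → (∀ j, sa j ≠ 0) →
      (∀ j, (sa j * u + sb j * (v * s)) * z j + sb j * v = 0) → (∀ j, ‖z j‖ ≤ C1) →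
      (∀ i j, i ≠ j → δ ≤ ‖z i - z j‖) → gh ≠ 0 → gh.natDegree ≤ 2 →
      (∀ i, (gh.coeff i).natDegree ≤ 10) →
      (∀ j, WOrd gh (C (sa j) * X + C (sb j)) (th j) 2 4) →
      ∃ (g : ℂ[X][X]) (ε : ℝ), 0 < ε ∧ g.natDegree ≤ 2 ∧ (∀ i, (g.coeff i).natDegree ≤ 10) ∧
        (∃ i, ε ≤ ‖(g.coeff 0).coeff i‖) ∧ CoLE g (C2 / δ ^ 12 * ε) ∧
        ∀ x y n : ℂ, n ≠ 0 → hev2 gh 10 (u * x) (v * (y + s * x)) n = 0 →
          hev2 g 10 x y (1 / n) = 0 := by
  obtain ⟨C2, hC2, hnh⟩ := nh th hth C1 h1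
  refine ⟨C2, hC2, fun δ u v s sa sb z gh hδ hδ1 hu hv hsa hz hz1 hz2 hg hd hd' hW => ?_⟩
  set T := NHdet_T 10 u v s with hT
  have Tadd : ∀ p q, T (p + q) = T p + T q := fun p q => NHdet_hev_add p q _ _ _
  have Tmul : ∀ a p, T (C a * p) = C a * T p := fun a p => NHdet_hev_C_mul a p _ _ _
  have Td : ∀ p, (T p).natDegree ≤ 10 := NHdet_T_deg 10 u v s
  obtain ⟨i0, -, hi0⟩ := Finset.exists_max_image (Finset.range 11)
    (fun i => ‖(T (gh.coeff 2)).coeff i‖) ⟨0, by simp⟩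
  have hε : ∀ i, ‖(T (gh.coeff 2)).coeff i‖ ≤ ‖(T (gh.coeff 2)).coeff i0‖ := fun i => by
    by_cases hi : i < 11
    · exact hi0 i (Finset.mem_range.2 hi)
    · rw [coeff_eq_zero_of_natDegree_lt (by have := Td (gh.coeff 2); omega), norm_zero]
      exact norm_nonneg _
  set ε := ‖(T (gh.coeff 2)).coeff i0‖
  have hco := hnh δ ε z (monomial 0 (T (gh.coeff 0)) + monomial 1 (T (gh.coeff 1)) +
    monomial 2 (T (gh.coeff 2))) hδ hδ1 hz1 hz2 (NHdet_deg3 _ _ _)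
    (NHdet_mono3 (fun p => p.natDegree ≤ 10) (by simp) (Td _) (Td _) (Td _)) (fun j i => ?_)
    (by simpa [coeff_monomial] using hε)
  · have c0 : ∀ i, ‖(T (gh.coeff 0)).coeff i‖ ≤ C2 / δ ^ 12 * ε := fun i => by
      simpa [coeff_monomial, div_mul_eq_mul_div] using hco 0 i
    have c1 : ∀ i, ‖(T (gh.coeff 1)).coeff i‖ ≤ C2 / δ ^ 12 * ε := fun i => by
      simpa [coeff_monomial, div_mul_eq_mul_div] using hco 1 i
    have c2 : ∀ i, ‖(T (gh.coeff 2)).coeff i‖ ≤ C2 / δ ^ 12 * ε := fun i => by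
      simpa [coeff_monomial, div_mul_eq_mul_div] using hco 2 i
    have ε0 : 0 < ε := by
      refine lt_of_le_of_ne (norm_nonneg _) fun h => hg ?_
      have z0 : ∀ p : ℂ[X], p.natDegree ≤ 10 → (∀ i, ‖(T p).coeff i‖ ≤ C2 / δ ^ 12 * ε) → p = 0 :=
        fun p hp hb => NHdet_T_eq_zero hu hv hp (Polynomial.ext fun i => by
          have := hb i
          rw [← h, mul_zero] at this
          simpa using this)
      rw [NHdet_quad hd, z0 _ (hd' 0) c0, z0 _ (hd' 1) c1, z0 _ (hd' 2) c2]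
      simp
    refine ⟨monomial 0 (T (gh.coeff 2)) + monomial 1 (T (gh.coeff 1)) +
      monomial 2 (T (gh.coeff 0)), ε, ε0, NHdet_deg3 _ _ _,
      NHdet_mono3 (fun p => p.natDegree ≤ 10) (by simp) (Td _) (Td _) (Td _),
      ⟨i0, by simp [coeff_monomial, ε]⟩,
      NHdet_mono3 (fun p => ∀ i, ‖p.coeff i‖ ≤ C2 / δ ^ 12 * ε)
        (fun i => by simpa using (norm_nonneg _).trans (c0 0)) c2 c1 c0, fun x y n hn h => ?_⟩
    rw [NHdet_quad hd] at h
    simp only [NHdet_hev2_add, NHdet_hev2_monomial, hT, NHdet_hev_T] at h ⊢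
    generalize v * (y + s * x) = y' at h ⊢
    generalize u * x = x' at h ⊢
    field_simp
    linear_combination h
  · have hw := hW j
    rw [WOrd, NHdet_quad hd] at hw
    obtain ⟨t0, t1⟩ := NHdet_taylor (gh.coeff 0) (gh.coeff 1) (gh.coeff 2) (th j)
    obtain ⟨t0', t1'⟩ := NHdet_taylor (T (gh.coeff 0)) (T (gh.coeff 1)) (T (gh.coeff 2)) (th j)
    have dm : ∀ a i, (C a * gh.coeff i).natDegree ≤ 10 :=
      fun a i => (natDegree_C_mul_le _ _).trans (hd' i)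
    rcases i with _ | _ | i
    · have := hw 0
      rw [t0] at this
      rw [t0', ← Tmul, ← Tmul, ← Tadd, ← Tadd]
      exact NHdet_T_dvd (hsa j) (hz j) (by norm_num) (natDegree_add_le_of_degree_le
        (natDegree_add_le_of_degree_le (hd' 0) (dm _ _)) (dm _ _)) this
    · have := hw 1
      rw [t1] at this
      rw [zero_add, t1', ← Tmul, ← Tadd]
      exact NHdet_T_dvd (hsa j) (hz j) (by norm_num)
        (natDegree_add_le_of_degree_le (hd' 1) (dm _ _)) this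
    · rw [show 4 - 2 * (i + 1 + 1) = 0 by omega, pow_zero]
      exact one_dvd _

/-- The entries of the matrix in the normalised coordinates. -/
theorem NHdet_entry (c : Ctx 4) (P : LPt c 2) (r : Row 4) {a c0 : ℕ} (hr : r.Ok a 1 c0 2 0)
    {B u v s0 x y : ℂ} (lam : Fin 4 → ℂ) (hB : B ≠ 0) (hn : (P.n : ℂ) ≠ 0) (hl : ∀ j, lam j ≠ 0)
    (hbe : ∀ j, c.sg j P.be = B * lam j) (hx : (P.x : ℂ) = B * u * x)
    (hy : (P.y : ℂ) = B * v * (y + s0 * x)) :
    ((r.ev c0 2 P.mu P.x P.y : ℤ) : ℂ) = ((B * u) ^ r.j * (B * v) ^ (c0 - r.j)) *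
      ((P.cc * P.n / (B ^ 2 * ∏ m, lam m ^ 2)) ^ a *
      ((∏ l, (∑ j, (Matrix.vandermonde c.th)⁻¹ l j * ((1 + -c.th j * (1 / P.n)) *
        ∏ m ∈ Finset.univ.erase j, lam m ^ 2)) ^ r.al l) *
        (x ^ r.j * (y + s0 * x) ^ (c0 - r.j)))) := by
  obtain ⟨h1, -, h3⟩ := hr
  have h0 : r.lv = 0 := by omega
  rw [h0, mul_zero, add_zero] at h1
  have hmu : ∀ l, (P.mu l : ℂ) = P.cc * P.n / (B ^ 2 * ∏ m, lam m ^ 2) *
      ∑ j, (Matrix.vandermonde c.th)⁻¹ l j * ((1 + -c.th j * (1 / P.n)) *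
        ∏ m ∈ Finset.univ.erase j, lam m ^ 2) := fun l => by
    rw [← co_sg c P.mu l, Ctx.co, Finset.mul_sum]
    refine Finset.sum_congr rfl fun j _ => ?_
    have h := P.rel j
    have hj := hl j
    have hp : ∏ m ∈ Finset.univ.erase j, lam m ^ 2 ≠ 0 :=
      Finset.prod_ne_zero_iff.2 fun m _ => pow_ne_zero _ (hl m)
    rw [hbe, ← eq_div_iff (pow_ne_zero _ (mul_ne_zero hB hj))] at h
    rw [h, ← Finset.mul_prod_erase _ _ (Finset.mem_univ j), smul_eq_mul]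
    field_simp
    ring
  simp only [Row.ev, h0, mul_zero, add_zero]
  push_cast
  simp only [hmu, mul_pow _ _ (r.al _), Finset.prod_mul_distrib, Finset.prod_pow_eq_pow_sum, h1,
    hx, hy, mul_pow (B * u), mul_pow (B * v)]
  ring

theorem NHdet_hev2_eval {g : ℂ[X][X]} {N : ℕ} (hg : ∀ i, (g.coeff i).natDegree ≤ N) (x n : ℂ)
    {y : ℂ} (hy : y ≠ 0) : hev2 g N x y n = y ^ N * g.evalEval (x / y) n := by
  rw [hev2, evalEval, eval_eq_sum (p := g), Polynomial.sum, eval_finsetSum, Finset.mul_sum]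
  refine Finset.sum_congr rfl fun i _ => ?_
  rw [hev_eq_eval _ N (hg i) x y hy]
  simp [mul_assoc]

/-- Real determinant on a non-hugging curve. Normalise `x~ = x G1/B`, `y~ = y G2/B`,
`β_j = B (a_j x~ + b_j y~)`, `a_j = σ_j(b1)/G1`, `b_j = σ_j(b2)/G2`, `max(|a_j|,|b_j|) ≥ 1/C` (there
is a point). Choose `s0 ∈ {0,…,4}` with all `|a_j + s0 b_j| ≥ 1/C` and use `(x', y') =
(x~, y~ - s0 x~)`: `β_j = B a_j' (x' - z_j y')`, `|z_j| ≤ C`, `|z_i - z_j| ≥ δ/C`. The change of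
variables on forms of degree `10` is `p ↦ hev p 10 (X/G1) ((1 + s0 X)/G2)` applied to the coefficients
(it commutes with `taylor` and preserves `WOrd`, use `hev_mul`). `nh` bounds the new `gh` by its top
coefficient (which is therefore nonzero); reverse it (`s = 1/n`) and apply `psd` with
`Λ = C δ⁻¹²`, `σ = 1/X`. A row times `(∏_l β_l/B)^(2a) (B²/(cc n))^a` and divided by
`(B/G1)^j (B/G2)^(c0-j)` is `hev2` of a polynomial with bounded coefficients of inner degree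
`T = 6a + c0` (`μ_l = ∑_j w_{lj} cc n (1 - θ_j s)/β_j²`). -/
theorem nhdet (c : Ctx 4) (C0 : ℝ) (h0 : 1 ≤ C0) (a c0 M : ℕ) (hT : 10 ≤ 6 * a + c0) :
    ∃ C η : ℝ, 0 < C ∧ 0 < η ∧ ∀ (X B G1 G2 δ : ℝ) (b1 b2 : Fin 4 → ℤ) (gh : ℂ[X][X])
      (ρ : Fin M → Row 4) (z : Fin M → LPt c 2), 1 ≤ X → 1 ≤ B → 0 < δ → δ ≤ 1 →
      1 / δ ^ 12 / X ≤ η → LH b1 b2 G1 G2 → (∀ i j, i ≠ j → δ * (G1 * G2) ≤ ‖c.pl b1 b2 i j‖) →
      gh ≠ 0 → gh.natDegree ≤ 2 → (∀ i, (gh.coeff i).natDegree ≤ 10) →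
      (∀ j, WOrd gh (c.lin b1 b2 j) (c.th j) 2 4) → (∀ i, (ρ i).Ok a 1 c0 2 0) →
      (∀ b, OnB C0 X B G1 G2 b1 b2 (z b) ∧ (z b).y ≠ 0 ∧
        gh.evalEval (((z b).x : ℂ) / (z b).y) ((z b).n : ℂ) = 0) →
      |(((Matrix.of fun i b => (ρ i).ev c0 2 (z b).mu (z b).x (z b).y).det : ℤ) : ℝ)| ≤
        C * (X / B ^ 2) ^ (a * M) * B ^ (c0 * M) * (1 / δ ^ 12 / X) ^ ((M : ℝ) ^ 2 / 20 - M) := by
  rcases Nat.eq_zero_or_pos M with rfl | hM
  · exact ⟨1, 1, one_pos, one_pos, fun X B G1 G2 δ b1 b2 gh ρ z _ _ _ _ _ _ _ _ _ _ _ _ _ => by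
      simp⟩
  obtain ⟨Cn, hCn, hth, hw, hsg⟩ := norm_equiv c
  obtain ⟨C2, hC2, hcur⟩ := NHdet_curve c.th c.inj (22 * Cn * C0 ^ 2)
    (by nlinarith [one_le_pow₀ (n := 2) h0])
  obtain ⟨C3, η, hC3, hη, hpsd⟩ := psd M (6 * a + c0) a hT (5 * C0) (by linarith)
  set K : ℝ := (4 * (Cn * (1 + Cn) * (12 * Cn) ^ 6)) ^ a * 5 ^ c0 with hK
  set Λ0 : ℝ := C2 * (100 * Cn ^ 2) ^ 12 with hΛ0
  have hK0 : 0 < K := by positivity
  have hΛ : 0 < Λ0 := by positivity
  refine ⟨(2 * C0 ^ 10) ^ (a * M) * (C3 * K ^ M * Λ0 ^ ((M : ℝ) ^ 2 / 20 - M)), η / Λ0,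
    by positivity, by positivity,
    fun X B G1 G2 δ b1 b2 gh ρ z hX hB hδ hδ1 hτ hL hpl hg hd hd' hW hρ hz => ?_⟩
  have g1 := hL.g1
  have g2 := hL.g2
  have hB0 : (B : ℂ) ≠ 0 := by exact_mod_cast (by linarith : B ≠ 0)
  have hG1 : (G1 : ℂ) ≠ 0 := by exact_mod_cast (by linarith : G1 ≠ 0)
  have hG2 : (G2 : ℂ) ≠ 0 := by exact_mod_cast (by linarith : G2 ≠ 0)
  have nR : ∀ {t : ℝ}, 1 ≤ t → ‖(t : ℂ)‖ = t := fun h => by
    rw [Complex.norm_real, Real.norm_of_nonneg (by linarith)]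
  set al0 : Fin 4 → ℂ := fun j => c.sg j b1 / G1 with hal0
  set be : Fin 4 → ℂ := fun j => c.sg j b2 / G2 with hbe
  set x : Fin M → ℂ := fun b => (z b).x * G1 / B with hx
  set y0 : Fin M → ℂ := fun b => (z b).y * G2 / B with hy0
  have nal0 : ∀ j, ‖al0 j‖ ≤ 2 * Cn := fun j => by
    rw [hal0, norm_div, nR g1, div_le_iff₀ (by linarith)]
    nlinarith [(hsg b1).1 j, hL.u1]
  have nbe : ∀ j, ‖be j‖ ≤ 2 * Cn := fun j => by
    rw [hbe, norm_div, nR g2, div_le_iff₀ (by linarith)]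
    nlinarith [(hsg b2).1 j, hL.u2]
  have nx : ∀ b, ‖x b‖ ≤ C0 := fun b => by
    rw [hx, norm_div, norm_mul, nR g1, nR hB, Complex.norm_intCast, div_le_iff₀ (by linarith),
      ← le_div_iff₀ (by linarith)]
    exact (hz b).1.hx
  have ny0 : ∀ b, ‖y0 b‖ ≤ C0 := fun b => by
    rw [hy0, norm_div, norm_mul, nR g2, nR hB, Complex.norm_intCast, div_le_iff₀ (by linarith),
      ← le_div_iff₀ (by linarith)]
    exact (hz b).1.hy
  have hβ : ∀ b j, c.sg j (z b).be = B * (al0 j * x b + be j * y0 b) := fun b j => by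
    rw [(hz b).1.eq, sg_add, sg_smul, sg_smul]
    simp only [hal0, hbe, hx, hy0]
    field_simp
  have nlam : ∀ b j, 1 / C0 ≤ ‖al0 j * x b + be j * y0 b‖ := fun b j => by
    have := (hz b).1.sz.be1 j
    rw [hβ, norm_mul, nR hB, div_eq_mul_one_div] at this
    exact le_of_mul_le_mul_left this (by linarith)
  obtain ⟨s5, hs5⟩ := NHdet_shear (η := 1 / (11 * C0 ^ 2)) al0 be fun j => by
    have h1 := (nlam ⟨0, hM⟩ j).trans (norm_add_le _ _)
    rw [norm_mul, norm_mul, div_le_iff₀ (by linarith)] at h1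
    rw [mul_one_div, div_le_iff₀ (by positivity)]
    nlinarith [mul_le_mul_of_nonneg_left (nx ⟨0, hM⟩) (norm_nonneg (al0 j)),
      mul_le_mul_of_nonneg_left (ny0 ⟨0, hM⟩) (norm_nonneg (be j))]
  set s0 : ℂ := ((s5 : ℕ) : ℂ) with hs0
  have ns0 : ‖s0‖ ≤ 4 := by
    rw [hs0, Complex.norm_natCast]
    exact_mod_cast Nat.lt_succ_iff.1 s5.2
  set al : Fin 4 → ℂ := fun j => al0 j + be j * s0 with hal
  set y : Fin M → ℂ := fun b => y0 b - s0 * x b with hy
  have nal : ∀ j, ‖al j‖ ≤ 10 * Cn := fun j => by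
    refine (norm_add_le _ _).trans ?_
    rw [norm_mul]
    nlinarith [nal0 j, mul_le_mul (nbe j) ns0 (norm_nonneg _) (by linarith)]
  have al_pos : ∀ j, 0 < ‖al j‖ := fun j => lt_of_lt_of_le (by positivity) (hs5 j)
  have al_ne : ∀ j, al j ≠ 0 := fun j => norm_pos_iff.1 (al_pos j)
  have hlam : ∀ b j, al j * x b + be j * y b = al0 j * x b + be j * y0 b := fun b j => by
    simp only [hal, hy]
    ring
  have hδ' : δ / (100 * Cn ^ 2) ≤ 1 :=
    (div_le_one (by positivity)).2 (by nlinarith [one_le_pow₀ (n := 2) hCn])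
  obtain ⟨g, ε, hε, gd, gd', gε, gco, gz⟩ := hcur (δ / (100 * Cn ^ 2)) (1 / G1) (1 / G2) s0
    (fun j => c.sg j b1) (fun j => c.sg j b2) (fun j => -be j / al j) gh (by positivity) hδ'
    (one_div_ne_zero hG1) (one_div_ne_zero hG2) (fun j => sg_ne_zero c j hL.line.ne)
    (fun j => by
      have e : c.sg j b1 * (1 / G1) + c.sg j b2 * (1 / G2 * s0) = al j := by
        simp only [hal, hal0, hbe]
        ring
      rw [e, mul_div_cancel₀ _ (al_ne j), mul_one_div, neg_add_cancel])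
    (fun j => by
      rw [norm_div, norm_neg, div_le_iff₀ (al_pos j)]
      have := hs5 j
      rw [div_le_iff₀ (by positivity)] at this
      nlinarith [nbe j, mul_le_mul_of_nonneg_left this (by linarith : 0 ≤ 2 * Cn)])
    (fun i j hij => by
      have e : -be i / al i - -be j / al j = c.pl b1 b2 i j / (G1 * G2) / (al i * al j) := by
        have := al_ne i
        have := al_ne j
        rw [div_sub_div _ _ (al_ne i) (al_ne j)]
        congr 1
        simp only [hal, hal0, hbe, Ctx.pl]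
        field_simp
        ring
      rw [e, norm_div, norm_div, norm_mul, norm_mul, nR g1, nR g2]
      refine div_le_div₀ (by positivity) ((le_div_iff₀ (by positivity)).2 (hpl i j hij))
        (mul_pos (al_pos i) (al_pos j)) ?_
      nlinarith [mul_le_mul (nal i) (nal j) (norm_nonneg _) (by linarith)])
    hg hd hd' hW
  choose F hF hFv using fun i => (NHdet_row hCn c.th al be
    (fun l j => (Matrix.vandermonde c.th)⁻¹ l j) s0 hth hw (fun j => by linarith [nal j, nbe j])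
    ns0 (a := a) (c0 := c0) (j0 := (ρ i).j) (ρ i).al
    (by have := (hρ i).1; have := (hρ i).2.2; omega)
    (by have := (hρ i).2.1; have := (hρ i).2.2; omega)).out
  have hn : ∀ b, X ≤ ‖((z b).n : ℂ)‖ ∧ ‖((z b).n : ℂ)‖ ≤ 2 * X := fun b => by
    have := (hz b).1.sz.n1
    rw [Complex.norm_intCast, abs_of_nonneg (by linarith)]
    exact ⟨this, (hz b).1.sz.n2⟩
  have hn0 : ∀ b, ((z b).n : ℂ) ≠ 0 := fun b => norm_pos_iff.1 (by linarith [(hn b).1])
  have eΛ : C2 / (δ / (100 * Cn ^ 2)) ^ 12 * (1 / X) = Λ0 * (1 / δ ^ 12 / X) := by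
    rw [hΛ0]
    field_simp
  have hdet := hpsd F g K (C2 / (δ / (100 * Cn ^ 2)) ^ 12) ε (1 / X) x y
    (fun b => 1 / ((z b).n : ℂ)) hK0.le
    (hC2.trans (le_div_self (by linarith) (by positivity) (pow_le_one₀ (by positivity) hδ')))
    hε (by positivity) (by rwa [eΛ, ← le_div_iff₀' hΛ]) hF gd gd' gε gco fun b => by
      refine ⟨by linarith [nx b], ?_, ?_, gz _ _ _ (hn0 b) ?_⟩
      · refine (norm_sub_le _ _).trans ?_
        rw [norm_mul]
        nlinarith [ny0 b, mul_le_mul ns0 (nx b) (norm_nonneg _) (by norm_num)]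
      · rw [norm_div, norm_one]
        exact one_div_le_one_div_of_le (by linarith) (hn b).1
      · have hy' : ((z b).y : ℂ) ≠ 0 := by exact_mod_cast (hz b).2.1
        have e1 : 1 / (G1 : ℂ) * x b = (z b).x / B := by simp only [hx]; field_simp
        have e2 : 1 / (G2 : ℂ) * (y b + s0 * x b) = (z b).y / B := by
          simp only [hy, sub_add_cancel, hy0]; field_simp
        rw [e1, e2, NHdet_hev2_eval hd' _ _ (div_ne_zero hy' hB0),
          div_div_div_cancel_right₀ hB0, (hz b).2.2, mul_zero]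
  set q : Fin M → ℂ := fun b =>
    ((z b).cc * (z b).n / (B ^ 2 * ∏ m, (al m * x b + be m * y b) ^ 2)) ^ a with hq
  set r : Fin M → ℂ := fun i => (B * (1 / G1)) ^ (ρ i).j * (B * (1 / G2)) ^ (c0 - (ρ i).j) with hr
  have hmat : (((Matrix.of fun i b => (ρ i).ev c0 2 (z b).mu (z b).x (z b).y).det : ℤ) : ℂ) =
      (∏ i, r i) * ((∏ b, q b) * (Matrix.of fun i b =>
        hev2 (F i) (6 * a + c0) (x b) (y b) (1 / ((z b).n : ℂ))).det) := by
    rw [Int.cast_det, ← Matrix.det_mul_row, ← Matrix.det_mul_column]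
    congr 1
    ext i b
    simp only [Matrix.map_apply, Matrix.of_apply, hFv]
    refine NHdet_entry c (z b) (ρ i) (hρ i) (fun m => al m * x b + be m * y b) hB0 (hn0 b)
      (fun j => ?_) (fun j => by rw [hlam, hβ]) (by simp only [hx]; field_simp)
      (by simp only [hy, sub_add_cancel, hy0]; field_simp)
    rw [hlam]
    exact norm_pos_iff.1 (lt_of_lt_of_le (by positivity) (nlam b j))
  have nr : ∀ i, ‖r i‖ ≤ B ^ c0 := fun i => by
    have h1 : ∀ {G : ℝ}, 1 ≤ G → ‖(B : ℂ) * (1 / G)‖ ≤ B := fun h => by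
      rw [norm_mul, norm_div, norm_one, nR hB, nR h, mul_one_div]
      exact div_le_self (by linarith) h
    have h2 : (ρ i).j ≤ c0 := by have := (hρ i).2.1; have := (hρ i).2.2; omega
    rw [hr, norm_mul, norm_pow, norm_pow]
    calc _ ≤ B ^ (ρ i).j * B ^ (c0 - (ρ i).j) := by
          gcongr
          exacts [h1 g1, h1 g2]
      _ = _ := by rw [← pow_add, Nat.add_sub_cancel' h2]
  have nq : ∀ b, ‖q b‖ ≤ (2 * C0 ^ 10 * (X / B ^ 2)) ^ a := fun b => by
    rw [hq, norm_pow]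
    refine pow_le_pow_left₀ (norm_nonneg _) ?_ a
    have h1 : ((1 / C0) ^ 2) ^ 4 ≤ ‖∏ m, (al m * x b + be m * y b) ^ 2‖ := by
      rw [norm_prod]
      refine le_trans (by simp) (Finset.prod_le_prod (f := fun _ => (1 / C0) ^ 2)
        (fun _ _ => by positivity) fun m _ => ?_)
      rw [norm_pow, hlam]
      exact pow_le_pow_left₀ (by positivity) (nlam b m) 2
    rw [norm_div, norm_mul, norm_mul, norm_pow, nR hB, Complex.norm_intCast]
    calc _ ≤ C0 ^ 2 * (2 * X) / (B ^ 2 * ((1 / C0) ^ 2) ^ 4) := by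
          gcongr
          · exact (hz b).1.sz.cc.trans (le_self_pow₀ h0 two_ne_zero)
          · exact (hn b).2
      _ = _ := by field_simp
  rw [← Complex.norm_intCast, hmat, norm_mul, norm_mul, norm_prod, norm_prod]
  rw [eΛ, Real.mul_rpow hΛ.le (by positivity)] at hdet
  calc _ ≤ (B ^ c0) ^ M * (((2 * C0 ^ 10 * (X / B ^ 2)) ^ a) ^ M * (C3 * K ^ M *
        (Λ0 ^ ((M : ℝ) ^ 2 / 20 - M) * (1 / δ ^ 12 / X) ^ ((M : ℝ) ^ 2 / 20 - M)))) := by
        gcongr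
        · simpa using Finset.prod_le_prod (s := Finset.univ) (fun i _ => norm_nonneg (r i))
            fun i _ => nr i
        · simpa using Finset.prod_le_prod (s := Finset.univ) (fun i _ => norm_nonneg (q i))
            fun i _ => nq i
    _ = _ := by
        rw [← pow_mul, ← pow_mul, mul_pow]
        ring

end Crest.Agent.R22
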