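import Crest.Agent.R22.FF
import Crest.Agent.R22.Bezout
import Crest.Agent.R22.Basic

set_option autoImplicit false
open Polynomial IntermediateField

namespace Crest.Agent.R22

variable {d : ℕ}

/-- Multiply `g` by `∏ L_j^(4 - cj j)`. -/
theorem exists_ghat (th : Fin 4 → ℂ) (Lf : Fin 4 → ℂ[X]) (hL : Lins Lf) (g : ℂ[X][X])
    (hg : g ≠ 0) (he : g.natDegree = 2) (cj : Fin 4 → ℕ)
    (hc : ∀ j, WOrd g (Lf j) (th j) 2 (cj j) ∧ cj j ≤ 4) (h10 : degT g + 6 ≤ ∑ j, cj j) :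
    ∃ gh : ℂ[X][X], gh ≠ 0 ∧ g ∣ gh ∧ gh.natDegree ≤ 2 ∧ (∀ i, (gh.coeff i).natDegree ≤ 10) ∧
      ∀ j, WOrd gh (Lf j) (th j) 2 4 := by
  have h0 : ∀ j, Lf j ≠ 0 := fun j h => by simpa [h] using hL.1 j
  refine ⟨g * C (∏ j, Lf j ^ (4 - cj j)),
    mul_ne_zero hg (C_ne_zero.2 (Finset.prod_ne_zero_iff.2 fun j _ => pow_ne_zero _ (h0 j))),
    dvd_mul_right _ _, (natDegree_mul_C_le _ _).trans he.le, fun i => ?_, fun j i => ?_⟩
  · have h1 : (g.coeff i).natDegree ≤ degT g := by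
      by_cases h : i ∈ g.support
      · exact Finset.le_sup (f := fun i => (g.coeff i).natDegree) h
      · simp [notMem_support_iff.1 h]
    have h2 : (∏ j, Lf j ^ (4 - cj j)).natDegree ≤ ∑ j, (4 - cj j) :=
      (natDegree_prod_le _ _).trans (Finset.sum_le_sum fun j _ =>
        natDegree_pow_le.trans (by rw [hL.1 j, mul_one]))
    rw [coeff_mul_C]
    refine natDegree_mul_le.trans ?_
    have := (hc 0).2
    have := (hc 1).2
    have := (hc 2).2
    have := (hc 3).2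
    rw [Fin.sum_univ_four] at h2 h10
    omega
  · rw [taylor_mul, taylor_C, coeff_mul_C]
    refine Dvd.dvd.trans ?_ (mul_dvd_mul ((hc j).1 i)
      (Finset.dvd_prod_of_mem (fun j => Lf j ^ (4 - cj j)) (Finset.mem_univ j)))
    rw [← pow_add]
    exact pow_dvd_pow _ (by omega)

/-- `N_0 / N_1` is a Möbius function of `n` over `ℂ(t)`. -/
theorem genBy_NB (c : Ctx d) (hd : 2 ≤ d) (k : ℕ) (b1 b2 : Fin d → ℤ) {L : Type*} [Field L]
    [Algebra ℂ L] (t n : L) (hl : ∀ j, aeval t (c.lin b1 b2 j) ≠ 0)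
    (gen : IntermediateField.adjoin ℂ {t, n} = ⊤) :
    GenBy (Submodule.span ℂ (Set.range (c.NB k b1 b2 t n))) t := by
  intro K ht hW
  have hK : ∀ j, aeval t (c.lin b1 b2 j) ∈ K := fun j => by
    simp only [Ctx.lin, map_add, map_mul, aeval_C, aeval_X]
    exact add_mem (mul_mem (K.algebraMap_mem _) ht) (K.algebraMap_mem _)
  have hn : n ∈ K := by
    let i : Fin d := ⟨0, by omega⟩
    let j : Fin d := ⟨1, by omega⟩
    have hij : algebraMap ℂ L (c.th j) - algebraMap ℂ L (c.th i) ≠ 0 :=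
      sub_ne_zero.2 fun h => by simpa [i, j] using c.inj ((algebraMap ℂ L).injective h)
    by_cases h : n - algebraMap ℂ L (c.th j) = 0
    · exact sub_eq_zero.1 h ▸ K.algebraMap_mem _
    have h1 := hW _ (Submodule.subset_span ⟨i, rfl⟩) _ (Submodule.subset_span ⟨j, rfl⟩)
    have h2 := add_mem (K.algebraMap_mem (c.th j)) (div_mem
      (sub_mem (K.algebraMap_mem (c.th j)) (K.algebraMap_mem (c.th i)))
      (sub_mem (div_mem (mul_mem h1 (pow_mem (hK i) k)) (pow_mem (hK j) k)) (one_mem K)))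
    have e : c.NB k b1 b2 t n i / c.NB k b1 b2 t n j * aeval t (c.lin b1 b2 i) ^ k /
        aeval t (c.lin b1 b2 j) ^ k - 1 =
        (algebraMap ℂ L (c.th j) - algebraMap ℂ L (c.th i)) / (n - algebraMap ℂ L (c.th j)) := by
      have := hl i
      have := hl j
      simp only [Ctx.NB]
      field_simp
      ring
    rw [e, div_div_cancel₀ hij, add_sub_cancel] at h2
    exact h2
  rw [eq_top_iff, ← gen, adjoin_le_iff]
  rintro x (rfl | rfl)
  exacts [ht, hn]

end Crest.Agent.R22
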