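import Crest.Agent.R22.FF
import Crest.Agent.R22.Bezout
import Crest.Agent.R22.Basic
import Crest.Agent.R22.Ghat

set_option autoImplicit false
open Polynomial IntermediateField

namespace Crest.Agent.R22

variable {d : ℕ}

theorem Syz_map {K : Type*} [Field K] (f : ℂ[X] →+* K) (g : ℂ[X][X]) {s : ℂ[X]} (hs : f s ≠ 0)
    (a : ℂ[X]) : f ((g.scaleRoots s).eval a) = f s ^ g.natDegree * (g.map f).eval (f a / f s) := by
  rw [eval_map, ← scaleRoots_eval₂_mul, mul_div_cancel₀ _ hs, eval₂_at_apply]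

theorem Syz_sum (g : ℂ[X][X]) (s a : ℂ[X]) : (g.scaleRoots s).eval a =
    ∑ i ∈ Finset.range (g.natDegree + 1), g.coeff i * s ^ (g.natDegree - i) * a ^ i := by
  simp only [eval_eq_sum_range, natDegree_scaleRoots, coeff_scaleRoots]

theorem Syz_prod {ι : Type} [Fintype ι] {L : ι → ℂ[X]} (hL : ∀ j, (L j).natDegree = 1)
    (hL' : ∀ i j, i ≠ j → IsCoprime (L i) (L j)) {c : ι → ℕ} {G : ℂ[X]} (hG : G ≠ 0)
    (h : ∀ j, L j ^ c j ∣ G) : ∑ j, c j ≤ G.natDegree := by
  have h1 := natDegree_le_of_dvd (Fintype.prod_dvd_of_coprime (fun i j hij => (hL' i j hij).pow) h) hG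
  rw [natDegree_prod _ _ fun j _ => ne_zero_of_dvd_ne_zero hG (h j)] at h1
  simpa only [natDegree_pow, hL, mul_one] using h1

theorem Syz_lin {ι : Type} [Fintype ι] (M : ℕ) (k : ι → ℕ) (h1 : ∑ j, k j < 2 * (M + 1))
    (th : ι → ℂ) {L : ι → ℂ[X]} (hL : ∀ j, (L j).natDegree = 1) :
    ∃ a s : ℂ[X], (a ≠ 0 ∨ s ≠ 0) ∧ a.natDegree ≤ M ∧ s.natDegree ≤ M ∧
      ∀ j, L j ^ k j ∣ a - C (th j) * s := by
  have h0 : ∀ j, L j ^ k j ≠ 0 := fun j => pow_ne_zero _ (ne_zero_of_natDegree_gt (n := 0) (by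
    rw [hL]; exact one_pos))
  have : ∀ j, FiniteDimensional ℂ (AdjoinRoot (L j ^ k j)) := fun j =>
    (AdjoinRoot.powerBasis (h0 j)).finite
  let φ : degreeLT ℂ (M + 1) × degreeLT ℂ (M + 1) →ₗ[ℂ] ∀ j, AdjoinRoot (L j ^ k j) :=
    LinearMap.pi fun j => (AdjoinRoot.mkₐ (L j ^ k j)).toLinearMap ∘ₗ
      ((degreeLT ℂ (M + 1)).subtype.coprod (-th j • (degreeLT ℂ (M + 1)).subtype))
  obtain ⟨z, hz, hz0⟩ := (Submodule.ne_bot_iff _).1 (φ.ker_ne_bot_of_finrank_lt (by
    rw [Module.finrank_pi_fintype, Module.finrank_prod,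
      Module.finrank_eq_card_basis (degreeLT.basis ℂ (M + 1)), Fintype.card_fin]
    simp only [(AdjoinRoot.powerBasis (h0 _)).finrank, AdjoinRoot.powerBasis_dim, natDegree_pow, hL,
      mul_one]
    omega))
  have hd : ∀ a : degreeLT ℂ (M + 1), (a : ℂ[X]).natDegree ≤ M := fun a =>
    natDegree_le_of_degree_le (Order.lt_succ_iff.1 (mem_degreeLT.1 a.2))
  refine ⟨z.1, z.2, ?_, hd _, hd _, fun j => AdjoinRoot.mk_eq_zero.1 ?_⟩
  · by_contra! h
    exact hz0 (Prod.ext (Subtype.ext h.1) (Subtype.ext h.2))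
  · have := congrFun hz j
    rw [← smul_eq_C_mul, sub_eq_add_neg, ← neg_smul]
    exact this

theorem Syz_gen {ι : Type} [Fintype ι] (M : ℕ) (k : ι → ℕ) (h1 : ∑ j, k j < 2 * (M + 1))
    (h2 : M < ∑ j, k j) (th : ι → ℂ) {L : ι → ℂ[X]} (hL : ∀ j, (L j).natDegree = 1)
    (hL' : ∀ i j, i ≠ j → IsCoprime (L i) (L j)) {g : ℂ[X][X]} (hg : Irreducible g)
    (he : 2 ≤ g.natDegree) {c : ι → ℕ} (hc : ∀ j, WOrd g (L j) (th j) (k j) (c j)) :
    ∑ j, c j ≤ degT g + M * g.natDegree := by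
  obtain ⟨a, s, h0, ha, hs, hd⟩ := Syz_lin M k h1 th hL
  have hs0 : s ≠ 0 := by
    rintro rfl
    have := Syz_prod hL hL' (h0.resolve_right (not_not.2 rfl)) fun j => by simpa using hd j
    omega
  let f := algebraMap ℂ[X] (FractionRing ℂ[X])
  have hf : Function.Injective f := IsFractionRing.injective _ _
  have hfs : f s ≠ 0 := (map_ne_zero_iff f hf).2 hs0
  refine (Syz_prod hL hL' (G := (g.scaleRoots s).eval a) (fun h => ?_) fun j => ?_).trans ?_
  · have h3 := Syz_map f g hfs a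
    rw [h, map_zero] at h3
    refine (((hg.isPrimitive (by omega)).irreducible_iff_irreducible_map_fraction_map
      (K := FractionRing ℂ[X])).1 hg).not_isRoot_of_natDegree_ne_one ?_
      ((mul_eq_zero.1 h3.symm).resolve_left (pow_ne_zero _ hfs))
    rw [natDegree_map_eq_of_injective hf]
    omega
  · have e : (g.scaleRoots s).eval a =
        ((taylor (C (th j)) g).scaleRoots s).eval (a - C (th j) * s) := hf (by
      rw [Syz_map f _ hfs, Syz_map f _ hfs, natDegree_taylor, map_taylor, map_sub, map_mul, sub_div,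
        mul_div_cancel_right₀ _ hfs, taylor_eval_sub])
    rw [e, Syz_sum]
    refine Finset.dvd_sum fun i _ => (pow_dvd_pow _ (le_tsub_add (b := c j) (a := k j * i))).trans ?_
    rw [pow_add, pow_mul]
    exact mul_dvd_mul ((hc j i).mul_right _) (pow_dvd_pow_of_dvd (hd j) _)
  · rw [Syz_sum]
    refine natDegree_sum_le_of_forall_le _ _ fun i hi => ?_
    have h3 : (g.coeff i).natDegree ≤ degT g := by
      by_cases h : i ∈ g.support
      · exact Finset.le_sup (f := fun i => (g.coeff i).natDegree) h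
      · rw [notMem_support_iff.1 h, natDegree_zero]
        exact Nat.zero_le _
    refine (natDegree_mul_le_of_le (natDegree_mul_le_of_le h3 (natDegree_pow_le_of_le _ hs))
      (natDegree_pow_le_of_le _ ha)).trans_eq ?_
    rw [add_assoc, ← add_mul, Nat.sub_add_cancel (Nat.lt_succ_iff.1 (Finset.mem_range.1 hi)),
      mul_comm]

/-- Linear algebra gives `(A, Cc) ≠ 0` of degree `≤ k + a0` with `L_j^k ∣ A + θ_j Cc` for all `j`
(`2 (k + a0 + 1)` unknowns, `d k` conditions). If `Cc = 0` then `∏ L_j^k ∣ A`, impossible by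
`k + a0 < d k`. `G = ∑ g_i (-A)^i Cc^(e1-i) ≠ 0` (no root in `ℂ(t)`), has degree
`≤ degT g + (k + a0) e1` and equals `∑ h_i (-A - θ_j Cc)^i Cc^(e1-i)`, divisible by `L_j^(cj j)`. -/
theorem syz (k a0 : ℕ) (h1 : d * k < 2 * (k + a0 + 1)) (h2 : k + a0 < d * k) (th : Fin d → ℂ)
    (Lf : Fin d → ℂ[X]) (hL : Lins Lf) (g : ℂ[X][X]) (hg : Irreducible g) (he : 2 ≤ g.natDegree)
    (cj : Fin d → ℕ) (hc : ∀ j, WOrd g (Lf j) (th j) k (cj j)) :
    ∑ j, cj j ≤ degT g + (k + a0) * g.natDegree := by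
  exact Syz_gen (k + a0) (fun _ => k) (by simpa using h1) (by simpa using h2) th hL.1 hL.2 hg he hc

/-- One more condition `A(t0) + n0 Cc(t0) = 0` makes `G(t0) = Cc(t0)^e1 g(t0, n0) = 0`. -/
theorem syz_pt (k a0 : ℕ) (h1 : d * k + 1 < 2 * (k + a0 + 1)) (h2 : k + a0 < d * k)
    (th : Fin d → ℂ) (Lf : Fin d → ℂ[X]) (hL : Lins Lf) (g : ℂ[X][X]) (hg : Irreducible g)
    (he : 2 ≤ g.natDegree) (cj : Fin d → ℕ) (hc : ∀ j, WOrd g (Lf j) (th j) k (cj j))
    (t0 n0 : ℂ) (h0 : g.evalEval t0 n0 = 0) (ht0 : ∀ j, (Lf j).eval t0 ≠ 0) :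
    ∑ j, cj j + 1 ≤ degT g + (k + a0) * g.natDegree := by
  have h3 : ∀ j, IsCoprime (X - C t0) (Lf j) := fun j =>
    (irreducible_X_sub_C t0).coprime_iff_not_dvd.2 fun h => ht0 j (dvd_iff_isRoot.1 h)
  have := Syz_gen (k + a0) (fun o : Option (Fin d) => o.elim 1 fun _ => k)
    (by simp [Fintype.sum_option]; omega) (by simp [Fintype.sum_option]; omega)
    (fun o => o.elim n0 th) (L := fun o => o.elim (X - C t0) Lf)
    (by rintro (_ | j); exacts [natDegree_X_sub_C t0, hL.1 j])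
    (by
      rintro (_ | i) (_ | j) h
      exacts [absurd rfl h, h3 j, (h3 i).symm, hL.2 i j fun e => h (congrArg some e)])
    hg he (c := fun o => o.elim 1 cj) (by
      rintro (_ | j)
      · rintro (_ | i)
        · rw [taylor_coeff_zero]
          exact (pow_one _).dvd.trans (dvd_iff_isRoot.2 h0)
        · simp
      · exact hc j)
  rwa [Fintype.sum_option, add_comm] at this

end Crest.Agent.R22
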