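import Crest.Agent.R22.F1
import Crest.Agent.R22.Sel
import Crest.Agent.R22.ZeroBC
import Crest.Agent.R22.Asm
import Crest.Agent.R22.ClsTN
import Crest.Agent.R22.PB
import Crest.Agent.R22.SameP
import Crest.Agent.R22.Syz
import Crest.Agent.R22.NHdet

set_option autoImplicit false
open Polynomial IntermediateField

namespace Crest.Agent.R22

variable {d : ℕ}

/-- Fix the value of `cc` and discard the points where `p` holds. -/
theorem CurveBch_fiber {c : Ctx d} {k : ℕ} (C0 : ℝ) : ∃ N : ℝ, 0 ≤ N ∧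
    ∀ (S : Finset (LPt c k)) (p : LPt c k → Prop) (K K' : ℝ), 0 ≤ K →
      (∀ P ∈ S, |(P.cc : ℝ)| ≤ C0) → (∀ T ⊆ S, (∀ P ∈ T, p P) → (T.card : ℝ) ≤ K') →
      (∀ cc : ℤ, cc ≠ 0 → ∀ T ⊆ S, (∀ P ∈ T, P.cc = cc ∧ ¬ p P) → (T.card : ℝ) ≤ K) →
      (S.card : ℝ) ≤ K' + N * K := by
  classical
  refine ⟨((Finset.Icc (-⌈C0⌉) ⌈C0⌉).card : ℝ), Nat.cast_nonneg _, fun S p K K' hK h1 h2 h3 => ?_⟩
  have e1 := Finset.card_filter_add_card_filter_not (s := S) p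
  have e2 : (S.filter fun P => ¬ p P).card = ∑ cc ∈ Finset.Icc (-⌈C0⌉) ⌈C0⌉,
      ((S.filter fun P => ¬ p P).filter fun P => P.cc = cc).card := by
    refine Finset.card_eq_sum_card_fiberwise fun P hP => ?_
    have h := abs_le.1 ((h1 P (Finset.mem_filter.1 hP).1).trans (Int.le_ceil C0))
    rw [Finset.coe_Icc]
    exact ⟨by exact_mod_cast h.1, by exact_mod_cast h.2⟩
  have e3 : ((S.filter fun P => ¬ p P).card : ℝ) ≤ ∑ _cc ∈ Finset.Icc (-⌈C0⌉) ⌈C0⌉, K := by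
    rw [e2, Nat.cast_sum]
    refine Finset.sum_le_sum fun cc _ => ?_
    by_cases hcc : cc = 0
    · rw [Finset.filter_false_of_mem fun P _ h => P.cc0 (h.trans hcc)]
      simpa using hK
    · exact h3 cc hcc _ ((Finset.filter_subset _ _).trans (Finset.filter_subset _ _)) fun P hP =>
        ⟨(Finset.mem_filter.1 hP).2, (Finset.mem_filter.1 (Finset.mem_filter.1 hP).1).2⟩
  rw [Finset.sum_const, nsmul_eq_mul] at e3
  have e4 := h2 _ (Finset.filter_subset p S) fun P hP => (Finset.mem_filter.1 hP).2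
  rw [← e1, Nat.cast_add]
  exact add_le_add e4 e3

theorem CurveBch_lin_ne (c : Ctx d) {b1 : Fin d → ℤ} (b2 : Fin d → ℤ) (hb : b1 ≠ 0) {L : Type*}
    [Field L] [Algebra ℂ L] {t : L} (ht : Transcendental ℂ t) (j : Fin d) :
    aeval t (c.lin b1 b2 j) ≠ 0 := fun h => by
  have h1 := congrArg (fun p : ℂ[X] => p.coeff 1) (transcendental_iff.1 ht _ h)
  simp only [Ctx.lin, coeff_add, coeff_C_mul, coeff_X_one, mul_one, coeff_C_succ, add_zero,
    coeff_zero] at h1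
  exact sg_ne_zero c j hb h1

theorem CurveBch_span {L : Type*} [Field L] [Algebra ℂ L] {cc : ℤ} (hcc : cc ≠ 0)
    (w : Fin d → L) :
    Submodule.span ℂ (Set.range fun l => (cc : L) * w l) = Submodule.span ℂ (Set.range w) := by
  have h : ∀ l, (cc : L) * w l = (cc : ℂ) • w l := fun l => by
    rw [Algebra.smul_def, map_intCast]
  have hc : (cc : ℂ) ≠ 0 := Int.cast_ne_zero.2 hcc
  refine le_antisymm (Submodule.span_le.2 ?_) (Submodule.span_le.2 ?_)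
  · rintro _ ⟨l, rfl⟩
    simp only [h]
    exact Submodule.smul_mem _ _ (Submodule.subset_span ⟨l, rfl⟩)
  · rintro _ ⟨l, rfl⟩
    have : w l = (cc : ℂ)⁻¹ • ((cc : L) * w l) := by rw [h, inv_smul_smul₀ hc]
    rw [this]
    exact Submodule.smul_mem _ _ (Submodule.subset_span ⟨l, rfl⟩)

/-- The sizes of the coordinates of a point. -/
theorem CurveBch_sizes {c : Ctx d} {k : ℕ} (hk : 1 ≤ k) {C0 X B G1 G2 u lam α : ℝ} (h0 : 1 ≤ C0)
    {b1 b2 : Fin d → ℤ} (hs : SizeB d k X B G1 G2 u lam α) (hL : LH b1 b2 G1 G2) {P : LPt c k}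
    (hP : OnB C0 X B G1 G2 b1 b2 P) :
    ‖P.mu‖ ≤ C0 * X ^ u ∧ |(P.x : ℝ)| ≤ C0 * X ∧ |(P.y : ℝ)| ≤ C0 * X ∧
      ‖P.mu‖ ^ 1 * max |(P.x : ℝ)| |(P.y : ℝ)| ^ k ≤ C0 * (2 * C0) ^ k * X ^ lam := by
  have hB := hs.b1
  have hG1 := hL.g1
  have hG2 := hL.g2
  have hBX : B ≤ X := (le_self_pow₀ hB (by omega)).trans hs.bk
  have hC : 0 ≤ C0 := by linarith
  have hCB : 0 ≤ C0 * B := by positivity
  have h12 : G1 ≤ 2 * G2 := hL.l1.trans (hL.line.le.trans hL.u2)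
  refine ⟨hP.sz.mu3.trans (mul_le_mul_of_nonneg_left hs.hu hC),
    hP.hx.trans ((div_le_self hCB hG1).trans (mul_le_mul_of_nonneg_left hBX hC)),
    hP.hy.trans ((div_le_self hCB hG2).trans (mul_le_mul_of_nonneg_left hBX hC)), ?_⟩
  have h1 : max |(P.x : ℝ)| |(P.y : ℝ)| ≤ 2 * C0 * B / G1 := by
    refine max_le (hP.hx.trans ?_) (hP.hy.trans ?_)
    · gcongr
      linarith
    · rw [div_le_div_iff₀ (by linarith) (by linarith)]
      nlinarith
  have hX : 0 ≤ X := by linarith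
  calc ‖P.mu‖ ^ 1 * max |(P.x : ℝ)| |(P.y : ℝ)| ^ k
      ≤ C0 * (X / B ^ k) * (2 * C0 * B / G1) ^ k := by
        rw [pow_one]
        exact mul_le_mul hP.sz.mu3 (pow_le_pow_left₀ (by positivity) h1 k) (by positivity)
          (by positivity)
    _ = C0 * (2 * C0) ^ k * (X / G1 ^ k) := by
        rw [div_pow, mul_pow (2 * C0)]
        field_simp
    _ ≤ _ := mul_le_mul_of_nonneg_left hs.hl (by positivity)

/-- Chain rows on a curve with `deg_n ≥ 2` and a ratio of degree `≥ e0`. Fix `cc`; discard `card_sing`;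
`m = max e0 2`, `D` from `arch_num`, `a = m + al D`, `c0 = m`, `I = io D`; `hilbert_lb` (`f0 = 2`,
`genBy_NB`, `span_co`), `exists_rows` (`χ = 1`), `asm` with `classes_tn`, `padicB`, `det_rows_le`,
`zeroB`, `bad_le`. Note `G1 ≤ ‖b1‖ ≤ ‖b2‖ ≤ 2 G2`. Small `X`: `card_le_X`. -/
theorem curveB_chain (c : Ctx d) (hd : 2 ≤ d) (k : ℕ) (hk : 1 ≤ k) (E : ℕ) (C0 C1 u lam η : ℝ)
    (h0 : 1 ≤ C0) (e0 al io : ℕ) (hpos : 0 < e0 * al + (e0 + 2 * k) * io) (hu : 0 ≤ u)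
    (hl : 0 ≤ lam) (h : etaC u lam e0 (e0 + 2 * k) al io < η) : ∃ C : ℝ,
    ∀ (X B G1 G2 α : ℝ) (b1 b2 : Fin d → ℤ) (g : ℤ[X][X]) (S : Finset (LPt c k)), 1 ≤ X →
      SizeB d k X B G1 G2 u lam α → LH b1 b2 G1 G2 → Curve g E ((2 * X) ^ C1) → 2 ≤ g.natDegree →
      ∀ (L : Type) [Field L] [Algebra ℂ L] (t n : L), IsFF (toC2 g) t n →
        IntermediateField.adjoin ℂ {t, n} = ⊤ →
        GoodRatio (Submodule.span ℂ (Set.range (c.NB k b1 b2 t n))) e0 → InjN S →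
        (∀ P ∈ S, OnB C0 X B G1 G2 b1 b2 P ∧ P.y ≠ 0 ∧ hev2 g E P.x P.y P.n = 0) →
        (S.card : ℝ) ≤ C * X ^ η := by
  classical
  have hη : 0 < η := lt_of_le_of_lt (by unfold etaC; positivity) h
  set m := max e0 2 with hm
  obtain ⟨D, -, hD⟩ := arch_num u lam η e0 (e0 + 2 * k) al io m hpos hu hl h
  have hC' : C0 ≤ C0 * (2 * C0) ^ k :=
    le_mul_of_one_le_right (by linarith) (one_le_pow₀ (by linarith))
  obtain ⟨X0, hX0⟩ := hD (C0 * (2 * C0) ^ k) (h0.trans hC')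
  obtain ⟨DF, hDF0, hDF⟩ := exists_DF c
  obtain ⟨Cb, hCb⟩ := bad_le c k E hk DF C0 C1 h0
  obtain ⟨Cz, hCz⟩ := zeroB (d := d) k E (m + al * D) m (io * D)
  obtain ⟨Cs, hCs⟩ := card_sing c k E
  obtain ⟨Ca, hCa, hasm⟩ := asm (e0 * (al * D) + (e0 + 2 * k) * (io * D)) η Cb (2 * E) Cz hη
    (by positivity) (by positivity)
  obtain ⟨N, hN, hfib⟩ := CurveBch_fiber (c := c) (k := k) C0
  refine ⟨max X0 2 + 1 + (Cs + N * Ca),
    fun X B G1 G2 α b1 b2 g S hX hs hL hg hdeg L _ _ t n hFF hgen hGR hI hS => ?_⟩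
  have hXη : 1 ≤ X ^ η := Real.one_le_rpow hX hη.le
  have hK1 : 0 ≤ max X0 2 + 1 := by
    have := le_max_right X0 2
    linarith
  have hK2 : (0 : ℝ) ≤ Cs + N * Ca := by positivity
  rcases lt_or_ge X (max X0 2) with hlt | hge
  · have h1 := card_le_X c k C0 X B hX S hI fun P hP => (hS P hP).1.sz
    have h2 : 0 ≤ max X0 2 + 1 + (Cs + N * Ca) := add_nonneg hK1 hK2
    have h3 := le_mul_of_one_le_right h2 hXη
    linarith
  have hX2 : 2 ≤ X := (le_max_right _ _).trans hge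
  have hdeg1 : 1 ≤ (toC2 g).natDegree := by rw [natDegree_toC2]; omega
  have ht := hFF.trans_t hg.irr hdeg1
  have hlin := CurveBch_lin_ne c b2 hL.line.ne ht
  have hinj : ∀ T ⊆ S, InjN T := fun T hT P hP Q hQ => hI P (hT hP) Q (hT hQ)
  have key := hfib S (fun P => hev2 (derivative g) E P.x P.y P.n = 0) (Ca * X ^ η) Cs
    (by positivity) (fun P hP => (hS P hP).1.sz.cc)
    (fun T hT hp => Nat.cast_le.2 (hCs g _ T hg (by omega) (hinj T hT) fun P hP =>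
      ⟨(hS P (hT hP)).2.1, (hS P (hT hP)).2.2, hp P hP⟩)) fun cc hcc S' hS' hp => ?_
  · have h1 := le_mul_of_one_le_right (Nat.cast_nonneg (α := ℝ) Cs) hXη
    have h2 := mul_nonneg hK1 (zero_le_one.trans hXη)
    linarith
  have hfin : FiniteDimensional ℂ (Submodule.span ℂ (Set.range (c.NB k b1 b2 t n))) :=
    FiniteDimensional.span_of_finite ℂ (Set.finite_range _)
  obtain ⟨ρ, hρ, hT, hind⟩ := exists_rows (fun l => (cc : L) * c.co (c.NB k b1 b2 t n) l) t 1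
    one_ne_zero (m + al * D) 1 m k (e0 * (al * D)) (e0 + 2 * k) (io * D) fun i _ => by
      rw [CurveBch_span hcc, span_co, add_assoc]
      refine le_of_eq_of_le ?_ (hilbert_lb _ t ht (genBy_NB c hd k b1 b2 t n hlin hgen) e0 2 m hGR
        (by rw [hFF.fdeg_t hg.irr hdeg1 hgen, natDegree_toC2]; exact hdeg) (le_max_left _ _)
        (le_max_right _ _) (al * D + 1 * i) (k * i))
      ring
  have hsz := fun P (hP : P ∈ S') => CurveBch_sizes hk h0 hs hL (hS P (hS' hP)).1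
  refine hasm X hX2 S' (fun a P => (ρ a).ev m k P.mu P.x P.y) (badB DF g E) (fun P hP => ⟨?_, ?_⟩)
    (fun q hq => ?_) (fun z hz => ?_) fun lam' hlam T hT hz => ?_
  · exact mul_ne_zero (mul_ne_zero (mul_ne_zero (hS P (hS' hP)).2.1 hDF0)
      (mul_ne_zero P.ka0 (Int.natCast_ne_zero.2 P.pp.ne_zero))) (hp P hP).2
  · exact (hCb X B g P hX2 hg.deg hg.ht (hS P (hS' hP)).1.sz (hsz P hP).2.1 (hsz P hP).2.2.1 hd).1
  · obtain ⟨PP, h1, h2, h3⟩ := classes_tn c k E DF g hg.deg q hq S' fun P hP => (hS P (hS' hP)).2.2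
    refine ⟨PP, by exact_mod_cast h1, h2, fun T hT => ⟨(h3 T hT).1, fun z hz => ?_⟩⟩
    exact padicB c k E DF hDF b1 b2 g hg.deg q hq cc T (fun P hP =>
      have hP' := (h3 T hT).1 hP
      ⟨(hS P (hS' hP')).1.eq, (hp P hP').1, (hS P (hS' hP')).2.2, (h3 T hT).2.1 P hP⟩)
      (h3 T hT).2.2 _ m _ ρ hρ z hz
  · have hXu : 1 ≤ X ^ u := Real.one_le_rpow hX hu
    have hXl : 1 ≤ X ^ lam := Real.one_le_rpow hX hl
    have hC1 : 1 ≤ C0 * (2 * C0) ^ k := h0.trans hC'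
    have hCX : C0 * X ≤ C0 * (2 * C0) ^ k * X := mul_le_mul_of_nonneg_right hC' (by linarith)
    exact (det_rows_le ρ _ 1 m k _ hρ (fun b => (z b).mu) (fun b => (z b).x) (fun b => (z b).y)
      (C0 * (2 * C0) ^ k * X ^ u) (C0 * (2 * C0) ^ k * X) (C0 * (2 * C0) ^ k * X ^ lam)
      (one_le_mul_of_one_le_of_one_le hC1 hXu) (one_le_mul_of_one_le_of_one_le hC1 hX)
      (one_le_mul_of_one_le_of_one_le hC1 hXl)
      (fun b => (hsz _ (hz b)).1.trans (mul_le_mul_of_nonneg_right hC' (by linarith)))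
      (fun b => ⟨(hsz _ (hz b)).2.1.trans hCX, (hsz _ (hz b)).2.2.1.trans hCX⟩)
      fun b => (hsz _ (hz b)).2.2.2).trans_lt
      (hX0 X ((le_max_left _ _).trans hge) _ _ rfl hT)
  · refine Nat.cast_le.2 (hCz c b1 b2 (toC2 g) hg.irr (degLE_toC2 hg.deg) L t n hFF hlin cc _ ρ hρ
      hind lam' hlam T (hinj T (hT.trans hS')) fun P hP => ?_)
    obtain ⟨h1, h2, h3⟩ := hS P (hS' (hT hP))
    refine ⟨h1.eq, (hp P (hT hP)).1, h2, ?_, hz P hP⟩
    have h4 := hev2_cast g E hg.deg.2 P.x P.y P.n h2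
    rw [h3, Int.cast_zero] at h4
    exact (mul_eq_zero.1 h4.symm).resolve_left (pow_ne_zero _ (Int.cast_ne_zero.2 h2))

end Crest.Agent.R22
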