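import Crest.Agent.R22.F1
import Crest.Agent.R22.Sel
import Crest.Agent.R22.ZeroBC
import Crest.Agent.R22.Asm
import Crest.Agent.R22.ClsTN
import Crest.Agent.R22.PB
import Crest.Agent.R22.SameP
import Crest.Agent.R22.Syz
import Crest.Agent.R22.NHdet
import Crest.Agent.R22.CurveBch
import Crest.Agent.R22.CurveBCore

set_option autoImplicit false
open Polynomial IntermediateField

namespace Crest.Agent.R22

variable {d : ℕ}

/-- The non-hugging case: rows of level `0` only (`a = 5 + D`, `c0 = 5`, `I = 0`, `M = 5 D`), `nhdet`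
with `δ = X^(-η0)` instead of `det_rows_le`, `arch_num_nh` with `γ = 1 - 12 η0`. -/
theorem curveB_nh (c : Ctx 4) (E : ℕ) (C0 C1 u η0 η : ℝ) (h0 : 1 ≤ C0) (hu : 0 ≤ u) (hη0 : 0 ≤ η0)
    (hη1 : 12 * η0 < 1) (hη : 0 < η) (h : 2 * u / 5 - (1 - 12 * η0) / 10 < η) : ∃ C : ℝ,
    ∀ (X B G1 G2 lam α : ℝ) (b1 b2 : Fin 4 → ℤ) (g : ℤ[X][X]) (S : Finset (LPt c 2)), 1 ≤ X →
      SizeB 4 2 X B G1 G2 u lam α → LH b1 b2 G1 G2 →
      (∀ i j, i ≠ j → X ^ (-η0) * (G1 * G2) ≤ ‖c.pl b1 b2 i j‖) →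
      Curve g E ((2 * X) ^ C1) → 2 ≤ g.natDegree →
      ∀ (L : Type) [Field L] [Algebra ℂ L] (t n : L), IsFF (toC2 g) t n →
        IntermediateField.adjoin ℂ {t, n} = ⊤ →
        GoodRatio (Submodule.span ℂ (Set.range (c.NB 2 b1 b2 t n))) 5 →
        ∀ gh : ℂ[X][X], gh ≠ 0 → toC2 g ∣ gh → gh.natDegree ≤ 2 →
          (∀ i, (gh.coeff i).natDegree ≤ 10) → (∀ j, WOrd gh (c.lin b1 b2 j) (c.th j) 2 4) →
          InjN S → (∀ P ∈ S, OnB C0 X B G1 G2 b1 b2 P ∧ P.y ≠ 0 ∧ hev2 g E P.x P.y P.n = 0) →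
          (S.card : ℝ) ≤ C * X ^ η := by
  classical
  obtain ⟨D, hD1, hD⟩ := arch_num_nh u (1 - 12 * η0) η hu (by linarith) h
  obtain ⟨Cn, ηn, hCn, hηn, hnh⟩ := nhdet c C0 h0 (5 + D) 5 (5 * D + 0 * 0) (by omega)
  obtain ⟨X0, hX0⟩ := hD (max Cn 1) (le_max_right _ _)
  obtain ⟨Cc, hCc0, hCc⟩ := curveB_core c (by norm_num) 2 (by norm_num) E C0 C1 η h0 hη
    (5 * D + 0 * 0) (5 + D) 5 0
  have hγ : 0 < 1 - 12 * η0 := by linarith
  obtain ⟨X1, hX1⟩ : ∃ X1 : ℝ, ∀ X, X1 ≤ X → X ^ (-(1 - 12 * η0)) ≤ ηn := by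
    have := (tendsto_rpow_neg_atTop hγ).eventually (ge_mem_nhds hηn)
    exact Filter.eventually_atTop.1 this
  set Xm : ℝ := max (max X0 X1) 2 with hXm
  refine ⟨max Cc (Xm + 1), ?_⟩
  intro X B G1 G2 lam α b1 b2 g S hX hsz hLH hsep hcur hdeg L _ _ t n hff hgen hgood gh hgh0 hdvd
    hgh2 hgh10 hW hinj hS
  have hXη : (1 : ℝ) ≤ X ^ η := Real.one_le_rpow hX hη.le
  have hX0' : 0 < X := by linarith
  rcases lt_or_ge X Xm with hsmall | hbig
  · have := card_le_X c 2 C0 X B hX S hinj fun P hP => (hS P hP).1.sz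
    have h2 : (0 : ℝ) ≤ Xm + 1 := by linarith
    calc (S.card : ℝ) ≤ Xm + 1 := by linarith
      _ ≤ (Xm + 1) * X ^ η := le_mul_of_one_le_right h2 hXη
      _ ≤ max Cc (Xm + 1) * X ^ η := by gcongr; exact le_max_right _ _
  have hb0 : X0 ≤ X := le_trans ((le_max_left _ _).trans (le_max_left _ _)) hbig
  have hb1 : X1 ≤ X := le_trans ((le_max_right _ _).trans (le_max_left _ _)) hbig
  have hb2 : 2 ≤ X := le_trans (le_max_right _ _) hbig
  have hB1 : 1 ≤ B := hsz.b1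
  have hBX : B ≤ X := by nlinarith [hsz.bk]
  have ht : Transcendental ℂ t := hff.trans_t hcur.irr (by rw [natDegree_toC2]; omega)
  have hlin : ∀ j, aeval t (c.lin b1 b2 j) ≠ 0 := curveBCore_lin_ne c hLH.line.ne ht
  have hfd : 2 ≤ fdeg t := by
    rw [hff.fdeg_t hcur.irr (by rw [natDegree_toC2]; omega) hgen, natDegree_toC2]; exact hdeg
  have : FiniteDimensional ℂ (Submodule.span ℂ (Set.range (c.NB 2 b1 b2 t n))) :=
    FiniteDimensional.span_of_finite ℂ (Set.finite_range _)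
  have hH := hilbert_lb (Submodule.span ℂ (Set.range (c.NB 2 b1 b2 t n))) t ht
    (genBy_NB c (by norm_num) 2 b1 b2 t n hlin hgen) 5 2 5 hgood hfd le_rfl (by norm_num) D 0
  obtain ⟨ρ, hρ, -, hind⟩ := exists_rows (c.co (c.NB 2 b1 b2 t n)) t 1 one_ne_zero (5 + D) 1 5 2
    (5 * D) 0 0 (by
      intro i hi
      obtain rfl : i = 0 := by omega
      rw [span_co]
      simpa using hH)
  refine (hCc X B G1 G2 b1 b2 g S hb2 (by linarith) hBX hLH.g1 hLH.g2 hcur (by omega) L t n hff hlin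
    ρ hρ hind hinj hS ?_).trans (by gcongr; exact le_max_left _ _)
  intro z hz
  have hδ0 : 0 < X ^ (-η0) := Real.rpow_pos_of_pos hX0' _
  have hδ1 : X ^ (-η0) ≤ 1 := Real.rpow_le_one_of_one_le_of_nonpos hX (by linarith)
  have hδ : 1 / (X ^ (-η0)) ^ 12 / X = X ^ (-(1 - 12 * η0)) := by
    rw [← Real.rpow_natCast, ← Real.rpow_mul hX0'.le, one_div, ← Real.rpow_neg hX0'.le,
      div_eq_mul_inv, ← Real.rpow_neg_one, ← Real.rpow_add hX0']
    congr 1; push_cast; ring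
  have h1 := hnh X B G1 G2 (X ^ (-η0)) b1 b2 gh ρ z hX hB1 hδ0 hδ1 (hδ ▸ hX1 X hb1) hLH hsep hgh0
    hgh2 hgh10 hW hρ (fun b => by
      obtain ⟨hon, hy, hz0⟩ := hS _ (hz b)
      refine ⟨hon, hy, ?_⟩
      obtain ⟨q, rfl⟩ := hdvd
      rw [evalEval_mul, curveBCore_eval hcur.deg hy hz0, zero_mul])
  rw [hδ] at h1
  refine lt_of_le_of_lt (h1.trans ?_) (hX0 X hb0 (5 * D + 0 * 0) (by omega))
  have hU : 0 ≤ X / B ^ 2 := by positivity
  have hu' := hsz.hu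
  have hB0 : 0 ≤ B := by linarith
  have hp : 0 ≤ (X ^ (-(1 - 12 * η0))) ^ (((5 * D + 0 * 0 : ℕ) : ℝ) ^ 2 / 20 - (5 * D + 0 * 0 : ℕ)) :=
    Real.rpow_nonneg (Real.rpow_nonneg hX0'.le _) _
  gcongr
  exact le_max_left _ _

end Crest.Agent.R22
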