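import Crest.Agent.R22.RLC
import Crest.Agent.R22.SameP

set_option autoImplicit false
open Polynomial IntermediateField

namespace Crest.Agent.R22

variable {d : ℕ}

theorem CurveBlow_hev0 (A : ℂ[X]) (N : ℕ) (a : ℂ) : hev A N a 0 = A.coeff N * a ^ N := by
  unfold hev
  rw [Finset.sum_eq_single N]
  · simp
  · intro i hi hne
    have : N - i ≠ 0 := by
      have := Finset.mem_range.1 hi
      omega
    simp [this]
  · simp

theorem CurveBlow_hev1 (u v a b : ℂ) : hev (C u * X + C v) 1 a b = u * a + v * b := by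
  simp [hev, Finset.sum_range_succ, coeff_X, coeff_C]
  ring

theorem CurveBlow_nocz {g0 g1 : ℂ[X]} (h : Irreducible (C g1 * X + C g0 : ℂ[X][X])) (h1 : g1 ≠ 0) :
    NoCZ ![-g0, g1] (max g0.natDegree g1.natDegree) := by
  refine ⟨fun i => ?_, fun a b hab => ?_⟩
  · fin_cases i <;> simp
  · by_contra hc
    push Not at hc
    have e0 : hev (-g0) (max g0.natDegree g1.natDegree) a b = 0 := hc 0
    have e1 : hev g1 (max g0.natDegree g1.natDegree) a b = 0 := hc 1
    by_cases hb : b = 0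
    · subst hb
      have ha : a ≠ 0 := hab.resolve_right (by simp)
      rw [CurveBlow_hev0, mul_eq_zero, or_iff_left (pow_ne_zero _ ha)] at e0 e1
      rcases le_or_gt g0.natDegree g1.natDegree with hle | hlt
      · rw [max_eq_right hle] at e1
        exact h1 (leadingCoeff_eq_zero.1 e1)
      · rw [max_eq_left hlt.le, coeff_neg, neg_eq_zero] at e0
        rw [leadingCoeff_eq_zero.1 e0] at hlt
        simp at hlt
    · rw [hev_eq_eval _ _ (by simp) _ _ hb, mul_eq_zero, or_iff_right (pow_ne_zero _ hb),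
        coe_aeval_eq_eval] at e0 e1
      rw [eval_neg, neg_eq_zero] at e0
      obtain ⟨q0, hq0⟩ := dvd_iff_isRoot.2 e0
      obtain ⟨q1, hq1⟩ := dvd_iff_isRoot.2 e1
      have e : (C g1 * X + C g0 : ℂ[X][X]) = C (X - C (a / b)) * (C q1 * X + C q0) := by
        rw [hq0, hq1, map_mul, map_mul]
        ring
      rcases h.isUnit_or_isUnit e with hu | hu
      · exact not_isUnit_X_sub_C _ (isUnit_C.1 hu)
      · have hq : q1 ≠ 0 := by
          rintro rfl
          exact h1 (by rw [hq1, mul_zero])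
        have := natDegree_eq_zero_of_isUnit hu
        rw [natDegree_linear hq] at this
        exact one_ne_zero this

theorem CurveBlow_root {g0 : ℂ[X]} (h : Irreducible (C g0 : ℂ[X][X])) {s t : ℂ}
    (hs : g0.eval s = 0) (ht : g0.eval t = 0) : s = t := by
  obtain ⟨q, hq⟩ := dvd_iff_isRoot.2 hs
  have e : (C g0 : ℂ[X][X]) = C (X - C s) * C q := by rw [← map_mul, ← hq]
  rcases h.isUnit_or_isUnit e with hu | hu
  · exact absurd (isUnit_C.1 hu) (not_isUnit_X_sub_C _)
  · have hu' := (isUnit_C.1 hu).map (evalRingHom t)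
    rw [hq, eval_mul, mul_eq_zero, or_iff_left (show q.eval t ≠ 0 from hu'.ne_zero)] at ht
    simp only [eval_sub, eval_X, eval_C] at ht
    exact (sub_eq_zero.1 ht).symm

theorem CurveBlow_nocz1 {b1 b2 : Fin d → ℤ} (h : IsLine b1 b2) :
    NoCZ (fun l => (C (b1 l : ℂ) * X + C (b2 l : ℂ) : ℂ[X])) 1 := by
  refine ⟨fun l => natDegree_linear_le, fun a b hab => ?_⟩
  by_contra hc
  push Not at hc
  obtain ⟨l, m, hlm⟩ := h.prim 2 Nat.prime_two
  have hw : ((b1 l * b2 m - b1 m * b2 l : ℤ) : ℂ) ≠ 0 := by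
    rw [Int.cast_ne_zero]
    intro h0
    exact hlm (h0 ▸ dvd_zero _)
  have e1 := hc l
  have e2 := hc m
  rw [CurveBlow_hev1] at e1 e2
  push_cast at hw
  rcases hab with ha | hb
  · exact mul_ne_zero hw ha (by linear_combination (b2 m : ℂ) * e1 - (b2 l : ℂ) * e2)
  · exact mul_ne_zero hw hb (by linear_combination (b1 l : ℂ) * e2 - (b1 m : ℂ) * e1)

theorem CurveBlow_size {C0 X B G z : ℝ} (h0 : 1 ≤ C0) (hX : 1 ≤ X) (hB : B ≤ X) (hG : 1 ≤ G)
    (h : |z| ≤ C0 * B / G) : |z| ≤ C0 * X ^ 2 := by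
  have h1 : 0 ≤ C0 * B := by
    have := (abs_nonneg z).trans h
    rwa [div_nonneg_iff, or_iff_left (by rintro ⟨-, h⟩; linarith), and_iff_left (by linarith)]
      at this
  refine h.trans ((div_le_self h1 hG).trans (mul_le_mul_of_nonneg_left ?_ (by linarith)))
  nlinarith

/-- Curves of degree `≤ 1` in `n`. Degree `0`: `toC2 g = C (linear)`, one value of `x/y`, so two values
of `β` (`isCoprime_of_prim`), `card_same_be`. Degree `1`: `rl_cx` with `w = (x, y)`,
`A = -g_0`, `Bq = g_1`, `N = degT g`, `be l = b1 l X + b2 l` (`N' = 1`). -/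
theorem curveB_low (c : Ctx d) (k : ℕ) (hk : 2 ≤ k) (E : ℕ) (C0 ε : ℝ) (h0 : 1 ≤ C0) (hε : 0 < ε) :
    ∃ C : ℝ, ∀ (X B G1 G2 H : ℝ) (b1 b2 : Fin d → ℤ) (g : ℤ[X][X]) (S : Finset (LPt c k)), 1 ≤ X →
      B ≤ X → LH b1 b2 G1 G2 → Curve g E H → g.natDegree ≤ 1 → InjN S →
      (∀ P ∈ S, OnB C0 X B G1 G2 b1 b2 P ∧ P.y ≠ 0 ∧ hev2 g E P.x P.y P.n = 0) →
      (S.card : ℝ) ≤ C * X ^ ε := by
  classical
  obtain ⟨C1, hC1⟩ := card_same_be c k (by omega) C0 h0
  obtain ⟨C2, hC2⟩ := rl_cx c k hk (E + 1) C0 C0 ε h0 hε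
  refine ⟨2 * |C1| + |C2|, fun X B G1 G2 H b1 b2 g S hX hB hL hg hd hS h => ?_⟩
  have hXε : 1 ≤ X ^ ε := Real.one_le_rpow hX hε.le
  have hG := eq_X_add_C_of_natDegree_le_one (p := toC2 g) (by rwa [natDegree_toC2])
  have hdeg := (degLE_toC2 hg.deg).2
  have hirr := hg.irr
  have hev0 : ∀ P ∈ S, ((toC2 g).coeff 1).eval ((P.x : ℂ) / P.y) * P.n +
      ((toC2 g).coeff 0).eval ((P.x : ℂ) / P.y) = 0 := by
    intro P hP
    obtain ⟨-, hy, he⟩ := h P hP
    have := hev2_cast g E hg.deg.2 P.x P.y P.n hy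
    rw [he, Int.cast_zero, eq_comm, mul_eq_zero,
      or_iff_right (pow_ne_zero _ (Int.cast_ne_zero.2 hy)), hG] at this
    simpa [evalEval_add, evalEval_mul, evalEval_C, evalEval_X] using this
  have d0 := hdeg 0
  have d1 := hdeg 1
  rw [hG] at hirr
  generalize (toC2 g).coeff 0 = g0 at *
  generalize (toC2 g).coeff 1 = g1 at *
  by_cases h1 : g1 = 0
  · subst h1
    simp only [map_zero, zero_mul, zero_add, eval_zero] at hirr hev0
    rcases S.eq_empty_or_nonempty with rfl | ⟨Q, hQ⟩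
    · simp only [Finset.card_empty, Nat.cast_zero]
      positivity
    have hsub : S ⊆ S.filter (fun P => P.be = Q.be) ∪ S.filter (fun P => P.be = -Q.be) := by
      intro P hP
      have e := CurveBlow_root hirr (hev0 P hP) (hev0 Q hQ)
      rw [div_eq_div_iff (Int.cast_ne_zero.2 (h P hP).2.1) (Int.cast_ne_zero.2 (h Q hQ).2.1)] at e
      have e' : P.x * Q.y = Q.x * P.y := by exact_mod_cast e
      have := prim_parallel P.pbe Q.pbe fun l m => by
        rw [(h P hP).1.eq, (h Q hQ).1.eq]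
        simp only [Pi.add_apply, Pi.smul_apply, smul_eq_mul]
        linear_combination (b1 l * b2 m - b1 m * b2 l) * e'
      simpa [hP] using this
    have hf : ∀ v : Fin d → ℤ, ((S.filter fun P => P.be = v).card : ℝ) ≤ |C1| := fun v =>
      (hC1 X B hX v _ (fun P hP Q hQ => hS P (Finset.mem_filter.1 hP).1 Q (Finset.mem_filter.1 hQ).1)
        fun P hP => ⟨(h P (Finset.mem_filter.1 hP).1).1.sz, (Finset.mem_filter.1 hP).2⟩).trans
        (le_abs_self _)
    have hc : (S.card : ℝ) ≤ (S.filter fun P => P.be = Q.be).card +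
        (S.filter fun P => P.be = -Q.be).card := by
      exact_mod_cast (Finset.card_le_card hsub).trans (Finset.card_union_le _ _)
    have := hf Q.be
    have := hf (-Q.be)
    nlinarith [abs_nonneg C1, abs_nonneg C2]
  · refine (hC2 X B (-g0) g1 _ _ 1 S (fun P => P.x) (fun P => P.y) hX hB
      (max_le (by omega) (by omega)) (by omega) (CurveBlow_nocz hirr h1) (CurveBlow_nocz1 hL.line)
      hS fun P hP => ?_).trans ?_
    · obtain ⟨ho, hy, -⟩ := h P hP
      have hy' : (P.y : ℂ) ≠ 0 := Int.cast_ne_zero.2 hy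
      refine ⟨ho.sz, Or.inr hy, CurveBlow_size h0 hX hB hL.g1 ho.hx,
        CurveBlow_size h0 hX hB hL.g2 ho.hy, ?_, fun l m => ?_⟩
      · rw [hev_eq_eval _ _ (by simp) _ _ hy', hev_eq_eval _ _ (by simp) _ _ hy',
          coe_aeval_eq_eval, eval_neg]
        linear_combination (-(P.y : ℂ) ^ max g0.natDegree g1.natDegree) * hev0 P hP
      · rw [CurveBlow_hev1, CurveBlow_hev1, ho.eq]
        simp only [Pi.add_apply, Pi.smul_apply, smul_eq_mul]
        push_cast
        ring
    · refine mul_le_mul_of_nonneg_right ?_ (by linarith)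
      linarith [le_abs_self C2, abs_nonneg C1]

end Crest.Agent.R22
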