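import Crest.Agent.R22.E2Aux

set_option autoImplicit false
open Polynomial IntermediateField

namespace Crest.Agent.R22

variable {d : ℕ}

/-- `∏_{l ≠ j} L_l^k`. -/
noncomputable def E2_A (Lf : Fin d → ℂ[X]) (k : ℕ) (j : Fin d) : ℂ[X] :=
  ∏ l ∈ Finset.univ.erase j, Lf l ^ k

/-- `∏_{m ≠ l, j} L_m^k`. -/
noncomputable def E2_A2 (Lf : Fin d → ℂ[X]) (k : ℕ) (l j : Fin d) : ℂ[X] :=
  ∏ m ∈ (Finset.univ.erase l).erase j, Lf m ^ k

/-- `∑ a_j A_j`. -/
noncomputable def E2_S (Lf : Fin d → ℂ[X]) (k : ℕ) (a : Fin d → ℂ) : ℂ[X] :=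
  ∑ j, C (a j) * E2_A Lf k j

/-- The substituted polynomial at `ξ = y`. -/
noncomputable def E2_G (Lf : Fin d → ℂ[X]) (k : ℕ) (th lam : Fin d → ℂ) (j0 : Fin d)
    (g : ℂ[X][X]) (y : ℂ) : ℂ[X] :=
  ∑ i ∈ Finset.range (g.natDegree + 1), g.coeff i *
    (E2_S Lf k (fun j => lam j * th j) + C y * (-C (th j0) * E2_A Lf k j0)) ^ i *
    (E2_S Lf k lam + C y * (-E2_A Lf k j0)) ^ (g.natDegree - i)

theorem E2_A_eq (Lf : Fin d → ℂ[X]) (k : ℕ) {l j : Fin d} (h : j ≠ l) :
    E2_A Lf k l = Lf j ^ k * E2_A2 Lf k l j := by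
  unfold E2_A E2_A2
  rw [Finset.mul_prod_erase (Finset.univ.erase l) (fun m => Lf m ^ k) (by simp [h])]

theorem E2_A_mul (Lf : Fin d → ℂ[X]) (k : ℕ) (j : Fin d) :
    Lf j ^ k * E2_A Lf k j = ∏ l, Lf l ^ k := by
  unfold E2_A
  rw [Finset.mul_prod_erase Finset.univ (fun m => Lf m ^ k) (by simp)]

theorem E2_A_deg {Lf : Fin d → ℂ[X]} (hL : Lins Lf) (k : ℕ) (j : Fin d) :
    (E2_A Lf k j).natDegree = (d - 1) * k ∧ (E2_A Lf k j).coeff ((d - 1) * k) ≠ 0 := by
  have h0 : ∀ l, Lf l ≠ 0 := fun l h => by have := hL.1 l; rw [h] at this; simp at this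
  have h1 : (E2_A Lf k j).natDegree = (d - 1) * k := by
    unfold E2_A
    rw [natDegree_prod _ _ (fun l _ => pow_ne_zero _ (h0 l))]
    simp [natDegree_pow, hL.1, Finset.card_erase_of_mem]
  refine ⟨h1, ?_⟩
  rw [← h1]
  refine leadingCoeff_ne_zero.mpr ?_
  unfold E2_A
  exact Finset.prod_ne_zero_iff.mpr fun l _ => pow_ne_zero _ (h0 l)

theorem E2_S_deg {Lf : Fin d → ℂ[X]} (hL : Lins Lf) (k : ℕ) (a : Fin d → ℂ) :
    (E2_S Lf k a).natDegree ≤ (d - 1) * k :=
  natDegree_sum_le_of_forall_le _ _ fun j _ =>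
    (natDegree_C_mul_le _ _).trans (E2_A_deg hL k j).1.le

theorem E2_S_sub (Lf : Fin d → ℂ[X]) (k : ℕ) (th lam : Fin d → ℂ) (a : ℂ) :
    E2_S Lf k (fun j => lam j * th j) - C a * E2_S Lf k lam =
      E2_S Lf k (fun j => lam j * (th j - a)) := by
  unfold E2_S
  rw [Finset.mul_sum, ← Finset.sum_sub_distrib]
  refine Finset.sum_congr rfl fun j _ => ?_
  simp only [map_mul, map_sub]; ring

/-- `G` in the coordinates centred at `θ_j`. -/
theorem E2_G_shift (Lf : Fin d → ℂ[X]) (k : ℕ) (th lam : Fin d → ℂ) (j0 j : Fin d)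
    (g : ℂ[X][X]) (y : ℂ) :
    E2_G Lf k th lam j0 g y = ∑ i ∈ Finset.range (g.natDegree + 1),
      ((taylor (C (th j)) g).coeff i * Lf j ^ (k * i)) *
      (∑ l, C (lam l * (th l - th j)) * E2_A2 Lf k l j +
        C y * (-C (th j0 - th j) * E2_A2 Lf k j0 j)) ^ i *
      (E2_S Lf k lam + C y * (-E2_A Lf k j0)) ^ (g.natDegree - i) := by
  unfold E2_G
  rw [E2_shift g _ le_rfl (C (th j))]
  have key : ∀ l, C (th l - th j) * E2_A Lf k l = Lf j ^ k * (C (th l - th j) * E2_A2 Lf k l j) := by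
    intro l
    by_cases h : j = l
    · subst h; simp
    · rw [E2_A_eq Lf k h]; ring
  have h1 : E2_S Lf k (fun j => lam j * th j) + C y * (-C (th j0) * E2_A Lf k j0) -
      C (th j) * (E2_S Lf k lam + C y * (-E2_A Lf k j0)) =
      Lf j ^ k * (∑ l, C (lam l * (th l - th j)) * E2_A2 Lf k l j +
        C y * (-C (th j0 - th j) * E2_A2 Lf k j0 j)) := by
    have h2 : E2_S Lf k (fun l => lam l * (th l - th j)) =
        Lf j ^ k * ∑ l, C (lam l * (th l - th j)) * E2_A2 Lf k l j := by
      unfold E2_S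
      rw [Finset.mul_sum]
      refine Finset.sum_congr rfl fun l _ => ?_
      rw [map_mul, mul_assoc, key l]; ring
    have h3 := E2_S_sub Lf k th lam (th j)
    have h4 := key j0
    rw [h2] at h3
    rw [map_sub] at h4 ⊢
    linear_combination h3 - C y * h4
  rw [h1]
  refine Finset.sum_congr rfl fun i _ => ?_
  rw [mul_pow, ← pow_mul]; ring

theorem E2_poly (hd : 2 ≤ d) (j0 : Fin d) (k : ℕ) (hk : 1 ≤ k) (th : Fin d → ℂ)
    (hth : Function.Injective th) (Lf : Fin d → ℂ[X]) (hL : Lins Lf) (g : ℂ[X][X])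
    (hg : Irreducible g) (he : 2 ≤ g.natDegree) :
    ∃ (lam : Fin d → ℂ) (cj : Fin d → ℕ),
      (∀ j, WOrd g (Lf j) (th j) k (cj j) ∧ cj j ≤ k * g.natDegree) ∧
      E2_S Lf k (fun j => lam j * (th j - th j0)) ≠ 0 ∧
      (∃ y, (E2_G Lf k th lam j0 g y).coeff (degT g + g.natDegree * ((d - 1) * k)) ≠ 0) ∧
      ∀ c : ℂ[X], (∀ y, c ∣ E2_G Lf k th lam j0 g y) → c.natDegree ≤ ∑ j, cj j := by
  classical
  have h0 : ∀ l, Lf l ≠ 0 := fun l h => by have := hL.1 l; rw [h] at this; simp at this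
  choose z hz using fun j => E2_lin_root (Lf j) (hL.1 j)
  have hzz : ∀ j, (Lf j).eval (z j) = 0 := fun j => (hz j _).mp dvd_rfl
  have hzl : ∀ l j, l ≠ j → (Lf l).eval (z j) ≠ 0 := by
    intro l j hlj hev
    obtain ⟨a, b, hab⟩ := hL.2 l j hlj
    have := congrArg (eval (z j)) hab
    simp [hev, hzz] at this
  have hzt : ∀ l t0, (Lf l).eval t0 = 0 → t0 = z l := by
    intro l t0 ht
    have h1 : Lf l ∣ X - C (z l) := (hz l _).mpr (by simp)
    have h2 := eval_dvd (x := t0) h1
    rw [ht, zero_dvd_iff] at h2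
    simpa [sub_eq_zero] using h2
  have hA : ∀ j t0, (∀ l, l ≠ j → (Lf l).eval t0 ≠ 0) → (E2_A Lf k j).eval t0 ≠ 0 := by
    intro j t0 h
    unfold E2_A
    rw [eval_prod]
    exact Finset.prod_ne_zero_iff.mpr fun l hl => by
      rw [eval_pow]; exact pow_ne_zero _ (h l (Finset.ne_of_mem_erase hl))
  have hA0 : ∀ l j, j ≠ l → (E2_A Lf k l).eval (z j) = 0 := by
    intro l j h
    rw [E2_A_eq Lf k h, eval_mul, eval_pow, hzz, zero_pow (by omega), zero_mul]
  have hA2 : ∀ l j, (E2_A2 Lf k l j).eval (z j) ≠ 0 := by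
    intro l j
    unfold E2_A2
    rw [eval_prod]
    exact Finset.prod_ne_zero_iff.mpr fun m hm => by
      rw [eval_pow]; exact pow_ne_zero _ (hzl m j (Finset.ne_of_mem_erase hm))
  obtain ⟨j1, hj1⟩ : ∃ j1 : Fin d, j1 ≠ j0 := by
    have : Nontrivial (Fin d) := Fin.nontrivial_iff_two_le.mpr hd
    exact exists_ne j0
  have hth1 : th j1 - th j0 ≠ 0 := sub_ne_zero.mpr fun h => hj1 (hth h)
  have hh0 := E2_eval_ne g hg he (C (th j0))
  set T : Finset ℂ := (g.eval (C (th j0))).roots.toFinset.filter fun t0 => ∀ j, t0 ≠ z j with hT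
  set N := (d - 1) * k with hN
  obtain ⟨lam, hlam⟩ := E2_generic (d := d) (ι := Fin d ⊕ (Unit ⊕ (Unit ⊕ T)))
    (Sum.elim (fun j => Pi.single j 1) (Sum.elim
      (fun _ j => (th j - th j0) * (E2_A Lf k j).coeff N) (Sum.elim
        (fun _ j => (th j - th j0) * (E2_A2 Lf k j j0).eval (z j0))
        (fun t0 j => (th j - th j0) * (E2_A Lf k j).eval (t0 : ℂ))))) (by
      rintro (j | _ | _ | t0) h
      · have := congrFun h j
        simp at this
      · exact mul_ne_zero hth1 (E2_A_deg hL k j1).2 (congrFun h j1)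
      · exact mul_ne_zero hth1 (hA2 j1 j0) (congrFun h j1)
      · refine mul_ne_zero hth1 (hA j1 t0 fun l _ hl => ?_) (congrFun h j1)
        exact (Finset.mem_filter.mp t0.2).2 l (hzt l _ hl))
  have hl1 : ∀ j, lam j ≠ 0 := by
    intro j
    have := hlam (Sum.inl j)
    simpa [Pi.single_apply] using this
  have hl2 : ∑ j, lam j * ((th j - th j0) * (E2_A Lf k j).coeff N) ≠ 0 :=
    hlam (Sum.inr (Sum.inl ()))
  have hl3 : ∑ j, lam j * ((th j - th j0) * (E2_A2 Lf k j j0).eval (z j0)) ≠ 0 :=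
    hlam (Sum.inr (Sum.inr (Sum.inl ())))
  have hl4 : ∀ t0 ∈ T, ∑ j, lam j * ((th j - th j0) * (E2_A Lf k j).eval t0) ≠ 0 :=
    fun t0 ht => hlam (Sum.inr (Sum.inr (Sum.inr ⟨t0, ht⟩)))
  have hQN : (E2_S Lf k (fun j => lam j * (th j - th j0))).coeff N ≠ 0 := by
    unfold E2_S
    rw [finsetSum_coeff]
    simp only [coeff_C_mul]
    simpa only [mul_assoc] using hl2
  refine ⟨lam, fun j => Nat.findGreatest (WOrd g (Lf j) (th j) k) (k * g.natDegree),
    fun j => ⟨Nat.findGreatest_spec (P := WOrd g (Lf j) (th j) k) (Nat.zero_le _)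
      (fun i => by simp), Nat.findGreatest_le _⟩, fun h => hQN (by rw [h]; simp), ?_, ?_⟩
  · obtain ⟨i0, hi0, hne⟩ := E2_exists_top g hg.ne_zero
    refine E2_top g.natDegree (degT g) N (fun i => g.coeff i) (E2_coeff_le_degT g) i0 hi0 hne
      _ _ _ _ (E2_S_deg hL k _) ?_ (E2_S_deg hL k _) ?_ ?_
    · rw [← C_neg]; exact (natDegree_C_mul_le _ _).trans (E2_A_deg hL k j0).1.le
    · rw [natDegree_neg]; exact (E2_A_deg hL k j0).1.le
    · rw [← E2_S_sub] at hQN
      have h1 := mul_ne_zero (E2_A_deg hL k j0).2 hQN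
      intro h2
      apply h1
      simp only [neg_mul, coeff_neg, coeff_C_mul, coeff_sub] at h2 ⊢
      linear_combination h2
  · intro c hc
    refine E2_deg_le c z _ fun t0 r hr hdvd => ?_
    by_cases ht : ∃ j, t0 = z j
    · obtain ⟨j, rfl⟩ := ht
      refine ⟨j, rfl, ?_⟩
      have hLc : Lf j ^ r ∣ c :=
        (pow_dvd_pow_of_dvd ((hz j _).mpr (by simp)) r).trans hdvd
      have hloc := E2_local (Lf j) (z j) (h0 j) (hz j) g.natDegree
        (∑ l, C (lam l * (th l - th j)) * E2_A2 Lf k l j) (-C (th j0 - th j) * E2_A2 Lf k j0 j)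
        (E2_S Lf k lam) (-E2_A Lf k j0) (by
          by_cases hj : j = j0
          · subst hj
            have h1 := mul_ne_zero hl3 (hA j (z j) fun l hl => hzl l j hl)
            intro h2
            apply h1
            simp only [sub_self, map_zero, neg_zero, zero_mul, mul_neg, sub_neg_eq_add, zero_add,
              eval_mul, eval_finsetSum, eval_C] at h2
            simpa [mul_assoc] using h2
          · have h1 : (E2_S Lf k lam).eval (z j) = lam j * (E2_A Lf k j).eval (z j) := by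
              unfold E2_S
              rw [eval_finsetSum, Finset.sum_eq_single j]
              · simp
              · intro l _ hl
                rw [eval_mul, hA0 l j (Ne.symm hl), mul_zero]
              · simp
            have h2 : th j0 - th j ≠ 0 := sub_ne_zero.mpr fun h => hj (hth h).symm
            simp only [eval_sub, eval_mul, eval_neg, eval_C, h1, hA0 j0 j hj, neg_zero, mul_zero,
              sub_zero]
            exact mul_ne_zero (mul_ne_zero (neg_ne_zero.mpr h2) (hA2 j0 j))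
              (mul_ne_zero (hl1 j) (hA j (z j) fun l hl => hzl l j hl))) r
        (fun i => (taylor (C (th j)) g).coeff i * Lf j ^ (k * i)) (fun y => by
          rw [← E2_G_shift]; exact hLc.trans (hc y))
      have hW : WOrd g (Lf j) (th j) k r := by
        intro i
        by_cases hi : i ≤ g.natDegree
        · by_cases hri : r ≤ k * i
          · rw [Nat.sub_eq_zero_of_le hri]; simp
          · have h1 := hloc i hi
            have h2 : r = (r - k * i) + k * i := by omega
            rw [h2, pow_add] at h1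
            exact (mul_dvd_mul_iff_right (pow_ne_zero _ (h0 j))).mp h1
        · rw [coeff_eq_zero_of_natDegree_lt (by rw [natDegree_taylor]; omega)]
          exact dvd_zero _
      refine Nat.le_findGreatest ?_ hW
      obtain ⟨i, hi, hne⟩ := E2_prim g hg (by omega) (C (th j)) (z j)
      by_contra hlt
      have h1 : k * i ≤ k * g.natDegree := Nat.mul_le_mul_left _ hi
      exact hne ((hz j _).mp ((dvd_pow_self _ (by omega)).trans (hW i)))
    · exfalso
      push Not at ht
      have hLt : ∀ l, (Lf l).eval t0 ≠ 0 := fun l hl => ht l (hzt l _ hl)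
      have hA0t := hA j0 t0 fun l _ => hLt l
      have hc1 : ∀ y, X - C t0 ∣ E2_G Lf k th lam j0 g y := fun y =>
        ((dvd_pow_self _ (by omega)).trans hdvd).trans (hc y)
      by_cases hQ : (E2_S Lf k (fun j => lam j * (th j - th j0))).eval t0 = 0
      · apply hl4 t0
        · rw [hT, Finset.mem_filter, Multiset.mem_toFinset, mem_roots hh0]
          refine ⟨?_, ht⟩
          obtain ⟨y, hy⟩ : ∃ y, (E2_S Lf k lam).eval t0 - y * (E2_A Lf k j0).eval t0 = 1 :=
            ⟨((E2_S Lf k lam).eval t0 - 1) / (E2_A Lf k j0).eval t0, by field_simp; ring⟩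
          have h1 := dvd_iff_isRoot.mp (hc1 y)
          rw [← E2_S_sub] at hQ
          simp only [eval_sub, eval_mul, eval_C] at hQ
          have hP : (E2_S Lf k lam + C y * (-E2_A Lf k j0)).eval t0 = 1 := by
            simp only [eval_add, eval_mul, eval_C, eval_neg]; linear_combination hy
          have hR : (E2_S Lf k (fun j => lam j * th j) +
              C y * (-C (th j0) * E2_A Lf k j0)).eval t0 = th j0 := by
            simp only [eval_add, eval_mul, eval_C, eval_neg]
            linear_combination hQ + th j0 * hy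
          rw [IsRoot.def, E2_G, eval_finsetSum] at h1
          rw [IsRoot.def, eval_eq_sum_range (p := g), eval_finsetSum, ← h1]
          refine Finset.sum_congr rfl fun i _ => ?_
          rw [eval_mul, eval_mul, eval_mul, eval_pow, eval_pow, eval_pow, hP, hR]
          simp
        · rw [← hQ]
          unfold E2_S
          rw [eval_finsetSum]
          simp [mul_assoc]
      · have hloc := E2_local (X - C t0) t0 (X_sub_C_ne_zero t0)
          (fun p => dvd_iff_isRoot) g.natDegree
          (E2_S Lf k (fun j => lam j * th j)) (-C (th j0) * E2_A Lf k j0)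
          (E2_S Lf k lam) (-E2_A Lf k j0) (by
            rw [← E2_S_sub] at hQ
            intro h2
            apply mul_ne_zero hA0t hQ
            simp only [eval_sub, eval_mul, eval_neg, eval_C] at h2 ⊢
            linear_combination h2) 1 (fun i => g.coeff i) (fun y => by
            rw [pow_one]; exact hc1 y)
        obtain ⟨i, hi, hne⟩ := E2_prim g hg (by omega) 0 t0
        rw [taylor_zero] at hne
        have := hloc i hi
        rw [pow_one] at this
        exact hne (dvd_iff_isRoot.mp this)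

end Crest.Agent.R22
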