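import Crest.Agent.R22.FF
import Crest.Agent.R22.Bezout
import Crest.Agent.R22.E2AuxB

set_option autoImplicit false
open Polynomial IntermediateField

namespace Crest.Agent.R22

variable {d : ℕ}

/-- Degree of the curve in `μ`-space. `U_j = Urow th Lf k j`, `u = U_0`, `v = ∑_{j ≠ 0} λ_j U_j`,
`x = v/u`; `v - ξ u = P(t,ξ) n - R(t,ξ)`; `G(t,ξ) = ∑ g_i(t) R^i P^(e1-i)` vanishes at `(t, x)`,
has degree `≤ e1` in `ξ`, and `ℂ(t, x) = L` has degree `e1` over `ℂ(t)`; so `G = cont(t) Φ` with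
`Φ` irreducible, `IsFF Φ t x`, and `fdeg x = degT Φ = degT G - deg cont`.
`cj j := min_i (ord_{z_j} h_i + k i)` where `h_i` are the coefficients of `taylor (C θ_j) g`; it is
`≤ k e1` since some `h_i(z_j) ≠ 0`. Choose `λ` (all `λ_j ≠ 0`, e.g. powers of a generic number) with
`vh(t) = ∑_{j≠0} λ_j (θ_0-θ_j) ∏_{l≠0,j} L_l^k` of full degree `(d-2)k` and nonzero at `z_0` and
at the roots `t0 ∉ {z_j}` of `g(t, θ_0) ≠ 0`. Then: the top coefficient in `t` of `G` is
`g_top(R_top/P_top) P_top^e1 ≠ 0` (nondegenerate Möbius map), so `degT G = degT g + (d-1) k e1`;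
a root `t0 ∉ {z_j}` of `cont` is impossible; at `z_j`, `R - θ_j P = L_j^k S_j` with
`S_j(z_j, ξ), P(z_j, ξ)` independent linear polynomials in `ξ`, so `ord_{z_j} cont ≤ cj j`. -/
theorem e2_main (hd : 3 ≤ d) (k : ℕ) (hk : 1 ≤ k) (th : Fin d → ℂ) (hth : Function.Injective th)
    (Lf : Fin d → ℂ[X]) (hL : Lins Lf) (g : ℂ[X][X]) (hg : Irreducible g) (he : 2 ≤ g.natDegree)
    {L : Type*} [Field L] [Algebra ℂ L] (t n : L) (hff : IsFF g t n)
    (gen : IntermediateField.adjoin ℂ {t, n} = ⊤) :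
    ∃ (cj : Fin d → ℕ) (e : ℕ), (∀ j, WOrd g (Lf j) (th j) k (cj j) ∧ cj j ≤ k * g.natDegree) ∧
      degT g + (d - 1) * k * g.natDegree ≤ e + ∑ j, cj j ∧
      GoodRatio (Submodule.span ℂ (Set.range fun j =>
        (n - algebraMap ℂ L (th j)) / aeval t (Lf j) ^ k)) e := by
  classical
  set j0 : Fin d := ⟨0, by omega⟩
  obtain ⟨lam, cj, hcj, hQ, ⟨y0, hy0⟩, hc⟩ := E2_poly (by omega) j0 k hk th hth Lf hL g hg he
  have ht : Transcendental ℂ t := hff.trans_t hg (by omega)
  have hft : fdeg t = g.natDegree := hff.fdeg_t hg (by omega) gen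
  have hinj : ∀ p : ℂ[X], p ≠ 0 → aeval t p ≠ 0 := fun p hp h =>
    hp (transcendental_iff.mp ht p h)
  have h0 : ∀ l, Lf l ≠ 0 := fun l h => by have := hL.1 l; rw [h] at this; simp at this
  have hLt : ∀ l, aeval t (Lf l) ≠ 0 := fun l => hinj _ (h0 l)
  set w : Fin d → L := fun j => (n - algebraMap ℂ L (th j)) / aeval t (Lf j) ^ k with hw
  have hn0 : n - algebraMap ℂ L (th j0) ≠ 0 := by
    intro h
    have h1 : g ∣ X - C (C (th j0)) := (hff _).mp (by simpa using h)
    have h2 := natDegree_le_of_dvd h1 (X_sub_C_ne_zero _)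
    rw [natDegree_X_sub_C] at h2
    omega
  have hw0 : w j0 ≠ 0 := div_ne_zero hn0 (pow_ne_zero _ (hLt j0))
  set v : L := ∑ j, lam j • w j with hv
  set x : L := v / w j0 with hx
  have hxv : x * w j0 = v := div_mul_cancel₀ _ hw0
  set Pi0 : L := ∏ l, aeval t (Lf l) ^ k with hPi
  have hwA : ∀ j, w j * Pi0 = (n - algebraMap ℂ L (th j)) * aeval t (E2_A Lf k j) := by
    intro j
    have h1 : Pi0 = aeval t (Lf j) ^ k * aeval t (E2_A Lf k j) := by
      rw [hPi, ← map_pow, ← map_mul, E2_A_mul]; simp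
    have h2 := pow_ne_zero k (hLt j)
    rw [h1, hw]; field_simp
  set RR : ℂ[X][X] := C (E2_S Lf k (fun j => lam j * th j)) + X * C (-C (th j0) * E2_A Lf k j0)
    with hRR
  set PP : ℂ[X][X] := C (E2_S Lf k lam) + X * C (-E2_A Lf k j0) with hPP
  set G : ℂ[X][X] := ∑ i ∈ Finset.range (g.natDegree + 1),
    C (g.coeff i) * RR ^ i * PP ^ (g.natDegree - i) with hG
  have hGe : ∀ y, G.eval (C y) = E2_G Lf k th lam j0 g y := by
    intro y
    simp only [hG, hRR, hPP, E2_G, eval_finsetSum, eval_mul, eval_pow, eval_add, eval_C, eval_X]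
  have hrel : aevalAeval t x RR = n * aevalAeval t x PP := by
    have h1 : v * Pi0 = n * aeval t (E2_S Lf k lam) -
        aeval t (E2_S Lf k (fun j => lam j * th j)) := by
      rw [hv, Finset.sum_mul]
      unfold E2_S
      rw [map_sum, map_sum, Finset.mul_sum, ← Finset.sum_sub_distrib]
      refine Finset.sum_congr rfl fun j _ => ?_
      rw [smul_mul_assoc, hwA j, Algebra.smul_def]
      simp only [map_mul, aeval_C]; ring
    have h2 := hwA j0
    simp only [hRR, hPP, map_add, map_mul, aevalAeval_C, aevalAeval_Y, map_neg, aeval_C]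
    linear_combination h1 + Pi0 * hxv - x * h2
  have hP0 : aevalAeval t x PP ≠ 0 := by
    intro h
    apply hinj _ hQ
    rw [← E2_S_sub]
    have h1 := hrel
    rw [h, mul_zero] at h1
    simp only [hRR, hPP, map_add, map_mul, aevalAeval_C, aevalAeval_Y, map_neg, aeval_C,
      map_sub] at h h1 ⊢
    linear_combination h1 - algebraMap ℂ L (th j0) * h
  have hG0 : aevalAeval t x G = 0 := by
    have h1 : aevalAeval t n g = 0 := (hff g).mpr dvd_rfl
    have h2 : aevalAeval t n g =
        ∑ i ∈ Finset.range (g.natDegree + 1), aeval t (g.coeff i) * n ^ i := by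
      conv_lhs => rw [as_sum_range_C_mul_X_pow g]
      simp only [map_sum, map_mul, map_pow, aevalAeval_C, aevalAeval_Y]
    have h3 : aevalAeval t x G = aevalAeval t n g * aevalAeval t x PP ^ g.natDegree := by
      rw [h2, hG, map_sum, Finset.sum_mul]
      refine Finset.sum_congr rfl fun i hi => ?_
      have hie : i ≤ g.natDegree := by simpa [Nat.lt_succ_iff] using hi
      have h4 : aevalAeval t x PP ^ g.natDegree =
          aevalAeval t x PP ^ i * aevalAeval t x PP ^ (g.natDegree - i) := by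
        rw [← pow_add]; congr 1; omega
      rw [h4, map_mul, map_mul, map_pow, map_pow, hrel, aevalAeval_C, mul_pow]; ring
    rw [h3, h1, zero_mul]
  have hmem : ∀ (K : IntermediateField ℂ L), t ∈ K → x ∈ K → ∀ p : ℂ[X][X],
      aevalAeval t x p ∈ K := by
    intro K htK hxK p
    have hp : ∀ q : ℂ[X], aeval t q ∈ K := fun q => by
      rw [aeval_eq_sum_range]
      exact K.sum_mem fun i _ => K.smul_mem (pow_mem htK _)
    rw [as_sum_range_C_mul_X_pow p]
    simp only [map_sum, map_mul, map_pow, aevalAeval_C, aevalAeval_Y]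
    exact K.sum_mem fun i _ => mul_mem (hp _) (pow_mem hxK _)
  have gen' : IntermediateField.adjoin ℂ {t, x} = ⊤ := by
    rw [eq_top_iff, ← gen, adjoin_le_iff]
    have htK : t ∈ IntermediateField.adjoin ℂ {t, x} := subset_adjoin _ _ (by simp)
    have hxK : x ∈ IntermediateField.adjoin ℂ {t, x} := subset_adjoin _ _ (by simp)
    rintro a (rfl | rfl)
    · exact htK
    · have : a = aevalAeval t x RR / aevalAeval t x PP := by rw [hrel]; field_simp
      rw [SetLike.mem_coe, this]
      exact div_mem (hmem _ htK hxK _) (hmem _ htK hxK _)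
  have hfin : FiniteDimensional ℂ⟮t⟯ L := by
    apply Module.finite_of_finrank_pos
    have : Module.finrank ℂ⟮t⟯ L = g.natDegree := hft
    omega
  obtain ⟨Φ, hΦ, hΦ1, hΦf⟩ := exists_isFF t x ht (Algebra.IsIntegral.isIntegral x)
  have hΦd : Φ.natDegree = g.natDegree := by rw [← hΦf.fdeg_t hΦ hΦ1 gen', hft]
  obtain ⟨Ψ, hΨ⟩ := (hΦf G).mp hG0
  have hGne : G ≠ 0 := by
    intro h
    apply hy0
    rw [← hGe, h]; simp
  have hGd : G.natDegree ≤ g.natDegree := by
    have hlin : ∀ a b : ℂ[X], (C a + X * C b : ℂ[X][X]).natDegree ≤ 1 := fun a b =>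
      (natDegree_add_le _ _).trans (max_le (by simp)
        ((natDegree_mul_C_le _ _).trans natDegree_X_le))
    refine natDegree_sum_le_of_forall_le _ _ fun i hi => ?_
    have hie : i ≤ g.natDegree := by simpa [Nat.lt_succ_iff] using hi
    have h1 : (RR ^ i).natDegree ≤ i * 1 :=
      natDegree_pow_le.trans (Nat.mul_le_mul_left _ (hlin _ _))
    have h2 : (PP ^ (g.natDegree - i)).natDegree ≤ (g.natDegree - i) * 1 :=
      natDegree_pow_le.trans (Nat.mul_le_mul_left _ (hlin _ _))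
    have h3 := (natDegree_C_mul_le (g.coeff i) (RR ^ i)).trans h1
    refine natDegree_mul_le.trans ?_
    omega
  have hΨ0 : Ψ ≠ 0 := by rintro rfl; exact hGne (by rw [hΨ, mul_zero])
  have hΨd : Ψ.natDegree = 0 := by
    rw [hΨ, natDegree_mul hΦ.ne_zero hΨ0] at hGd
    omega
  obtain ⟨c, rfl⟩ : ∃ c, Ψ = C c := ⟨_, eq_C_of_natDegree_eq_zero hΨd⟩
  have hcd := hc c fun y => by
    rw [← hGe, hΨ, eval_mul, eval_C]; exact dvd_mul_left _ _
  have hx : Transcendental ℂ x := by
    by_contra hcon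
    obtain ⟨a, ha⟩ := const_of_not_trans x hcon
    have h1 : Φ ∣ X - C (C a) := (hΦf _).mp (by simp [ha])
    have h2 := natDegree_le_of_dvd h1 (X_sub_C_ne_zero _)
    rw [natDegree_X_sub_C] at h2
    omega
  refine ⟨cj, degT Φ, hcj, ?_, v, ?_, w j0, Submodule.subset_span ⟨j0, rfl⟩, hw0, hx, ?_⟩
  · have h1 := le_natDegree_of_ne_zero hy0
    rw [← hGe, hΨ, eval_mul, eval_C] at h1
    have h2 := natDegree_mul_le (p := Φ.eval (C y0)) (q := c)
    have h3 := E2_eval_le_degT Φ y0
    rw [mul_comm g.natDegree] at h1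
    omega
  · exact Submodule.sum_mem _ fun j _ => Submodule.smul_mem _ _ (Submodule.subset_span ⟨j, rfl⟩)
  · rcases Nat.eq_zero_or_pos (degT Φ) with h | h
    · rw [h]; exact Nat.zero_le _
    · have hirr : Irreducible (Bivariate.swap Φ) := (MulEquiv.irreducible_iff _).mpr hΦ
      have := hΦf.swap.fdeg_t hirr (by rw [natDegree_swap]; omega) (by rw [Set.pair_comm]; exact gen')
      rw [natDegree_swap] at this
      exact this.ge

end Crest.Agent.R22
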