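import Crest.Agent.R22.Basic
import Crest.Agent.R22.LinAlg

set_option autoImplicit false
open Polynomial IntermediateField

namespace Crest.Agent.R22

variable {d : ℕ}

/-- A binary form of degree `n` with more than `n` zeros in `ℙ¹` vanishes. -/
theorem Descend_zero (F : ℂ[X]) (n : ℕ) (hF : F.natDegree ≤ n) {Z : Type} (S : Finset Z)
    (w0 w1 : Z → ℤ) (hS : n < S.card)
    (hd : ∀ P ∈ S, ∀ Q ∈ S, w0 P * w1 Q = w0 Q * w1 P → P = Q)
    (h0 : ∀ P ∈ S, w0 P ≠ 0 ∨ w1 P ≠ 0) (h : ∀ P ∈ S, hev F n (w0 P : ℂ) (w1 P) = 0) : F = 0 := by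
  classical
  have key : ∀ T ⊆ S, (∀ P ∈ T, w1 P ≠ 0) → F.degree < T.card → F = 0 := fun T hT h1 h2 => by
    have h1' : ∀ P ∈ T, (w1 P : ℂ) ≠ 0 := fun P hP => by exact_mod_cast h1 P hP
    refine eq_zero_of_degree_lt_of_eval_finset_eq_zero (T.image fun P => (w0 P : ℂ) / w1 P) ?_ ?_
    · rwa [Finset.card_image_of_injOn fun P hP Q hQ e => hd P (hT hP) Q (hT hQ) ?_]
      exact_mod_cast (div_eq_div_iff (h1' P hP) (h1' Q hQ)).1 e
    · intro x hx
      obtain ⟨P, hP, rfl⟩ := Finset.mem_image.1 hx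
      have := h P (hT hP)
      rw [hev_eq_eval F n hF _ _ (h1' P hP), coe_aeval_eq_eval] at this
      exact (mul_eq_zero.1 this).resolve_left (pow_ne_zero _ (h1' P hP))
  by_cases hz : ∀ P ∈ S, w1 P ≠ 0
  · exact key S subset_rfl hz (degree_le_natDegree.trans_lt (by exact_mod_cast hF.trans_lt hS))
  push Not at hz
  obtain ⟨P, hP, hP0⟩ := hz
  have hc : F.coeff n = 0 := by
    have e := h P hP
    rw [hev, Finset.sum_eq_single n (fun i hi hin => by
      rw [hP0, Int.cast_zero, zero_pow (by have := Finset.mem_range.1 hi; omega), mul_zero])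
      (by simp)] at e
    have h2 : (w0 P : ℂ) ≠ 0 := by exact_mod_cast (h0 P hP).resolve_right (not_not.2 hP0)
    simpa [h2] using e
  refine key (S.erase P) (Finset.erase_subset _ _) (fun Q hQ e => ?_) ?_
  · exact (Finset.mem_erase.1 hQ).1 (hd Q (Finset.mem_erase.1 hQ).2 P hP (by simp [e, hP0]))
  · rw [degree_lt_iff_coeff_zero]
    intro m hm
    rw [Finset.card_erase_of_mem hP] at hm
    rcases (show n ≤ m by omega).eq_or_lt with rfl | h3
    · exact hc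
    · exact coeff_eq_zero_of_natDegree_lt (hF.trans_lt h3)

/-- Forms proportional to forms without common zero are constant multiples. -/
theorem Descend_prop {ι : Type} [Fintype ι] (p q : ι → ℂ[X]) (N : ℕ) (hp : NoCZ p N)
    (hq : ∀ l, (q l).natDegree ≤ N) (h : ∀ l m, q l * p m = q m * p l) :
    ∃ a : ℂ, ∀ l, q l = C a * p l := by
  classical
  obtain ⟨c, hc⟩ := Finset.gcd_eq_sum_mul Finset.univ p
  have hg : (Finset.univ.gcd p).degree = 0 := by
    by_contra hg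
    obtain ⟨x, hx⟩ := IsAlgClosed.exists_root _ hg
    obtain ⟨l, hl⟩ := hp.2 x 1 (Or.inr one_ne_zero)
    rw [hev_eq_eval _ N (hp.1 l) _ _ one_ne_zero, one_pow, one_mul, div_one,
      coe_aeval_eq_eval] at hl
    exact hl (hx.dvd (Finset.gcd_dvd (Finset.mem_univ l)))
  obtain ⟨b, hb, e⟩ := isUnit_iff.1 (isUnit_iff_degree_eq_zero.2 hg)
  have h1 : ∀ m, q m = (C b⁻¹ * ∑ l, q l * c l) * p m := fun m => by
    have e1 : C b * q m = (∑ l, q l * c l) * p m := by
      rw [e, hc, Finset.sum_mul, Finset.sum_mul]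
      exact Finset.sum_congr rfl fun l _ => by linear_combination c l * h m l
    rw [mul_assoc, ← e1, ← mul_assoc, ← C_mul, inv_mul_cancel₀ hb.ne_zero, C_1, one_mul]
  generalize (C b⁻¹ * ∑ l, q l * c l) = r at h1
  obtain ⟨l, hl⟩ := hp.2 1 0 (Or.inl one_ne_zero)
  rw [hev, Finset.sum_eq_single N (fun i hi hin => by
    rw [zero_pow (by have := Finset.mem_range.1 hi; omega), mul_zero]) (by simp)] at hl
  have h2 : (p l).coeff N ≠ 0 := by simpa using hl
  have h3 : r.natDegree = 0 := by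
    by_cases hr : r = 0
    · simp [hr]
    have h4 := hq l
    rw [h1 l, natDegree_mul hr fun h5 => h2 (by simp [h5])] at h4
    have := le_natDegree_of_ne_zero h2
    omega
  exact ⟨r.coeff 0, fun m => by rw [← eq_C_of_natDegree_eq_zero h3, h1 m]⟩

theorem Descend_fix (ι : Type) [Fintype ι] (N : ℕ) : ∃ C : ℕ, ∀ (p : ι → ℂ[X]) (H : ℝ)
    {Z : Type} (S : Finset Z) (w0 w1 : Z → ℤ) (V : Z → ι → ℤ), 2 ≤ H → NoCZ p N →
    2 * N < S.card → (∀ P ∈ S, ∀ Q ∈ S, w0 P * w1 Q = w0 Q * w1 P → P = Q) →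
    (∀ P ∈ S, (w0 P ≠ 0 ∨ w1 P ≠ 0) ∧ V P ≠ 0 ∧ |(w0 P : ℝ)| ≤ H ∧ |(w1 P : ℝ)| ≤ H ∧
      (∀ l, |(V P l : ℝ)| ≤ H) ∧
      ∀ l m, (V P l : ℂ) * hev (p m) N (w0 P : ℂ) (w1 P) = V P m * hev (p l) N (w0 P : ℂ) (w1 P)) →
    ∃ (p' : ι → ℤ[X]) (a : ℂ), a ≠ 0 ∧ (∀ l, HtLE (p' l) (H ^ C)) ∧
      ∀ l, (p' l).map (Int.castRingHom ℂ) = Polynomial.C a * p l := by
  classical
  obtain ⟨C, hC⟩ := ker_bounded (ι × Fin (N + 1))
  refine ⟨(N + 2) * C, fun p H Z S w0 w1 V hH hp hS hd h => ?_⟩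
  let A : S × ι × ι → ι × Fin (N + 1) → ℤ := fun z k =>
    ((if k.1 = z.2.2 then V z.1 z.2.1 else 0) - if k.1 = z.2.1 then V z.1 z.2.2 else 0) *
      (w0 z.1 ^ (k.2 : ℕ) * w1 z.1 ^ (N - k.2))
  have hA : ∀ (z : S × ι × ι) (q : ι → ℂ[X]), ∑ k, (A z k : ℂ) * (q k.1).coeff k.2 =
      V z.1 z.2.1 * hev (q z.2.2) N (w0 z.1 : ℂ) (w1 z.1) -
        V z.1 z.2.2 * hev (q z.2.1) N (w0 z.1 : ℂ) (w1 z.1) := fun z q => by
    rw [Fintype.sum_prod_type, Finset.sum_comm, hev, hev, Finset.mul_sum, Finset.mul_sum,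
      ← Finset.sum_sub_distrib, Finset.sum_range]
    refine Finset.sum_congr rfl fun i _ => ?_
    simp only [A, Int.cast_mul, Int.cast_sub, Int.cast_ite, Int.cast_zero, Int.cast_pow, sub_mul,
      ite_mul, zero_mul, Finset.sum_sub_distrib, Finset.sum_ite_eq', Finset.mem_univ, if_true,
      Algebra.algebraMap_self, RingHom.id_apply]
    ring
  have hH1 : 1 ≤ H := by linarith
  have hv := hC _ A (H ^ (N + 2)) (hH.trans (le_self_pow₀ hH1 (by omega))) (fun z k => by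
      obtain ⟨-, -, e0, e1, e2, -⟩ := h z.1 z.1.2
      have e3 : ∀ (c : Prop) [Decidable c] (l : ι),
          |((if c then V z.1 l else 0 : ℤ) : ℝ)| ≤ H := fun c _ l => by
        split_ifs
        · exact e2 l
        · simpa using zero_le_one.trans hH1
      simp only [A]
      rw [Int.cast_mul, Int.cast_sub, Int.cast_mul, Int.cast_pow, Int.cast_pow, abs_mul, abs_mul,
        abs_pow, abs_pow]
      calc _ ≤ (H + H) * (H ^ (k.2 : ℕ) * H ^ (N - k.2)) := by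
            gcongr
            exact (abs_sub _ _).trans (add_le_add (e3 _ _) (e3 _ _))
        _ ≤ (H * H) * H ^ N := by
            rw [← pow_add, Nat.add_sub_cancel' (Nat.lt_succ_iff.1 k.2.2)]
            gcongr
            nlinarith
        _ = _ := by ring)
    (fun k => (p k.1).coeff k.2) fun z => by
      rw [hA, (h z.1 z.1.2).2.2.2.2.2, sub_self]
  obtain ⟨w, hw0, hw, hwb⟩ : ∃ w : ι × Fin (N + 1) → ℤ, w ≠ 0 ∧ (∀ z, ∑ i, A z i * w i = 0) ∧
      ∀ i, |(w i : ℝ)| ≤ (H ^ (N + 2)) ^ C := by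
    by_contra hn
    push Not at hn
    have h0 : (fun k : ι × Fin (N + 1) => (p k.1).coeff k.2) = 0 := by
      refine (Submodule.mem_bot ℂ).1 (Submodule.span_le.2 ?_ hv)
      rintro _ ⟨w, e1, e2, e3⟩
      by_cases hw : w = 0
      · exact funext fun i => by simp [e1, hw]
      · obtain ⟨i, hi⟩ := hn w hw e2
        exact absurd (e3 i) (not_le.2 hi)
    obtain ⟨l, hl⟩ := hp.2 1 0 (Or.inl one_ne_zero)
    refine hl (Finset.sum_eq_zero fun i hi => ?_)
    have : (p l).coeff i = 0 := congrFun h0 (l, ⟨i, Finset.mem_range.1 hi⟩)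
    simp [this]
  let p' : ι → ℤ[X] := fun l => ∑ i : Fin (N + 1), monomial i (w (l, i))
  have c1 : ∀ l (i : Fin (N + 1)), (p' l).coeff i = w (l, i) := fun l i => by
    simp [p', coeff_monomial, Fin.val_inj]
  have c2 : ∀ l, (p' l).natDegree ≤ N := fun l =>
    natDegree_sum_le_of_forall_le _ _ fun i _ =>
      (natDegree_monomial_le _).trans (Nat.lt_succ_iff.1 i.2)
  have c3 : ∀ l, ((p' l).map (Int.castRingHom ℂ)).natDegree ≤ N := fun l =>
    natDegree_map_le.trans (c2 l)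
  obtain ⟨a, ha⟩ := Descend_prop p (fun l => (p' l).map (Int.castRingHom ℂ)) N hp c3 fun l m => by
    refine sub_eq_zero.1 (Descend_zero _ (N + N) ((natDegree_sub_le _ _).trans (max_le
      (natDegree_mul_le.trans (add_le_add (c3 l) (hp.1 m)))
      (natDegree_mul_le.trans (add_le_add (c3 m) (hp.1 l))))) S w0 w1 (by omega) hd
      (fun P hP => (h P hP).1) fun P hP => ?_)
    obtain ⟨-, hV, -, -, -, e⟩ := h P hP
    obtain ⟨k, hk⟩ := Function.ne_iff.1 hV
    have hk' : (V P k : ℂ) ≠ 0 := by exact_mod_cast hk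
    have e' : ∀ l m, (V P l : ℂ) * hev ((p' m).map (Int.castRingHom ℂ)) N (w0 P : ℂ) (w1 P) -
        V P m * hev ((p' l).map (Int.castRingHom ℂ)) N (w0 P : ℂ) (w1 P) = 0 := fun l m => by
      rw [← hA (⟨P, hP⟩, l, m) fun l => (p' l).map (Int.castRingHom ℂ)]
      simp only [coeff_map, c1, eq_intCast]
      exact_mod_cast hw (⟨P, hP⟩, l, m)
    have e'' : ∀ A B : ℂ[X], hev (A - B) (N + N) (w0 P : ℂ) (w1 P) =
        hev A (N + N) (w0 P : ℂ) (w1 P) - hev B (N + N) (w0 P : ℂ) (w1 P) := fun A B => by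
      simp only [hev, coeff_sub, map_sub, sub_mul, Finset.sum_sub_distrib]
    rw [e'', hev_mul _ _ N N (c3 l) (hp.1 m), hev_mul _ _ N N (c3 m) (hp.1 l)]
    refine mul_left_cancel₀ (mul_ne_zero hk' hk') ?_
    linear_combination (V P k * hev (p m) N (w0 P : ℂ) (w1 P)) * e' k l -
      (V P k * hev (p l) N (w0 P : ℂ) (w1 P)) * e' k m +
      (V P k * hev ((p' k).map (Int.castRingHom ℂ)) N (w0 P : ℂ) (w1 P)) * e l m
  refine ⟨p', a, fun h0 => hw0 (funext fun k => ?_), fun l i => ?_, ha⟩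
  · have := congrArg (fun f => coeff f k.2) (ha k.1)
    simpa [h0, c1] using this
  · rcases le_or_gt i N with hi | hi
    · rw [pow_mul, c1 l ⟨i, Nat.lt_succ_of_le hi⟩]
      exact hwb _
    · rw [coeff_eq_zero_of_natDegree_lt ((c2 l).trans_lt hi)]
      simpa using by positivity

/-- Descent to integer forms: if complex forms without common zero are proportional to integer vectors
`V P` at more than `2 N` distinct points `w P` of `ℙ¹(ℚ)`, some constant multiple has integer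
coefficients of bounded height (`ker_bounded`: a nonzero integer solution `p'` of the linear system
has `p'_l p_m - p'_m p_l` vanishing at `> 2N` points, hence `p' = const · p`). -/
theorem forms_descend (ι : Type) [Fintype ι] (E : ℕ) : ∃ C : ℕ, ∀ (p : ι → ℂ[X]) (N : ℕ) (H : ℝ)
    {Z : Type} (S : Finset Z) (w0 w1 : Z → ℤ) (V : Z → ι → ℤ), N ≤ E → 2 ≤ H → NoCZ p N →
    2 * N < S.card → (∀ P ∈ S, ∀ Q ∈ S, w0 P * w1 Q = w0 Q * w1 P → P = Q) →
    (∀ P ∈ S, (w0 P ≠ 0 ∨ w1 P ≠ 0) ∧ V P ≠ 0 ∧ |(w0 P : ℝ)| ≤ H ∧ |(w1 P : ℝ)| ≤ H ∧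
      (∀ l, |(V P l : ℝ)| ≤ H) ∧
      ∀ l m, (V P l : ℂ) * hev (p m) N (w0 P : ℂ) (w1 P) = V P m * hev (p l) N (w0 P : ℂ) (w1 P)) →
    ∃ (p' : ι → ℤ[X]) (a : ℂ), a ≠ 0 ∧ (∀ l, HtLE (p' l) (H ^ C)) ∧
      ∀ l, (p' l).map (Int.castRingHom ℂ) = Polynomial.C a * p l := by
  choose C hC using Descend_fix ι
  refine ⟨(Finset.range (E + 1)).sup C, fun p N H Z S w0 w1 V hN hH hp hS hd h => ?_⟩
  obtain ⟨p', a, h1, h2, h3⟩ := hC N p H S w0 w1 V hH hp hS hd h
  exact ⟨p', a, h1, fun l i => (h2 l i).trans (pow_le_pow_right₀ (by linarith)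
    (Finset.le_sup (f := C) (Finset.mem_range.2 (Nat.lt_succ_of_le hN)))), h3⟩

end Crest.Agent.R22
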