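import Crest.Agent.R22.RL0
import Crest.Agent.R22.NF
import Crest.Agent.R22.Descend

/-! Row 22: auxiliary lemmas for `rl_cx` (helper77). -/

set_option autoImplicit false
open Polynomial IntermediateField

namespace Crest.Agent.R22.RLCAux

variable {d : ℕ}

theorem exists_pow (K : ℝ) : ∃ a : ℕ, ∀ Y : ℝ, 2 ≤ Y → K ≤ Y ^ a := by
  obtain ⟨a, ha⟩ := pow_unbounded_of_one_lt K (one_lt_two (α := ℝ))
  exact ⟨a, fun Y hY => ha.le.trans (pow_le_pow_left₀ zero_le_two hY a)⟩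

theorem hev_map (A : ℤ[X]) (N : ℕ) (x y : ℂ) :
    hev (A.map (Int.castRingHom ℂ)) N x y = hev A N x y := by
  simp [hev]

theorem hev_C_mul (a : ℂ) (A : ℂ[X]) (N : ℕ) (x y : ℂ) :
    hev (C a * A) N x y = a * hev A N x y := by
  simp [hev, Finset.mul_sum, mul_assoc]

theorem hev_sum {ι : Type*} (s : Finset ι) (A : ι → ℂ[X]) (N : ℕ) (x y : ℂ) :
    hev (∑ i ∈ s, A i) N x y = ∑ i ∈ s, hev (A i) N x y := by
  simp only [hev, finsetSum_coeff, map_sum, Finset.sum_mul]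
  exact Finset.sum_comm

theorem hev_prod {ι : Type*} (s : Finset ι) (A : ι → ℂ[X]) (N : ℕ) (h : ∀ i, (A i).natDegree ≤ N)
    (x y : ℂ) : (∏ i ∈ s, A i).natDegree ≤ s.card * N ∧
      hev (∏ i ∈ s, A i) (s.card * N) x y = ∏ i ∈ s, hev (A i) N x y := by
  classical
  induction s using Finset.induction_on with
  | empty => simp [hev]
  | insert a s ha ih =>
    rw [Finset.prod_insert ha, Finset.prod_insert ha, Finset.card_insert_of_notMem ha, add_mul,
      one_mul, add_comm]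
    exact ⟨natDegree_mul_le.trans (add_le_add (h a) ih.1), by rw [hev_mul _ _ _ _ (h a) ih.1, ih.2]⟩

theorem coeff_mul_le {f g : ℂ[X]} {n : ℕ} {a b : ℝ} (hn : f.natDegree ≤ n) (hb : 0 ≤ b)
    (hf : ∀ i, ‖f.coeff i‖ ≤ a) (hg : ∀ i, ‖g.coeff i‖ ≤ b) (k : ℕ) :
    ‖(f * g).coeff k‖ ≤ (n + 1) * a * b := by
  have ha : 0 ≤ a := (norm_nonneg _).trans (hf 0)
  conv_lhs => rw [f.as_sum_range_C_mul_X_pow' (Nat.lt_succ_of_le hn)]
  rw [Finset.sum_mul, finsetSum_coeff]
  refine (norm_sum_le _ _).trans ?_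
  refine (Finset.sum_le_card_nsmul _ _ (a * b) fun i _ => ?_).trans (by simp [mul_assoc])
  rw [mul_assoc, coeff_C_mul, norm_mul, coeff_X_pow_mul']
  refine mul_le_mul (hf i) ?_ (norm_nonneg _) ha
  split_ifs
  · exact hg _
  · simpa using hb

theorem coeff_prod_le {ι : Type*} (s : Finset ι) (A : ι → ℂ[X]) {n : ℕ} {a : ℝ} (ha : 0 ≤ a)
    (h : ∀ i, (A i).natDegree ≤ n) (hA : ∀ i k, ‖(A i).coeff k‖ ≤ a) (k : ℕ) :
    ‖(∏ i ∈ s, A i).coeff k‖ ≤ ((n + 1) * a) ^ s.card := by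
  classical
  induction s using Finset.induction_on generalizing k with
  | empty =>
    rw [Finset.prod_empty, coeff_one]
    split_ifs <;> simp
  | insert i s hi ih =>
    rw [Finset.prod_insert hi, Finset.card_insert_of_notMem hi, pow_succ']
    exact coeff_mul_le (h i) (by positivity) (hA i) ih k

/-- Descent of `NoCZ`. -/
theorem nocz {ι : Type*} {p : ι → ℂ[X]} {p' : ι → ℤ[X]} {a : ℂ} {N : ℕ} (ha : a ≠ 0)
    (h : NoCZ p N) (he : ∀ l, (p' l).map (Int.castRingHom ℂ) = C a * p l) : NoCZ p' N := by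
  refine ⟨fun l => ?_, fun x y hxy => ?_⟩
  · rw [← natDegree_map_eq_of_injective (Int.castRingHom ℂ).injective_int, he]
    exact (natDegree_C_mul_le _ _).trans (h.1 l)
  · obtain ⟨l, hl⟩ := h.2 x y hxy
    exact ⟨l, by rw [← hev_map, he, hev_C_mul]; exact mul_ne_zero ha hl⟩

/-- A vector proportional to a primitive vector is a multiple of it. -/
theorem prim_mul {β v : Fin d → ℤ} (hβ : Prim β) (h : ∀ l m, β l * v m = β m * v l) :
    ∃ e : ℤ, ∀ l, v l = e * β l := by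
  obtain ⟨u, hu⟩ := Finset.gcd_eq_sum_mul Finset.univ β
  have h1 : (Finset.univ.gcd β).natAbs = 1 := by
    by_contra hne
    obtain ⟨q, hq, hd⟩ := Nat.exists_prime_and_dvd hne
    obtain ⟨i, hi⟩ := hβ q hq
    exact hi ((Int.natCast_dvd.2 hd).trans (Finset.gcd_dvd (Finset.mem_univ i)))
  have h2 : Finset.univ.gcd β * Finset.univ.gcd β = 1 := by
    rw [← Int.natAbs_mul_self', h1]; rfl
  refine ⟨Finset.univ.gcd β * ∑ l, v l * u l, fun m => ?_⟩
  have h3 : (∑ l, v l * u l) * β m = Finset.univ.gcd β * v m := by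
    rw [hu, Finset.sum_mul, Finset.sum_mul]
    exact Finset.sum_congr rfl fun l _ => by linear_combination (-u l) * h l m
  rw [mul_assoc, h3, ← mul_assoc, h2, one_mul]

/-- The norm of a vector of integer forms. -/
theorem normPoly (c : Ctx d) (E : ℕ) : ∃ K : ℝ, ∀ (b : Fin d → ℤ[X]) (N : ℕ) (H : ℝ), N ≤ E →
    0 ≤ H → (∀ l, (b l).natDegree ≤ N) → (∀ l, HtLE (b l) H) → ∃ F : ℤ[X], F.natDegree ≤ d * N ∧
      HtLE F ((K * H) ^ d) ∧ ∀ x y : ℤ,
        ((hev F (d * N) x y : ℤ) : ℂ) = ∏ j, c.sg j fun l => hev (b l) N x y := by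
  obtain ⟨NF, -, hNF⟩ := exists_normForm c
  obtain ⟨T, hT1, hT, -⟩ := norm_equiv c
  refine ⟨(E + 1) * (d * T ^ d), fun b N H hN hH hb hht => ?_⟩
  let G : Fin d → ℂ[X] := fun j => ∑ i : Fin d, C (c.th j ^ (i : ℕ)) * (b i).map (Int.castRingHom ℂ)
  have hF : (MvPolynomial.aeval b NF).map (Int.castRingHom ℂ) = ∏ j, G j := by
    refine Polynomial.funext fun z => ?_
    have h1 := MvPolynomial.comp_aeval_apply (f := b) (Polynomial.aeval z : ℤ[X] →ₐ[ℤ] ℂ) NF
    rw [eval_map, show Int.castRingHom ℂ = algebraMap ℤ ℂ from rfl, ← aeval_def, h1, hNF, eval_prod]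
    refine Finset.prod_congr rfl fun j _ => ?_
    rw [eval_finsetSum]
    refine Finset.sum_congr rfl fun i _ => ?_
    rw [eval_mul, eval_C, eval_map, mul_comm]
    rfl
  have hG : ∀ j, (G j).natDegree ≤ N := fun j =>
    natDegree_sum_le_of_forall_le _ _ fun i _ =>
      (natDegree_C_mul_le _ _).trans (natDegree_map_le.trans (hb i))
  have hGc : ∀ j k, ‖(G j).coeff k‖ ≤ d * T ^ d * H := fun j k => by
    rw [finsetSum_coeff]
    refine (norm_sum_le _ _).trans ?_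
    refine (Finset.sum_le_card_nsmul _ _ (T ^ d * H) fun i _ => ?_).trans (by simp [mul_assoc])
    rw [coeff_C_mul, norm_mul, coeff_map, norm_pow]
    refine mul_le_mul ((pow_le_pow_left₀ (norm_nonneg _) (hT j) _).trans
      (pow_le_pow_right₀ hT1 i.2.le)) ?_ (norm_nonneg _) (by positivity)
    simpa using hht i k
  refine ⟨MvPolynomial.aeval b NF, ?_, fun k => ?_, fun x y => ?_⟩
  · rw [← natDegree_map_eq_of_injective (Int.castRingHom ℂ).injective_int, hF]
    simpa using (hev_prod Finset.univ G N hG 0 0).1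
  · have h1 := coeff_prod_le Finset.univ G (by positivity) (fun j => (hG j).trans hN) hGc k
    rw [← hF, coeff_map] at h1
    simpa [mul_assoc] using h1
  · have h1 := (hev_prod Finset.univ G N hG x y).2
    rw [Finset.card_univ, Fintype.card_fin] at h1
    rw [hev_cast, hF, h1]
    refine Finset.prod_congr rfl fun j _ => ?_
    rw [hev_sum, Ctx.sg]
    refine Finset.sum_congr rfl fun i _ => ?_
    rw [hev_C_mul, hev_cast, mul_comm]

theorem htle_mono {A : ℤ[X]} {H H' : ℝ} (h : HtLE A H) (hH : H ≤ H') : HtLE A H' :=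
  fun i => (h i).trans hH

/-- Proportional pairs give the same point. -/
theorem inj_w {c : Ctx d} {k : ℕ} {A Bq : ℂ[X]} {N : ℕ} (hn : NoCZ ![A, Bq] N) {P Q : LPt c k}
    {x y x' y' : ℤ} (h : IsCoprime x y) (h' : IsCoprime x' y') (he : x * y' = x' * y)
    (hP : hev A N (x : ℂ) y = P.n * hev Bq N (x : ℂ) y)
    (hQ : hev A N (x' : ℂ) y' = Q.n * hev Bq N (x' : ℂ) y') : P.n = Q.n := by
  obtain ⟨a, b, hab⟩ := h
  have e1 : x' = (a * x' + b * y') * x := by linear_combination (-x') * hab - b * he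
  have e2 : y' = (a * x' + b * y') * y := by linear_combination (-y') * hab + a * he
  generalize a * x' + b * y' = t at e1 e2
  have ht : (t : ℂ) ≠ 0 := by
    rintro h0
    obtain rfl : t = 0 := by exact_mod_cast h0
    rw [e1, e2, zero_mul, zero_mul] at h'
    exact not_isCoprime_zero_zero h'
  rw [e1, e2, Int.cast_mul, Int.cast_mul, hev_smul, hev_smul, mul_left_comm,
    mul_right_inj' (pow_ne_zero _ ht)] at hQ
  have hxy : (x : ℂ) ≠ 0 ∨ (y : ℂ) ≠ 0 := by
    by_contra hc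
    push Not at hc
    obtain rfl : x = 0 := by exact_mod_cast hc.1
    obtain rfl : y = 0 := by exact_mod_cast hc.2
    simp at hab
  have hB : hev Bq N (x : ℂ) y ≠ 0 := by
    intro h0
    obtain ⟨i, hi⟩ := hn.2 _ _ hxy
    fin_cases i
    · exact hi (by simpa [h0] using hP)
    · exact hi h0
  exact_mod_cast mul_right_cancel₀ hB (hP.symm.trans hQ)

/-- The rational lemma for coprime pairs. -/
theorem cop (c : Ctx d) (k : ℕ) (hk : 2 ≤ k) (E : ℕ) (C0 C1 ε : ℝ) (h0 : 1 ≤ C0) (hε : 0 < ε) :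
    ∃ C : ℝ, ∀ (X B : ℝ) (A Bq : ℂ[X]) (be : Fin d → ℂ[X]) (N N' : ℕ) (S : Finset (LPt c k))
      (w0 w1 : LPt c k → ℤ), 1 ≤ X → B ≤ X → N ≤ E → N' ≤ E → NoCZ ![A, Bq] N → NoCZ be N' →
      InjN S →
      (∀ P ∈ S, Sz C0 X B P.toPt ∧ IsCoprime (w0 P) (w1 P) ∧ |(w0 P : ℝ)| ≤ C1 * X ^ 2 ∧
        |(w1 P : ℝ)| ≤ C1 * X ^ 2 ∧
        hev A N (w0 P : ℂ) (w1 P) = P.n * hev Bq N (w0 P : ℂ) (w1 P) ∧
        ∀ l m, (P.be l : ℂ) * hev (be m) N' (w0 P : ℂ) (w1 P) =
          P.be m * hev (be l) N' (w0 P : ℂ) (w1 P)) →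
      (S.card : ℝ) ≤ C * X ^ ε := by
  classical
  obtain ⟨a, ha⟩ := exists_pow (|C1| + C0)
  obtain ⟨Ca, hCa⟩ := forms_descend (Fin 2) E
  obtain ⟨Cb, hCb⟩ := forms_descend (Fin d) E
  obtain ⟨Cr, hCr⟩ := rl_res (Fin d) E
  obtain ⟨K, hK⟩ := normPoly c E
  obtain ⟨a1, ha1⟩ := exists_pow |K|
  set M : ℕ := (a + 2) + (a + 2) * Ca + (a + 2) * (Cb + 1) * Cr + (a1 + (a + 2) * (Cb + 1)) * d
    with hM
  obtain ⟨D1, hD1⟩ := card_dvd_fixed c k (by omega) C0 M h0
  obtain ⟨D2, hD2⟩ := rl_int c k hk (E + d * E) C0 M ε h0 hε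
  refine ⟨2 * E + (C0 ^ 2 + 1) + |D1| + |D2|,
    fun X B A Bq be N N' S w0 w1 hX hB hN hN' hA hbe hS h => ?_⟩
  have hXe : 1 ≤ X ^ ε := Real.one_le_rpow hX hε.le
  have fin : ∀ t : ℝ, t ≤ 2 * E + (C0 ^ 2 + 1) + |D1| → (S.card : ℝ) ≤ t + |D2| * X ^ ε →
      (S.card : ℝ) ≤ (2 * E + (C0 ^ 2 + 1) + |D1| + |D2|) * X ^ ε := fun t ht hh => by
    have := le_mul_of_one_le_right (a := 2 * (E : ℝ) + (C0 ^ 2 + 1) + |D1|) (by positivity) hXe
    linarith
  have p1 : 0 ≤ |D2| * X ^ ε := by positivity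
  have p2 := abs_nonneg D1
  have p3 : (0 : ℝ) ≤ E := Nat.cast_nonneg E
  by_cases hc : S.card ≤ 2 * E
  · have : (S.card : ℝ) ≤ 2 * E := by exact_mod_cast hc
    exact fin (2 * E) (by nlinarith) (by linarith)
  by_cases hX0 : X ≤ C0 ^ 2
  · have := card_le_X c k C0 X B hX S hS fun P hP => (h P hP).1
    exact fin (C0 ^ 2 + 1) (by linarith) (by linarith)
  set Y := 2 * X with hY
  have hY2 : 2 ≤ Y := by linarith
  have hY1 : 1 ≤ Y := by linarith
  have hmono : ∀ m : ℕ, m ≤ M → Y ^ m ≤ Y ^ (M : ℝ) := fun m hm => by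
    rw [Real.rpow_natCast]; exact pow_le_pow_right₀ hY1 hm
  set H := Y ^ (a + 2) with hH
  have hYH : Y ≤ H := le_self_pow₀ hY1 (by omega)
  have hKH : (|C1| + C0) * X ^ 2 ≤ H := by
    rw [hH, pow_add]
    exact mul_le_mul (ha Y hY2) (pow_le_pow_left₀ (by linarith) (by linarith) 2) (by positivity)
      (by positivity)
  have q1 : C1 * X ^ 2 ≤ H := by
    refine le_trans (mul_le_mul_of_nonneg_right ?_ (by positivity)) hKH
    linarith [le_abs_self C1]
  have q2 : C0 * B ≤ H := by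
    refine le_trans (mul_le_mul (by linarith [abs_nonneg C1]) (hB.trans (by nlinarith))
      ?_ (by positivity)) hKH
    obtain ⟨P, hP⟩ := Finset.card_pos.1 (by omega : 0 < S.card)
    have := (norm_nonneg _).trans (h P hP).1.be3
    exact nonneg_of_mul_nonneg_right this (by linarith)
  have hinj : ∀ P ∈ S, ∀ Q ∈ S, w0 P * w1 Q = w0 Q * w1 P → P = Q := fun P hP Q hQ e =>
    hS P hP Q hQ (inj_w hA (h P hP).2.1 (h Q hQ).2.1 e (h P hP).2.2.2.2.1 (h Q hQ).2.2.2.2.1)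
  obtain ⟨AB, α, hα, hAh, hAe⟩ := hCa ![A, Bq] N H S w0 w1 (fun P => ![P.n, 1]) hN (by linarith) hA
    (by omega) hinj fun P hP => by
      obtain ⟨s, cp, b0, b1, e, -⟩ := h P hP
      refine ⟨cp.ne_zero_or_ne_zero, fun h0 => by simpa using congrFun h0 1, b0.trans q1,
        b1.trans q1, fun l => ?_, fun l m => ?_⟩
      · have := s.n1
        have := s.n2
        fin_cases l
        · simpa using abs_le.2 ⟨by linarith, by linarith⟩
        · simpa using hY1.trans hYH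
      · fin_cases l <;> fin_cases m <;> simp [e]
  obtain ⟨b, γ, hγ, hbh, hbe'⟩ := hCb be N' H S w0 w1 (fun P => P.be) hN' (by linarith) hbe
    (by omega) hinj fun P hP => by
      obtain ⟨s, cp, b0, b1, -, e⟩ := h P hP
      refine ⟨cp.ne_zero_or_ne_zero, fun h0 => ?_, b0.trans q1, b1.trans q1, fun l => ?_, e⟩
      · obtain ⟨i, hi⟩ := P.pbe 2 Nat.prime_two
        exact hi (by rw [show P.be = 0 from h0]; exact dvd_zero _)
      · have := norm_le_pi_norm P.be l
        rw [Int.norm_eq_abs] at this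
        exact this.trans (s.be3.trans q2)
  have hH1 : 1 ≤ H := hY1.trans hYH
  have hbh' : ∀ l, HtLE (b l) (H ^ (Cb + 1)) := fun l =>
    htle_mono (hbh l) (pow_le_pow_right₀ hH1 (by omega))
  have hb0 := nocz hγ hbe hbe'
  have hA0 : NoCZ ![AB 0, AB 1] N := nocz hα hA fun l => by fin_cases l <;> exact hAe _
  obtain ⟨R, hR0, hR, hRd⟩ := hCr b N' (H ^ (Cb + 1)) hN'
    (hY2.trans (hYH.trans (le_self_pow₀ hH1 (by omega)))) hb0 hbh'
  obtain ⟨F, hFd, hFh, hFe⟩ := hK b N' (H ^ (Cb + 1)) hN' (by positivity) hb0.1 hbh'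
  have hS' : ∀ q : LPt c k → Prop, ∀ [DecidablePred q], InjN (S.filter q) := fun q _ P hP Q hQ =>
    hS P (Finset.mem_filter.1 hP).1 Q (Finset.mem_filter.1 hQ).1
  have c1 := hD1 X B hX R (S.filter fun P => (P.p : ℤ) ∣ R) (hS' _) hR0
    (hR.trans (by rw [hH, ← pow_mul, ← pow_mul, ← mul_assoc]; exact hmono _ (by omega)))
    fun P hP => ⟨(h P (Finset.mem_filter.1 hP).1).1, (Finset.mem_filter.1 hP).2⟩
  have hAh' : ∀ l, HtLE (AB l) (Y ^ (M : ℝ)) := fun l =>
    htle_mono (hAh l) (by rw [hH, ← pow_mul]; exact hmono _ (by omega))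
  have hFh' : HtLE F (Y ^ (M : ℝ)) := by
    refine fun i => (hFh i).trans ((le_abs_self _).trans (le_trans ?_
      (hmono ((a1 + (a + 2) * (Cb + 1)) * d) (by omega))))
    rw [abs_pow, pow_mul, pow_add Y a1, pow_mul, abs_mul, abs_of_nonneg (a := H ^ _) (by positivity)]
    exact pow_le_pow_left₀ (by positivity)
      (mul_le_mul_of_nonneg_right (ha1 Y hY2) (by positivity)) d
  have hHM : H ≤ Y ^ (M : ℝ) := hmono _ (by omega)
  have c2 := hD2 X B (AB 0) (AB 1) F N (d * N') (S.filter fun P => ¬ (P.p : ℤ) ∣ R) w0 w1 hX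
    (by omega) ((Nat.mul_le_mul_left d hN').trans (by omega)) hA0 hFd (hAh' 0) (hAh' 1) hFh'
    (hS' _) fun P hP => by
      obtain ⟨hP, hpR⟩ := Finset.mem_filter.1 hP
      obtain ⟨s, cp, b0, b1, e, e'⟩ := h P hP
      obtain ⟨t, ht⟩ := prim_mul (v := fun l => hev (b l) N' (w0 P) (w1 P)) P.pbe fun l m => by
        have := e' l m
        apply Int.cast_injective (α := ℂ)
        rw [Int.cast_mul, Int.cast_mul, hev_cast, hev_cast, hbe', hbe', hev_C_mul, hev_C_mul]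
        linear_combination γ * this
      have htR : t ∣ R := hRd _ _ t cp fun l => ⟨_, ht l⟩
      have hv : hev F (d * N') (w0 P) (w1 P) = t ^ d * (P.ka * P.p) := by
        apply Int.cast_injective (α := ℂ)
        rw [hFe, show (fun l => hev (b l) N' (w0 P) (w1 P)) = t • P.be from funext ht]
        simp only [sg_smul]
        rw [Finset.prod_mul_distrib, P.nrm]
        simp
      have hp : Prime (P.p : ℤ) := Nat.prime_iff_prime_int.1 P.pp
      refine ⟨s, cp, b0.trans (q1.trans hHM), b1.trans (q1.trans hHM), ?_, ?_, fun hd => ?_⟩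
      · apply Int.cast_injective (α := ℂ)
        rw [Int.cast_mul, hev_cast, hev_cast, hAe, hAe, hev_C_mul, hev_C_mul]
        simpa [mul_left_comm] using congrArg (α * ·) e
      · rw [hv]
        exact (dvd_mul_left _ _).mul_left _
      · rw [hv, ← mul_assoc, sq, mul_dvd_mul_iff_right hp.ne_zero] at hd
        rcases hp.dvd_or_dvd hd with h1 | h1
        · exact hpR ((hp.dvd_of_dvd_pow h1).trans htR)
        · have h2 : (P.p : ℤ) ≤ |P.ka| := Int.le_of_dvd (abs_pos.2 P.ka0) ((dvd_abs _ _).2 h1)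
          have h3 : (P.p : ℝ) ≤ |(P.ka : ℝ)| := by exact_mod_cast h2
          have h4 := s.p1.trans (h3.trans s.ka)
          rw [div_le_iff₀ (by linarith)] at h4
          exact hX0 (by rw [sq]; exact h4)
  have c3 := Finset.card_filter_add_card_filter_not (s := S) fun P => (P.p : ℤ) ∣ R
  have c4 := congrArg (Nat.cast : ℕ → ℝ) c3
  rw [Nat.cast_add] at c4
  have c5 := mul_le_mul_of_nonneg_right (le_abs_self D2) (zero_le_one.trans hXe)
  exact fin |D1| (by nlinarith) (by linarith [le_abs_self D1])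

end Crest.Agent.R22.RLCAux
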