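import Crest.Agent.R22.RL0
import Crest.Agent.R22.NF
import Crest.Agent.R22.Descend
import Crest.Agent.R22.RLCAux

set_option autoImplicit false
open Polynomial IntermediateField

namespace Crest.Agent.R22

variable {d : ℕ}

/-- Rational lemma, complex form. Divide `(w0, w1)` by its gcd. Proportional pairs give the same `n`.
Descend `(A, Bq)` (with `V = (n, 1)`) and `be`; `F1 = N(be')` (`exists_normForm`), degree `d N'`. At a
point `be'(w) = e β` with `e ∈ ℤ` (`β` primitive), `e ∣ R` (`rl_res`), `hev F1 = e^d ka p`; discard the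
points with `p ∣ R` (`card_dvd_fixed`) and small `X` (`p ≤ C0`); `rl_int`. -/
theorem rl_cx (c : Ctx d) (k : ℕ) (hk : 2 ≤ k) (E : ℕ) (C0 C1 ε : ℝ) (h0 : 1 ≤ C0) (hε : 0 < ε) :
    ∃ C : ℝ, ∀ (X B : ℝ) (A Bq : ℂ[X]) (be : Fin d → ℂ[X]) (N N' : ℕ) (S : Finset (LPt c k))
      (w0 w1 : LPt c k → ℤ), 1 ≤ X → B ≤ X → N ≤ E → N' ≤ E → NoCZ ![A, Bq] N → NoCZ be N' →
      InjN S →
      (∀ P ∈ S, Sz C0 X B P.toPt ∧ (w0 P ≠ 0 ∨ w1 P ≠ 0) ∧ |(w0 P : ℝ)| ≤ C1 * X ^ 2 ∧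
        |(w1 P : ℝ)| ≤ C1 * X ^ 2 ∧
        hev A N (w0 P : ℂ) (w1 P) = P.n * hev Bq N (w0 P : ℂ) (w1 P) ∧
        ∀ l m, (P.be l : ℂ) * hev (be m) N' (w0 P : ℂ) (w1 P) =
          P.be m * hev (be l) N' (w0 P : ℂ) (w1 P)) →
      (S.card : ℝ) ≤ C * X ^ ε := by
  obtain ⟨C, hC⟩ := RLCAux.cop c k hk E C0 C1 ε h0 hε
  refine ⟨C, fun X B A Bq be N N' S w0 w1 hX hB hN hN' hA hbe hS h => ?_⟩
  refine hC X B A Bq be N N' S (fun P => w0 P / Int.gcd (w0 P) (w1 P))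
    (fun P => w1 P / Int.gcd (w0 P) (w1 P)) hX hB hN hN' hA hbe hS fun P hP => ?_
  obtain ⟨s, hw, b0, b1, e, e'⟩ := h P hP
  have hg : 0 < Int.gcd (w0 P) (w1 P) := Int.gcd_pos_iff.2 hw
  have cp := Int.isCoprime_iff_gcd_eq_one.2 (Int.gcd_div_gcd_div_gcd hg)
  have e0 := (Int.mul_ediv_cancel' (Int.gcd_dvd_left (w0 P) (w1 P))).symm
  have e1 := (Int.mul_ediv_cancel' (Int.gcd_dvd_right (w0 P) (w1 P))).symm
  generalize w0 P / Int.gcd (w0 P) (w1 P) = x at *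
  generalize w1 P / Int.gcd (w0 P) (w1 P) = y at *
  generalize Int.gcd (w0 P) (w1 P) = g at *
  have hgC : ((g : ℤ) : ℂ) ≠ 0 := by exact_mod_cast hg.ne'
  have hab : ∀ t : ℤ, |(t : ℝ)| ≤ |((g * t : ℤ) : ℝ)| := fun t => by
    rw [Int.cast_mul, abs_mul]
    refine le_mul_of_one_le_left (abs_nonneg _) (le_trans ?_ (le_abs_self _))
    exact_mod_cast hg
  rw [e0] at b0
  rw [e1] at b1
  rw [e0, e1, Int.cast_mul, Int.cast_mul] at e e'
  simp only [hev_smul] at e e'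
  refine ⟨s, cp, (hab x).trans b0, (hab y).trans b1, ?_, fun l m => ?_⟩
  · exact mul_left_cancel₀ (pow_ne_zero N hgC) (by linear_combination e)
  · exact mul_left_cancel₀ (pow_ne_zero N' hgC) (by linear_combination e' l m)

end Crest.Agent.R22
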