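import Crest.Agent.R22.CurveB
import Crest.Agent.R22.E2
import Crest.Agent.R22.RLC
import Crest.Agent.R22.CurveBlow
import Crest.Agent.R22.Ghat

set_option autoImplicit false
open Polynomial IntermediateField

namespace Crest.Agent.R22

variable {d : ℕ}

theorem CurveB2_mono {L : Type*} [Field L] [Algebra ℂ L] {W : Submodule ℂ L} {e e' : ℕ}
    (h : GoodRatio W e) (he : e' ≤ e) : GoodRatio W e' := by
  obtain ⟨u, hu, v, hv, h1, h2, h3⟩ := h
  exact ⟨u, hu, v, hv, h1, h2, he.trans h3⟩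

theorem CurveB2_pt {c : Ctx d} {k E : ℕ} {C0 X B G1 G2 H : ℝ} {b1 b2 : Fin d → ℤ} {g : ℤ[X][X]}
    (hg : Curve g E H) {P : LPt c k} (h1 : OnB C0 X B G1 G2 b1 b2 P) (h2 : P.y ≠ 0)
    (h3 : hev2 g E P.x P.y P.n = 0) :
    (toC2 g).evalEval ((P.x : ℂ) / P.y) (P.n : ℂ) = 0 ∧
      ∀ j, (c.lin b1 b2 j).eval ((P.x : ℂ) / P.y) ≠ 0 := by
  constructor
  · have h4 := hev2_cast g E hg.deg.2 P.x P.y P.n h2
    rw [h3, Int.cast_zero] at h4
    exact (mul_eq_zero.mp h4.symm).resolve_left (pow_ne_zero _ (Int.cast_ne_zero.mpr h2))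
  · intro j hj
    have h4 := sg_line c b1 b2 P.x P.y h2 j
    rw [hj, mul_zero, ← h1.eq] at h4
    have h5 := P.nrm
    rw [Finset.prod_eq_zero (Finset.mem_univ j) h4] at h5
    exact mul_ne_zero P.ka0 (Int.natCast_ne_zero.mpr P.pp.ne_zero) (Int.cast_eq_zero.mp h5.symm)

theorem CurveB2_le {a C C' X η : ℝ} (hX : 1 ≤ X) (h : a ≤ C * X ^ η) (hC : C ≤ C') :
    a ≤ C' * X ^ η :=
  h.trans (mul_le_mul_of_nonneg_right hC (Real.rpow_nonneg (by linarith) _))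

/-- All curves, crude version: `exists_FF`, `e2_main`, `syz` / `syz_pt` with
`a0 = 2, 4, 8, 12, 18` (`d = 4, …, 8`; `syz_pt` at a point of `S` for `d = 4`) give a ratio of degree
`≥ eMin d`. -/
theorem curveB (c : Ctx d) (hd : 4 ≤ d ∧ d ≤ 8) (k : ℕ) (hk : k + 2 = d) (E : ℕ)
    (C0 C1 u lam η : ℝ) (h0 : 1 ≤ C0) (al io : ℕ)
    (hpos : 0 < eMin d * al + (eMin d + 2 * k) * io) (hu : 0 ≤ u) (hl : 0 ≤ lam)
    (h : etaC u lam (eMin d) (eMin d + 2 * k) al io < η) : ∃ C : ℝ,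
    ∀ (X B G1 G2 α : ℝ) (b1 b2 : Fin d → ℤ) (g : ℤ[X][X]) (S : Finset (LPt c k)), 1 ≤ X →
      SizeB d k X B G1 G2 u lam α → LH b1 b2 G1 G2 → c.Nondeg b1 b2 →
      Curve g E ((2 * X) ^ C1) → InjN S →
      (∀ P ∈ S, OnB C0 X B G1 G2 b1 b2 P ∧ P.y ≠ 0 ∧ hev2 g E P.x P.y P.n = 0) →
      (S.card : ℝ) ≤ C * X ^ η := by
  have hη : 0 < η := lt_of_le_of_lt (by unfold etaC; positivity) h
  obtain ⟨Ca, hCa⟩ := curveB_low c k (by omega) E C0 η h0 hη
  obtain ⟨Cb, hCb⟩ := curveB_chain c (by omega) k (by omega) E C0 C1 u lam η h0 (eMin d) al io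
    hpos hu hl h
  refine ⟨max 0 (max Ca Cb), fun X B G1 G2 α b1 b2 g S hX hs hL hnd hg hI hS => ?_⟩
  have hBX : B ≤ X := (le_self_pow₀ hs.b1 (by omega)).trans hs.bk
  rcases le_or_gt g.natDegree 1 with h1 | h1
  · exact CurveB2_le hX (hCa X B G1 G2 _ b1 b2 g S hX hBX hL hg h1 hI hS)
      (le_max_of_le_right (le_max_left _ _))
  rcases S.eq_empty_or_nonempty with rfl | ⟨P, hP⟩
  · exact CurveB2_le (C := 0) hX (by simp) (le_max_left _ _)
  obtain ⟨L, _, _, t, n, hff, gen⟩ := exists_FF (toC2 g) hg.irr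
  have he : 2 ≤ (toC2 g).natDegree := by rw [natDegree_toC2]; omega
  have hlin := lins_of_nondeg c (by omega) hnd
  obtain ⟨cj, e, hc, hdeg, hgr⟩ := e2_main (by omega) k (by omega) c.th c.inj (c.lin b1 b2) hlin
    (toC2 g) hg.irr he t n hff gen
  refine CurveB2_le hX (hCb X B G1 G2 α b1 b2 g S hX hs hL hg h1 L t n hff gen
    (CurveB2_mono hgr ?_) hI hS) (le_max_of_le_right (le_max_right _ _))
  obtain ⟨hp1, hp2⟩ := CurveB2_pt hg (hS P hP).1 (hS P hP).2.1 (hS P hP).2.2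
  have hsyz := fun a0 h1 h2 => syz k a0 h1 h2 c.th (c.lin b1 b2) hlin (toC2 g) hg.irr he cj
    fun j => (hc j).1
  have hpt := fun a0 h1 h2 => syz_pt k a0 h1 h2 c.th (c.lin b1 b2) hlin (toC2 g) hg.irr he cj
    (fun j => (hc j).1) _ _ hp1 hp2
  generalize ∑ j, cj j = s at hdeg hsyz hpt
  generalize (toC2 g).natDegree = e1 at he hdeg hsyz hpt
  generalize degT (toC2 g) = D at hdeg hsyz hpt
  obtain ⟨hd1, hd2⟩ := hd
  have hk' : k = d - 2 := by omega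
  clear hCa hCb hgr hc hp1 hp2 hlin hS hI hg hnd hL hs hP h hpos
  unfold eMin
  interval_cases d <;> simp only [hk'] at hdeg hsyz hpt <;> norm_num at hdeg hsyz hpt ⊢
  · have := hpt 2 (by omega) (by omega); omega
  · have := hsyz 4 (by omega) (by omega); omega
  · have := hsyz 8 (by omega) (by omega); omega
  · have := hsyz 12 (by omega) (by omega); omega
  · have := hsyz 18 (by omega) (by omega); omega

/-- All curves on a separated line, `d = 4`: if `degT g + 6 e1 ≥ 7 + ∑ cj` use the chain with `e0 = 7`;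
otherwise `syz_pt` forces `e1 = 2`, and `exists_ghat`, `curveB_nh` apply. -/
theorem curveB_sep (c : Ctx 4) (E : ℕ) (C0 C1 u lam η0 η : ℝ) (h0 : 1 ≤ C0) (hu : 0 ≤ u)
    (hl : 0 ≤ lam) (hη0 : 0 ≤ η0) (hη1 : 12 * η0 < 1) (h : 2 * u / 5 - (1 - 12 * η0) / 10 < η)
    (h7 : etaC u lam 7 11 1 1 < η) : ∃ C : ℝ,
    ∀ (X B G1 G2 α : ℝ) (b1 b2 : Fin 4 → ℤ) (g : ℤ[X][X]) (S : Finset (LPt c 2)), 1 ≤ X →
      SizeB 4 2 X B G1 G2 u lam α → LH b1 b2 G1 G2 →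
      (∀ i j, i ≠ j → X ^ (-η0) * (G1 * G2) ≤ ‖c.pl b1 b2 i j‖) →
      Curve g E ((2 * X) ^ C1) → InjN S →
      (∀ P ∈ S, OnB C0 X B G1 G2 b1 b2 P ∧ P.y ≠ 0 ∧ hev2 g E P.x P.y P.n = 0) →
      (S.card : ℝ) ≤ C * X ^ η := by
  have hη : 0 < η := lt_of_le_of_lt (by unfold etaC; positivity) h7
  obtain ⟨Ca, hCa⟩ := curveB_low c 2 le_rfl E C0 η h0 hη
  obtain ⟨Cb, hCb⟩ := curveB_chain c (by omega) 2 (by omega) E C0 C1 u lam η h0 7 1 1
    (by omega) hu hl h7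
  obtain ⟨Cc, hCc⟩ := curveB_nh c E C0 C1 u η0 η h0 hu hη0 hη1 hη h
  refine ⟨max 0 (max Ca (max Cb Cc)), fun X B G1 G2 α b1 b2 g S hX hs hL hsep hg hI hS => ?_⟩
  have hBX : B ≤ X := (le_self_pow₀ hs.b1 (by omega)).trans hs.bk
  have hnd : c.Nondeg b1 b2 := by
    intro i j hij h0
    have h1 := hsep i j hij
    rw [h0, norm_zero] at h1
    have h2 := hL.g1
    have h3 := hL.g2
    have h4 : 0 < X ^ (-η0) * (G1 * G2) := by positivity
    linarith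
  rcases le_or_gt g.natDegree 1 with h1 | h1
  · exact CurveB2_le hX (hCa X B G1 G2 _ b1 b2 g S hX hBX hL hg h1 hI hS)
      (le_max_of_le_right (le_max_left _ _))
  rcases S.eq_empty_or_nonempty with rfl | ⟨P, hP⟩
  · exact CurveB2_le (C := 0) hX (by simp) (le_max_left _ _)
  obtain ⟨L, _, _, t, n, hff, gen⟩ := exists_FF (toC2 g) hg.irr
  have he : 2 ≤ (toC2 g).natDegree := by rw [natDegree_toC2]; omega
  have hlin := lins_of_nondeg c (by omega) hnd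
  obtain ⟨cj, e, hc, hdeg, hgr⟩ := e2_main (by omega) 2 (by omega) c.th c.inj (c.lin b1 b2) hlin
    (toC2 g) hg.irr he t n hff gen
  rcases le_or_gt 7 e with h7e | h7e
  · exact CurveB2_le hX (hCb X B G1 G2 α b1 b2 g S hX hs hL hg h1 L t n hff gen
      (CurveB2_mono hgr h7e) hI hS) (le_max_of_le_right (le_max_of_le_right (le_max_left _ _)))
  obtain ⟨hp1, hp2⟩ := CurveB2_pt hg (hS P hP).1 (hS P hP).2.1 (hS P hP).2.2
  have hpt := syz_pt 2 2 (by omega) (by omega) c.th (c.lin b1 b2) hlin (toC2 g) hg.irr he cj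
    (fun j => (hc j).1) _ _ hp1 hp2
  have he2 : (toC2 g).natDegree = 2 := by omega
  obtain ⟨gh, hgh0, hgh1, hgh2, hgh3, hgh4⟩ := exists_ghat c.th (c.lin b1 b2) hlin (toC2 g)
    hg.irr.ne_zero he2 cj (fun j => ⟨(hc j).1, by have := (hc j).2; omega⟩) (by omega)
  exact CurveB2_le hX (hCc X B G1 G2 lam α b1 b2 g S hX hs hL hsep hg h1 L t n hff gen
    (CurveB2_mono hgr (by omega)) gh hgh0 hgh1 hgh2 hgh3 hgh4 hI hS)
    (le_max_of_le_right (le_max_of_le_right (le_max_right _ _)))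

end Crest.Agent.R22
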