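import Crest.Agent.R22.PB
import Crest.Agent.R22.ClsC

set_option autoImplicit false
open Polynomial IntermediateField

namespace Crest.Agent.R22

variable {d : ℕ}

theorem PC_unit {Λ : Type*} [CommRing Λ] {q : ℕ} (hq : q.Prime) (hn : IsNilpotent (q : Λ))
    {m : ℤ} (hm : ¬ (q : ℤ) ∣ m) : IsUnit (m : Λ) := by
  obtain ⟨a, b, hab⟩ := (Nat.prime_iff_prime_int.1 hq).coprime_iff_not_dvd.2 hm
  have h1 : (b : Λ) * m = 1 - a * q := by
    have := congrArg (Int.cast : ℤ → Λ) hab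
    push_cast at this
    linear_combination this
  have h2 : IsNilpotent ((a : Λ) * q) := (Commute.all _ _).isNilpotent_mul_left hn
  exact isUnit_of_mul_isUnit_right (h1 ▸ h2.isUnit_one_sub)

theorem PC_div {Λ Z : Type*} [CommRing Λ] {q : Λ} (hq : IsNilpotent q) {τ : Z → Λ}
    (hτ : ∀ z, q ∣ τ z) {F G N : Z → Λ} (hG : G ∈ Algebra.adjoin Λ {τ})
    (hN : N ∈ Algebra.adjoin Λ {τ}) (hu : ∀ z, IsUnit (G z)) (h : ∀ z, F z * G z = N z) :
    F ∈ Algebra.adjoin Λ {τ} := by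
  choose Gi hGi using fun z => (hu z).exists_right_inv
  have h1 : F = N * Gi := funext fun z => by
    rw [Pi.mul_apply, ← h, mul_assoc, hGi, mul_one]
  exact h1 ▸ mul_mem hN (inv_mem q hq τ hτ G Gi hG (funext hGi))

theorem PC_const {Λ Z : Type*} [CommRing Λ] (τ : Z → Λ) (a : Λ) :
    (fun _ => a) ∈ Algebra.adjoin Λ {τ} := Subalgebra.algebraMap_mem _ a

theorem PC_abs {Λ Z : Type*} [CommRing Λ] {q : Λ} (hq : IsNilpotent q) {τ : Z → Λ}
    (hτ : ∀ z, q ∣ τ z) {k : ℕ} (hk : ∀ _ : Z, IsUnit (k : Λ)) (i0 : Fin d) (θ A B : Fin d → Λ)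
    (s : Fin d → Z → Λ) (x y yi n : Z → Λ) (cc : Λ) (hy : ∀ z, y z * yi z = 1)
    (ht : (fun z => x z * yi z) ∈ Algebra.adjoin Λ {τ}) (hn : n ∈ Algebra.adjoin Λ {τ})
    (rel : ∀ j z, (x z * A j + y z * B j) * s j z ^ k = cc * (n z - θ j))
    (hu : ∀ j z, IsUnit (cc * (n z - θ j))) (hs : ∀ j z, IsUnit (s j z))
    (hc : ∀ j z z', q ∣ s j z * s i0 z' - s i0 z * s j z') :
    (fun z => s i0 z ^ k * y z) ∈ Algebra.adjoin Λ {τ} ∧ ∃ ρ : Fin d → Z → Λ,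
      (∀ j, ρ j ∈ Algebra.adjoin Λ {τ}) ∧ ∀ j z, s j z = s i0 z * ρ j z := by
  have hχ : ∀ j, (fun z => s j z ^ k * y z) ∈ Algebra.adjoin Λ {τ} := fun j => by
    have h1 : ∀ z, s j z ^ k * y z * (x z * yi z * A j + B j) = cc * (n z - θ j) := fun z => by
      linear_combination rel j z + s j z ^ k * x z * A j * hy z
    exact PC_div hq hτ (G := fun z => x z * yi z * A j + B j) (N := fun z => cc * (n z - θ j))
      (add_mem (mul_mem ht (PC_const τ _)) (PC_const τ _))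
      (mul_mem (PC_const τ _) (sub_mem hn (PC_const τ _)))
      (fun z => isUnit_of_mul_isUnit_right (h1 z ▸ hu j z)) h1
  choose si hsi using fun z => (hs i0 z).exists_right_inv
  refine ⟨hχ i0, fun j z => s j z * si z, fun j => ?_, fun j z => by
    linear_combination -(s j z * hsi z)⟩
  have h2 : (fun z => s j z * si z) ^ k ∈ Algebra.adjoin Λ {τ} :=
    PC_div hq hτ (hχ i0) (hχ j)
      (fun z => ((hs i0 z).pow k).mul (IsUnit.of_mul_eq_one _ (hy z))) fun z => by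
        have h3 : (s i0 z * si z) ^ k = 1 := by rw [hsi, one_pow]
        rw [Pi.pow_apply, mul_pow]
        rw [mul_pow] at h3
        linear_combination s j z ^ k * y z * h3
  refine hensel_mem q hq τ hτ (X ^ k - C ((fun z => s j z * si z) ^ k)) (fun i => ?_) _
    (fun z z' => ?_) (by simp) fun z => ?_
  · rw [coeff_sub, coeff_X_pow, coeff_C]
    refine sub_mem ?_ ?_ <;> split_ifs
    exacts [one_mem _, zero_mem _, h2, zero_mem _]
  · have h4 : s j z * si z - s j z' * si z' =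
        (s j z * s i0 z' - s i0 z * s j z') * (si z * si z') := by
      linear_combination -(s j z * si z * hsi z') + s j z' * si z' * hsi z
    exact h4 ▸ (hc j z z').mul_right _
  · simp only [derivative_sub, derivative_X_pow, derivative_C, sub_zero, eval_mul, eval_C,
      eval_pow, eval_X, Pi.mul_apply, Pi.pow_apply, Pi.natCast_apply]
    exact (hk z).mul (((hs j z).mul (IsUnit.of_mul_eq_one_right _ (hsi z))).pow _)

/-- The identities of `AA`, pushed to an arbitrary quotient. -/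
theorem PC_lift (c : Ctx d) (DF : ℤ)
    (hDF : ∀ l j, (DF : ℂ) * (Matrix.vandermonde c.th)⁻¹ l j ∈ c.AA) {Λ : Type*} [CommRing Λ]
    (π : c.AA →+* Λ) : ∃ (θ : Fin d → Λ) (W : Fin d → Fin d → Λ) (σ : Fin d → (Fin d → ℤ) → Λ),
      (∀ j v, σ j v = ∑ i, (v i : Λ) * θ j ^ (i : ℕ)) ∧
      (∀ v l, (DF : Λ) * v l = ∑ j, W l j * σ j v) ∧
      (∀ n : ℤ, ∏ j, ((n : Λ) - θ j) = (c.F.eval n : ℤ)) ∧
      ∀ (k : ℕ) (P : Pt c k), (∀ j, σ j P.mu * σ j P.be ^ k = P.cc * (P.n - θ j)) ∧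
        ∏ j, σ j P.be = (P.ka * P.p : ℤ) := by
  refine ⟨fun j => π ⟨_, th_mem_AA c j⟩, fun l j => π ⟨_, hDF l j⟩,
    fun j v => π ⟨_, sg_mem_AA c j v⟩, fun j v => ?_, fun v l => ?_, fun n => ?_,
    fun k P => ⟨fun j => ?_, ?_⟩⟩
  · have h : (⟨_, sg_mem_AA c j v⟩ : c.AA) = ∑ i, (v i : c.AA) * ⟨_, th_mem_AA c j⟩ ^ (i : ℕ) :=
      Subtype.ext (by simp [Ctx.sg])
    simp only [h, map_sum, map_mul, map_pow, map_intCast]
  · have h : (DF : c.AA) * v l = ∑ j, ⟨_, hDF l j⟩ * ⟨_, sg_mem_AA c j v⟩ := Subtype.ext (by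
      have := co_sg c v l
      simp only [Ctx.co, smul_eq_mul] at this
      simp [← this, Finset.mul_sum, mul_assoc])
    simpa only [map_sum, map_mul, map_intCast] using congrArg π h
  · have h : ∏ j, ((n : c.AA) - ⟨_, th_mem_AA c j⟩) = (c.F.eval n : ℤ) := Subtype.ext (by
      have := prod_sub_th c n
      rw [← eq_intCast (algebraMap ℤ ℂ), aeval_algebraMap_apply_eq_algebraMap_eval] at this
      simpa using this)
    simpa using congrArg π h
  · have h : (⟨_, sg_mem_AA c j P.mu⟩ : c.AA) * ⟨_, sg_mem_AA c j P.be⟩ ^ k =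
        P.cc * (P.n - ⟨_, th_mem_AA c j⟩) := Subtype.ext (by simpa using P.rel j)
    simpa only [map_sub, map_mul, map_pow, map_intCast] using congrArg π h
  · have h : ∏ j, (⟨_, sg_mem_AA c j P.be⟩ : c.AA) = (P.ka * P.p : ℤ) :=
      Subtype.ext (by simpa using P.nrm)
    simpa using congrArg π h

theorem PC_quot (c : Ctx d) {q : ℕ} (hq : q ≠ 0) (J : ℕ) :
    ∃ (Λ : Type) (_ : CommRing Λ) (_ : c.AA →+* Λ), (q : Λ) ^ J = 0 ∧
      ∀ m : ℤ, (m : Λ) = 0 → (q : ℤ) ^ J ∣ m := by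
  have hker : ∀ w, Ideal.Quotient.mk (Ideal.span {(q : c.AA) ^ J}) w = 0 ↔ (q : c.AA) ^ J ∣ w :=
    fun w => by rw [Ideal.Quotient.eq_zero_iff_mem, Ideal.mem_span_singleton]
  refine ⟨c.AA ⧸ Ideal.span {(q : c.AA) ^ J}, inferInstance, Ideal.Quotient.mk _, ?_,
    fun m hm => ?_⟩
  · simpa only [map_pow, map_natCast] using (hker _).2 dvd_rfl
  · obtain ⟨w, hw⟩ := (hker m).1 (by rwa [map_intCast])
    refine int_dvd_of_AA c _ m (pow_ne_zero _ (Nat.cast_ne_zero.2 hq)) w w.2 ?_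
    simpa using congrArg Subtype.val hw

/-- Scheme C. In `Λ = AA/(q^J)`: a row of level `i` is `(σ_0 β)^a y^c0` (column unit) times
`χ^i ∏ (β_l/σ_0β)^(α_l) t^j` with `χ = (σ_0β)^k y = cc (n - θ_0)/(σ_0 b1 t + σ_0 b2)`; `ρ_j` by
`hensel_mem` with `h(Y) = Y^k (n - θ_0) μ_j(t) - (n - θ_j) μ_0(t)`. -/
theorem padicC (c : Ctx d) (hd : 1 ≤ d) (k E : ℕ) (DF : ℤ)
    (hDF : ∀ l j, (DF : ℂ) * (Matrix.vandermonde c.th)⁻¹ l j ∈ c.AA) (b1 b2 : Fin d → ℤ)
    (g : ℤ[X][X]) (hg : DegLE g E) (q : ℕ) (hq : q.Prime) (cc : ℤ) (T : Finset (LPt c k))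
    (hT : ∀ P ∈ T, P.mu = P.x • b1 + P.y • b2 ∧ P.cc = cc ∧ hev2 g E P.x P.y P.n = 0 ∧
      ¬ (q : ℤ) ∣ badC DF g E P)
    (hS : ∀ P ∈ T, ∀ Q ∈ T, SameTN q P Q ∧ ∀ l m, (q : ℤ) ∣ P.be l * Q.be m - P.be m * Q.be l)
    {M : ℕ} (a c0 I : ℕ) (ρ : Fin M → Row d) (hρ : ∀ i, (ρ i).Ok a k c0 1 I)
    (z : Fin M → LPt c k) (hz : ∀ b, z b ∈ T) :
    (q : ℤ) ^ (M * (M - 1) / 2) ∣
      (Matrix.of fun i b => (ρ i).ev c0 1 (z b).be (z b).x (z b).y).det := by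
  classical
  obtain ⟨Λ, _, π, hJ, hker⟩ := PC_quot c hq.ne_zero (M * (M - 1) / 2)
  have hn : IsNilpotent (q : Λ) := ⟨_, hJ⟩
  obtain ⟨θ, W, σ, hσ, hW, hF, hP⟩ := PC_lift c DF hDF π
  have hU : ∀ (P : T) (m : ℤ), m ∣ badC DF g E P.1 → IsUnit (m : Λ) := fun P m hm =>
    PC_unit hq hn fun h => (hT P.1 P.2).2.2.2 (h.trans hm)
  obtain ⟨yi, τ, hy, hτ, ht, hnm⟩ := tn_mem c k E DF g hg q hq T
    (fun P hP => ⟨(hT P hP).2.2.1, fun h => (hT P hP).2.2.2 (h.mul_right _)⟩)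
    (fun P hP Q hQ => (hS P hP Q hQ).1) Λ hn
  obtain ⟨i0⟩ : Nonempty (Fin d) := ⟨⟨0, hd⟩⟩
  obtain ⟨hχ, r, hr, hsr⟩ := PC_abs (Z := T) hn hτ (k := k)
    (fun P => by
      simpa using hU P k (((dvd_mul_right _ _).mul_right _).mul_left _))
    i0 θ (fun j => σ j b1) (fun j => σ j b2) (fun j P => σ j P.1.be) (fun P => P.1.x)
    (fun P => P.1.y) yi (fun P => P.1.n) cc hy ht hnm
    (fun j P => by
      rw [← (hT P.1 P.2).2.1, ← (hP k P.1.toPt).1 j, (hT P.1 P.2).1]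
      simp only [hσ, Pi.add_apply, Pi.smul_apply, smul_eq_mul, Int.cast_add, Int.cast_mul, add_mul,
        Finset.sum_add_distrib, Finset.mul_sum, mul_assoc])
    (fun j P => by
      refine IsUnit.mul ((hT P.1 P.2).2.1 ▸ hU P _ (((dvd_mul_left _ _).mul_right _).mul_left _))
        (isUnit_of_dvd_unit (Finset.dvd_prod_of_mem (fun j => (P.1.n : Λ) - θ j)
          (Finset.mem_univ j)) ?_)
      rw [hF]
      exact hU P _ ((dvd_mul_left _ _).mul_left _))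
    (fun j P => by
      refine isUnit_of_dvd_unit
        (Finset.dvd_prod_of_mem (fun j => σ j P.1.be) (Finset.mem_univ j)) ?_
      rw [(hP k P.1.toPt).2]
      exact hU P _ (((dvd_mul_left _ _).mul_right _).mul_right _))
    (fun j P Q => by
      have h1 : σ j P.1.be * σ i0 Q.1.be - σ i0 P.1.be * σ j Q.1.be = ∑ l : Fin d, ∑ m : Fin d,
          ((P.1.be l * Q.1.be m - P.1.be m * Q.1.be l : ℤ) : Λ) *
            (θ j ^ (l : ℕ) * θ i0 ^ (m : ℕ)) := by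
        rw [mul_comm (σ i0 P.1.be), hσ, hσ, hσ, hσ, Finset.sum_mul_sum, Finset.sum_mul_sum,
          ← Finset.sum_sub_distrib]
        refine Finset.sum_congr rfl fun l _ => ?_
        rw [← Finset.sum_sub_distrib]
        refine Finset.sum_congr rfl fun m _ => ?_
        push_cast
        ring
      rw [h1]
      refine Finset.dvd_sum fun l _ => Finset.dvd_sum fun m _ => Dvd.dvd.mul_right ?_ _
      simpa using map_dvd (Int.castRingHom Λ) ((hS P.1 P.2 Q.1 Q.2).2 l m))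
  have hγ : ∀ l, ∃ γ ∈ Algebra.adjoin Λ {τ}, ∀ P : T, (P.1.be l : Λ) = σ i0 P.1.be * γ P := by
    intro l
    rcases isEmpty_or_nonempty T with h | ⟨⟨P0⟩⟩
    · exact ⟨0, zero_mem _, fun P => h.elim P⟩
    obtain ⟨Di, hDi⟩ := (hU P0 DF
      ((((dvd_mul_left _ _).mul_right _).mul_right _).mul_right _)).exists_right_inv
    refine ⟨(fun _ => Di) * ∑ j, (fun _ => W l j) * r j, mul_mem (PC_const τ _)
      (sum_mem fun j _ => mul_mem (PC_const τ _) (hr j)), fun P => ?_⟩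
    have h1 : ∑ j, W l j * σ j P.1.be = σ i0 P.1.be * ∑ j, W l j * r j P := by
      rw [Finset.mul_sum]
      exact Finset.sum_congr rfl fun j _ => by rw [hsr j P, mul_left_comm]
    simp only [Pi.mul_apply, Finset.sum_apply]
    linear_combination Di * hW P.1.be l + Di * h1 - (P.1.be l : Λ) * hDi
  choose γ hγ hbe using hγ
  obtain ⟨f, hf⟩ : ∃ f : Fin M → T → Λ, f = fun i => (fun P : T => σ i0 P.1.be ^ k * P.1.y) ^
      (ρ i).lv * (∏ l, γ l ^ (ρ i).al l) * (fun P : T => (P.1.x : Λ) * yi P) ^ (ρ i).j := ⟨_, rfl⟩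
  have h1 := padic_det (q : Λ) τ hτ f (fun i => hf ▸ mul_mem (mul_mem (pow_mem hχ _)
    (prod_mem fun l _ => pow_mem (hγ l) _)) (pow_mem ht _)) fun b => ⟨z b, hz b⟩
  rw [Fintype.card_fin, hJ, zero_dvd_iff] at h1
  refine hker _ ?_
  have h2 : (Int.castRingHom Λ).mapMatrix
      (Matrix.of fun i b => (ρ i).ev c0 1 (z b).be (z b).x (z b).y) =
      (Matrix.of fun i b => f i ⟨z b, hz b⟩) *
        Matrix.diagonal fun b => σ i0 (z b).be ^ a * ((z b).y : Λ) ^ c0 := by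
    ext i b
    obtain ⟨e1, e2, -⟩ := hρ i
    obtain ⟨e, he⟩ := Nat.exists_eq_add_of_le e2
    have h3 := hy ⟨z b, hz b⟩
    have h4 : ((z b).y : Λ) ^ c0 * ((z b).y : Λ) ^ (ρ i).lv =
        ((z b).y : Λ) ^ (ρ i).j * ((z b).y : Λ) ^ e := by
      rw [← pow_add, ← pow_add, ← he, one_mul]
    have h5 : ((z b).y : Λ) ^ (ρ i).j * yi ⟨z b, hz b⟩ ^ (ρ i).j = 1 := by
      rw [← mul_pow, h3, one_pow]
    have h6 : ∏ l, ((z b).be l : Λ) ^ (ρ i).al l = σ i0 (z b).be ^ a *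
        (σ i0 (z b).be ^ k) ^ (ρ i).lv * ∏ l, γ l ⟨z b, hz b⟩ ^ (ρ i).al l := by
      rw [← pow_mul, ← pow_add, ← e1, ← Finset.prod_pow_eq_pow_sum, ← Finset.prod_mul_distrib]
      exact Finset.prod_congr rfl fun l _ => by rw [hbe l ⟨z b, hz b⟩, mul_pow]
    rw [Matrix.mul_diagonal]
    simp only [RingHom.mapMatrix_apply, Matrix.map_apply, Matrix.of_apply, Row.ev, eq_intCast,
      Int.cast_mul, Int.cast_prod, Int.cast_pow, hf, Pi.mul_apply, Pi.pow_apply,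
      Finset.prod_apply, he, Nat.add_sub_cancel_left, h6, mul_pow]
    generalize σ i0 (z b).be ^ a = A1, (σ i0 (z b).be ^ k) ^ (ρ i).lv = A2,
      ∏ l, γ l ⟨z b, hz b⟩ ^ (ρ i).al l = A3, ((z b).x : Λ) ^ (ρ i).j = A4
    linear_combination -(A1 * A2 * A3 * A4) * (yi ⟨z b, hz b⟩ ^ (ρ i).j * h4 +
      ((z b).y : Λ) ^ e * h5)
  rw [← eq_intCast (Int.castRingHom Λ), RingHom.map_det, h2, Matrix.det_mul, h1, zero_mul]

end Crest.Agent.R22
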