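import Crest.Agent.R22.F1
import Crest.Agent.R22.Sel
import Crest.Agent.R22.ZeroBC
import Crest.Agent.R22.Asm
import Crest.Agent.R22.ClsTN
import Crest.Agent.R22.PC
import Crest.Agent.R22.SameP
import Crest.Agent.R22.CFdeg

set_option autoImplicit false
open Polynomial IntermediateField

namespace Crest.Agent.R22

variable {d : ℕ}

theorem CurveC_eval_ne (c : Ctx d) (hd : 2 ≤ d) (n : ℤ) : c.F.eval n ≠ 0 := by
  intro h
  have h1 := prod_sub_th c (n : ℂ)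
  have h2 : aeval (n : ℂ) c.F = ((c.F.eval n : ℤ) : ℂ) := by
    have := Polynomial.aeval_algebraMap_apply_eq_algebraMap_eval (A := ℂ) n c.F
    simpa using this
  rw [h2, h] at h1
  simp only [Int.cast_zero, Finset.prod_eq_zero_iff] at h1
  obtain ⟨j, -, hj⟩ := h1
  exact th_ne_int c hd j n hj

theorem CurveC_rank {c : Ctx d} {k : ℕ} (hk : 1 ≤ k) {b1 b2 : Fin d → ℤ} {i0 : Fin d}
    {g : ℂ[X][X]} (hg : Irreducible g) (h1 : 1 ≤ g.natDegree) {E : ℕ} (hE : DegLE g E) {L : Type}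
    [Field L] [Algebra ℂ L] {t n : L} {ρ : Fin d → L} (h : CF c k b1 b2 i0 g t n ρ)
    (hgen : GenBy0 (Submodule.span ℂ (Set.range ρ)))
    (hr : (GoodRatio (Submodule.span ℂ (Set.range ρ)) 3 ∧ 2 ≤ fdeg t) ∨
          GoodRatio (Submodule.span ℂ (Set.range ρ)) 4) (A i : ℕ) :
    3 * A + (3 * k + 2) * i ≤ Module.finrank ℂ
      ↥(Submodule.span ℂ (Set.range (c.co ρ)) ^ (4 + A + k * i) *
        Submodule.span ℂ {1, t} ^ (4 + 1 * i)) := by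
  obtain ⟨ht, hfin, -⟩ := CF.degrees hk hg h1 hE h
  rw [span_co]
  have : FiniteDimensional ℂ (Submodule.span ℂ (Set.range ρ)) :=
    FiniteDimensional.span_of_finite ℂ (Set.finite_range ρ)
  have hgb : GenBy (Submodule.span ℂ (Set.range ρ)) t := fun K _ hK => hgen K hK
  have hf1 : 1 ≤ fdeg t := by
    unfold fdeg
    exact Module.finrank_pos
  rw [add_assoc, one_mul]
  rcases hr with ⟨h3, h2⟩ | h4
  · have := hilbert_lb _ t ht hgb 3 2 4 h3 h2 (by norm_num) (by norm_num) (A + k * i) i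
    refine le_trans (le_of_eq ?_) this
    ring
  · have := hilbert_lb _ t ht hgb 4 1 4 h4 hf1 (by norm_num) (by norm_num) (A + k * i) i
    refine le_trans ?_ this
    have : i ≤ k * i := Nat.le_mul_of_pos_left i hk
    nlinarith

/-- Sizes of the coordinates. -/
theorem CurveC_size {c : Ctx d} {k : ℕ} {C0 X B G1 G2 b lam : ℝ} {b1 b2 : Fin d → ℤ}
    (h0 : 1 ≤ C0) (hX : 1 ≤ X) (hs : SizeC X B G1 b lam) (hL : LH b1 b2 G1 G2) {P : LPt c k}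
    (hP : OnC C0 X B G1 G2 b1 b2 P) :
    |(P.x : ℝ)| ≤ C0 * X ∧ |(P.y : ℝ)| ≤ C0 * X ∧ ‖P.be‖ ≤ C0 * X ^ b ∧
      ‖P.be‖ ^ k * max |(P.x : ℝ)| |(P.y : ℝ)| ^ 1 ≤ 2 * C0 ^ (k + 1) * X ^ lam := by
  have hB := hs.b1
  have hG1 := hL.g1
  have hG2 := hL.g2
  have hBk : 1 ≤ B ^ k := one_le_pow₀ hB
  have hU : X / B ^ k ≤ X := div_le_self (by linarith) hBk
  have hU0 : 0 ≤ X / B ^ k := by positivity
  have hCU : C0 * (X / B ^ k) ≤ C0 * X := mul_le_mul_of_nonneg_left hU (by linarith)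
  have hCU0 : 0 ≤ C0 * (X / B ^ k) := by positivity
  have h12 : G1 ≤ 2 * G2 := hL.l1.trans (hL.line.le.trans hL.u2)
  refine ⟨hP.hx.trans ((div_le_self hCU0 hG1).trans hCU),
    hP.hy.trans ((div_le_self hCU0 hG2).trans hCU),
    hP.sz.be3.trans (mul_le_mul_of_nonneg_left hs.hb (by linarith)), ?_⟩
  have hm : max |(P.x : ℝ)| |(P.y : ℝ)| ≤ 2 * (C0 * (X / B ^ k) / G1) := by
    refine max_le ?_ ?_
    · have : 0 ≤ C0 * (X / B ^ k) / G1 := by positivity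
      linarith [hP.hx]
    · refine hP.hy.trans ?_
      generalize C0 * (X / B ^ k) = W at hCU0
      rw [← mul_div_assoc, div_le_div_iff₀ (by linarith) (by linarith)]
      nlinarith
  have hb : ‖P.be‖ ^ k ≤ (C0 * B) ^ k := pow_le_pow_left₀ (norm_nonneg _) hP.sz.be3 k
  rw [pow_one]
  calc ‖P.be‖ ^ k * max |(P.x : ℝ)| |(P.y : ℝ)|
      ≤ (C0 * B) ^ k * (2 * (C0 * (X / B ^ k) / G1)) :=
        mul_le_mul hb hm (le_trans (abs_nonneg _) (le_max_left _ _)) (by positivity)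
    _ = 2 * C0 ^ (k + 1) * (X / G1) := by
        have : B ^ k ≠ 0 := by positivity
        have : G1 ≠ 0 := by positivity
        rw [mul_pow]; field_simp; ring
    _ ≤ 2 * C0 ^ (k + 1) * X ^ lam := mul_le_mul_of_nonneg_left hs.hl (by positivity)

/-- The classes modulo `q`. -/
theorem CurveC_classes (c : Ctx d) (hd : 1 ≤ d) (k E : ℕ) (DF : ℤ)
    (hDF : ∀ l j, (DF : ℂ) * (Matrix.vandermonde c.th)⁻¹ l j ∈ c.AA) : ∃ C : ℕ,
    ∀ (b1 b2 : Fin d → ℤ) (g : ℤ[X][X]), DegLE g E → ∀ (cc : ℤ) (S : Finset (LPt c k)),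
      (∀ P ∈ S, P.mu = P.x • b1 + P.y • b2 ∧ P.cc = cc ∧ hev2 g E P.x P.y P.n = 0) →
      ∀ {M : ℕ} (a c0 I : ℕ) (ρ : Fin M → Row d), (∀ i, (ρ i).Ok a k c0 1 I) →
      ∀ q : ℕ, q.Prime → ∃ PP : Finset (Finset (LPt c k)), (PP.card : ℝ) ≤ (C : ℝ) * q ∧
        (∀ P ∈ S, ¬ (q : ℤ) ∣ badC DF g E P → ∃ T ∈ PP, P ∈ T) ∧ ∀ T ∈ PP, T ⊆ S ∧
          ∀ z : Fin M → LPt c k, (∀ b, z b ∈ T) → (q : ℤ) ^ (M * (M - 1) / 2) ∣
            (Matrix.of fun i b => (ρ i).ev c0 1 (z b).be (z b).x (z b).y).det := by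
  classical
  obtain ⟨C, hC⟩ := classes_C c hd k E DF hDF
  refine ⟨2 * E * C, ?_⟩
  intro b1 b2 g hg cc S hS M a c0 I ρ hρ q hq
  obtain ⟨PP, hcard, hcov, hT⟩ := classes_tn c k E DF g hg q hq S (fun P hP => (hS P hP).2.2)
  have key : ∀ T ∈ PP, ∃ QQ : Finset (Finset (LPt c k)), QQ.card ≤ C ∧
      (∀ P ∈ T, ¬ (q : ℤ) ∣ badC DF g E P → ∃ T' ∈ QQ, P ∈ T') ∧ ∀ T' ∈ QQ, T' ⊆ S ∧
        ∀ z : Fin M → LPt c k, (∀ b, z b ∈ T') → (q : ℤ) ^ (M * (M - 1) / 2) ∣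
            (Matrix.of fun i b => (ρ i).ev c0 1 (z b).be (z b).x (z b).y).det := by
    intro T hTP
    obtain ⟨hsub, -, hsame⟩ := hT T hTP
    obtain ⟨QQ, h1, h2, h3⟩ := hC b1 b2 g q hq (T.filter fun P => ¬ (q : ℤ) ∣ badC DF g E P)
      (fun P hP => ⟨(hS P (hsub (Finset.mem_filter.1 hP).1)).1, (Finset.mem_filter.1 hP).2⟩)
      (fun P hP Q hQ => hsame P (Finset.mem_filter.1 hP).1 Q (Finset.mem_filter.1 hQ).1)
    refine ⟨QQ, h1, fun P hP hb => h2 P (Finset.mem_filter.2 ⟨hP, hb⟩), fun T' hT' => ?_⟩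
    obtain ⟨h4, h5⟩ := h3 T' hT'
    have h6 : ∀ P ∈ T', P ∈ T := fun P hP => (Finset.mem_filter.1 (h4 hP)).1
    refine ⟨fun P hP => hsub (h6 P hP), fun z hz => ?_⟩
    refine padicC c hd k E DF hDF b1 b2 g hg q hq cc T' (fun P hP => ?_) (fun P hP Q hQ => ?_)
      a c0 I ρ hρ z hz
    · have := hS P (hsub (h6 P hP))
      exact ⟨this.1, this.2.1, this.2.2, (Finset.mem_filter.1 (h4 hP)).2⟩
    · exact ⟨hsame P (h6 P hP) Q (h6 Q hQ), h5 P hP Q hQ⟩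
  choose! QQ hQ1 hQ2 hQ3 using key
  refine ⟨PP.biUnion QQ, ?_, fun P hP hb => ?_, fun T' hT' => ?_⟩
  · have h1 : (PP.biUnion QQ).card ≤ PP.card * C := Finset.card_biUnion_le_card_mul _ _ _ hQ1
    have h2 : (PP.biUnion QQ).card ≤ 2 * E * C * q :=
      h1.trans ((Nat.mul_le_mul_right C hcard).trans (le_of_eq (by ring)))
    exact_mod_cast h2
  · have hb' : ¬ (q : ℤ) ∣ badB DF g E P := fun h => hb (Dvd.dvd.mul_right h _)
    obtain ⟨T, hTP, hPT⟩ := hcov P hP hb'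
    obtain ⟨T', h1, h2⟩ := hQ2 T hTP P hPT hb
    exact ⟨T', Finset.mem_biUnion.2 ⟨T, hTP, h1⟩, h2⟩
  · obtain ⟨T, hTP, h1⟩ := Finset.mem_biUnion.1 hT'
    exact hQ3 T hTP T' h1

/-- The bound for a fixed value of `cc` and large `X`. -/
theorem CurveC_one (c : Ctx d) (hd : 2 ≤ d) (k : ℕ) (hk : 1 ≤ k) (E : ℕ) (C0 C1 b lam η : ℝ)
    (h0 : 1 ≤ C0) (al io : ℕ) (hpos : 0 < 3 * al + (3 * k + 2) * io) (hb : 0 ≤ b) (hl : 0 ≤ lam)
    (hη : 0 < η) (h : etaC b lam 3 (3 * k + 2) al io < η) : ∃ C X0 : ℝ, 0 ≤ C ∧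
    ∀ (X B G1 G2 : ℝ) (b1 b2 : Fin d → ℤ) (i0 : Fin d) (g : ℤ[X][X]) (S : Finset (LPt c k))
      (cc : ℤ), X0 ≤ X → SizeC X B G1 b lam → LH b1 b2 G1 G2 → Curve g E ((2 * X) ^ C1) →
      1 ≤ g.natDegree → ∀ (L : Type) [Field L] [Algebra ℂ L] (t n : L) (ρ : Fin d → L),
        CF c k b1 b2 i0 (toC2 g) t n ρ → GenBy0 (Submodule.span ℂ (Set.range ρ)) →
        ((GoodRatio (Submodule.span ℂ (Set.range ρ)) 3 ∧ 2 ≤ fdeg t) ∨
          GoodRatio (Submodule.span ℂ (Set.range ρ)) 4) → InjN S →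
        (∀ P ∈ S, (OnC C0 X B G1 G2 b1 b2 P ∧ P.y ≠ 0 ∧ hev2 g E P.x P.y P.n = 0 ∧
          P.CompatC i0 t n ρ) ∧ P.cc = cc ∧ hev2 (derivative g) E P.x P.y P.n ≠ 0) →
        (S.card : ℝ) ≤ C * X ^ η := by
  classical
  obtain ⟨D, -, hD⟩ := arch_num b lam η 3 (3 * k + 2) al io 4 hpos hb hl h
  have hC0' : 1 ≤ 2 * C0 ^ (k + 1) := by
    have : 1 ≤ C0 ^ (k + 1) := one_le_pow₀ h0
    linarith
  have hC0'' : C0 ≤ 2 * C0 ^ (k + 1) := by
    have : 1 ≤ C0 ^ k := one_le_pow₀ h0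
    rw [pow_succ]; nlinarith
  obtain ⟨X0, hX0⟩ := hD (2 * C0 ^ (k + 1)) hC0'
  obtain ⟨DF, hDF0, hDF⟩ := exists_DF c
  obtain ⟨Cc, hCc⟩ := CurveC_classes c (by omega) k E DF hDF
  obtain ⟨Cz, hCz⟩ := zeroC (d := d) k E (4 + al * D) 4 (io * D) hk
  obtain ⟨Cb, hCb⟩ := bad_le c k E hk DF C0 C1 h0
  obtain ⟨C, hC0, hC⟩ := asm (3 * (al * D) + (3 * k + 2) * (io * D)) η Cb Cc Cz hη
    (Nat.cast_nonneg _) (Nat.cast_nonneg _)
  refine ⟨C, max X0 2, hC0, ?_⟩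
  intro X B G1 G2 b1 b2 i0 g S cc hX hs hL hg hg1 L _ _ t n ρ hCF hgen hr hinj hS
  have hX2 : 2 ≤ X := (le_max_right _ _).trans hX
  have hX1 : 1 ≤ X := by linarith
  rcases S.eq_empty_or_nonempty with rfl | ⟨P0, hP0⟩
  · simp only [Finset.card_empty, Nat.cast_zero]
    positivity
  have hcc : cc ≠ 0 := (hS P0 hP0).2.1 ▸ P0.cc0
  have hgC1 : 1 ≤ (toC2 g).natDegree := by rwa [natDegree_toC2]
  have hchar : CharZero L := charZero_of_injective_algebraMap (algebraMap ℂ L).injective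
  have hχ : ((cc : L) * (n - algebraMap ℂ L (c.th i0)) / aeval t (c.lin b1 b2 i0)) ≠ 0 :=
    div_ne_zero (mul_ne_zero (Int.cast_ne_zero.2 hcc) (hCF.hn i0)) (hCF.hl i0)
  obtain ⟨r, hrOk, hrT, hrI⟩ := exists_rows (c.co ρ) t _ hχ (4 + al * D) k 4 1 (3 * (al * D))
    (3 * k + 2) (io * D)
    (fun i _ => CurveC_rank hk hg.irr hgC1 (degLE_toC2 hg.deg) hCF hgen hr (al * D) i)
  have hsz := fun P (hP : P ∈ S) => CurveC_size h0 hX1 hs hL (hS P hP).1.1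
  refine hC X hX2 S (fun a P => (r a).ev 4 1 P.be P.x P.y) (badC DF g E) (fun P hP => ⟨?_, ?_⟩)
    (hCc b1 b2 g hg.deg cc S (fun P hP => ⟨(hS P hP).1.1.eq, (hS P hP).2.1, (hS P hP).1.2.2.1⟩)
      (4 + al * D) 4 (io * D) r hrOk) (fun z hz => ?_) (fun μ hμ T hT hTz => ?_)
  · unfold badC badB
    have h1 := (hS P hP).1.2.1
    have h2 := (hS P hP).2.2
    have h3 := P.ka0
    have h4 : (P.p : ℤ) ≠ 0 := by exact_mod_cast P.pp.ne_zero
    have h5 : (k : ℤ) ≠ 0 := by exact_mod_cast (by omega : k ≠ 0)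
    have h6 := P.cc0
    have h7 := CurveC_eval_ne c hd P.n
    exact mul_ne_zero (mul_ne_zero (mul_ne_zero (mul_ne_zero h1 hDF0) (mul_ne_zero h3 h4)) h2)
      (mul_ne_zero (mul_ne_zero h5 h6) h7)
  · exact (hCb X B g P hX2 hg.deg hg.ht (hS P hP).1.1.sz (hsz P hP).1 (hsz P hP).2.1 hd).2
  · have hXb : 1 ≤ X ^ b := Real.one_le_rpow hX1 hb
    have hXl : 1 ≤ X ^ lam := Real.one_le_rpow hX1 hl
    refine lt_of_le_of_lt (det_rows_le r (4 + al * D) k 4 1 (io * D) hrOk (fun b => (z b).be)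
      (fun b => (z b).x) (fun b => (z b).y) (2 * C0 ^ (k + 1) * X ^ b) (2 * C0 ^ (k + 1) * X)
      (2 * C0 ^ (k + 1) * X ^ lam) (one_le_mul_of_one_le_of_one_le hC0' hXb)
      (one_le_mul_of_one_le_of_one_le hC0' hX1) (one_le_mul_of_one_le_of_one_le hC0' hXl)
      (fun j => ?_) (fun j => ⟨?_, ?_⟩) (fun j => (hsz _ (hz j)).2.2.2))
      (hX0 X ((le_max_left _ _).trans hX) _ _ rfl hrT)
    · exact (hsz _ (hz j)).2.2.1.trans (mul_le_mul_of_nonneg_right hC0'' (by linarith))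
    · exact (hsz _ (hz j)).1.trans (mul_le_mul_of_nonneg_right hC0'' (by linarith))
    · exact (hsz _ (hz j)).2.1.trans (mul_le_mul_of_nonneg_right hC0'' (by linarith))
  · have := hCz c b1 b2 i0 (toC2 g) hg.irr (degLE_toC2 hg.deg) L t n ρ hCF cc _ r hrOk hrI μ hμ T
      (fun P hP Q hQ => hinj P (hT hP) Q (hT hQ))
      (fun P hP => ⟨(hS P (hT hP)).1.1.eq, (hS P (hT hP)).2.1, (hS P (hT hP)).1.2.1,
        (hS P (hT hP)).1.2.2.2, hTz P hP⟩)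
    exact_mod_cast this

/-- Chain rows on a component of scheme C. `m = 4`, `a = 4 + al D`, `c0 = 4`, `I = io D`, `m0 = 3 al D`,
`N0 = 3k + 2`; `hilbert_lb` with `(e0, f0) = (3, 2)` or `(4, 1)` (`GenBy` from `CF.gen`: `ρ i0` is a root
of unity and `n` is a Möbius function of `ρ_j^k`, or use `GenBy0`); `asm` with `classes_tn`,
`classes_C`, `padicC`, `det_rows_le` (`‖β‖^k max(|x|,|y|) ≤ C X / G1`), `zeroC`, `bad_le`. -/
theorem curveC_chain (c : Ctx d) (hd : 2 ≤ d) (k : ℕ) (hk : 1 ≤ k) (E : ℕ) (C0 C1 b lam η : ℝ)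
    (h0 : 1 ≤ C0) (al io : ℕ) (hpos : 0 < 3 * al + (3 * k + 2) * io) (hb : 0 ≤ b) (hl : 0 ≤ lam)
    (h : etaC b lam 3 (3 * k + 2) al io < η) : ∃ C : ℝ,
    ∀ (X B G1 G2 : ℝ) (b1 b2 : Fin d → ℤ) (i0 : Fin d) (g : ℤ[X][X]) (S : Finset (LPt c k)),
      1 ≤ X → SizeC X B G1 b lam → LH b1 b2 G1 G2 → Curve g E ((2 * X) ^ C1) → 1 ≤ g.natDegree →
      ∀ (L : Type) [Field L] [Algebra ℂ L] (t n : L) (ρ : Fin d → L),
        CF c k b1 b2 i0 (toC2 g) t n ρ → GenBy0 (Submodule.span ℂ (Set.range ρ)) →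
        ((GoodRatio (Submodule.span ℂ (Set.range ρ)) 3 ∧ 2 ≤ fdeg t) ∨
          GoodRatio (Submodule.span ℂ (Set.range ρ)) 4) → InjN S →
        (∀ P ∈ S, OnC C0 X B G1 G2 b1 b2 P ∧ P.y ≠ 0 ∧ hev2 g E P.x P.y P.n = 0 ∧
          P.CompatC i0 t n ρ) → (S.card : ℝ) ≤ C * X ^ η := by
  classical
  have hη : 0 < η := by
    refine lt_of_le_of_lt ?_ h
    unfold etaC
    positivity
  obtain ⟨C, X0, hC0, hC⟩ := CurveC_one c hd k hk E C0 C1 b lam η h0 al io hpos hb hl hη h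
  obtain ⟨Cs, hCs⟩ := card_sing c k E
  refine ⟨(|X0| + 1) + Cs + ((Finset.Icc (-(⌈C0⌉ : ℤ)) ⌈C0⌉).card : ℝ) * C, ?_⟩
  intro X B G1 G2 b1 b2 i0 g S hX hs hL hg hg1 L _ _ t n ρ hCF hgen hr hinj hS
  have hXη : 1 ≤ X ^ η := Real.one_le_rpow hX hη.le
  have hA : 0 ≤ ((Finset.Icc (-(⌈C0⌉ : ℤ)) ⌈C0⌉).card : ℝ) * C := by positivity
  have hB : (0 : ℝ) ≤ Cs := Nat.cast_nonneg _
  have hX0 : 0 ≤ |X0| := abs_nonneg _
  by_cases hXX : X0 ≤ X
  · have h1 : ((S.filter fun P => hev2 (derivative g) E P.x P.y P.n = 0).card : ℝ) ≤ Cs := by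
      have := hCs g _ (S.filter fun P => hev2 (derivative g) E P.x P.y P.n = 0) hg hg1
        (fun P hP Q hQ => hinj P (Finset.mem_filter.1 hP).1 Q (Finset.mem_filter.1 hQ).1)
        (fun P hP => ⟨(hS P (Finset.mem_filter.1 hP).1).2.1,
          (hS P (Finset.mem_filter.1 hP).1).2.2.1, (Finset.mem_filter.1 hP).2⟩)
      exact_mod_cast this
    set S' := S.filter fun P => ¬ hev2 (derivative g) E P.x P.y P.n = 0 with hS'
    have h2 : (S'.card : ℝ) ≤ ((Finset.Icc (-(⌈C0⌉ : ℤ)) ⌈C0⌉).card : ℝ) * (C * X ^ η) := by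
      have hmap : ∀ P ∈ S', P.cc ∈ Finset.Icc (-(⌈C0⌉ : ℤ)) ⌈C0⌉ := by
        intro P hP
        have h3 := (hS P (Finset.mem_filter.1 hP).1).1.sz.cc
        have h4 : |(P.cc : ℝ)| ≤ ((⌈C0⌉ : ℤ) : ℝ) := h3.trans (Int.le_ceil _)
        have h5 : |P.cc| ≤ ⌈C0⌉ := by exact_mod_cast h4
        exact Finset.mem_Icc.2 (abs_le.1 h5)
      rw [Finset.card_eq_sum_card_fiberwise hmap, Nat.cast_sum, ← nsmul_eq_mul]
      refine Finset.sum_le_card_nsmul _ _ _ fun cc _ => ?_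
      refine hC X B G1 G2 b1 b2 i0 g _ cc hXX hs hL hg hg1 L t n ρ hCF hgen hr
        (fun P hP Q hQ => hinj P (Finset.mem_filter.1 (Finset.mem_filter.1 hP).1).1 Q
          (Finset.mem_filter.1 (Finset.mem_filter.1 hQ).1).1) (fun P hP => ?_)
      have h6 := Finset.mem_filter.1 hP
      have h7 := Finset.mem_filter.1 h6.1
      exact ⟨hS P h7.1, h6.2, h7.2⟩
    have h3 := Finset.card_filter_add_card_filter_not (s := S)
      (fun P => hev2 (derivative g) E P.x P.y P.n = 0)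
    have h4 : (S.card : ℝ) = ((S.filter fun P => hev2 (derivative g) E P.x P.y P.n = 0).card : ℝ)
      + S'.card := by exact_mod_cast h3.symm
    rw [h4]
    nlinarith
  · have h1 := card_le_X c k C0 X B hX S hinj (fun P hP => (hS P hP).1.sz)
    have h2 : X ≤ |X0| := (not_le.1 hXX).le.trans (le_abs_self _)
    nlinarith

end Crest.Agent.R22
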