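import Crest.Agent.R22.FF
import Crest.Agent.R22.Basic

set_option autoImplicit false
open Polynomial IntermediateField

namespace Crest.Agent.R22

variable {d : ℕ}

theorem RatP_fdeg_equiv {L L' : Type*} [Field L] [Algebra ℂ L] [Field L'] [Algebra ℂ L']
    (e : L ≃ₐ[ℂ] L') (u : L) : fdeg (e u) = fdeg u := by
  have h1 : (ℂ⟮u⟯).map (e : L →ₐ[ℂ] L') = ℂ⟮e u⟯ := by
    rw [IntermediateField.adjoin_map]; simp
  let i : ℂ⟮u⟯ ≃ₐ[ℂ] ℂ⟮e u⟯ :=
    (IntermediateField.equivMap ℂ⟮u⟯ (e : L →ₐ[ℂ] L')).trans (IntermediateField.equivOfEq h1)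
  unfold fdeg
  symm
  refine Algebra.finrank_eq_of_equiv_equiv i.toRingEquiv e.toRingEquiv ?_
  ext x
  rfl

theorem RatP_frac {L : Type*} [Field L] [Algebra ℂ L] (w : L) (hw : Transcendental ℂ w)
    (gen : IntermediateField.adjoin ℂ {w} = ⊤) (x : L) (E : ℕ)
    (hE : Transcendental ℂ x → fdeg x ≤ E) :
    ∃ A B : ℂ[X], B ≠ 0 ∧ A.natDegree ≤ E ∧ B.natDegree ≤ E ∧ x * aeval w B = aeval w A := by
  by_cases hx : Transcendental ℂ x
  · let e : RatFunc ℂ ≃ₐ[ℂ] L := (RatFunc.algEquivOfTranscendental w hw).trans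
      ((IntermediateField.equivOfEq gen).trans IntermediateField.topEquiv)
    have he : ∀ u : RatFunc ℂ, e u = aeval w u.num / aeval w u.denom := fun u =>
      RatFunc.algEquivOfTranscendental_apply w hw u
    obtain ⟨u, rfl⟩ := e.surjective x
    have h1 := hE hx
    rw [RatP_fdeg_equiv, fdeg, RatFunc.finrank_eq_max_natDegree] at h1
    have h2 : aeval w u.denom ≠ 0 := fun h =>
      u.denom_ne_zero ((transcendental_iff.mp hw) _ h)
    refine ⟨u.num, u.denom, u.denom_ne_zero, (le_max_left _ _).trans h1,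
      (le_max_right _ _).trans h1, ?_⟩
    rw [he, div_mul_cancel₀ _ h2]
  · obtain ⟨a, rfl⟩ := IsAlgClosed.algebraMap_bijective_of_isIntegral (k := ℂ)
      (K := algebraicClosure ℂ L) |>.2 ⟨x, by
        rw [mem_algebraicClosure_iff]; exact not_not.mp hx⟩ |>.imp
        (fun a h => (congrArg Subtype.val h).symm)
    exact ⟨C a, 1, one_ne_zero, by simp, by simp, by simp⟩

theorem RatP_nocz {ι : Type} [Fintype ι] (q : ι → ℂ[X]) (i0 : ι) (h0 : q i0 ≠ 0) (M : ℕ)
    (hM : ∀ i, (q i).natDegree ≤ M) :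
    ∃ (N : ℕ) (g : ℂ[X]) (p : ι → ℂ[X]), N ≤ M ∧ NoCZ p N ∧ g ≠ 0 ∧ ∀ i, q i = g * p i := by
  classical
  obtain ⟨p, hp, hp1⟩ := Finset.extract_gcd q (s := Finset.univ) ⟨i0, Finset.mem_univ _⟩
  set g := Finset.univ.gcd q with hg
  have hg0 : g ≠ 0 := fun h => h0 (by rw [hp i0 (Finset.mem_univ _), h, zero_mul])
  have hp0 : p i0 ≠ 0 := fun h => h0 (by rw [hp i0 (Finset.mem_univ _), h, mul_zero])
  obtain ⟨i1, hi1, hmax⟩ := Finset.exists_max_image (Finset.univ.filter fun i => p i ≠ 0)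
    (fun i => (p i).natDegree) ⟨i0, by simpa using hp0⟩
  have hi1' : p i1 ≠ 0 := by simpa using hi1
  have hdeg : ∀ i, (p i).natDegree ≤ (p i1).natDegree := fun i => by
    by_cases h : p i = 0
    · simp [h]
    · exact hmax i (by simpa using h)
  refine ⟨(p i1).natDegree, g, p, ?_, ⟨hdeg, ?_⟩, hg0, fun i => hp i (Finset.mem_univ _)⟩
  · refine le_trans ?_ (hM i1)
    rw [hp i1 (Finset.mem_univ _), natDegree_mul hg0 hi1']
    omega
  · intro a b hab
    by_cases hb : b = 0
    · subst hb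
      have ha : a ≠ 0 := by simpa using hab
      refine ⟨i1, ?_⟩
      rw [hev, Finset.sum_range_succ, Finset.sum_eq_zero]
      · simp [ha, hi1']
      · intro i hi
        have : (p i1).natDegree - i ≠ 0 := by
          have := Finset.mem_range.mp hi
          omega
        simp [this]
    · by_contra hcon
      push Not at hcon
      have hd : ∀ i, (X - C (a / b)) ∣ p i := fun i => by
        have h := hcon i
        rw [hev_eq_eval _ _ (hdeg i) _ _ hb] at h
        rw [dvd_iff_isRoot, IsRoot.def]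
        simpa [hb] using h
      have : (X - C (a / b)) ∣ Finset.univ.gcd p := Finset.dvd_gcd fun i _ => hd i
      rw [hp1] at this
      exact not_isUnit_X_sub_C (a / b) (isUnit_of_dvd_one this)

/-- Parametrisation by forms. `L ≅ ℂ(X)`; `φ i / φ i0 = num/denom` with degrees `≤ E`
(`RatFunc.finrank_eq_max_natDegree`); take a common denominator, divide by the gcd, `N` = maximal
degree. -/
theorem rat_param {L : Type*} [Field L] [Algebra ℂ L] (w : L) (hw : Transcendental ℂ w)
    (gen : IntermediateField.adjoin ℂ {w} = ⊤) {ι : Type} [Fintype ι] (φ : ι → L) (i0 : ι)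
    (h0 : φ i0 ≠ 0) (E : ℕ) (hE : ∀ i, Transcendental ℂ (φ i / φ i0) → fdeg (φ i / φ i0) ≤ E) :
    ∃ (N : ℕ) (p : ι → ℂ[X]), N ≤ Fintype.card ι * E ∧ NoCZ p N ∧
      ∀ i j, φ i * aeval w (p j) = φ j * aeval w (p i) := by
  classical
  choose A B hB hA1 hB1 hAB using fun i => RatP_frac w hw gen (φ i / φ i0) E (hE i)
  have hinj : ∀ P : ℂ[X], aeval w P = 0 → P = 0 := transcendental_iff.mp hw
  let q : ι → ℂ[X] := fun i => A i * ∏ j ∈ Finset.univ.erase i, B j
  have hq : ∀ i, aeval w (q i) = φ i / φ i0 * aeval w (∏ j, B j) := fun i => by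
    rw [← Finset.mul_prod_erase Finset.univ B (Finset.mem_univ i), map_mul (aeval w) (B i),
      ← mul_assoc, hAB, ← map_mul]
  have hQ : aeval w (∏ j, B j) ≠ 0 := fun h =>
    (Finset.prod_ne_zero_iff.mpr fun j _ => hB j) (hinj _ h)
  have hq0 : q i0 ≠ 0 := fun h => by
    have := hq i0
    rw [h, map_zero, div_self h0, one_mul] at this
    exact hQ this.symm
  have hdeg : ∀ i, (q i).natDegree ≤ Fintype.card ι * E := fun i => by
    refine natDegree_mul_le.trans ?_
    have h1 : (∏ j ∈ Finset.univ.erase i, B j).natDegree ≤ (Fintype.card ι - 1) * E := by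
      refine (natDegree_prod_le _ _).trans ?_
      refine (Finset.sum_le_card_nsmul _ _ E fun j _ => hB1 j).trans ?_
      rw [Finset.card_erase_of_mem (Finset.mem_univ i), Finset.card_univ, smul_eq_mul]
    have h2 : 1 ≤ Fintype.card ι := Fintype.card_pos_iff.mpr ⟨i⟩
    have h3 := hA1 i
    obtain ⟨m, hm⟩ : ∃ m, Fintype.card ι = m + 1 := ⟨Fintype.card ι - 1, by omega⟩
    rw [hm] at h1 ⊢
    simp only [Nat.add_sub_cancel] at h1
    nlinarith
  obtain ⟨N, g, p, hN, hp, hg, hqp⟩ := RatP_nocz q i0 hq0 _ hdeg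
  refine ⟨N, p, hN, hp, fun i j => ?_⟩
  have hg' : aeval w g ≠ 0 := fun h => hg (hinj _ h)
  apply mul_left_cancel₀ hg'
  have hi := hq i
  have hj := hq j
  rw [hqp, map_mul] at hi hj
  calc aeval w g * (φ i * aeval w (p j)) = φ i * (aeval w g * aeval w (p j)) := by ring
    _ = φ j * (aeval w g * aeval w (p i)) := by rw [hi, hj]; ring
    _ = _ := by ring

end Crest.Agent.R22
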