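import Crest.Agent.R22.FF
import Crest.Agent.R22.Basic

set_option autoImplicit false
open Polynomial IntermediateField

namespace Crest.Agent.R22

variable {d : ℕ}

theorem Shear_ext {A : Type*} [CommRing A] [Algebra ℂ A] {φ ψ : ℂ[X][X] →ₐ[ℂ] A}
    (h1 : φ (C X) = ψ (C X)) (h2 : φ X = ψ X) : φ = ψ :=
  (aevalAevalEquiv ℂ A).symm.injective (Prod.ext h1 h2)

theorem Shear_comp {A B : Type*} [CommRing A] [Algebra ℂ A] [CommRing B] [Algebra ℂ B]
    (φ : A →ₐ[ℂ] B) (a b : A) (g : ℂ[X][X]) :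
    φ (aevalAeval a b g) = aevalAeval (φ a) (φ b) g := by
  have : φ.comp (aevalAeval a b) = aevalAeval (φ a) (φ b) :=
    Shear_ext (by rw [AlgHom.comp_apply, aevalAeval_X, aevalAeval_X])
      (by rw [AlgHom.comp_apply, aevalAeval_Y, aevalAeval_Y])
  exact DFunLike.congr_fun this g

theorem Shear_ev {A : Type*} [CommRing A] [Algebra ℂ A] (a b : A) (α : ℂ) :
    aevalAeval a b (C X + α • X : ℂ[X][X]) = a + α • b := by
  rw [map_add, map_smul, aevalAeval_X, aevalAeval_Y]

/-- The shear `Y ↦ Z + α Ξ`. -/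
noncomputable def Shear_S (α : ℂ) : ℂ[X][X] ≃ₐ[ℂ] ℂ[X][X] :=
  AlgEquiv.ofAlgHom (aevalAeval (C X + α • X) X) (aevalAeval (C X + (-α) • X) X)
    (Shear_ext (by
      rw [AlgHom.comp_apply, aevalAeval_X, Shear_ev, AlgHom.id_apply, neg_smul,
        add_neg_cancel_right])
      (by rw [AlgHom.comp_apply, aevalAeval_Y, aevalAeval_Y, AlgHom.id_apply]))
    (Shear_ext (by
      rw [AlgHom.comp_apply, aevalAeval_X, Shear_ev, AlgHom.id_apply, neg_smul,
        neg_add_cancel_right])
      (by rw [AlgHom.comp_apply, aevalAeval_Y, aevalAeval_Y, AlgHom.id_apply]))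

theorem Shear_ev_S {A : Type*} [CommRing A] [Algebra ℂ A] (a b : A) (α : ℂ) (g : ℂ[X][X]) :
    aevalAeval a b (Shear_S α g) = aevalAeval (a + α • b) b g := by
  change aevalAeval a b (aevalAeval (C X + α • X) X g) = _
  rw [Shear_comp, Shear_ev, aevalAeval_Y]

theorem Shear_coeff (α : ℂ) (e : ℕ) (g : ℂ[X][X]) :
    (aevalAeval (α • X : ℂ[X]) X g).coeff e =
      ∑ i ∈ Finset.range (e + 1), (g.coeff (e - i)).coeff i * α ^ i := by
  induction g using Polynomial.induction_on' with
  | add p q hp hq => simp only [map_add, coeff_add, hp, hq, add_mul, Finset.sum_add_distrib]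
  | monomial j a =>
    induction a using Polynomial.induction_on' with
    | add p q hp hq => simp only [map_add, coeff_add, hp, hq, add_mul, Finset.sum_add_distrib]
    | monomial i c =>
      have h1 : aevalAeval (α • X : ℂ[X]) X (monomial j (monomial i c)) =
          monomial (i + j) (c * α ^ i) := by
        rw [← C_mul_X_pow_eq_monomial, map_mul, map_pow, aevalAeval_C, aevalAeval_Y,
          aeval_monomial, _root_.smul_pow, ← C_mul_X_pow_eq_monomial, algebraMap_eq, smul_eq_C_mul,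
          C_mul, pow_add]
        ring
      rw [h1, coeff_monomial]
      split_ifs with h
      · rw [Finset.sum_eq_single_of_mem i (Finset.mem_range.2 (by omega)), coeff_monomial,
          if_pos (by omega), coeff_monomial, if_pos rfl]
        intro i' _ hi'
        rw [coeff_monomial]
        split_ifs
        · rw [coeff_monomial, if_neg hi'.symm, zero_mul]
        · rw [coeff_zero, zero_mul]
      · refine (Finset.sum_eq_zero fun i' hi' => ?_).symm
        have := Finset.mem_range.1 hi'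
        rw [coeff_monomial]
        split_ifs
        · rw [coeff_monomial, if_neg (by omega), zero_mul]
        · rw [coeff_zero, zero_mul]

/-- A generic shear makes the degree in the outer variable at least the total degree. -/
theorem Shear_natDegree {g : ℂ[X][X]} {e i j : ℕ} (hij : i + j = e)
    (h : (g.coeff j).coeff i ≠ 0) : ∃ α : ℂ, e ≤ (Shear_S α g).natDegree := by
  set T : ℂ[X] := ∑ i ∈ Finset.range (e + 1), monomial i ((g.coeff (e - i)).coeff i) with hT
  have hT0 : T ≠ 0 := by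
    intro h0
    have := congrArg (fun p : ℂ[X] => p.coeff i) h0
    simp only [hT, finsetSum_coeff, coeff_monomial, Finset.sum_ite_eq', Finset.mem_range,
      coeff_zero] at this
    rw [if_pos (by omega), show e - i = j by omega] at this
    exact h this
  obtain ⟨α, hα⟩ : ∃ α, T.eval α ≠ 0 := by
    by_contra hc
    push Not at hc
    exact hT0 (zero_of_eval_zero T hc)
  refine ⟨α, le_natDegree_of_ne_zero fun h0 => hα ?_⟩
  have h1 := Shear_coeff 0 e (Shear_S α g)
  rw [Shear_ev_S, zero_smul, zero_add, Shear_coeff, Finset.sum_range_succ' (fun i =>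
    ((Shear_S α g).coeff (e - i)).coeff i * 0 ^ i) e, Nat.sub_zero, h0] at h1
  simp only [hT, eval_finsetSum, eval_monomial]
  simpa using h1

theorem Shear_total {g : ℂ[X][X]} (hg : g ≠ 0) : ∃ e i j : ℕ, i + j = e ∧
    (g.coeff j).coeff i ≠ 0 ∧ (∀ i j, (g.coeff j).coeff i ≠ 0 → i + j ≤ e) ∧
    ((g.coeff e).coeff 0 = 0 → g.natDegree < e) := by
  obtain ⟨j, hj, hs⟩ := Finset.exists_max_image g.support
    (fun j => (g.coeff j).natDegree + j) (support_nonempty.2 hg)
  have hall : ∀ i' j', (g.coeff j').coeff i' ≠ 0 → i' + j' ≤ (g.coeff j).natDegree + j := by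
    intro i' j' h
    have h1 : g.coeff j' ≠ 0 := fun h0 => h (by rw [h0, coeff_zero])
    have h2 := hs j' (mem_support_iff.2 h1)
    have h3 := le_natDegree_of_ne_zero h
    omega
  refine ⟨_, _, j, rfl, leadingCoeff_ne_zero.2 (mem_support_iff.1 hj), hall, fun h0 => ?_⟩
  have h1 : g.coeff g.natDegree ≠ 0 := leadingCoeff_ne_zero.2 hg
  have h2 := hall _ _ (leadingCoeff_ne_zero.2 h1)
  by_contra hc
  have h3 : (g.coeff j).natDegree + j = g.natDegree := by omega
  have h4 : (g.coeff g.natDegree).natDegree = 0 := by omega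
  rw [h3] at h0
  exact leadingCoeff_ne_zero.2 h1 (by rw [leadingCoeff, h4, h0])

theorem Shear_tower {L : Type*} [Field L] [Algebra ℂ L] (t n : L) :
    fdeg t = Module.finrank ℂ⟮t⟯ ℂ⟮t⟯⟮n⟯ * Module.finrank ℂ⟮t, n⟯ L := by
  rw [← adjoin_simple_adjoin_simple]
  exact (Module.finrank_mul_finrank ℂ⟮t⟯ ℂ⟮t⟯⟮n⟯ L).symm

theorem Shear_adjoin {L : Type*} [Field L] [Algebra ℂ L] (y ξ : L) (α : ℂ) :
    ℂ⟮y - α • ξ, ξ⟯ = ℂ⟮y, ξ⟯ := by
  apply le_antisymm
  · have h1 : y ∈ ℂ⟮y, ξ⟯ := subset_adjoin _ _ (by simp)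
    have h2 : ξ ∈ ℂ⟮y, ξ⟯ := subset_adjoin _ _ (by simp)
    rw [adjoin_le_iff, Set.insert_subset_iff, Set.singleton_subset_iff]
    exact ⟨sub_mem h1 (smul_mem _ h2), h2⟩
  · have h1 : y - α • ξ ∈ ℂ⟮y - α • ξ, ξ⟯ := subset_adjoin _ _ (by simp)
    have h2 : ξ ∈ ℂ⟮y - α • ξ, ξ⟯ := subset_adjoin _ _ (by simp)
    rw [adjoin_le_iff, Set.insert_subset_iff, Set.singleton_subset_iff]
    refine ⟨?_, h2⟩
    have := add_mem h1 (smul_mem _ h2 (x := α))
    rwa [sub_add_cancel] at this

/-- Plane curves: shearing `y ↦ y - α ξ` with generic `α` gives a function whose degree over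
`ℂ(y, ξ)` is the total degree. If the coefficient of `ξ^e'` vanishes (`e'` the total degree of the
irreducible equation `G` of `(y, ξ)`), the degree increases. -/
theorem shear_deg {L : Type*} [Field L] [Algebra ℂ L] (y ξ : L) (hy : Transcendental ℂ y)
    [FiniteDimensional ℂ⟮y⟯ L] (h2 : 2 ≤ fdeg y)
    (hP : ∀ (G : ℂ[X][X]) (e : ℕ), aevalAeval y ξ G = 0 →
      (∀ i j, (G.coeff j).coeff i ≠ 0 → i + j ≤ e) → (G.coeff e).coeff 0 = 0) :
    ∃ α : ℂ, Transcendental ℂ (y - α • ξ) ∧ 3 ≤ fdeg (y - α • ξ) := by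
  obtain ⟨g, hg, h1, hF⟩ := exists_isFF y ξ hy (IsIntegral.of_finite _ _)
  obtain ⟨e, i, j, hij, hc, hall, hlt⟩ := Shear_total hg.ne_zero
  have hlt' := hlt (hP g e ((hF g).2 dvd_rfl) hall)
  obtain ⟨α, hα⟩ := Shear_natDegree hij hc
  have hg' : Irreducible (Shear_S α g) := hg.map (Shear_S α)
  have hF' : IsFF (Shear_S α g) (y - α • ξ) ξ := by
    intro h
    obtain ⟨h, rfl⟩ := (Shear_S α).surjective h
    rw [Shear_ev_S, sub_add_cancel, hF h, map_dvd_iff]
  have h1' : 1 ≤ (Shear_S α g).natDegree := by omega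
  refine ⟨α, hF'.trans_t hg' h1', ?_⟩
  rw [Shear_tower y ξ, (hF.finrank_t hg h1).2] at h2
  rw [Shear_tower _ ξ, (hF'.finrank_t hg' h1').2, Shear_adjoin]
  generalize Module.finrank ℂ⟮y, ξ⟯ L = m at h2 ⊢
  have hm : m ≠ 0 := by
    rintro rfl
    omega
  calc 3 ≤ g.natDegree * m + m := by omega
    _ = (g.natDegree + 1) * m := by ring
    _ ≤ _ := Nat.mul_le_mul_right _ (by omega)

end Crest.Agent.R22
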