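import Crest.Agent.R22.FF
import Crest.Agent.R22.Basic
import Crest.Agent.R22.Shear
import Crest.Agent.R22.RatP

set_option autoImplicit false
open Polynomial IntermediateField

namespace Crest.Agent.R22

variable {d : ℕ}

/-- The integer vector of `b ω_{l'} - β_{l'} ω_{l0}`. -/
def Dich_a (β : Fin d → ℤ) (l0 l' : Fin d) : Fin d → ℤ :=
  Pi.single l' (β l0) - Pi.single l0 (β l')

theorem Dich_a_sum {L : Type*} [Field L] (ω : Fin d → L) (β : Fin d → ℤ) (l0 l' : Fin d) :
    ∑ l, Dich_a β l0 l' l • ω l = β l0 • ω l' - β l' • ω l0 := by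
  classical
  have h1 : ∀ (k : Fin d) (c : ℤ), ∑ l, (Pi.single k c : Fin d → ℤ) l • ω l = c • ω k := by
    intro k c
    rw [Finset.sum_eq_single k]
    · simp
    · intro l _ hl
      simp [Pi.single_eq_of_ne hl]
    · intro h; exact absurd (Finset.mem_univ k) h
  simp only [Dich_a, Pi.sub_apply, sub_smul, Finset.sum_sub_distrib, h1]

theorem Dich_abs_le (β : Fin d → ℤ) (l : Fin d) : |(β l : ℝ)| ≤ ‖β‖ := by
  have := norm_le_pi_norm β l
  rwa [Int.norm_eq_abs] at this

theorem Dich_a_le (β : Fin d → ℤ) (l0 l' l : Fin d) : |(Dich_a β l0 l' l : ℝ)| ≤ ‖β‖ := by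
  classical
  unfold Dich_a
  by_cases h1 : l = l'
  · by_cases h2 : l = l0
    · subst h1; subst h2
      simp
    · subst h1
      simp only [Pi.sub_apply, Pi.single_eq_same, Pi.single_eq_of_ne h2, sub_zero]
      exact Dich_abs_le β l0
  · by_cases h2 : l = l0
    · subst h2
      simp only [Pi.sub_apply, Pi.single_eq_same, Pi.single_eq_of_ne h1, zero_sub, Int.cast_neg,
        abs_neg]
      exact Dich_abs_le β l'
    · simp [Pi.single_eq_of_ne h1, Pi.single_eq_of_ne h2]

theorem Dich_single_le (β : Fin d → ℤ) (l0 l : Fin d) :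
    |((Pi.single l0 (β l0) : Fin d → ℤ) l : ℝ)| ≤ ‖β‖ := by
  classical
  by_cases h : l = l0
  · subst h
    simp only [Pi.single_eq_same]
    exact Dich_abs_le β l
  · simp [Pi.single_eq_of_ne h]

theorem Dich_single_sum {L : Type*} [Field L] (ω : Fin d → L) (k : Fin d) (c : ℤ) :
    ∑ l, (Pi.single k c : Fin d → ℤ) l • ω l = c • ω k := by
  classical
  rw [Finset.sum_eq_single k]
  · simp
  · intro l _ hl
    simp [Pi.single_eq_of_ne hl]
  · intro h; exact absurd (Finset.mem_univ k) h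

/-- Expansion of a bivariate polynomial of total degree `≤ e`. -/
theorem Dich_expand {L : Type*} [Field L] [Algebra ℂ L] (y ξ : L) (G : ℂ[X][X]) (e : ℕ)
    (hG : ∀ i j, (G.coeff j).coeff i ≠ 0 → i + j ≤ e) :
    aevalAeval y ξ G = ∑ j ∈ Finset.range (e + 1), ∑ i ∈ Finset.range (e + 1),
      (G.coeff j).coeff i • (y ^ i * ξ ^ j) := by
  have hdeg : G.natDegree < e + 1 := by
    by_cases h0 : G = 0
    · simp [h0]
    · have hl : G.coeff G.natDegree ≠ 0 := by
        simpa using h0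
      obtain ⟨i, hi⟩ : ∃ i, (G.coeff G.natDegree).coeff i ≠ 0 := by
        by_contra hc
        push Not at hc
        exact hl (Polynomial.ext (by simpa using hc))
      have := hG i _ hi
      omega
  conv_lhs => rw [G.as_sum_range' (e + 1) hdeg]
  rw [map_sum]
  refine Finset.sum_congr rfl fun j _ => ?_
  rw [← C_mul_X_pow_eq_monomial, map_mul, map_pow, aevalAeval_C, aevalAeval_Y]
  have hdj : (G.coeff j).natDegree < e + 1 := by
    by_cases h0 : G.coeff j = 0
    · simp [h0]
    · have hl : (G.coeff j).coeff (G.coeff j).natDegree ≠ 0 := by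
        simpa using h0
      have := hG _ _ hl
      omega
  rw [aeval_eq_sum_range' hdj, Finset.sum_mul]
  refine Finset.sum_congr rfl fun i _ => ?_
  rw [smul_mul_assoc]

theorem Dich_hP {L : Type*} [Field L] [Algebra ℂ L] (ω : Fin d → L) (β : Fin d → ℤ)
    (hpt : ∀ (G : MvPolynomial (Fin d) ℂ) (e : ℕ), G.IsHomogeneous e → MvPolynomial.aeval ω G = 0 →
      MvPolynomial.eval (fun l => (β l : ℂ)) G = 0) (l0 l1 l2 : Fin d) (hb : β l0 ≠ 0)
    (u1 u2 : L) (hu1 : u1 = β l0 • ω l1 - β l1 • ω l0) (hu2 : u2 = β l0 • ω l2 - β l2 • ω l0)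
    (hu20 : u2 ≠ 0) (G : ℂ[X][X]) (e : ℕ) (hG0 : aevalAeval (u1 / u2) (ω l0 / u2) G = 0)
    (hG : ∀ i j, (G.coeff j).coeff i ≠ 0 → i + j ≤ e) : (G.coeff e).coeff 0 = 0 := by
  classical
  set U1 : MvPolynomial (Fin d) ℂ :=
    MvPolynomial.C (β l0 : ℂ) * MvPolynomial.X l1 - MvPolynomial.C (β l1 : ℂ) * MvPolynomial.X l0
    with hU1
  set U2 : MvPolynomial (Fin d) ℂ :=
    MvPolynomial.C (β l0 : ℂ) * MvPolynomial.X l2 - MvPolynomial.C (β l2 : ℂ) * MvPolynomial.X l0
    with hU2
  set U3 : MvPolynomial (Fin d) ℂ := MvPolynomial.X l0 with hU3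
  have hX : ∀ (c : ℂ) (l : Fin d),
      (MvPolynomial.C c * MvPolynomial.X l : MvPolynomial (Fin d) ℂ).IsHomogeneous 1 := by
    intro c l
    simpa using (MvPolynomial.isHomogeneous_C (Fin d) c).mul (MvPolynomial.isHomogeneous_X ℂ l)
  have h1 : U1.IsHomogeneous 1 := (hX _ _).sub (hX _ _)
  have h2 : U2.IsHomogeneous 1 := (hX _ _).sub (hX _ _)
  have h3 : U3.IsHomogeneous 1 := MvPolynomial.isHomogeneous_X ℂ l0
  set H : MvPolynomial (Fin d) ℂ := ∑ j ∈ Finset.range (e + 1), ∑ i ∈ Finset.range (e + 1),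
    MvPolynomial.C ((G.coeff j).coeff i) * (U1 ^ i * U3 ^ j * U2 ^ (e - (i + j))) with hH
  have hHh : H.IsHomogeneous e := by
    refine MvPolynomial.IsHomogeneous.sum _ _ _ fun j _ => ?_
    refine MvPolynomial.IsHomogeneous.sum _ _ _ fun i _ => ?_
    by_cases hc : (G.coeff j).coeff i = 0
    · rw [hc, map_zero, zero_mul]
      exact MvPolynomial.isHomogeneous_zero _ _ _
    · have hij := hG i j hc
      have := (MvPolynomial.isHomogeneous_C (Fin d) ((G.coeff j).coeff i)).mul
        (((h1.pow i).mul (h3.pow j)).mul (h2.pow (e - (i + j))))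
      have he : 0 + (1 * i + 1 * j + 1 * (e - (i + j))) = e := by omega
      rwa [he] at this
  have a1 : MvPolynomial.aeval ω U1 = u1 := by
    rw [hu1, hU1, hU3]
    simp [zsmul_eq_mul]
  have a2 : MvPolynomial.aeval ω U2 = u2 := by
    rw [hu2, hU2, hU3]
    simp [zsmul_eq_mul]
  have a3 : MvPolynomial.aeval ω U3 = ω l0 := by
    rw [hU3]; simp
  have hH0 : MvPolynomial.aeval ω H = 0 := by
    have : MvPolynomial.aeval ω H = u2 ^ e * aevalAeval (u1 / u2) (ω l0 / u2) G := by
      rw [Dich_expand _ _ G e hG, hH, map_sum, Finset.mul_sum]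
      refine Finset.sum_congr rfl fun j _ => ?_
      rw [map_sum, Finset.mul_sum]
      refine Finset.sum_congr rfl fun i _ => ?_
      by_cases hc : (G.coeff j).coeff i = 0
      · simp [hc]
      · have hij := hG i j hc
        rw [map_mul, map_mul, map_mul, map_pow, map_pow, map_pow, a1, a2, a3, MvPolynomial.aeval_C,
          Algebra.smul_def]
        obtain ⟨k, rfl⟩ : ∃ k, e = i + j + k := ⟨e - (i + j), by omega⟩
        rw [Nat.add_sub_cancel_left, div_pow, div_pow]
        field_simp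
        ring
    rw [this, hG0, mul_zero]
  have hev := hpt H e hHh hH0
  have e1 : MvPolynomial.eval (fun l => (β l : ℂ)) U1 = 0 := by
    rw [hU1, hU3]; simp; ring
  have e2 : MvPolynomial.eval (fun l => (β l : ℂ)) U2 = 0 := by
    rw [hU2, hU3]; simp; ring
  have e3 : MvPolynomial.eval (fun l => (β l : ℂ)) U3 = β l0 := by
    rw [hU3]; simp
  rw [hH, map_sum, Finset.sum_eq_single e, map_sum, Finset.sum_eq_single 0] at hev
  · rw [map_mul, map_mul, map_mul, map_pow, map_pow, map_pow, e1, e2, e3, MvPolynomial.eval_C] at hev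
    simp only [pow_zero, one_mul, zero_add, Nat.sub_self, mul_one, mul_eq_zero] at hev
    rcases hev with hev | hev
    · exact hev
    · exact absurd (eq_zero_of_pow_eq_zero hev) (by exact_mod_cast hb)
  · intro i _ hi
    rw [map_mul, map_mul, map_mul, map_pow, e1, zero_pow hi]
    simp
  · intro h; exact absurd (Finset.mem_range.2 (Nat.succ_pos e)) h
  · intro j hj hje
    rw [map_sum]
    refine Finset.sum_eq_zero fun i _ => ?_
    rw [map_mul, map_mul, map_mul, map_pow, map_pow, map_pow, e1, e2]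
    by_cases hi : i = 0
    · have : e - (i + j) ≠ 0 := by
        have := Finset.mem_range.1 hj
        omega
      rw [zero_pow this]; simp
    · rw [zero_pow hi]; simp
  · intro h; exact absurd (Finset.mem_range.2 (Nat.lt_succ_self e)) h

/-- Dichotomy. If `W = span ω` has dimension `2`, the ratio of two of the `ω l` generates `L`. Otherwise
take `l0` with `β l0 ≠ 0` (then `ω l0 ≠ 0`), complete to three independent `ω l0, ω l1, ω l2`, put
`u3 = ω l0`, `u1 = β_{l0} ω_{l1} - β_{l1} ω_{l0}`, `u2 = β_{l0} ω_{l2} - β_{l2} ω_{l0}`, `y = u1/u2`,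
`ξ = u3/u2`. If `fdeg y = 1` we are in the second case; otherwise homogenise and use `hpt` (the point
is `(0, 0, β l0)`) to get the hypothesis of `shear_deg`. -/
theorem dich {L : Type*} [Field L] [Algebra ℂ L] (t : L) (ht : Transcendental ℂ t)
    [FiniteDimensional ℂ⟮t⟯ L] (ω : Fin d → L) (hgen : GenBy0 (Submodule.span ℂ (Set.range ω)))
    (β : Fin d → ℤ) (hβ : β ≠ 0)
    (hpt : ∀ (G : MvPolynomial (Fin d) ℂ) (e : ℕ), G.IsHomogeneous e → MvPolynomial.aeval ω G = 0 →
      MvPolynomial.eval (fun l => (β l : ℂ)) G = 0) :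
    GoodRatio (Submodule.span ℂ (Set.range ω)) 3 ∨ ∃ a1 a2 : Fin d → ℤ,
      (∀ l, |(a1 l : ℝ)| ≤ ‖β‖ ∧ |(a2 l : ℝ)| ≤ ‖β‖) ∧ ∑ l, a2 l • ω l ≠ 0 ∧
      IntermediateField.adjoin ℂ {(∑ l, a1 l • ω l) / ∑ l, a2 l • ω l} = ⊤ := by
  classical
  obtain ⟨l0, hb⟩ : ∃ l0, β l0 ≠ 0 := by
    by_contra hc
    push Not at hc
    exact hβ (funext hc)
  have : CharZero L := charZero_of_injective_algebraMap (algebraMap ℂ L).injective
  have hbL : ((β l0 : ℤ) : L) ≠ 0 := by exact_mod_cast hb
  have hω0 : ω l0 ≠ 0 := by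
    intro h0
    have := hpt (MvPolynomial.X l0) 1 (MvPolynomial.isHomogeneous_X ℂ l0) (by simpa using h0)
    simp only [MvPolynomial.eval_X, Int.cast_eq_zero] at this
    exact hb this
  set W := Submodule.span ℂ (Set.range ω) with hW
  have hωW : ∀ l, ω l ∈ W := fun l => Submodule.subset_span ⟨l, rfl⟩
  obtain ⟨u, hu⟩ : ∃ u : Fin d → L, ∀ l, u l = β l0 • ω l - β l • ω l0 := ⟨_, fun _ => rfl⟩
  have huW : ∀ l, u l ∈ W := fun l => by
    rw [hu]
    exact W.sub_mem (W.toAddSubgroup.zsmul_mem (hωW l) _) (W.toAddSubgroup.zsmul_mem (hωW l0) _)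
  by_cases hB : ∃ l2, ∀ l, ∃ c : ℂ, u l = c • u l2
  · obtain ⟨l2, hl2⟩ := hB
    refine Or.inr ⟨Dich_a β l0 l2, Pi.single l0 (β l0),
      fun l => ⟨Dich_a_le β l0 l2 l, Dich_single_le β l0 l⟩, ?_, ?_⟩
    · rw [Dich_single_sum, zsmul_eq_mul]
      exact mul_ne_zero hbL hω0
    · rw [Dich_single_sum, Dich_a_sum, ← hu]
      set z : L := u l2 / (β l0 • ω l0) with hz
      have hzK : z ∈ ℂ⟮z⟯ := mem_adjoin_simple_self ℂ z
      have key : ∀ w ∈ W, w / ω l0 ∈ ℂ⟮z⟯ := by
        intro w hw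
        induction hw using Submodule.span_induction with
        | mem x hx =>
          obtain ⟨l, rfl⟩ := hx
          obtain ⟨c, hc⟩ := hl2 l
          have : ω l / ω l0 = c • z + (β l : L) / (β l0 : L) := by
            have h1 : (β l0 : L) * ω l = c • u l2 + (β l : L) * ω l0 := by
              rw [← hc, hu, zsmul_eq_mul, zsmul_eq_mul]; ring
            rw [hz, zsmul_eq_mul, Algebra.smul_def] at *
            field_simp
            linear_combination h1
          rw [this]
          exact add_mem (IntermediateField.smul_mem _ hzK)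
            (div_mem (intCast_mem _ _) (intCast_mem _ _))
        | zero => simp
        | add x y _ _ hx hy => rw [add_div]; exact add_mem hx hy
        | smul c x _ hx => rw [smul_div_assoc]; exact IntermediateField.smul_mem _ hx
      refine hgen _ fun w hw w' hw' => ?_
      have : w / w' = (w / ω l0) / (w' / ω l0) := by
        rw [div_div_div_cancel_right₀ hω0]
      rw [this]
      exact div_mem (key w hw) (key w' hw')
  · push Not at hB
    obtain ⟨l2, hl2⟩ := hB l0
    have hu2 : u l2 ≠ 0 := by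
      intro h0
      exact hl2 0 (by rw [h0, zero_smul])
    obtain ⟨l1, hl1⟩ := hB l2
    have hy : Transcendental ℂ (u l1 / u l2) := by
      by_contra hc
      obtain ⟨a, ha⟩ := const_of_not_trans _ hc
      refine hl1 a ?_
      rw [Algebra.smul_def, ← ha, div_mul_cancel₀ _ hu2]
    have := finite_of_trans t (u l1 / u l2) ht hy
    by_cases h1 : fdeg (u l1 / u l2) = 1
    · refine Or.inr ⟨Dich_a β l0 l1, Dich_a β l0 l2,
        fun l => ⟨Dich_a_le β l0 l1 l, Dich_a_le β l0 l2 l⟩, ?_, ?_⟩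
      · rw [Dich_a_sum, ← hu]; exact hu2
      · rw [Dich_a_sum, Dich_a_sum, ← hu, ← hu]
        exact IntermediateField.finrank_eq_one_iff_eq_top.1 h1
    · have h2 : 2 ≤ fdeg (u l1 / u l2) := by
        have : 0 < fdeg (u l1 / u l2) := Module.finrank_pos
        omega
      obtain ⟨α, hα1, hα2⟩ := shear_deg (u l1 / u l2) (ω l0 / u l2) hy h2
        (fun G e hG0 hG => Dich_hP ω β hpt l0 l1 l2 hb (u l1) (u l2) (hu l1) (hu l2) hu2 G e hG0 hG)
      have heq : u l1 / u l2 - α • (ω l0 / u l2) = (u l1 - α • ω l0) / u l2 := by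
        rw [sub_div, smul_div_assoc]
      rw [heq] at hα1 hα2
      exact Or.inl ⟨u l1 - α • ω l0, W.sub_mem (huW l1) (W.smul_mem α (hωW l0)), u l2, huW l2, hu2,
        hα1, hα2⟩

end Crest.Agent.R22
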