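import Crest.Agent.R22.ZC
import Crest.Agent.R22.Dich
import Crest.Agent.R22.RLC

set_option autoImplicit false
open Polynomial IntermediateField

namespace Crest.Agent.R22

variable {d : ℕ}

/-- `evR` as an algebra homomorphism. -/
noncomputable def CurveCrat_ev {R : Type*} [CommRing R] [Algebra ℂ R] (t n : R) (ρ : Fin d → R) :
    MvPolynomial (Fin d) ℂ[X][X] →ₐ[ℂ] R :=
  { evR t n ρ with
    commutes' := fun a => by
      change evR t n ρ (MvPolynomial.C (algebraMap ℂ ℂ[X][X] a)) = _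
      rw [evR, MvPolynomial.eval₂Hom_C]
      exact (aevalAeval t n : ℂ[X][X] →ₐ[ℂ] R).commutes a }

/-- The coordinates of `ρ` as polynomials. -/
noncomputable def CurveCrat_om (c : Ctx d) : Fin d → MvPolynomial (Fin d) ℂ[X][X] :=
  c.co fun j => MvPolynomial.X j

section
variable {R : Type*} [CommRing R] [Algebra ℂ R] (t n : R) (ρ : Fin d → R)

theorem CurveCrat_hev (A : ℂ[X]) (N : ℕ) (x y : MvPolynomial (Fin d) ℂ[X][X]) :
    evR t n ρ (hev A N x y) = hev A N (evR t n ρ x) (evR t n ρ y) := by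
  change CurveCrat_ev t n ρ _ = hev A N (CurveCrat_ev t n ρ x) (CurveCrat_ev t n ρ y)
  simp only [hev, map_sum, map_mul, map_pow, AlgHom.commutes]

theorem CurveCrat_ev_om (c : Ctx d) (l : Fin d) : evR t n ρ (CurveCrat_om c l) = c.co ρ l := by
  change CurveCrat_ev t n ρ _ = _
  simp only [CurveCrat_om, Ctx.co, map_sum, map_smul]
  exact Finset.sum_congr rfl fun j _ => congrArg _ (MvPolynomial.eval₂Hom_X' _ _ _)

theorem CurveCrat_ev_n : evR t n ρ (MvPolynomial.C X) = n := by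
  simp [evR]

theorem CurveCrat_ev_t : evR t n ρ (MvPolynomial.C (C X)) = t := by
  simp [evR]

end

theorem CurveCrat_co_pt {c : Ctx d} (v : Fin d → ℤ) (s : ℂ) (l : Fin d) :
    c.co (fun j => c.sg j v / s) l = s⁻¹ * v l := by
  rw [← co_sg c v l, Ctx.co, Ctx.co, Finset.mul_sum]
  exact Finset.sum_congr rfl fun j _ => by simp only [smul_eq_mul]; ring

theorem CurveCrat_degLE {g : ℂ[X][X]} (h : g ∈ (⊥ : Subalgebra ℂ ℂ[X][X])) : DegLE g 1 := by
  obtain ⟨a, rfl⟩ := Algebra.mem_bot.1 h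
  change DegLE (C (C a)) 1
  refine ⟨by simp, fun i => ?_⟩
  rw [coeff_C]
  split_ifs <;> simp

theorem CurveCrat_lin (c : Ctx d) (a : Fin d → ℤ) :
    (∑ l, a l • CurveCrat_om c l).totalDegree ≤ 1 ∧
      ∀ m, DegLE ((∑ l, a l • CurveCrat_om c l).coeff m) 1 := by
  classical
  refine ⟨MvPolynomial.totalDegree_finsetSum_le fun l _ =>
    (MvPolynomial.totalDegree_smul_le _ _).trans (MvPolynomial.totalDegree_finsetSum_le fun j _ =>
      (MvPolynomial.totalDegree_smul_le _ _).trans (MvPolynomial.totalDegree_X j).le),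
    fun m => CurveCrat_degLE ?_⟩
  simp only [CurveCrat_om, Ctx.co, MvPolynomial.coeff_sum, MvPolynomial.coeff_smul]
  refine Subalgebra.sum_mem _ fun l _ => zsmul_mem (Subalgebra.sum_mem _ fun j _ =>
    Subalgebra.smul_mem _ ?_ _) _
  rw [MvPolynomial.coeff_X]
  split_ifs
  · exact one_mem _
  · exact zero_mem _

theorem CurveCrat_be_ne {c : Ctx d} {k : ℕ} (P : Pt c k) : P.be ≠ 0 := fun h => by
  obtain ⟨i, hi⟩ := P.pbe 2 Nat.prime_two
  exact hi (by rw [h]; exact dvd_zero _)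

theorem CurveCrat_core (c : Ctx d) (k : ℕ) (hk : 2 ≤ k) (E : ℕ) (C0 C2 ε : ℝ) (h0 : 1 ≤ C0)
    (hε : 0 < ε) : ∃ C : ℝ,
    ∀ (X B : ℝ) (b1 b2 : Fin d → ℤ) (i0 : Fin d) (g : ℂ[X][X]) (S : Finset (LPt c k)),
      1 ≤ X → B ≤ X → Irreducible g → DegLE g E → 1 ≤ g.natDegree →
      ∀ (L : Type) [Field L] [Algebra ℂ L] (t n : L) (ρ : Fin d → L), CF c k b1 b2 i0 g t n ρ →
        ¬ GoodRatio (Submodule.span ℂ (Set.range ρ)) 4 →
        ∀ (Φ₁ Φ₂ : MvPolynomial (Fin d) ℂ[X][X]) (w0 w1 : LPt c k → ℤ), Φ₂.totalDegree ≤ 1 →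
        (∀ a, DegLE (Φ₂.coeff a) 1) → evR t n ρ Φ₂ ≠ 0 →
        IntermediateField.adjoin ℂ {evR t n ρ Φ₁ / evR t n ρ Φ₂} = ⊤ → InjN S →
        (∀ P ∈ S, Sz C0 X B P.toPt ∧ P.y ≠ 0 ∧ P.CompatC i0 t n ρ ∧ |(w0 P : ℝ)| ≤ C2 * X ^ 2 ∧
          |(w1 P : ℝ)| ≤ C2 * X ^ 2 ∧ ∃ s : ℂ, s ≠ 0 ∧
          evR ((P.x : ℂ) / P.y) (P.n : ℂ) (fun j => c.sg j P.be / c.sg i0 P.be) Φ₁ = s * w0 P ∧
          evR ((P.x : ℂ) / P.y) (P.n : ℂ) (fun j => c.sg j P.be / c.sg i0 P.be) Φ₂ = s * w1 P) →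
        (S.card : ℝ) ≤ C * X ^ ε := by
  classical
  obtain ⟨Cz, hz⟩ := zeros_C (d := d) k (by omega) E 1
  obtain ⟨Cr, hr⟩ := rl_cx c k hk (2 * (k ^ d * E) + d * 3) C0 C2 ε h0 hε
  refine ⟨Cz + Cr, fun X B b1 b2 i0 g S hX hB hg hE h1 L _ _ t n ρ hcf hgr Φ₁ Φ₂ w0 w1 hd1 hd2
    hU hgen hinj hS => ?_⟩
  obtain ⟨ht, -, hn⟩ := hcf.degrees (by omega) hg h1 hE
  set U₁ := evR t n ρ Φ₁ with hU₁
  set U₂ := evR t n ρ Φ₂ with hU₂
  have hw : Transcendental ℂ (U₁ / U₂) := by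
    by_contra h
    obtain ⟨a, ha⟩ := const_of_not_trans _ h
    rw [ha, adjoin_simple_eq_bot_iff.2 (IntermediateField.algebraMap_mem _ a)] at hgen
    obtain ⟨b, hb⟩ := IntermediateField.mem_bot.1 (hgen ▸ mem_top : t ∈ (⊥ : IntermediateField ℂ L))
    exact ht (hb ▸ isAlgebraic_algebraMap b)
  have hρ : ρ i0 ≠ 0 := fun h => by
    have := hcf.rel i0
    rw [h, zero_pow (by omega), zero_mul, zero_mul] at this
    exact mul_ne_zero (hcf.hn i0) (hcf.hl i0) this.symm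
  obtain ⟨l0, hl0⟩ : ∃ l0, c.co ρ l0 ≠ 0 := by
    by_contra h
    push Not at h
    exact hρ (by rw [← sum_co c ρ i0]; simp [h])
  obtain ⟨N, p, hN, hp, hp'⟩ := rat_param _ hw hgen ![n, 1] 1 one_ne_zero (k ^ d * E) fun i hi => by
    fin_cases i
    · simpa using hn (by simpa using hi)
    · exact absurd (by simpa using isAlgebraic_one) hi
  obtain ⟨N', be, hN', hbe, hbe'⟩ := rat_param _ hw hgen (c.co ρ) l0 hl0 3 fun i hi => by
    by_contra h
    exact hgr ⟨_, span_co c ρ ▸ Submodule.subset_span ⟨i, rfl⟩, _,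
      span_co c ρ ▸ Submodule.subset_span ⟨l0, rfl⟩, hl0, hi, not_le.1 h⟩
  rw [Fintype.card_fin] at hN hN'
  have hp2 : NoCZ ![p 0, p 1] N := by
    convert hp using 1
    ext1 i
    fin_cases i <;> rfl
  have e1 : evR t n ρ (hev (p 0) N Φ₁ Φ₂ - MvPolynomial.C Polynomial.X * hev (p 1) N Φ₁ Φ₂) = 0 := by
    rw [map_sub, map_mul, CurveCrat_hev, CurveCrat_hev, CurveCrat_ev_n,
      hev_eq_eval _ _ (hp.1 0) _ _ hU, hev_eq_eval _ _ (hp.1 1) _ _ hU]
    have := hp' 0 1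
    simp only [Matrix.cons_val_zero, Matrix.cons_val_one] at this
    linear_combination -(U₂ ^ N) * this
  have e2 : ∀ l m, evR t n ρ (CurveCrat_om c l * hev (be m) N' Φ₁ Φ₂ -
      CurveCrat_om c m * hev (be l) N' Φ₁ Φ₂) = 0 := fun l m => by
    rw [map_sub, map_mul, map_mul, CurveCrat_hev, CurveCrat_hev, CurveCrat_ev_om, CurveCrat_ev_om,
      hev_eq_eval _ _ (hbe.1 l) _ _ hU, hev_eq_eval _ _ (hbe.1 m) _ _ hU]
    linear_combination U₂ ^ N' * hbe' l m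
  have hsub : ∀ q : LPt c k → Prop, ∀ [DecidablePred q], InjN (S.filter q) := fun q _ P hP Q hQ =>
    hinj P (Finset.mem_filter.1 hP).1 Q (Finset.mem_filter.1 hQ).1
  have b1 := hz c b1 b2 i0 g hg hE L t n ρ hcf Φ₂ hd1 hd2 hU (S.filter fun P => w1 P = 0)
    (hsub _) fun P hP => by
      obtain ⟨hP, h⟩ := Finset.mem_filter.1 hP
      obtain ⟨-, h2, h3, -, -, s, -, -, h4⟩ := hS P hP
      exact ⟨h2, h3, by rw [h4, h, Int.cast_zero, mul_zero]⟩
  have b2 := hr X B (p 0) (p 1) be N N' (S.filter fun P => ¬ w1 P = 0) w0 w1 hX hB (by omega)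
    (by omega) hp2 hbe (hsub _) fun P hP => by
      obtain ⟨hP, h⟩ := Finset.mem_filter.1 hP
      obtain ⟨h2, -, h3, h4, h5, s, hs, h6, h7⟩ := hS P hP
      refine ⟨h2, Or.inr h, h4, h5, ?_, fun l m => ?_⟩
      · have := h3 _ e1
        rw [map_sub, map_mul, CurveCrat_hev, CurveCrat_hev, CurveCrat_ev_n, h6, h7, hev_smul,
          hev_smul] at this
        refine mul_left_cancel₀ (pow_ne_zero N hs) ?_
        linear_combination this
      · have := h3 _ (e2 l m)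
        rw [map_sub, map_mul, map_mul, CurveCrat_hev, CurveCrat_hev, CurveCrat_ev_om,
          CurveCrat_ev_om, h6, h7, hev_smul, hev_smul, CurveCrat_co_pt, CurveCrat_co_pt] at this
        refine mul_left_cancel₀ (mul_ne_zero (pow_ne_zero N' hs)
          (inv_ne_zero (sg_ne_zero c i0 (CurveCrat_be_ne P.toPt)))) ?_
        linear_combination this
  have h2 : (1 : ℝ) ≤ X ^ ε := Real.one_le_rpow hX hε.le
  have h3 : ((S.filter fun P => w1 P = 0).card : ℝ) ≤ Cz * X ^ ε :=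
    (Nat.cast_le.2 b1).trans (le_mul_of_one_le_right (Nat.cast_nonneg _) h2)
  rw [← Finset.card_filter_add_card_filter_not (s := S) fun P => w1 P = 0, Nat.cast_add, add_mul]
  exact add_le_add h3 b2

theorem CurveCrat_bd {a v : Fin d → ℤ} {A T : ℝ} (ha : ∀ l, |(a l : ℝ)| ≤ A) (hv : ‖v‖ ≤ T) :
    |((∑ l, a l * v l : ℤ) : ℝ)| ≤ d * (A * T) := by
  push_cast
  refine (Finset.abs_sum_le_sum_abs _ _).trans ((Finset.sum_le_card_nsmul _ _ (A * T)
    fun l _ => ?_).trans_eq (by simp))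
  rw [abs_mul]
  refine mul_le_mul (ha l) (le_trans ?_ hv) (abs_nonneg _) ((abs_nonneg _).trans (ha l))
  rw [← Int.norm_eq_abs]
  exact norm_le_pi_norm v l

/-- Rational components. `w = U1/U2` generates `L`, where `(U1, U2)` is `(t, 1)` or
`(∑ a1 ω, ∑ a2 ω)`, `ω = co ρ`, and all ratios of elements of `W` have degree `≤ 3`. `rat_param` for
`(n, 1)` (degree `≤ k^d E`) and for `ω`; multiply the identities by `U2^N` (`hev_eq_eval`) to get
polynomial identities in `(t, n, ρ)`, specialise by `CompatC`, rescale (`hev_smul`) to the integer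
pairs `(x, y)` or `(∑ a1 β, ∑ a2 β)`; the points where `U2` vanishes are bounded by `zeros_C`; `rl_cx`. -/
theorem curveC_rat (c : Ctx d) (k : ℕ) (hk : 2 ≤ k) (E : ℕ) (C0 C1 ε : ℝ) (h0 : 1 ≤ C0)
    (hε : 0 < ε) : ∃ C : ℝ,
    ∀ (X B G1 G2 : ℝ) (b1 b2 : Fin d → ℤ) (i0 : Fin d) (g : ℂ[X][X]) (S : Finset (LPt c k)),
      1 ≤ X → 1 ≤ B → B ≤ X → LH b1 b2 G1 G2 → Irreducible g → DegLE g E → 1 ≤ g.natDegree →
      ∀ (L : Type) [Field L] [Algebra ℂ L] (t n : L) (ρ : Fin d → L), CF c k b1 b2 i0 g t n ρ →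
        ¬ GoodRatio (Submodule.span ℂ (Set.range ρ)) 4 →
        (IntermediateField.adjoin ℂ {t} = ⊤ ∨ ∃ a1 a2 : Fin d → ℤ,
          (∀ l, |(a1 l : ℝ)| ≤ C1 * X ∧ |(a2 l : ℝ)| ≤ C1 * X) ∧ ∑ l, a2 l • c.co ρ l ≠ 0 ∧
          IntermediateField.adjoin ℂ {(∑ l, a1 l • c.co ρ l) / ∑ l, a2 l • c.co ρ l} = ⊤) →
        InjN S → (∀ P ∈ S, OnC C0 X B G1 G2 b1 b2 P ∧ P.y ≠ 0 ∧ P.CompatC i0 t n ρ) →
        (S.card : ℝ) ≤ C * X ^ ε := by
  obtain ⟨C, hC⟩ := CurveCrat_core c k hk E C0 (C0 + d * (|C1| * C0)) ε h0 hε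
  refine ⟨C, fun X B G1 G2 b1 b2 i0 g S hX hB hBX hLH hg hE h1 L _ _ t n ρ hcf hgr hcase hinj
    hS => ?_⟩
  have hX2 : X ≤ X ^ 2 := by nlinarith
  have hd0 : 0 ≤ d * (|C1| * C0) * X ^ 2 := by positivity
  rcases hcase with h | ⟨a1, a2, ha, hne, h⟩
  · have hb : ∀ G : ℝ, 1 ≤ G → C0 * (X / B ^ k) / G ≤ (C0 + d * (|C1| * C0)) * X ^ 2 := by
      intro G hG
      have h2 : X / B ^ k ≤ X ^ 2 := (div_le_self (by linarith) (one_le_pow₀ hB)).trans hX2
      have h3 := mul_le_mul_of_nonneg_left h2 (by linarith : 0 ≤ C0)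
      have h4 : C0 * (X / B ^ k) / G ≤ C0 * (X / B ^ k) := div_le_self (by positivity) hG
      linarith
    refine hC X B b1 b2 i0 g S hX hBX hg hE h1 L t n ρ hcf hgr
      (MvPolynomial.C (Polynomial.C Polynomial.X)) 1 (fun P => P.x) (fun P => P.y) (by simp)
      (fun a => CurveCrat_degLE ?_) (by simp) (by rwa [CurveCrat_ev_t, map_one, div_one]) hinj
      fun P hP => ?_
    · classical
      rw [MvPolynomial.coeff_one]
      split_ifs
      · exact one_mem _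
      · exact zero_mem _
    · obtain ⟨h2, h3, h4⟩ := hS P hP
      have h5 : (P.y : ℂ) ≠ 0 := Int.cast_ne_zero.2 h3
      exact ⟨h2.sz, h3, h4, h2.hx.trans (hb _ hLH.g1), h2.hy.trans (hb _ hLH.g2), (P.y : ℂ)⁻¹,
        inv_ne_zero h5, by rw [CurveCrat_ev_t, div_eq_inv_mul],
        by rw [map_one, inv_mul_cancel₀ h5]⟩
  · have e : ∀ {R : Type} [CommRing R] [Algebra ℂ R] (t n : R) (ρ : Fin d → R) (a : Fin d → ℤ),
        evR t n ρ (∑ l, a l • CurveCrat_om c l) = ∑ l, a l • c.co ρ l := by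
      intro R _ _ t n ρ a
      simp only [map_sum, map_zsmul, CurveCrat_ev_om]
    have hb : ∀ a : Fin d → ℤ, (∀ l, |(a l : ℝ)| ≤ C1 * X) → ∀ P ∈ S,
        |((∑ l, a l * P.be l : ℤ) : ℝ)| ≤ (C0 + d * (|C1| * C0)) * X ^ 2 := by
      intro a ha P hP
      have h2 := CurveCrat_bd (A := |C1| * X) (T := C0 * X)
        (fun l => (ha l).trans (mul_le_mul_of_nonneg_right (le_abs_self _) (by linarith)))
        ((hS P hP).1.sz.be3.trans (mul_le_mul_of_nonneg_left hBX (by linarith)))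
      have h3 : 0 ≤ C0 * X ^ 2 := by positivity
      linarith
    have e' : ∀ (a v : Fin d → ℤ) (s : ℂ), ∑ l, a l • c.co (fun j => c.sg j v / s) l =
        s⁻¹ * ((∑ l, a l * v l : ℤ) : ℂ) := by
      intro a v s
      simp only [CurveCrat_co_pt, zsmul_eq_mul, Int.cast_sum, Int.cast_mul, Finset.mul_sum]
      exact Finset.sum_congr rfl fun l _ => by ring
    refine hC X B b1 b2 i0 g S hX hBX hg hE h1 L t n ρ hcf hgr (∑ l, a1 l • CurveCrat_om c l) _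
      (fun P => ∑ l, a1 l * P.be l) (fun P => ∑ l, a2 l * P.be l) (CurveCrat_lin c a2).1
      (CurveCrat_lin c a2).2 (by rwa [e]) (by rwa [e, e]) hinj fun P hP => ?_
    obtain ⟨h2, h3, h4⟩ := hS P hP
    exact ⟨h2.sz, h3, h4, hb a1 (fun l => (ha l).1) P hP, hb a2 (fun l => (ha l).2) P hP,
      (c.sg i0 P.be)⁻¹, inv_ne_zero (sg_ne_zero c i0 (CurveCrat_be_ne P.toPt)),
      by rw [e, e'], by rw [e, e']⟩

end Crest.Agent.R22
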