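import Crest.Agent.R22.Defs

set_option autoImplicit false
open Polynomial IntermediateField

namespace Crest.Agent.R22

variable {d : ℕ}

namespace IndAux

theorem aeval_smul {σ A : Type*} [CommRing A] [Algebra ℂ A] {R : MvPolynomial σ ℂ} {D : ℕ}
    (hR : R.IsHomogeneous D) (c : A) (v : σ → A) :
    MvPolynomial.aeval (fun s => c * v s) R = c ^ D * MvPolynomial.aeval v R := by
  rw [MvPolynomial.aeval_def, MvPolynomial.aeval_def, MvPolynomial.eval₂_eq, MvPolynomial.eval₂_eq,
    Finset.mul_sum]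
  refine Finset.sum_congr rfl fun m hm => ?_
  have h1 : ∑ s ∈ m.support, m s = D := by
    have := hR (MvPolynomial.mem_support_iff.1 hm)
    simpa [Finsupp.weight_apply, Finsupp.sum] using this
  simp only [mul_pow, Finset.prod_mul_distrib, Finset.prod_pow_eq_pow_sum, h1]
  ring

theorem dvd_lc {A K : Type*} [CommRing A] [IsDomain A] [Field K] [Algebra A K]
    (inj : Function.Injective (algebraMap A K)) {p : A[X]} {r s : A} (hs : s ≠ 0)
    (hc : IsCoprime s r) (h : aeval (algebraMap A K r / algebraMap A K s) p = 0) :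
    s ∣ p.leadingCoeff := by
  have h1 := scaleRoots_aeval_eq_zero_of_aeval_div_eq_zero inj h (mem_nonZeroDivisors_of_ne_zero hs)
  rw [aeval_algebraMap_apply, map_eq_zero_iff _ inj] at h1
  have h2 : (scaleRoots p s).IsRoot r := by rwa [coe_aeval_eq_eval] at h1
  have h3 : s ∣ p.leadingCoeff * r ^ p.natDegree := by
    rw [← coeff_scaleRoots_natDegree p s]
    apply dvd_term_of_isRoot_of_dvd_terms _ h2
    intro j hj
    by_cases h : j < p.natDegree
    · rw [coeff_scaleRoots]
      exact (dvd_mul_of_dvd_right (dvd_pow_self s (by omega)) _).mul_right _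
    · rw [coeff_eq_zero_of_natDegree_lt (by rw [natDegree_scaleRoots]; omega), zero_mul]
      exact dvd_zero _
  exact (hc.pow_right (n := p.natDegree)).dvd_of_dvd_mul_right h3

/-- A polynomial with coefficients of degree `< κ` has no root `r / s` with `deg s = κ`. -/
theorem low {K : Type*} [Field K] [Algebra ℂ[X] K] (inj : Function.Injective (algebraMap ℂ[X] K))
    {κ : ℕ} (q : Fin κ → ℂ[X]) {r s : ℂ[X]} (hs : s ≠ 0) (hd : s.natDegree = κ)
    (hc : IsCoprime s r)
    (h : aeval (algebraMap ℂ[X] K r / algebraMap ℂ[X] K s)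
      (∑ i : Fin κ, (C (X ^ (i : ℕ)) : ℂ[X][X]) * (q i).map C) = 0) (i : Fin κ) : q i = 0 := by
  set Q : ℂ[X][X] := ∑ i : Fin κ, (C (X ^ (i : ℕ)) : ℂ[X][X]) * (q i).map C with hQ
  have hco : ∀ j, Q.coeff j = ∑ i : Fin κ, C ((q i).coeff j) * X ^ (i : ℕ) := by
    intro j
    rw [hQ, finsetSum_coeff]
    refine Finset.sum_congr rfl fun i _ => ?_
    rw [coeff_C_mul, coeff_map, mul_comm]
  have hQ0 : Q = 0 := by
    by_contra hne
    have h1 := dvd_lc inj hs hc h
    have h2 := natDegree_le_of_dvd h1 (leadingCoeff_ne_zero.2 hne)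
    have h3 : Q.leadingCoeff.degree < κ := by
      rw [leadingCoeff, hco]
      exact degree_sum_fin_lt _
    have h4 := (natDegree_lt_iff_degree_lt (leadingCoeff_ne_zero.2 hne)).2 h3
    omega
  ext j
  have h5 := congrArg (fun p : ℂ[X] => p.coeff i) (hco j)
  simp only [hQ0, coeff_zero, finsetSum_coeff, coeff_C_mul_X_pow] at h5
  rw [Finset.sum_eq_single i (fun b _ hb => if_neg fun h => hb (Fin.ext h.symm)) (by simp)] at h5
  simpa using h5.symm

theorem tri_eq {m : ℕ} (hm : 3 ≤ m) {A : Type*} [AddCommMonoid A] (z : Fin m → A) :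
    tri z = ![z ⟨0, by omega⟩, z ⟨1, by omega⟩, ∑ j with 2 ≤ j.val, z j] := by
  have h0 : (Finset.univ.filter fun j : Fin m => j.val = 0) = {⟨0, by omega⟩} := by
    ext j
    simp [Fin.ext_iff]
  have h1 : (Finset.univ.filter fun j : Fin m => j.val = 1) = {⟨1, by omega⟩} := by
    ext j
    simp [Fin.ext_iff]
  rw [tri, h0, h1, Finset.sum_singleton, Finset.sum_singleton]

theorem card_S {m : ℕ} : (Finset.univ.filter fun j : Fin m => 2 ≤ j.val).card = m - 2 := by
  have h := Finset.card_filter_add_card_filter_not (s := (Finset.univ : Finset (Fin m)))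
    fun j : Fin m => 2 ≤ j.val
  have h2 : (Finset.univ.filter fun j : Fin m => ¬ 2 ≤ j.val).card = min m 2 := by
    simp only [not_le]
    exact Fin.card_filter_val_lt
  rw [Finset.card_univ, Fintype.card_fin] at h
  omega

theorem irr {p : ℂ[X]} (h : p.natDegree = 1) : Irreducible p :=
  irreducible_of_degree_eq_one (by
    rw [degree_eq_natDegree (by rintro rfl; simp at h), h]; rfl)

theorem key {K : Type*} [Field K] [Algebra ℂ[X] K] [Algebra ℂ K] [IsScalarTower ℂ ℂ[X] K]
    (inj : Function.Injective (algebraMap ℂ[X] K)) (m k D : ℕ) (hm : 3 ≤ m) (hk : 1 ≤ k) (th : Fin m → ℂ)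
    (hth : Function.Injective th) (L : Fin m → ℂ[X]) (hL : Lins L)
    (R : Fin ((m - 2) * k) → MvPolynomial (Fin 3) ℂ) (hR : ∀ i, (R i).IsHomogeneous D)
    (h : ∑ i : Fin ((m - 2) * k), (C (X ^ (i : ℕ)) : ℂ[X][X]) *
      MvPolynomial.aeval (tri (Urow th L k)) (R i) = 0) (y : Fin 3 → ℂ) (h1 : y 1 ≠ 0)
    (h2 : ∀ l : Fin m, 2 ≤ l.val →
      ¬ L l ∣ C ((th ⟨0, by omega⟩ - th l) * y 1) * L ⟨1, by omega⟩ ^ k
        - C ((th ⟨1, by omega⟩ - th l) * y 0) * L ⟨0, by omega⟩ ^ k)
    (i : Fin ((m - 2) * k)) : MvPolynomial.eval y (R i) = 0 := by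
  classical
  set i0 : Fin m := ⟨0, by omega⟩ with hi0
  set i1 : Fin m := ⟨1, by omega⟩ with hi1
  have h01 : i0 ≠ i1 := by simp [hi0, hi1]
  set S : Finset (Fin m) := Finset.univ.filter fun j : Fin m => 2 ≤ j.val with hS
  let f : ℂ[X] →+* K := algebraMap ℂ[X] K
  have hL0 : ∀ j, L j ≠ 0 := fun j => (irr (hL.1 j)).ne_zero
  let a : Fin m → ℂ[X] := fun l =>
    C ((th i0 - th l) * y 1) * L i1 ^ k - C ((th i1 - th l) * y 0) * L i0 ^ k
  let Dn : ℂ[X] := C (y 1) * L i1 ^ k - C (y 0) * L i0 ^ k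
  let N : ℂ[X] := C (th i0 * y 1) * L i1 ^ k - C (th i1 * y 0) * L i0 ^ k
  have hDn : Dn ≠ 0 := by
    intro h0
    have h3 : L i0 ∣ C (y 1) * L i1 ^ k := by
      have : C (y 1) * L i1 ^ k = C (y 0) * L i0 ^ k := sub_eq_zero.1 h0
      rw [this]
      exact dvd_mul_of_dvd_right (dvd_pow_self _ (by omega)) _
    have h4 : L i0 ∣ C (y 1) := ((hL.2 i0 i1 h01).pow_right (n := k)).dvd_of_dvd_mul_right h3
    exact (irr (hL.1 i0)).not_isUnit (isUnit_of_dvd_unit h4 (isUnit_C.2 h1.isUnit))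
  have hδ : th i0 - th i1 ≠ 0 := sub_ne_zero.2 (hth.ne h01)
  let φ : ℂ[X] := C (th i0 - th i1) * ∏ l ∈ S, L l ^ k
  let ψ : ℂ[X] := ∑ j ∈ S, a j * ∏ l ∈ S.erase j, L l ^ k
  have hP0 : ∏ l ∈ S, L l ^ k ≠ 0 := Finset.prod_ne_zero_iff.2 fun l _ => pow_ne_zero _ (hL0 l)
  have hφ : φ ≠ 0 := mul_ne_zero (C_ne_zero.2 hδ) hP0
  have hφd : φ.natDegree = (m - 2) * k := by
    rw [natDegree_C_mul hδ, natDegree_prod _ _ fun l _ => pow_ne_zero _ (hL0 l)]
    simp only [natDegree_pow, hL.1, mul_one, Finset.sum_const, smul_eq_mul]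
    rw [hS, card_S]
  have hcop : IsCoprime φ ψ := by
    refine (isCoprime_mul_unit_left_left (isUnit_C.2 hδ.isUnit) _ _).2 ?_
    refine IsCoprime.prod_left fun l hl => IsCoprime.pow_left ?_
    rw [(irr (hL.1 l)).coprime_iff_not_dvd]
    intro hd
    have h3 : L l ∣ ∑ j ∈ S.erase l, a j * ∏ l' ∈ S.erase j, L l' ^ k := by
      refine Finset.dvd_sum fun j hj => dvd_mul_of_dvd_right ?_ _
      refine (dvd_pow_self (L l) (by omega : k ≠ 0)).trans ?_
      exact Finset.dvd_prod_of_mem (fun l' => L l' ^ k)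
        (Finset.mem_erase.2 ⟨(Finset.ne_of_mem_erase hj).symm, hl⟩)
    have h4 : ψ = a l * ∏ l' ∈ S.erase l, L l' ^ k
        + ∑ j ∈ S.erase l, a j * ∏ l' ∈ S.erase j, L l' ^ k :=
      (Finset.add_sum_erase S (fun j => a j * ∏ l' ∈ S.erase j, L l' ^ k) hl).symm
    rw [h4] at hd
    have h5 := (dvd_add_left h3).1 hd
    have h6 : IsCoprime (L l) (∏ l' ∈ S.erase l, L l' ^ k) :=
      IsCoprime.prod_right fun l' hl' => (hL.2 l l' (Finset.ne_of_mem_erase hl').symm).pow_right
    exact h2 l (Finset.mem_filter.1 hl).2 (h6.dvd_of_dvd_mul_right h5)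
  -- evaluation at `n = N / Dn`
  have fDn : f Dn ≠ 0 := (map_ne_zero_iff f inj).2 hDn
  have fL : ∀ j, f (L j ^ k) ≠ 0 := fun j => (map_ne_zero_iff f inj).2 (pow_ne_zero _ (hL0 j))
  have fφ : f φ ≠ 0 := (map_ne_zero_iff f inj).2 hφ
  let ν : K := f N / f Dn
  let Pi : K := f (∏ l, L l ^ k)
  have hU : ∀ j, aeval ν (Urow th L k j) = f (a j) / f Dn * (Pi / f (L j ^ k)) := by
    intro j
    have e1 : f (∏ l ∈ Finset.univ.erase j, L l ^ k) = Pi / f (L j ^ k) := by
      rw [eq_div_iff (fL j), ← map_mul]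
      congr 1
      exact Finset.prod_erase_mul _ (fun l => L l ^ k) (Finset.mem_univ j)
    have e2 : ν - f (C (th j)) = f (a j) / f Dn := by
      rw [eq_div_iff fDn, sub_mul, div_mul_cancel₀ _ fDn, ← map_mul, ← map_sub]
      congr 1
      simp only [N, Dn, a, C_mul, C_sub]
      ring
    rw [Urow, map_mul, map_sub, aeval_X, aeval_C, aeval_C, ← e1, ← e2]
  let c : K := f (C (th i0 - th i1)) * Pi / f Dn
  have hc : c ≠ 0 := by
    refine div_ne_zero (mul_ne_zero ((map_ne_zero_iff f inj).2 (C_ne_zero.2 hδ)) ?_) fDn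
    exact (map_ne_zero_iff f inj).2
      (Finset.prod_ne_zero_iff.2 fun l _ => pow_ne_zero _ (hL0 l))
  let v : Fin 3 → K := ![f (C (y 0)), f (C (y 1)), f ψ / f φ]
  have hv : ∀ s, aeval ν (tri (Urow th L k) s) = c * v s := by
    intro s
    rw [tri_eq hm]
    fin_cases s
    · show aeval ν (Urow th L k i0) = c * f (C (y 0))
      have e1 : a i0 = C (th i0 - th i1) * C (y 0) * L i0 ^ k := by
        simp only [a, C_mul, C_sub]
        ring
      have := fL i0
      rw [hU, e1, map_mul, map_mul]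
      simp only [c]
      field_simp
    · show aeval ν (Urow th L k i1) = c * f (C (y 1))
      have e1 : a i1 = C (th i0 - th i1) * C (y 1) * L i1 ^ k := by
        simp only [a, C_mul, C_sub]
        ring
      have := fL i1
      rw [hU, e1, map_mul, map_mul]
      simp only [c]
      field_simp
    · show aeval ν (∑ j ∈ S, Urow th L k j) = c * (f ψ / f φ)
      simp only [ψ]
      rw [map_sum, map_sum, Finset.sum_div, Finset.mul_sum]
      refine Finset.sum_congr rfl fun j hj => ?_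
      have e1 : f (∏ l ∈ S.erase j, L l ^ k) = f (∏ l ∈ S, L l ^ k) / f (L j ^ k) := by
        rw [eq_div_iff (fL j), ← map_mul]
        congr 1
        exact Finset.prod_erase_mul _ (fun l => L l ^ k) hj
      have := fL j
      have h3 : f (∏ l ∈ S, L l ^ k) ≠ 0 := (map_ne_zero_iff f inj).2 hP0
      have h4 : f (C (th i0 - th i1)) ≠ 0 := (map_ne_zero_iff f inj).2 (C_ne_zero.2 hδ)
      rw [hU, map_mul, e1]
      simp only [c, φ, map_mul f]
      field_simp
  let q : Fin ((m - 2) * k) → ℂ[X] := fun i => MvPolynomial.aeval ![C (y 0), C (y 1), X] (R i)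
  have hq : ∀ i, aeval (f ψ / f φ) ((q i).map C) = MvPolynomial.aeval v (R i) := by
    intro i
    have e1 : (q i).map C = (q i).map (algebraMap ℂ ℂ[X]) := rfl
    rw [e1, aeval_map_algebraMap]
    simp only [q]
    rw [← AlgHom.comp_apply, MvPolynomial.comp_aeval]
    congr 2
    funext s
    fin_cases s
    · show aeval _ (C (y 0)) = f (C (y 0))
      rw [aeval_C, IsScalarTower.algebraMap_apply ℂ ℂ[X] K]
      rfl
    · show aeval _ (C (y 1)) = f (C (y 1))
      rw [aeval_C, IsScalarTower.algebraMap_apply ℂ ℂ[X] K]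
      rfl
    · show aeval _ X = _
      rw [aeval_X]
      rfl
  have h3 := congrArg (aeval ν) h
  rw [map_sum, map_zero] at h3
  have h4 : ∀ i, aeval ν (MvPolynomial.aeval (tri (Urow th L k)) (R i))
      = c ^ D * MvPolynomial.aeval v (R i) := by
    intro i
    rw [← aeval_smul (hR i)]
    have := MvPolynomial.comp_aeval (tri (Urow th L k))
      ((aeval ν : ℂ[X][X] →ₐ[ℂ[X]] K).restrictScalars ℂ)
    have h5 := AlgHom.congr_fun this (R i)
    simp only [AlgHom.comp_apply, AlgHom.restrictScalars_apply, hv] at h5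
    exact h5
  have h5 : aeval (f ψ / f φ)
      (∑ i : Fin ((m - 2) * k), (C (X ^ (i : ℕ)) : ℂ[X][X]) * (q i).map C) = 0 := by
    refine mul_left_cancel₀ (pow_ne_zero D hc) ?_
    rw [mul_zero, ← h3, map_sum, Finset.mul_sum]
    refine Finset.sum_congr rfl fun i _ => ?_
    rw [map_mul (aeval ν), map_mul (aeval _), aeval_C, aeval_C, hq, h4]
    ring
  have h6 := low inj q hφ hφd hcop h5 i
  have h7 := congrArg (aeval (y 2)) h6
  simp only [q] at h7
  rw [← AlgHom.comp_apply, MvPolynomial.comp_aeval, map_zero] at h7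
  rw [← h7, ← MvPolynomial.coe_aeval_eq_eval]
  show MvPolynomial.aeval y (R i) = _
  congr 2
  funext s
  fin_cases s <;> simp

end IndAux

/-- The scroll has degree `κ = (m-2) k` over the plane. With `u = tri U`, `u_i = P_i(t) n - R_i(t)`;
the wedges `u_i ∧ u_j = (∏ L^k) φ_ij`, `deg φ_ij ≤ κ`, `φ_01 = const ∏_{l≥2} L_l^k` has degree `κ`, and
`φ_01, φ_02` are coprime (at `z_l`, `l ≥ 2`, only the term `j = l` of `φ_02` survives). Normalise
by `u_2`: for complex `(X0, X1)` the polynomial `Φ = φ_01 - X1 φ_02 + X0 φ_12` (wedge of `u_0 - X0 u_2`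
and `u_1 - X1 u_2`). For all but finitely many `X0`, `a = φ_01 + X0 φ_12` is coprime to `φ_02`
[check: a common root of `φ_02` and `a` is not a root of `φ_01`], of degree `κ`; then for all but finitely many `X1`
the polynomial `a - X1 φ_02` has `κ` distinct roots, none a `z_l` (Wronskian of a nonconstant ratio).
At such a root solve the two linear equations for `(n0 : n1)`; `u_2 ≠ 0` there (otherwise
`u_0 = u_1 = 0`, `n0 = θ_0 n1 = θ_1 n1`). Homogenise the identity in `n`, get
`∑ t^i R_i(X0, X1, 1) = 0` at `κ` values of `t`, Vandermonde. (Alternative: irreducibility of `Φ` over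
`ℂ(X0, X1)` and evaluation in `ℂ(X0,X1)[t]/Φ`.) -/
theorem ind_rows (m k D : ℕ) (hm : 3 ≤ m) (hk : 1 ≤ k) (th : Fin m → ℂ)
    (hth : Function.Injective th) (L : Fin m → ℂ[X]) (hL : Lins L)
    (R : Fin ((m - 2) * k) → MvPolynomial (Fin 3) ℂ) (hR : ∀ i, (R i).IsHomogeneous D)
    (h : ∑ i : Fin ((m - 2) * k), (C (X ^ (i : ℕ)) : ℂ[X][X]) *
      MvPolynomial.aeval (tri (Urow th L k)) (R i) = 0) (i : Fin ((m - 2) * k)) : R i = 0 := by
  classical
  set i0 : Fin m := ⟨0, by omega⟩ with hi0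
  set i1 : Fin m := ⟨1, by omega⟩ with hi1
  have hz : ∀ l, ∃ z, (L l).IsRoot z := fun l =>
    Complex.exists_root (natDegree_pos_iff_degree_pos.1 (by rw [hL.1 l]; norm_num))
  choose z hz using hz
  let a : Fin m → ℂ := fun l => (th i0 - th l) * (L i1).eval (z l) ^ k
  let b : Fin m → ℂ := fun l => (th i1 - th l) * (L i0).eval (z l) ^ k
  let S : Finset (Fin m) := Finset.univ.filter fun j : Fin m => 2 ≤ j.val
  have ha : ∀ l ∈ S, a l ≠ 0 := by
    intro l hl
    have h2 : 2 ≤ l.val := (Finset.mem_filter.1 hl).2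
    refine mul_ne_zero (sub_ne_zero.2 (hth.ne ?_)) (pow_ne_zero _ fun h0 => ?_)
    · intro h0
      rw [← h0] at h2
      simp [hi0] at h2
    · have hne : l ≠ i1 := by
        intro h0
        rw [h0] at h2
        simp [hi1] at h2
      obtain ⟨u, v, huv⟩ := hL.2 l i1 hne
      have := congrArg (eval (z l)) huv
      simp [h0, (hz l).eq_zero] at this
  let H : MvPolynomial (Fin 3) ℂ := MvPolynomial.X 1 *
    ∏ l ∈ S, (MvPolynomial.C (a l) * MvPolynomial.X 1 - MvPolynomial.C (b l) * MvPolynomial.X 0)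
  have hH : ∀ y : Fin 3 → ℂ, MvPolynomial.eval y H = y 1 * ∏ l ∈ S, (a l * y 1 - b l * y 0) := by
    intro y
    simp [H]
  have hH0 : H ≠ 0 := by
    intro h0
    have := hH ![0, 1, 0]
    rw [h0, map_zero] at this
    simp only [Matrix.cons_val_one, Matrix.cons_val_zero, one_mul, mul_one, mul_zero,
      sub_zero] at this
    exact Finset.prod_ne_zero_iff.2 ha this.symm
  have hRH : R i * H = 0 := by
    refine MvPolynomial.funext fun y => ?_
    rw [map_mul, map_zero]
    by_cases hy : MvPolynomial.eval y H = 0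
    · rw [hy, mul_zero]
    · rw [hH] at hy
      obtain ⟨hy1, hy2⟩ := mul_ne_zero_iff.1 hy
      rw [IndAux.key (IsFractionRing.injective ℂ[X] (FractionRing ℂ[X])) m k D hm hk th hth L hL R hR h y hy1 (fun l hl hd => ?_) i, zero_mul]
      refine Finset.prod_ne_zero_iff.1 hy2 l (Finset.mem_filter.2 ⟨Finset.mem_univ _, hl⟩) ?_
      have := (hz l).dvd hd
      simp only [IsRoot, eval_sub, eval_mul, eval_C, eval_pow] at this
      simp only [a, b]
      linear_combination this
  exact (mul_eq_zero.1 hRH).resolve_right hH0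

end Crest.Agent.R22
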