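import Crest.Agent.R22.SameP

set_option autoImplicit false
open Polynomial IntermediateField

namespace Crest.Agent.R22

variable {d : ℕ}

theorem SameMu_core (k : ℕ) (hk : 2 ≤ k) : ∃ δ : ℝ, 0 < δ ∧ ∀ a b A A' : ℂ, b ≠ 0 →
    a ^ k * A' = b ^ k * A → ‖a - b‖ ≤ δ * ‖b‖ → ‖a - b‖ * ‖A'‖ ≤ ‖b‖ * ‖A - A'‖ := by
  have hc : ContinuousAt (fun z : ℂ => ‖∑ i ∈ Finset.range k, z ^ i‖) 1 := by fun_prop
  have h1 : (1 : ℝ) < ‖∑ i ∈ Finset.range k, (1 : ℂ) ^ i‖ := by
    simp only [one_pow, Finset.sum_const, Finset.card_range, nsmul_eq_mul, mul_one,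
      Complex.norm_natCast]
    exact_mod_cast hk
  obtain ⟨δ, hδ, h⟩ := Metric.eventually_nhds_iff.1 (hc.eventually (lt_mem_nhds h1))
  refine ⟨δ / 2, by positivity, fun a b A A' hb he hab => ?_⟩
  have hb0 : 0 < ‖b‖ := norm_pos_iff.2 hb
  have e1 : a - b = b * (a / b - 1) := by field_simp
  have e2 : ‖a / b - 1‖ ≤ δ / 2 := by
    rw [e1, norm_mul, mul_comm] at hab
    exact le_of_mul_le_mul_right hab hb0
  have e3 := h (y := a / b) (by rw [dist_eq_norm]; linarith)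
  have e4 : ‖a / b - 1‖ ≤ ‖(a / b) ^ k - 1‖ := by
    rw [← mul_geom_sum, norm_mul]
    exact le_mul_of_one_le_right (norm_nonneg _) e3.le
  have e5 : ((a / b) ^ k - 1) * A' = A - A' := by
    rw [div_pow]; field_simp; linear_combination he
  rw [e1, norm_mul, mul_assoc, ← e5, norm_mul]
  gcongr

theorem SameMu_one_le {v : Fin d → ℤ} (hv : Prim v) : 1 ≤ ‖v‖ := by
  obtain ⟨i, hi⟩ := hv 2 Nat.prime_two
  refine le_trans ?_ (norm_le_pi_norm v i)
  have : v i ≠ 0 := fun e => hi (by rw [e]; exact dvd_zero _)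
  rw [Int.norm_eq_abs]
  exact_mod_cast Int.one_le_abs this

theorem SameMu_pl (c : Ctx d) (v w : Fin d → ℤ) (l m : Fin d) :
    ((v l * w m - v m * w l : ℤ) : ℂ) = ∑ i, ∑ j, (Matrix.vandermonde c.th)⁻¹ l i *
      (Matrix.vandermonde c.th)⁻¹ m j * c.pl v w i j := by
  push_cast
  rw [← co_sg c v l, ← co_sg c w m, ← co_sg c v m, ← co_sg c w l, mul_comm (c.co _ m)]
  simp only [Ctx.co, smul_eq_mul, Finset.sum_mul_sum, ← Finset.sum_sub_distrib, Ctx.pl]
  exact Finset.sum_congr rfl fun i _ => Finset.sum_congr rfl fun j _ => by ring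

/-- Two points with the same `μ` and close invariants have the same `β` up to sign. -/
theorem SameMu_pair (c : Ctx d) (k : ℕ) (hk : 2 ≤ k) (C0 : ℝ) (h0 : 1 ≤ C0) :
    ∃ ε X₀ : ℝ, 0 < ε ∧ ∀ X B : ℝ, X₀ ≤ X → 1 ≤ X → 0 < B → ∀ P Q : Pt c k, Sz C0 X B P →
      Sz C0 X B Q → P.mu = Q.mu → |(P.n : ℝ) / X - Q.n / X| ≤ ε →
      (∀ i j, ‖c.sg i P.be / c.sg j P.be - c.sg i Q.be / c.sg j Q.be‖ ≤ ε) →
      P.be = Q.be ∨ P.be = -Q.be := by
  obtain ⟨δ, hδ, hcore⟩ := SameMu_core k hk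
  obtain ⟨C, hC, hth, hW, -⟩ := norm_equiv c
  set K : ℝ := (d : ℝ) ^ 2 * C ^ 2 * (8 * C * C0 ^ (k + 1)) + 1 with hK
  have hK0 : 0 < K := by positivity
  refine ⟨min (δ / C0 ^ 2) (1 / K), 2 * C, by positivity,
    fun X B hX hX1 hB P Q hP hQ hmu hn hr => ?_⟩
  set ε := min (δ / C0 ^ 2) (1 / K) with hε
  have hε0 : 0 < ε := by positivity
  have hε1 : ε * C0 ^ 2 ≤ δ := (le_div_iff₀ (by positivity)).1 (min_le_left _ _)
  have hε2 : ε * K ≤ 1 := (le_div_iff₀ hK0).1 (min_le_right _ _)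
  have hX0 : 0 < X := by linarith
  have hB1 : 1 ≤ C0 * B := (SameMu_one_le P.pbe).trans hP.be3
  have hB2 : (C0 * B) ^ 2 ≤ C0 ^ (k + 1) * X := by
    have a : B ^ k ≤ C0 * X := by
      have := (SameMu_one_le P.pmu).trans hP.mu3
      rwa [← mul_div_assoc, one_le_div (by positivity)] at this
    calc (C0 * B) ^ 2 ≤ (C0 * B) ^ k := pow_le_pow_right₀ hB1 hk
      _ = C0 ^ k * B ^ k := mul_pow _ _ _
      _ ≤ C0 ^ k * (C0 * X) := by gcongr
      _ = C0 ^ (k + 1) * X := by ring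
  have hlow : ∀ R : Pt c k, Sz C0 X B R → ∀ j, X / 2 ≤ ‖(R.n : ℂ) - c.th j‖ := fun R hR j => by
    have a := norm_sub_norm_le (R.n : ℂ) (c.th j)
    have b : (R.n : ℝ) ≤ ‖(R.n : ℂ)‖ := by rw [Complex.norm_intCast]; exact le_abs_self _
    linarith [hR.n1, hth j]
  have hne : ∀ R : Pt c k, Sz C0 X B R → ∀ j, c.sg j R.be ≠ 0 := fun R hR j =>
    norm_pos_iff.1 (lt_of_lt_of_le (by positivity) (hR.be1 j))
  have hmu0 : ∀ j, c.sg j P.mu ≠ 0 := fun j =>
    norm_pos_iff.1 (lt_of_lt_of_le (by positivity) (hP.mu1 j))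
  have hn' : |(P.n : ℝ) - Q.n| ≤ ε * X := by
    rwa [← sub_div, abs_div, abs_of_pos hX0, div_le_iff₀ hX0] at hn
  have hpl : ∀ i j, ‖c.pl P.be Q.be i j‖ ≤ ε * (8 * C * C0 ^ (k + 1)) := fun i j => by
    have p1 := P.rel i
    have p2 := P.rel j
    have q1 := Q.rel i
    have q2 := Q.rel j
    rw [← hmu] at q1 q2
    have he : (c.sg i P.be * c.sg j Q.be) ^ k * (((P.n : ℂ) - c.th j) * ((Q.n : ℂ) - c.th i)) =
        (c.sg j P.be * c.sg i Q.be) ^ k * (((P.n : ℂ) - c.th i) * ((Q.n : ℂ) - c.th j)) := by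
      refine mul_left_cancel₀ (mul_ne_zero (hmu0 i) (hmu0 j)) ?_
      calc _ = (c.sg i P.mu * c.sg i P.be ^ k) * (c.sg j P.mu * c.sg j Q.be ^ k) *
            (((P.n : ℂ) - c.th j) * ((Q.n : ℂ) - c.th i)) := by ring
        _ = (c.sg j P.mu * c.sg j P.be ^ k) * (c.sg i P.mu * c.sg i Q.be ^ k) *
            (((P.n : ℂ) - c.th i) * ((Q.n : ℂ) - c.th j)) := by rw [p1, p2, q1, q2]; ring
        _ = _ := by ring
    have hcl : ‖c.sg i P.be * c.sg j Q.be - c.sg j P.be * c.sg i Q.be‖ ≤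
        δ * ‖c.sg j P.be * c.sg i Q.be‖ := by
      have e : c.sg i P.be * c.sg j Q.be - c.sg j P.be * c.sg i Q.be = c.sg j P.be * (c.sg j Q.be *
          (c.sg i P.be / c.sg j P.be - c.sg i Q.be / c.sg j Q.be)) := by
        have := hne P hP j
        have := hne Q hQ j
        field_simp
      rw [e, norm_mul, norm_mul, norm_mul, mul_left_comm δ]
      refine mul_le_mul_of_nonneg_left ?_ (norm_nonneg _)
      calc _ ≤ C0 * B * ε := by gcongr; exacts [hQ.be2 j, hr i j]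
        _ = ε * C0 ^ 2 * (B / C0) := by field_simp
        _ ≤ δ * ‖c.sg i Q.be‖ := by gcongr; exact hQ.be1 i
    have h := hcore _ _ _ _ (mul_ne_zero (hne P hP j) (hne Q hQ i)) he hcl
    have e : ((P.n : ℂ) - c.th i) * ((Q.n : ℂ) - c.th j) -
        ((P.n : ℂ) - c.th j) * ((Q.n : ℂ) - c.th i) =
        (((P.n : ℝ) - Q.n : ℝ) : ℂ) * (c.th i - c.th j) := by push_cast; ring
    rw [e] at h
    simp only [norm_mul, Complex.norm_real, Real.norm_eq_abs] at h
    have t1 : ‖c.th i - c.th j‖ ≤ 2 * C := (norm_sub_le _ _).trans (by linarith [hth i, hth j])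
    have t2 : ‖c.pl P.be Q.be i j‖ * (X / 2 * (X / 2)) ≤ C0 * B * (C0 * B) * (ε * X * (2 * C)) := by
      refine le_trans ?_ (h.trans ?_)
      · unfold Ctx.pl
        gcongr
        exacts [hlow P hP j, hlow Q hQ i]
      · gcongr
        exacts [hP.be2 j, hQ.be2 i]
    refine le_of_mul_le_mul_right (t2.trans ?_) (by positivity : 0 < X / 2 * (X / 2))
    calc C0 * B * (C0 * B) * (ε * X * (2 * C)) = (C0 * B) ^ 2 * (ε * X * (2 * C)) := by ring
      _ ≤ C0 ^ (k + 1) * X * (ε * X * (2 * C)) := by gcongr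
      _ = _ := by ring
  refine prim_parallel P.pbe Q.pbe fun l m => ?_
  have h1 : ‖((P.be l * Q.be m - P.be m * Q.be l : ℤ) : ℂ)‖ < 1 := by
    rw [SameMu_pl c]
    have a : ∀ i j, ‖(Matrix.vandermonde c.th)⁻¹ l i * (Matrix.vandermonde c.th)⁻¹ m j *
        c.pl P.be Q.be i j‖ ≤ C * C * (ε * (8 * C * C0 ^ (k + 1))) := fun i j => by
      rw [norm_mul, norm_mul]
      gcongr
      exacts [hW l i, hW m j, hpl i j]
    refine lt_of_le_of_lt (norm_sum_le_of_le _ fun i _ => norm_sum_le_of_le _ fun j _ => a i j) ?_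
    simp only [Finset.sum_const, Finset.card_univ, Fintype.card_fin, nsmul_eq_mul]
    rw [hK] at hε2
    nlinarith
  rw [Complex.norm_intCast] at h1
  have h2 : |P.be l * Q.be m - P.be m * Q.be l| < 1 := by exact_mod_cast h1
  exact sub_eq_zero.1 (Int.abs_lt_one_iff.1 h2)

/-- Points with the same `μ`. Fix `cc` (`≤ 2 C0 + 1` values) and cut `[X, 2X]` in `C'` equal pieces.
For two points of a piece put `q_ij = (β_i β'_j) / (β_j β'_i)`;
`q_ij^k = (n-θ_i)(n'-θ_j) / ((n-θ_j)(n'-θ_i)) = 1 + O(|n-n'| / X²)`, so `q_ij` is within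
`O(|n-n'|/X²)` of a `k`-th root of unity. Compare every point with a base point: `≤ k^(d²)`
classes; two points `β, β''` of one class have `|β_i β''_j - β_j β''_i| = O(B² |piece| / X²)`.
Since `μ ≠ 0`, `X / B^k ≥ 1/C0`, and `B ≥ 1/C0`, so `B² ≤ C X`; for `C'` large the rational
Plücker coordinates (`co_sg`) are integers `< 1`, so `β'' = ± β` (`prim_parallel`), and
`card_same_be` applies. Small `X`: `card_le_X`. -/
theorem card_same_mu (c : Ctx d) (k : ℕ) (hk : 2 ≤ k) (C0 : ℝ) (h0 : 1 ≤ C0) :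
    ∃ C : ℝ, ∀ X B : ℝ, 1 ≤ X → 0 < B → ∀ (v : Fin d → ℤ) (S : Finset (LPt c k)), InjN S →
      (∀ P ∈ S, Sz C0 X B P.toPt ∧ P.mu = v) → (S.card : ℝ) ≤ C := by
  classical
  obtain ⟨ε, X₀, hε, hpair⟩ := SameMu_pair c k hk C0 h0
  obtain ⟨C₁, hC₁⟩ := card_same_be c k (by omega) C0 h0
  obtain ⟨t, -, htf, hcov⟩ := finite_cover_balls_of_compact
    (isCompact_closedBall (0 : ℝ × (Fin d → Fin d → ℂ)) (2 * C0 ^ 2)) (half_pos hε)
  refine ⟨max (X₀ + 1) (htf.toFinset.card * (2 * C₁)), fun X B hX hB v S hS h => ?_⟩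
  rcases le_total X X₀ with hX0 | hX0
  · exact (card_le_X c k C0 X B hX S hS fun P hP => (h P hP).1).trans
      (le_trans (by linarith) (le_max_left _ _))
  refine le_trans ?_ (le_max_right _ _)
  have hsub : ∀ (w : Fin d → ℤ) (T : Finset (LPt c k)), T ⊆ S →
      ((T.filter fun P => P.be = w).card : ℝ) ≤ C₁ := fun w T hT =>
    hC₁ X B hX w _ (fun P hP Q hQ => hS P (hT (Finset.mem_filter.1 hP).1) Q
      (hT (Finset.mem_filter.1 hQ).1)) fun P hP =>
      ⟨(h P (hT (Finset.mem_filter.1 hP).1)).1, (Finset.mem_filter.1 hP).2⟩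
  have hC0 : 0 ≤ C₁ := le_trans (Nat.cast_nonneg _) (hsub 0 S le_rfl)
  set φ : LPt c k → ℝ × (Fin d → Fin d → ℂ) :=
    fun P => ((P.n : ℝ) / X, fun i j => c.sg i P.be / c.sg j P.be) with hφ
  have hXp : 0 < X := by linarith
  have hball : ∀ P ∈ S, φ P ∈ Metric.closedBall (0 : ℝ × (Fin d → Fin d → ℂ)) (2 * C0 ^ 2) := by
    intro P hP
    have hz := (h P hP).1
    have h1 : (1 : ℝ) ≤ C0 ^ 2 := one_le_pow₀ h0
    rw [mem_closedBall_zero_iff, Prod.norm_def]
    refine max_le ?_ ?_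
    · simp only [hφ, Real.norm_eq_abs]
      rw [abs_of_nonneg (div_nonneg (by linarith [hz.n1]) hXp.le), div_le_iff₀ hXp]
      nlinarith [hz.n2]
    · refine (pi_norm_le_iff_of_nonneg (by positivity)).2 fun i =>
        (pi_norm_le_iff_of_nonneg (by positivity)).2 fun j => ?_
      simp only [hφ, norm_div]
      calc ‖c.sg i P.be‖ / ‖c.sg j P.be‖ ≤ C0 * B / (B / C0) := by
            gcongr
            exacts [hz.be2 i, hz.be1 j]
        _ = C0 ^ 2 := by field_simp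
        _ ≤ 2 * C0 ^ 2 := by linarith
  have hcl : ∀ y ∈ htf.toFinset,
      ((S.filter fun P => φ P ∈ Metric.ball y (ε / 2)).card : ℝ) ≤ 2 * C₁ := by
    intro y _
    set T := S.filter fun P => φ P ∈ Metric.ball y (ε / 2) with hT
    have hTS : T ⊆ S := Finset.filter_subset _ _
    rcases T.eq_empty_or_nonempty with he | ⟨Q, hQ⟩
    · rw [he]; simp only [Finset.card_empty, Nat.cast_zero]; positivity
    have hs : T ⊆ (T.filter fun P => P.be = Q.be) ∪ T.filter fun P => P.be = -Q.be := by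
      intro P hP
      have hd : dist (φ P) (φ Q) ≤ ε := by
        have a := Metric.mem_ball.1 (Finset.mem_filter.1 hP).2
        have b := Metric.mem_ball.1 (Finset.mem_filter.1 hQ).2
        linarith [dist_triangle_right (φ P) (φ Q) y]
      rw [Prod.dist_eq, max_le_iff] at hd
      have := hpair X B hX0 hX hB P.toPt Q.toPt (h P (hTS hP)).1 (h Q (hTS hQ)).1
        ((h P (hTS hP)).2.trans (h Q (hTS hQ)).2.symm) hd.1 fun i j => by
          rw [← dist_eq_norm]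
          exact ((dist_le_pi_dist ((φ P).2 i) ((φ Q).2 i) j).trans
            (dist_le_pi_dist (φ P).2 (φ Q).2 i)).trans hd.2
      simpa only [Finset.mem_union, Finset.mem_filter, hP, true_and] using this
    have := (Finset.card_le_card hs).trans (Finset.card_union_le _ _)
    have h2 : (T.card : ℝ) ≤ ((T.filter fun P => P.be = Q.be).card : ℝ) +
        (T.filter fun P => P.be = -Q.be).card := by exact_mod_cast this
    linarith [hsub Q.be T hTS, hsub (-Q.be) T hTS]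
  have hs : S ⊆ htf.toFinset.biUnion fun y => S.filter fun P => φ P ∈ Metric.ball y (ε / 2) := by
    intro P hP
    obtain ⟨y, hy, hy'⟩ := Set.mem_iUnion₂.1 (hcov (hball P hP))
    exact Finset.mem_biUnion.2 ⟨y, htf.mem_toFinset.2 hy, Finset.mem_filter.2 ⟨hP, hy'⟩⟩
  have h1 : (S.card : ℝ) ≤ ∑ y ∈ htf.toFinset,
      ((S.filter fun P => φ P ∈ Metric.ball y (ε / 2)).card : ℝ) := by
    exact_mod_cast (Finset.card_le_card hs).trans Finset.card_biUnion_le
  refine h1.trans ((Finset.sum_le_card_nsmul _ _ _ hcl).trans ?_)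
  rw [nsmul_eq_mul]

end Crest.Agent.R22
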