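import Crest.Agent.R22.CurveC
import Crest.Agent.R22.Dich
import Crest.Agent.R22.RLC
import Crest.Agent.R22.SameMu
import Crest.Agent.R22.CurveCrat
import Crest.Agent.R22.CurveBlow
import Crest.Agent.R22.Comp
import Crest.Agent.R22.Ind
import Crest.Agent.R22.CFdeg

set_option autoImplicit false
open Polynomial IntermediateField

namespace Crest.Agent.R22

variable {d : ℕ}

theorem C2_two {c : Ctx d} {k : ℕ} (S : Finset (LPt c k)) (f : LPt c k → Fin d → ℤ) (v : Fin d → ℤ)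
    (M : ℝ) (h : ∀ P ∈ S, f P = v ∨ f P = -v)
    (hM : ∀ (w : Fin d → ℤ) (T : Finset (LPt c k)), T ⊆ S → (∀ P ∈ T, f P = w) → (T.card : ℝ) ≤ M) :
    (S.card : ℝ) ≤ 2 * M := by
  classical
  have hsub : S ⊆ S.filter (fun P => f P = v) ∪ S.filter (fun P => f P = -v) := by
    intro P hP
    rcases h P hP with e | e
    · exact Finset.mem_union_left _ (Finset.mem_filter.2 ⟨hP, e⟩)
    · exact Finset.mem_union_right _ (Finset.mem_filter.2 ⟨hP, e⟩)
  have h1 := hM v _ (Finset.filter_subset (fun P => f P = v) S) fun P hP => (Finset.mem_filter.1 hP).2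
  have h2 := hM (-v) _ (Finset.filter_subset (fun P => f P = -v) S)
    fun P hP => (Finset.mem_filter.1 hP).2
  have h3 : (S.card : ℝ) ≤ ((S.filter (fun P => f P = v)).card : ℝ) +
      (S.filter (fun P => f P = -v)).card := by
    exact_mod_cast (Finset.card_le_card hsub).trans (Finset.card_union_le _ _)
  linarith

theorem C2_mu_ne {c : Ctx d} {k : ℕ} (P : Pt c k) : P.mu ≠ 0 := fun h => by
  obtain ⟨i, hi⟩ := P.pmu 2 Nat.prime_two
  exact hi (by simp [h])

theorem C2_top {L : Type*} [Field L] [Algebra ℂ L] (t : L) (h : fdeg t = 1) :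
    IntermediateField.adjoin ℂ {t} = ⊤ := by
  unfold fdeg at h
  have := (IntermediateField.finrank_eq_one_iff_eq_top (K := ℂ⟮t⟯)).1 h
  exact this

theorem C2_hpt {c : Ctx d} {k : ℕ} (P : LPt c k) (i0 : Fin d) {L : Type} [Field L] [Algebra ℂ L]
    (t n : L) (ρ : Fin d → L) (h : P.CompatC i0 t n ρ) (G : MvPolynomial (Fin d) ℂ) (e : ℕ)
    (hG : G.IsHomogeneous e) (h0 : MvPolynomial.aeval (c.co ρ) G = 0) :
    MvPolynomial.eval (fun l => (P.be l : ℂ)) G = 0 := by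
  have key : ∀ (R : Type) [CommRing R] [Algebra ℂ R] (t n : R) (ρ : Fin d → R),
      evR t n ρ (MvPolynomial.aeval (CurveCrat_om c) G) = MvPolynomial.aeval (c.co ρ) G := by
    intro R _ _ t n ρ
    change CurveCrat_ev t n ρ _ = _
    rw [← AlgHom.comp_apply, MvPolynomial.comp_aeval]
    congr 2
    funext l
    exact CurveCrat_ev_om t n ρ c l
  have h1 := h _ ((key L t n ρ).trans h0)
  rw [key] at h1
  have hs : c.sg i0 P.be ≠ 0 := sg_ne_zero c i0 (CurveCrat_be_ne P.toPt)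
  have e1 : (c.co fun j => c.sg j P.be / c.sg i0 P.be) =
      fun l => (c.sg i0 P.be)⁻¹ * (P.be l : ℂ) := by
    funext l
    rw [CurveCrat_co_pt]
  rw [e1, IndAux.aeval_smul hG, mul_eq_zero, or_iff_right (pow_ne_zero _ (inv_ne_zero hs))] at h1
  rw [← MvPolynomial.coe_aeval_eq_eval]
  exact h1

theorem C2_const {c : Ctx d} {k : ℕ} (P Q : LPt c k) (i0 : Fin d) {L : Type} [Field L] [Algebra ℂ L]
    (t n : L) (ρ : Fin d → L) (hρ : ∀ j, ∃ a : ℂ, ρ j = algebraMap ℂ L a)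
    (hP : P.CompatC i0 t n ρ) (hQ : Q.CompatC i0 t n ρ) : P.be = Q.be ∨ P.be = -Q.be := by
  choose a ha using hρ
  have key : ∀ R : LPt c k, R.CompatC i0 t n ρ → ∀ l, (R.be l : ℂ) = c.sg i0 R.be * c.co a l := by
    intro R hR l
    have hs : c.sg i0 R.be ≠ 0 := sg_ne_zero c i0 (CurveCrat_be_ne R.toPt)
    have e : (fun j => c.sg j R.be / c.sg i0 R.be) = a := by
      funext j
      have := hR (MvPolynomial.X j - MvPolynomial.C (C (C (a j)))) (by
        simp [evR, ha j])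
      simpa [evR, sub_eq_zero] using this
    rw [← e, CurveCrat_co_pt]
    field_simp
  refine prim_parallel P.pbe Q.pbe fun l m => ?_
  have : ((P.be l * Q.be m : ℤ) : ℂ) = ((P.be m * Q.be l : ℤ) : ℂ) := by
    push_cast
    rw [key P hP l, key P hP m, key Q hQ l, key Q hQ m]
    ring
  exact_mod_cast this

theorem C2_rel {c : Ctx d} {k : ℕ} {b1 b2 : Fin d → ℤ} (P : LPt c k) (i0 : Fin d)
    (he : P.mu = P.x • b1 + P.y • b2) (hy : P.y ≠ 0) :
    c.RelC k b1 b2 i0 ((P.x : ℂ) / P.y) (P.n : ℂ) (fun j => c.sg j P.be / c.sg i0 P.be) ∧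
      ∀ j, (c.lin b1 b2 j).eval ((P.x : ℂ) / P.y) ≠ 0 := by
  have hy' : (P.y : ℂ) ≠ 0 := Int.cast_ne_zero.2 hy
  have hl : ∀ j, (c.lin b1 b2 j).eval ((P.x : ℂ) / P.y) = c.sg j P.mu / P.y := by
    intro j
    rw [he, sg_line c b1 b2 _ _ hy]
    field_simp
  have hs : c.sg i0 P.be ≠ 0 := sg_ne_zero c i0 (CurveCrat_be_ne P.toPt)
  refine ⟨fun j => ?_, fun j => ?_⟩
  · simp only [coe_aeval_eq_eval, Algebra.algebraMap_self, RingHom.id_apply, hl]
    have h1 := P.rel j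
    have h2 := P.rel i0
    rw [div_pow]
    field_simp
    have hc : (P.cc : ℂ) ≠ 0 := Int.cast_ne_zero.2 P.cc0
    linear_combination ((P.n : ℂ) - c.th i0) * h1 - ((P.n : ℂ) - c.th j) * h2
  · rw [hl]
    exact div_ne_zero (sg_ne_zero c j (C2_mu_ne P.toPt)) hy'

theorem curveC (c : Ctx d) (hd : 3 ≤ d) (k : ℕ) (hk : 2 ≤ k) (E : ℕ) (C0 C1 b lam η : ℝ)
    (h0 : 1 ≤ C0) (al io : ℕ) (hpos : 0 < 3 * al + (3 * k + 2) * io) (hb : 0 ≤ b) (hl : 0 ≤ lam)
    (h : etaC b lam 3 (3 * k + 2) al io < η) : ∃ C : ℝ,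
    ∀ (X B G1 G2 : ℝ) (b1 b2 : Fin d → ℤ) (g : ℤ[X][X]) (S : Finset (LPt c k)), 1 ≤ X →
      SizeC X B G1 b lam → LH b1 b2 G1 G2 → c.Nondeg b1 b2 → Curve g E ((2 * X) ^ C1) → InjN S →
      (∀ P ∈ S, OnC C0 X B G1 G2 b1 b2 P ∧ P.y ≠ 0 ∧ hev2 g E P.x P.y P.n = 0) →
      (S.card : ℝ) ≤ C * X ^ η := by
  classical
  have hη : 0 < η := lt_of_le_of_lt (by unfold etaC; positivity) h
  obtain ⟨Cch, hch⟩ := curveC_chain c (by omega) k (by omega) E C0 C1 b lam η h0 al io hpos hb hl h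
  obtain ⟨Crat, hrat⟩ := curveC_rat c k hk E C0 C0 η h0 hη
  obtain ⟨Cmu, hmu⟩ := card_same_mu c k hk C0 h0
  obtain ⟨Cbe, hbe⟩ := card_same_be c k (by omega) C0 h0
  set M : ℝ := |Cch| + |Crat| + 2 * |Cbe| with hM
  refine ⟨2 * |Cmu| + k ^ d * M, fun X B G1 G2 b1 b2 g S hX hs hL hnd hg hS hP => ?_⟩
  have hXη : 1 ≤ X ^ η := Real.one_le_rpow hX hη.le
  have hB := hs.b1
  have hM0 : 0 ≤ M := by positivity
  have hsub : ∀ T ⊆ S, InjN T := fun T hT P hP Q hQ e => hS P (hT hP) Q (hT hQ) e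
  have hev0 : ∀ P ∈ S, (toC2 g).evalEval ((P.x : ℂ) / P.y) (P.n : ℂ) = 0 := by
    intro P hPS
    obtain ⟨-, hy, he⟩ := hP P hPS
    have := hev2_cast g E hg.deg.2 P.x P.y P.n hy
    rwa [he, Int.cast_zero, eq_comm, mul_eq_zero,
      or_iff_right (pow_ne_zero _ (Int.cast_ne_zero.2 hy))] at this
  rcases S.eq_empty_or_nonempty with rfl | ⟨Q, hQ⟩
  · simp only [Finset.card_empty, Nat.cast_zero]
    positivity
  by_cases hd0 : g.natDegree = 0
  · have hC : toC2 g = C ((toC2 g).coeff 0) :=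
      eq_C_of_natDegree_eq_zero (by rwa [natDegree_toC2])
    have hirr := hg.irr
    rw [hC] at hirr hev0
    have h2 := C2_two S (fun P => P.mu) Q.mu |Cmu| (fun P hPS => by
      have e := CurveBlow_root hirr (by simpa [evalEval_C] using hev0 P hPS)
        (by simpa [evalEval_C] using hev0 Q hQ)
      rw [div_eq_div_iff (Int.cast_ne_zero.2 (hP P hPS).2.1) (Int.cast_ne_zero.2 (hP Q hQ).2.1)] at e
      have e' : P.x * Q.y = Q.x * P.y := by exact_mod_cast e
      refine prim_parallel P.pmu Q.pmu fun l m => ?_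
      rw [(hP P hPS).1.eq, (hP Q hQ).1.eq]
      simp only [Pi.add_apply, Pi.smul_apply, smul_eq_mul]
      linear_combination (b1 l * b2 m - b1 m * b2 l) * e')
      (fun w T hT hw => (hmu X B hX (by linarith) w T (hsub T hT)
        fun P hPT => ⟨(hP P (hT hPT)).1.sz, hw P hPT⟩).trans (le_abs_self _))
    have : (0 : ℝ) ≤ k ^ d * M := by positivity
    have := abs_nonneg Cmu
    nlinarith
  have hd1 : 1 ≤ g.natDegree := Nat.one_le_iff_ne_zero.2 hd0
  have hd1' : 1 ≤ (toC2 g).natDegree := by rwa [natDegree_toC2]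
  set i0 : Fin d := ⟨0, by omega⟩
  obtain ⟨L, _, _, t, n, R, hR, hCF, hcov⟩ := comp c k (by omega) b1 b2 hL.line.ne i0 (toC2 g)
    hg.irr hd1' (fun j hj => by
      obtain ⟨q, hq⟩ := hj
      have := congrArg (evalEval ((Q.x : ℂ) / Q.y) (Q.n : ℂ)) hq
      rw [evalEval_mul, hev0 Q hQ, zero_mul] at this
      exact th_ne_int c (by omega) j Q.n (by simpa [evalEval_sub, evalEval_C] using this))
  have hone : ∀ ρ ∈ R, ((S.filter fun P => P.CompatC i0 t n ρ).card : ℝ) ≤ M * X ^ η := by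
    intro ρ hρ
    set T := S.filter fun P => P.CompatC i0 t n ρ with hT
    have hTS : T ⊆ S := Finset.filter_subset _ _
    have hTc : ∀ P ∈ T, P.CompatC i0 t n ρ := fun P hPT => (Finset.mem_filter.1 hPT).2
    have hcf := hCF ρ hρ
    have a1 := abs_nonneg Cch
    have a2 := abs_nonneg Crat
    have a3 := abs_nonneg Cbe
    rcases T.eq_empty_or_nonempty with he | ⟨P0, hP0⟩
    · rw [he]
      simp only [Finset.card_empty, Nat.cast_zero]
      positivity
    have chain : GenBy0 (Submodule.span ℂ (Set.range ρ)) →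
        ((GoodRatio (Submodule.span ℂ (Set.range ρ)) 3 ∧ 2 ≤ fdeg t) ∨
          GoodRatio (Submodule.span ℂ (Set.range ρ)) 4) → (T.card : ℝ) ≤ M * X ^ η := by
      intro h1 h2
      refine (hch X B G1 G2 b1 b2 i0 g T hX hs hL hg hd1 L t n ρ hcf h1 h2 (hsub T hTS)
        fun P hPT => ⟨(hP P (hTS hPT)).1, (hP P (hTS hPT)).2.1, (hP P (hTS hPT)).2.2,
          hTc P hPT⟩).trans ?_
      have := le_abs_self Cch
      gcongr
      linarith
    have rat := fun h1 h2 => hrat X B G1 G2 b1 b2 i0 (toC2 g) T hX hB hs.bx hL hg.irr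
      (degLE_toC2 hg.deg) hd1' L t n ρ hcf h1 h2 (hsub T hTS)
      fun P hPT => ⟨(hP P (hTS hPT)).1, (hP P (hTS hPT)).2.1, hTc P hPT⟩
    have hrM : Crat * X ^ η ≤ M * X ^ η := by
      have := le_abs_self Crat
      gcongr
      linarith
    rcases hcf.gen_or_const hd (by omega) hnd with hc | hgen
    · have := C2_two T (fun P => P.be) P0.be |Cbe|
        (fun P hPT => C2_const P P0 i0 t n ρ hc (hTc P hPT) (hTc P0 hP0))
        (fun w T' hT' hw => (hbe X B hX w T' (hsub T' (hT'.trans hTS))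
          fun P hPT => ⟨(hP P (hTS (hT' hPT))).1.sz, hw P hPT⟩).trans (le_abs_self _))
      nlinarith
    by_cases h4 : GoodRatio (Submodule.span ℂ (Set.range ρ)) 4
    · exact chain hgen (Or.inr h4)
    obtain ⟨ht, hfin, -⟩ := hcf.degrees (by omega) hg.irr hd1' (degLE_toC2 hg.deg)
    by_cases h1 : fdeg t = 1
    · exact (rat h4 (Or.inl (C2_top t h1))).trans hrM
    have h2 : 2 ≤ fdeg t := by
      have : 0 < fdeg t := Module.finrank_pos
      omega
    rcases dich t ht (c.co ρ) (by rwa [span_co]) P0.be (CurveCrat_be_ne P0.toPt)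
      (C2_hpt P0 i0 t n ρ (hTc P0 hP0)) with h3 | ⟨a1, a2, ha, hne, htop⟩
    · rw [span_co] at h3
      exact chain hgen (Or.inl ⟨h3, h2⟩)
    · have hb' : ‖P0.be‖ ≤ C0 * X := (hP P0 (hTS hP0)).1.sz.be3.trans (by have := hs.bx; gcongr)
      exact (rat h4 (Or.inr ⟨a1, a2, fun l => ⟨(ha l).1.trans hb', (ha l).2.trans hb'⟩, hne,
        htop⟩)).trans hrM
  have hcover : S ⊆ R.biUnion fun ρ => S.filter fun P => P.CompatC i0 t n ρ := by
    intro P hPS
    obtain ⟨r1, r2⟩ := C2_rel (b1 := b1) (b2 := b2) P i0 (hP P hPS).1.eq (hP P hPS).2.1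
    obtain ⟨ρ, hρ, hc⟩ := hcov _ _ _ (hev0 P hPS) r1
      (sub_ne_zero.1 (th_ne_int c (by omega) i0 P.n)) r2
    exact Finset.mem_biUnion.2 ⟨ρ, hρ, Finset.mem_filter.2 ⟨hPS, hc⟩⟩
  have h1 : (S.card : ℝ) ≤ ∑ ρ ∈ R, ((S.filter fun P => P.CompatC i0 t n ρ).card : ℝ) := by
    exact_mod_cast (Finset.card_le_card hcover).trans Finset.card_biUnion_le
  have h2 := Finset.sum_le_sum hone
  rw [Finset.sum_const, nsmul_eq_mul] at h2
  have h3 : (R.card : ℝ) ≤ k ^ d := by exact_mod_cast hR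
  have h4 : (R.card : ℝ) * (M * X ^ η) ≤ k ^ d * (M * X ^ η) := by gcongr
  have := abs_nonneg Cmu
  nlinarith

end Crest.Agent.R22
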