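import Mathlib

/-! Row 22 (power-free values, `k = d - 2`): definitions. See `README` docstring in `Main.lean`. -/

set_option autoImplicit false
open Polynomial IntermediateField

namespace Crest.Agent.R22
noncomputable section

/-- A monic irreducible integer polynomial of degree `d` with its complex roots. -/
structure Ctx (d : ℕ) where
  F : ℤ[X]
  monic : F.Monic
  deg : F.natDegree = d
  irr : Irreducible (F.map (Int.castRingHom ℚ))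
  th : Fin d → ℂ
  inj : Function.Injective th
  root : ∀ j, aeval (th j) F = 0

variable {d : ℕ}

/-- The same context with permuted roots. -/
def Ctx.perm (c : Ctx d) (π : Equiv.Perm (Fin d)) : Ctx d :=
  { c with th := c.th ∘ π, inj := c.inj.comp π.injective, root := fun j => c.root (π j) }

/-- `j`-th conjugate of the element of `ℤ[θ]` with coordinates `v`. -/
def Ctx.sg (c : Ctx d) (j : Fin d) (v : Fin d → ℤ) : ℂ := ∑ i, (v i : ℂ) * c.th j ^ (i : ℕ)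

/-- Inverse Vandermonde: coordinates (basis `1, θ, …`) of the vector with conjugates `z`. -/
def Ctx.co (c : Ctx d) {R : Type*} [CommRing R] [Algebra ℂ R] (z : Fin d → R) (l : Fin d) : R :=
  ∑ j, ((Matrix.vandermonde c.th)⁻¹ l j) • z j

/-- The ring `ℤ[θ_1, …, θ_d] ⊆ ℂ`. -/
def Ctx.AA (c : Ctx d) : Subalgebra ℤ ℂ := Algebra.adjoin ℤ (Set.range c.th)

/-- Plücker coordinate in conjugate coordinates. -/
def Ctx.pl (c : Ctx d) (b1 b2 : Fin d → ℤ) (i j : Fin d) : ℂ :=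
  c.sg i b1 * c.sg j b2 - c.sg j b1 * c.sg i b2

def Ctx.Nondeg (c : Ctx d) (b1 b2 : Fin d → ℤ) : Prop := ∀ i j, i ≠ j → c.pl b1 b2 i j ≠ 0

/-- `σ_j(b1) t + σ_j(b2)`. -/
def Ctx.lin (c : Ctx d) (b1 b2 : Fin d → ℤ) (j : Fin d) : ℂ[X] :=
  C (c.sg j b1) * X + C (c.sg j b2)

/-- Primitive integer vector. -/
def Prim (v : Fin d → ℤ) : Prop := ∀ l : ℕ, l.Prime → ∃ i, ¬ (l : ℤ) ∣ v i

/-- A solution of `μ β^k = cc (n - θ)`, `N β = ka p`. -/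
structure Pt (c : Ctx d) (k : ℕ) where
  n : ℤ
  p : ℕ
  cc : ℤ
  ka : ℤ
  be : Fin d → ℤ
  mu : Fin d → ℤ
  pp : p.Prime
  pk : (p : ℤ) ^ k ∣ c.F.eval n
  rel : ∀ j, c.sg j mu * c.sg j be ^ k = (cc : ℂ) * ((n : ℂ) - c.th j)
  nrm : ∏ j, c.sg j be = ((ka * p : ℤ) : ℂ)
  cc0 : cc ≠ 0
  ka0 : ka ≠ 0
  pbe : Prim be
  pmu : Prim mu

/-- Size conditions: `n ≍ X`, `p ≫ X`, all conjugates of `β` are `≍ B`, of `μ` are `≍ X / B^k`. -/
structure Sz {c : Ctx d} {k : ℕ} (C0 X B : ℝ) (P : Pt c k) : Prop where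
  n1 : X ≤ P.n
  n2 : (P.n : ℝ) ≤ 2 * X
  cc : |(P.cc : ℝ)| ≤ C0
  ka : |(P.ka : ℝ)| ≤ C0
  p1 : X / C0 ≤ P.p
  be1 : ∀ j, B / C0 ≤ ‖c.sg j P.be‖
  be2 : ∀ j, ‖c.sg j P.be‖ ≤ C0 * B
  mu1 : ∀ j, X / B ^ k / C0 ≤ ‖c.sg j P.mu‖
  mu2 : ∀ j, ‖c.sg j P.mu‖ ≤ C0 * (X / B ^ k)
  be3 : ‖P.be‖ ≤ C0 * B
  mu3 : ‖P.mu‖ ≤ C0 * (X / B ^ k)

/-- A point with coordinates on a line. -/
structure LPt (c : Ctx d) (k : ℕ) extends Pt c k where
  x : ℤ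
  y : ℤ

/-- Reduced basis (sup norm) of a primitive rank two lattice. -/
structure IsLine (b1 b2 : Fin d → ℤ) : Prop where
  ne : b1 ≠ 0
  le : ‖b1‖ ≤ ‖b2‖
  red : ∃ a, |(b1 a : ℝ)| = ‖b1‖ ∧ 2 * |(b2 a : ℝ)| ≤ ‖b1‖
  prim : ∀ l : ℕ, l.Prime → ∃ a b, ¬ (l : ℤ) ∣ b1 a * b2 b - b1 b * b2 a

/-- A line of dyadic size `(G1, G2)`. -/
structure LH (b1 b2 : Fin d → ℤ) (G1 G2 : ℝ) : Prop where
  line : IsLine b1 b2
  g1 : 1 ≤ G1
  g2 : 1 ≤ G2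
  l1 : G1 ≤ ‖b1‖
  u1 : ‖b1‖ ≤ 2 * G1
  l2 : G2 ≤ ‖b2‖
  u2 : ‖b2‖ ≤ 2 * G2

/-- `β = x b1 + y b2` (scheme B). -/
structure OnB {c : Ctx d} {k : ℕ} (C0 X B G1 G2 : ℝ) (b1 b2 : Fin d → ℤ) (P : LPt c k) : Prop where
  sz : Sz C0 X B P.toPt
  eq : P.be = P.x • b1 + P.y • b2
  hx : |(P.x : ℝ)| ≤ C0 * B / G1
  hy : |(P.y : ℝ)| ≤ C0 * B / G2

/-- `μ = x b1 + y b2` (scheme C). -/
structure OnC {c : Ctx d} {k : ℕ} (C0 X B G1 G2 : ℝ) (b1 b2 : Fin d → ℤ) (P : LPt c k) : Prop where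
  sz : Sz C0 X B P.toPt
  eq : P.mu = P.x • b1 + P.y • b2
  hx : |(P.x : ℝ)| ≤ C0 * (X / B ^ k) / G1
  hy : |(P.y : ℝ)| ≤ C0 * (X / B ^ k) / G2

/-- The `n`-coordinates of the members of `S` are distinct. -/
def InjN {c : Ctx d} {k : ℕ} (S : Finset (LPt c k)) : Prop :=
  ∀ P ∈ S, ∀ Q ∈ S, P.n = Q.n → P = Q

/-- Value of the binary form of degree `N` attached to `A` (`deg A ≤ N`). -/
def hev {R S : Type*} [CommRing R] [CommRing S] [Algebra R S] (A : R[X]) (N : ℕ) (x y : S) : S :=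
  ∑ i ∈ Finset.range (N + 1), algebraMap R S (A.coeff i) * x ^ i * y ^ (N - i)

/-- `g(x/y, n) y^N`: homogeneous in the inner variable, ordinary in the outer variable. -/
def hev2 {R S : Type*} [CommRing R] [CommRing S] [Algebra R S] (g : R[X][X]) (N : ℕ)
    (x y n : S) : S :=
  ∑ i ∈ g.support, hev (g.coeff i) N x y * n ^ i

/-- The forms of degree `N` attached to `p i` have no common zero in `ℙ¹(ℂ)`. -/
def NoCZ {ι R : Type*} [CommRing R] [Algebra R ℂ] (p : ι → R[X]) (N : ℕ) : Prop :=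
  (∀ i, (p i).natDegree ≤ N) ∧ ∀ a b : ℂ, (a ≠ 0 ∨ b ≠ 0) → ∃ i, hev (p i) N a b ≠ 0

def DegLE {R : Type*} [CommRing R] (g : R[X][X]) (E : ℕ) : Prop :=
  g.natDegree ≤ E ∧ ∀ i, (g.coeff i).natDegree ≤ E

/-- Degree in the inner variable. -/
def degT {R : Type*} [CommRing R] (g : R[X][X]) : ℕ := g.support.sup fun i => (g.coeff i).natDegree

def HtLE (A : ℤ[X]) (H : ℝ) : Prop := ∀ i, |(A.coeff i : ℝ)| ≤ H

def HtLE2 (g : ℤ[X][X]) (H : ℝ) : Prop := ∀ i, HtLE (g.coeff i) H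

def CoLE (g : ℂ[X][X]) (K : ℝ) : Prop := ∀ i j, ‖(g.coeff i).coeff j‖ ≤ K

def toC2 (g : ℤ[X][X]) : ℂ[X][X] := g.map (mapRingHom (Int.castRingHom ℂ))

/-- An integer plane curve, irreducible over `ℂ`, of bounded degree and height. -/
structure Curve (g : ℤ[X][X]) (E : ℕ) (H : ℝ) : Prop where
  irr : Irreducible (toC2 g)
  deg : DegLE g E
  ht : HtLE2 g H

/-- The nonzero polynomials of `G` (degree `≤ E`) cover the points `(x/y, n)`, `y ≠ 0`, of `S`. -/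
def Covers {c : Ctx d} {k : ℕ} (G : Finset ℂ[X][X]) (E : ℕ) (S : Finset (LPt c k)) : Prop :=
  (∀ g ∈ G, g ≠ 0 ∧ DegLE g E) ∧
    ∀ P ∈ S, P.y ≠ 0 → ∃ g ∈ G, g.evalEval ((P.x : ℂ) / P.y) (P.n : ℂ) = 0

/-- `(n - θ_j) ∏_{l ≠ j} L_l(t)^k` (outer variable `n`). -/
def Urow {m : ℕ} (th : Fin m → ℂ) (L : Fin m → ℂ[X]) (k : ℕ) (j : Fin m) : ℂ[X][X] :=
  (X - C (C (th j))) * C (∏ l ∈ Finset.univ.erase j, L l ^ k)

/-- `(1 - θ_j s) ∏_{l ≠ j} L_l(τ)^k` (outer variable `s = 1/n`). -/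
def Nrow {m : ℕ} (th : Fin m → ℂ) (L : Fin m → ℂ[X]) (k : ℕ) (j : Fin m) : ℂ[X][X] :=
  (1 - C (C (th j)) * X) * C (∏ l ∈ Finset.univ.erase j, L l ^ k)

/-- The triple `z_0, z_1, z_2 + … + z_{m-1}`. -/
def tri {m : ℕ} {R : Type*} [AddCommMonoid R] (z : Fin m → R) : Fin 3 → R :=
  ![∑ j with j.val = 0, z j, ∑ j with j.val = 1, z j, ∑ j with 2 ≤ j.val, z j]

/-- Pairwise non-proportional linear polynomials of exact degree one. -/
def Lins {m : ℕ} (L : Fin m → ℂ[X]) : Prop :=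
  (∀ j, (L j).natDegree = 1) ∧ ∀ i j, i ≠ j → IsCoprime (L i) (L j)

/-- Space of the rows of the real determinants of scheme B. -/
def Vsp {m : ℕ} (th : Fin m → ℂ) (L : Fin m → ℂ[X]) (k D c0 : ℕ) (l1 l2 : ℂ[X]) :
    Submodule ℂ ℂ[X][X] :=
  Submodule.span ℂ (Set.range (Nrow th L k)) ^ D * Submodule.span ℂ {C l1, C l2} ^ c0

/-- Rank of the family `F` truncated at outer degree `≤ J`. -/
def trRank {ι : Type*} (F : ι → ℂ[X][X]) (J : ℕ) : ℕ :=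
  Module.finrank ℂ (Submodule.span ℂ (Set.range fun a => fun j : Fin (J + 1) => (F a).coeff j))

/-- Gain exponent of the real determinant (coefficient of `D^3`). -/
def Theta (Mk A Bc r rho k0 : ℝ) : ℝ :=
  Mk * rho - rho ^ 3 / (6 * r) + (Mk * k0 - A * k0 ^ 2 / 2 + Bc * k0 ^ 3 / 6) -
    k0 * rho ^ 2 / (2 * r)

/-- Exponent of the `p`-adic determinant method on a curve. -/
def etaC (σ lam : ℝ) (e0 N0 al io : ℕ) : ℝ :=
  2 * σ * al / (e0 * al + N0 * io) + lam * N0 * io ^ 2 / (e0 * al + N0 * io) ^ 2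

/-- Normalised coordinates of the points of a box on a line; `v P = x b1 + y b2` has size `Z`. -/
structure BoxData (c : Ctx d) (b1 b2 : Fin d → ℤ) (G1 G2 Z w C : ℝ) {ι : Type*} (T : Finset ι)
    (x y : ι → ℤ) (L : Fin d → ℂ[X]) (l1 l2 : ℂ[X]) (τ ρ : ι → ℝ) : Prop where
  lins : Lins L
  co : ∀ j i, ‖(L j).coeff i‖ ≤ C
  co0 : ∀ j, 1 / C ≤ ‖(L j).coeff 0‖
  d1 : l1.natDegree ≤ 1
  d2 : l2.natDegree ≤ 1
  c1 : ∀ i, ‖l1.coeff i‖ ≤ C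
  c2 : ∀ i, ‖l2.coeff i‖ ≤ C
  tau : ∀ P ∈ T, |τ P| ≤ w
  rho1 : ∀ P ∈ T, 1 / C ≤ |ρ P|
  rho2 : ∀ P ∈ T, |ρ P| ≤ C
  lo : ∀ P ∈ T, ∀ j, 1 / C ≤ ‖(L j).eval (τ P : ℂ)‖
  ev : ∀ P ∈ T, ∀ j, c.sg j (x P • b1 + y P • b2) = (Z : ℂ) * ρ P * (L j).eval (τ P : ℂ)
  ex : ∀ P ∈ T, (x P : ℂ) = ((Z / G1 : ℝ) : ℂ) * ρ P * l1.eval (τ P : ℂ)
  ey : ∀ P ∈ T, (y P : ℂ) = ((Z / G2 : ℝ) : ℂ) * ρ P * l2.eval (τ P : ℂ)

/-- Exponent vectors of degree `D` in four variables, of degree `≤ 3` in the variable `0`. -/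
def stdB (D : ℕ) : Finset (Fin 4 → ℕ) :=
  (Finset.piAntidiag Finset.univ D).filter fun m => m 0 ≤ 3

/-- Exponent vectors of degree `D` not divisible by `Y_2^k Y_3^k`. -/
def stdC (k D : ℕ) : Finset (Fin 4 → ℕ) :=
  (Finset.piAntidiag Finset.univ D).filter fun m => ¬ (k ≤ m 2 ∧ k ≤ m 3)

/-- Shear `μ_i - v_i μ_0` (with `v 0 = 0`). -/
def shr {R : Type*} [CommRing R] (v : Fin 4 → ℤ) (m : Fin 4 → R) (i : Fin 4) : R :=
  m i - (v i : R) * m 0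

/-- Resultant of two binary quadratic forms `a0 x² + a1 x y + a2 y²`, `b0 x² + …`. -/
def res2 {R : Type*} [CommRing R] (a0 a1 a2 b0 b1 b2 : R) : R :=
  (a0 * b2 - a2 * b0) ^ 2 - (a0 * b1 - a1 * b0) * (a1 * b2 - a2 * b1)

/-- Resultant in `(x, y)` of `∑ ν_j (a_j x + b_j y)²` and `∑ θ_j ν_j (a_j x + b_j y)²`. -/
def QN {R : Type*} [CommRing R] [Algebra ℂ R] (th a b : Fin 4 → ℂ) (ν : Fin 4 → R) : R :=
  res2 (∑ j, (a j ^ 2) • ν j) (∑ j, (2 * a j * b j) • ν j) (∑ j, (b j ^ 2) • ν j)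
    (∑ j, (th j * a j ^ 2) • ν j) (∑ j, (th j * (2 * a j * b j)) • ν j)
    (∑ j, (th j * b j ^ 2) • ν j)

/-- `1 / ∏_{l ≠ j} (θ_j - θ_l)`. -/
def om {m : ℕ} (th : Fin m → ℂ) (j : Fin m) : ℂ := (∏ l ∈ Finset.univ.erase j, (th j - th l))⁻¹

/-- Weighted order `≥ cj` (weights `1, k`) of `g(t, n)` at the point `L(t) = 0`, `n = a`. -/
def WOrd (g : ℂ[X][X]) (L : ℂ[X]) (a : ℂ) (k cj : ℕ) : Prop :=
  ∀ i, L ^ (cj - k * i) ∣ (taylor (C a) g).coeff i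

section Fields
variable {L : Type*} [Field L] [Algebra ℂ L]

/-- `(t, n)` is a generic point of the curve `g = 0`. -/
def IsFF (g : ℂ[X][X]) (t n : L) : Prop := ∀ h : ℂ[X][X], aevalAeval t n h = 0 ↔ g ∣ h

/-- Degree of a function. -/
def fdeg (x : L) : ℕ := Module.finrank ℂ⟮x⟯ L

/-- Some ratio of elements of `W` is a nonconstant function of degree `≥ e`. -/
def GoodRatio (W : Submodule ℂ L) (e : ℕ) : Prop :=
  ∃ u ∈ W, ∃ v ∈ W, v ≠ 0 ∧ Transcendental ℂ (u / v) ∧ e ≤ fdeg (u / v)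

/-- `L` is generated by `t` and the ratios of elements of `W`. -/
def GenBy (W : Submodule ℂ L) (t : L) : Prop :=
  ∀ K : IntermediateField ℂ L, t ∈ K → (∀ w ∈ W, ∀ w' ∈ W, w / w' ∈ K) → K = ⊤

/-- `L` is generated by the ratios of elements of `W`. -/
def GenBy0 (W : Submodule ℂ L) : Prop :=
  ∀ K : IntermediateField ℂ L, (∀ w ∈ W, ∀ w' ∈ W, w / w' ∈ K) → K = ⊤

/-- Scheme B: conjugate coordinates of `μ` on the curve. -/
def Ctx.NB (c : Ctx d) (k : ℕ) (b1 b2 : Fin d → ℤ) (t n : L) (j : Fin d) : L :=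
  (n - algebraMap ℂ L (c.th j)) / aeval t (c.lin b1 b2 j) ^ k

end Fields

/-- Scheme C: `ρ_j = β_j / β_{i0}` satisfies these equations. -/
def Ctx.RelC (c : Ctx d) (k : ℕ) (b1 b2 : Fin d → ℤ) (i0 : Fin d) {R : Type*} [CommRing R]
    [Algebra ℂ R] (t n : R) (ρ : Fin d → R) : Prop :=
  ∀ j, ρ j ^ k * (n - algebraMap ℂ R (c.th i0)) * aeval t (c.lin b1 b2 j) =
    (n - algebraMap ℂ R (c.th j)) * aeval t (c.lin b1 b2 i0)

/-- Evaluation of a polynomial in `(t, n, ρ_1, …, ρ_d)`. -/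
def evR {R : Type*} [CommRing R] [Algebra ℂ R] (t n : R) (ρ : Fin d → R) :
    MvPolynomial (Fin d) ℂ[X][X] →+* R :=
  MvPolynomial.eval₂Hom (aevalAeval t n : ℂ[X][X] →ₐ[ℂ] R).toRingHom ρ

/-- Generic point of a component of the Kummer cover of the curve `g = 0`. -/
structure CF (c : Ctx d) (k : ℕ) (b1 b2 : Fin d → ℤ) (i0 : Fin d) (g : ℂ[X][X]) {L : Type*}
    [Field L] [Algebra ℂ L] (t n : L) (ρ : Fin d → L) : Prop where
  ff : IsFF g t n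
  rel : c.RelC k b1 b2 i0 t n ρ
  gen : IntermediateField.adjoin ℂ ({t, n} ∪ Set.range ρ) = ⊤
  hn : ∀ j, n - algebraMap ℂ L (c.th j) ≠ 0
  hl : ∀ j, aeval t (c.lin b1 b2 j) ≠ 0

/-- The complex point `(t', n', ρ')` is a specialisation of `(t, n, ρ)`. -/
def Compat {L : Type*} [Field L] [Algebra ℂ L] (t n : L) (ρ : Fin d → L) (t' n' : ℂ)
    (ρ' : Fin d → ℂ) : Prop :=
  ∀ Φ : MvPolynomial (Fin d) ℂ[X][X], evR t n ρ Φ = 0 → evR t' n' ρ' Φ = 0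

/-- The point of scheme C is a specialisation of `(t, n, ρ)`. -/
def LPt.CompatC {c : Ctx d} {k : ℕ} (P : LPt c k) (i0 : Fin d) {L : Type*} [Field L] [Algebra ℂ L]
    (t n : L) (ρ : Fin d → L) : Prop :=
  Compat t n ρ ((P.x : ℂ) / P.y) (P.n : ℂ) fun j => c.sg j P.be / c.sg i0 P.be

/-- A row of the `p`-adic determinants: level, exponent of the vector, exponent of `x`. -/
structure Row (d : ℕ) where
  lv : ℕ
  al : Fin d → ℕ
  j : ℕ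

def Row.Ok (r : Row d) (a s1 c0 s2 I : ℕ) : Prop :=
  ∑ l, r.al l = a + s1 * r.lv ∧ r.j ≤ c0 + s2 * r.lv ∧ r.lv ≤ I

def Row.ev (r : Row d) (c0 s2 : ℕ) {R : Type*} [CommRing R] (w : Fin d → R) (x y : R) : R :=
  (∏ l, w l ^ r.al l) * x ^ r.j * y ^ (c0 + s2 * r.lv - r.j)

/-- Integer that must be prime to the auxiliary prime, scheme B. -/
def badB {c : Ctx d} {k : ℕ} (DF : ℤ) (g : ℤ[X][X]) (E : ℕ) (P : LPt c k) : ℤ :=
  P.y * DF * (P.ka * P.p) * hev2 (derivative g) E P.x P.y P.n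

/-- Integer that must be prime to the auxiliary prime, scheme C. -/
def badC {c : Ctx d} {k : ℕ} (DF : ℤ) (g : ℤ[X][X]) (E : ℕ) (P : LPt c k) : ℤ :=
  badB DF g E P * (k * P.cc * c.F.eval P.n)

/-- Same residue class of `(t, n)` modulo `q`. -/
def SameTN {c : Ctx d} {k : ℕ} (q : ℕ) (P Q : LPt c k) : Prop :=
  (q : ℤ) ∣ P.x * Q.y - Q.x * P.y ∧ (q : ℤ) ∣ P.n - Q.n

/-- Lower bound for the degree in `μ`-space of the curves with `deg_n ≥ 2` (scheme B). -/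
def eMin (d : ℕ) : ℕ := if d = 4 then 5 else if d = 5 then 10 else if d = 6 then 16 else
  if d = 7 then 26 else 36

/-- Height gain exponent in the surface step of scheme B. -/
def hg (d : ℕ) : ℝ := if d = 4 then 2 / 3 else 0

/-- Crossing point between the two schemes. -/
def uStar (d : ℕ) : ℝ := if d = 4 then 305 / 1000 else if d = 5 then 235 / 1000 else
  if d = 6 then 19 / 100 else if d = 7 then 16 / 100 else 137 / 1000

/-- Real parameters of the surface step of scheme B. -/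
structure SurfPar (d k : ℕ) (r rho k0 α : ℝ) : Prop where
  r0 : 0 < r
  rho0 : 0 ≤ rho
  k00 : 0 ≤ k0
  k01 : (d : ℝ) * k * k0 ≤ (d - 1 : ℝ) * k
  a0 : 0 ≤ α
  lt : α < Theta ((d - 2 : ℝ) * k / 2) ((d - 1 : ℝ) * k) ((d : ℝ) * k) r rho k0

/-- Size hypotheses of scheme B (`U = X / B^k`). -/
structure SizeB (d k : ℕ) (X B G1 G2 u lam α : ℝ) : Prop where
  b1 : 1 ≤ B
  bk : B ^ k ≤ X
  g1 : G1 ≤ X
  g2 : G2 ≤ X
  hu : X / B ^ k ≤ X ^ u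
  hl : X / G1 ^ k ≤ X ^ lam
  ha : (X / B ^ k) ^ ((d - 2 : ℝ) * k / 2) ≤ X ^ α * (G1 * G2) ^ hg d

/-- Size hypotheses of scheme C. -/
structure SizeC (X B G1 b lam : ℝ) : Prop where
  b1 : 1 ≤ B
  bx : B ≤ X
  hb : B ≤ X ^ b
  hl : X / G1 ≤ X ^ lam

/-- Exponent of `G2` in the number of degenerate lines. -/
def degExp (d : ℕ) : ℕ := if d = 4 then 0 else d / 2

/-- Exponent of the number of lines in a cell. -/
def mainE (d : ℕ) (ε g1 g2 : ℝ) : ℝ := (d + 1 : ℝ) * (g1 + ε) + (d - 1 : ℝ) * (g2 + ε)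

/-- Constraints on the exponents of `B, G1, G2` in scheme B. -/
structure CellB (d k : ℕ) (ε b g1 g2 : ℝ) : Prop where
  hg1 : 0 ≤ g1
  hg2 : 0 ≤ g2
  b1 : 1 / (d : ℝ) - 2 * ε ≤ b
  b2 : k * b ≤ 1 - uStar d
  g12 : g1 ≤ g2 + 2 * ε
  s : g1 + g2 ≤ (d - 2 : ℝ) / (d - 1) * (b + ε) + ε

/-- Constraints on the exponents of `B, G1, G2` in scheme C. -/
structure CellC (d k : ℕ) (ε b g1 g2 : ℝ) : Prop where
  hg1 : 0 ≤ g1
  hg2 : 0 ≤ g2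
  b1 : 1 - uStar d ≤ k * (b + ε)
  b2 : k * b ≤ 1 + ε
  g12 : g1 ≤ g2 + 2 * ε
  s : g1 + g2 ≤ (d - 2 : ℝ) / (d - 1) * max (1 - k * b) 0 + ε

end
end Crest.Agent.R22
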