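import Crest.Agent.R22.Defs
import Crest.Agent.R22.BasicH

set_option autoImplicit false
open Polynomial IntermediateField

namespace Crest.Agent.R22

variable {d : ℕ}

/-- Polynomials of bidegree at most `(D, E)`. -/
def Rank_Deg (D E : ℕ) : Submodule ℂ ℂ[X][X] where
  carrier := {f | f.natDegree ≤ D ∧ ∀ i, (f.coeff i).natDegree ≤ E}
  add_mem' := fun {a b} ha hb => ⟨(natDegree_add_le _ _).trans (max_le ha.1 hb.1), fun i => by
    rw [coeff_add]; exact (natDegree_add_le _ _).trans (max_le (ha.2 i) (hb.2 i))⟩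
  zero_mem' := ⟨by simp, by simp⟩
  smul_mem' := fun c a ha => ⟨(natDegree_smul_le _ _).trans ha.1, fun i => by
    rw [coeff_smul]; exact (natDegree_smul_le _ _).trans (ha.2 i)⟩

theorem Rank_Deg_mul {D E D' E' : ℕ} : Rank_Deg D E * Rank_Deg D' E' ≤ Rank_Deg (D + D') (E + E') := by
  rw [Submodule.mul_le]
  intro a ha b hb
  refine ⟨natDegree_mul_le.trans (add_le_add ha.1 hb.1), fun i => ?_⟩
  rw [coeff_mul]
  exact natDegree_sum_le_of_forall_le _ _ fun p _ =>
    natDegree_mul_le.trans (add_le_add (ha.2 _) (hb.2 _))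

theorem Rank_pow_le (W : ℕ → Submodule ℂ ℂ[X][X]) (h0 : (1 : ℂ[X][X]) ∈ W 0)
    (hW : ∀ n, W n * W 1 ≤ W (n + 1)) (M : Submodule ℂ ℂ[X][X]) (hM : M ≤ W 1) (n : ℕ) :
    M ^ n ≤ W n := by
  induction n with
  | zero => rw [pow_zero, Submodule.one_le]; exact h0
  | succ n ih => rw [pow_succ]; exact (mul_le_mul' ih hM).trans (hW n)

/-- Elements of `Vsp` have degree `≤ D` in `s` and `≤ (m-1) k D + c0` in `τ`. -/
theorem Vsp_deg {m : ℕ} (th : Fin m → ℂ) (L : Fin m → ℂ[X]) (hL : Lins L) (k D c0 : ℕ)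
    (l1 l2 : ℂ[X]) (h1 : l1.natDegree ≤ 1) (h2 : l2.natDegree ≤ 1) (f : ℂ[X][X])
    (hf : f ∈ Vsp th L k D c0 l1 l2) :
    f.natDegree ≤ D ∧ ∀ i, (f.coeff i).natDegree ≤ (m - 1) * k * D + c0 := by
  have hC : ∀ (p : ℂ[X]) (E : ℕ), p.natDegree ≤ E → C p ∈ Rank_Deg 0 E := by
    intro p E hp
    refine ⟨by simp, fun i => ?_⟩
    rw [coeff_C]; split_ifs
    · exact hp
    · simp
  have hA : Submodule.span ℂ (Set.range (Nrow th L k)) ^ D ≤ Rank_Deg D ((m - 1) * k * D) := by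
    refine Rank_pow_le (fun n => Rank_Deg n ((m - 1) * k * n)) (by simpa using hC 1 0 (by simp))
      (fun n => by rw [mul_add]; exact Rank_Deg_mul) _ ?_ D
    rw [Submodule.span_le]
    rintro _ ⟨j, rfl⟩
    have h3 : (1 - C (C (th j)) * X : ℂ[X][X]) ∈ Rank_Deg 1 0 := by
      refine ⟨(natDegree_sub_le _ _).trans (max_le (by simp)
        ((natDegree_C_mul_le _ _).trans natDegree_X_le)), fun i => ?_⟩
      rw [coeff_sub, coeff_C_mul, coeff_one, coeff_X]
      refine (natDegree_sub_le _ _).trans (max_le ?_ ?_) <;> split_ifs <;> simp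
    have h4 : C (∏ l ∈ Finset.univ.erase j, L l ^ k) ∈ Rank_Deg 0 ((m - 1) * k * 1) := by
      refine hC _ _ ((natDegree_prod_le _ _).trans (le_of_eq ?_))
      simp [natDegree_pow, hL.1, Finset.card_erase_of_mem]
    have := Rank_Deg_mul (Submodule.mul_mem_mul h3 h4)
    rw [zero_add] at this
    exact this
  have hB : Submodule.span ℂ {C l1, C l2} ^ c0 ≤ Rank_Deg 0 c0 := by
    refine Rank_pow_le (fun n => Rank_Deg 0 n) (by simpa using hC 1 0 (by simp))
      (fun n => Rank_Deg_mul (D := 0) (D' := 0)) _ ?_ c0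
    rw [Submodule.span_le]
    rintro _ (rfl | rfl)
    · exact hC _ _ h1
    · exact hC _ _ h2
  exact Rank_Deg_mul (mul_le_mul' hA hB hf)

/-- The shape `∑ h_i s^i u^(D-i)` with `p^i ∣ h_i`. -/
def Rank_Sh (p : ℂ[X]) (u : ℂ[X][X]) (D : ℕ) : Submodule ℂ ℂ[X][X] where
  carrier := {f | ∃ q : ℂ[X][X], q.natDegree ≤ D ∧ (∀ i, p ^ i ∣ q.coeff i) ∧ f = hev q D X u}
  add_mem' := by
    rintro _ _ ⟨a, ha, ha', rfl⟩ ⟨b, hb, hb', rfl⟩
    refine ⟨a + b, (natDegree_add_le _ _).trans (max_le ha hb), fun i => ?_, ?_⟩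
    · rw [coeff_add]; exact dvd_add (ha' i) (hb' i)
    · simp [hev, add_mul, Finset.sum_add_distrib]
  zero_mem' := ⟨0, by simp, by simp, by simp [hev]⟩
  smul_mem' := by
    rintro c _ ⟨a, ha, ha', rfl⟩
    refine ⟨c • a, (natDegree_smul_le _ _).trans ha, fun i => ?_, ?_⟩
    · rw [coeff_smul, smul_eq_C_mul]; exact (ha' i).mul_left _
    · unfold hev
      rw [Finset.smul_sum]
      refine Finset.sum_congr rfl fun i _ => ?_
      rw [coeff_smul, algebraMap_eq, ← smul_C, smul_mul_assoc, smul_mul_assoc]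

theorem Rank_Sh_mul {p : ℂ[X]} {u : ℂ[X][X]} {D D' : ℕ} :
    Rank_Sh p u D * Rank_Sh p u D' ≤ Rank_Sh p u (D + D') := by
  rw [Submodule.mul_le]
  rintro _ ⟨a, ha, ha', rfl⟩ _ ⟨b, hb, hb', rfl⟩
  refine ⟨a * b, natDegree_mul_le.trans (add_le_add ha hb), fun i => ?_,
    (hev_mul a b D D' ha hb _ _).symm⟩
  rw [coeff_mul]
  refine Finset.dvd_sum fun x hx => ?_
  rw [← Finset.HasAntidiagonal.mem_antidiagonal.mp hx, pow_add]
  exact mul_dvd_mul (ha' _) (hb' _)

theorem Rank_Sh_coeff {u : ℂ[X][X]} (hu : u.coeff 0 = 1) {D : ℕ} (q : ℂ[X][X])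
    (hq : q.natDegree ≤ D) (j : ℕ) (hj : ∀ i < j, q.coeff i = 0) :
    (hev q D X u).coeff j = q.coeff j := by
  unfold hev
  rw [finsetSum_coeff, Finset.sum_eq_single j]
  · rw [algebraMap_eq, mul_assoc, coeff_C_mul]
    have := coeff_X_pow_mul (u ^ (D - j)) j 0
    rw [zero_add] at this
    rw [this, coeff_zero_eq_eval_zero, eval_pow, ← coeff_zero_eq_eval_zero, hu]; simp
  · intro i _ hij
    rcases lt_or_gt_of_ne hij with h | h
    · rw [hj i h]; simp
    · rw [algebraMap_eq, mul_assoc, coeff_C_mul, coeff_X_pow_mul', if_neg (by omega), mul_zero]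
  · intro h
    have : D < j := by simpa [Nat.lt_succ_iff] using h
    rw [coeff_eq_zero_of_natDegree_lt (p := q) (by omega)]; simp

theorem Rank_Sh_dvd {p : ℂ[X]} {u : ℂ[X][X]} (hu : u.coeff 0 = 1) {D : ℕ} {f : ℂ[X][X]}
    (hf : f ∈ Rank_Sh p u D) (j : ℕ) (hj : ∀ i < j, f.coeff i = 0) : p ^ j ∣ f.coeff j := by
  obtain ⟨q, hq, hq', rfl⟩ := hf
  have key : ∀ i, i ≤ j → ∀ i' < i, q.coeff i' = 0 := by
    intro i
    induction i with
    | zero => intro _ i' h; omega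
    | succ i ih =>
      intro hi i' h
      rcases Nat.lt_succ_iff_lt_or_eq.mp h with h | rfl
      · exact ih (by omega) i' h
      · rw [← Rank_Sh_coeff hu q hq i' (ih (by omega))]
        exact hj _ (by omega)
  rw [Rank_Sh_coeff hu q hq j (key j le_rfl)]
  exact hq' j

/-- For each `l`, `f = ∑_{i ≤ D} h_i(τ) (1 - θ_l s)^i s^(D-i)` with `L_l^(k (D-i)) ∣ h_i` (this
shape is multiplicative, and `N_j = (1 - θ_l s) h + (θ_l - θ_j) s h` with `L_l^k ∣ h` for `j ≠ l`).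
If the coefficients of `s^0, …, s^(j-1)` vanish then `h_D = … = h_{D-j+1} = 0` and the coefficient
of `s^j` is `h_{D-j}`. The `L_l` are pairwise coprime. -/
theorem Vsp_dvd {m : ℕ} (th : Fin m → ℂ) (L : Fin m → ℂ[X]) (hL : Lins L) (k D c0 : ℕ)
    (l1 l2 : ℂ[X]) (f : ℂ[X][X]) (hf : f ∈ Vsp th L k D c0 l1 l2) (j : ℕ)
    (hj : ∀ i < j, f.coeff i = 0) : (∏ l, L l) ^ (k * j) ∣ f.coeff j := by
  rw [← Finset.prod_pow]
  refine Finset.prod_dvd_of_coprime (fun a _ b _ hab => (hL.2 a b hab).pow) fun l _ => ?_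
  rw [pow_mul]
  set u : ℂ[X][X] := 1 - C (C (th l)) * X with hu
  have hC : ∀ p : ℂ[X], C p ∈ Rank_Sh (L l ^ k) u 0 := by
    intro p
    refine ⟨C p, by simp, fun i => ?_, by simp [hev]⟩
    rw [coeff_C]; split_ifs with h
    · simp [h]
    · simp
  have hA : Submodule.span ℂ (Set.range (Nrow th L k)) ^ D ≤ Rank_Sh (L l ^ k) u D := by
    refine Rank_pow_le (Rank_Sh (L l ^ k) u) (by simpa using hC 1) (fun n => Rank_Sh_mul) _ ?_ D
    rw [Submodule.span_le]
    rintro _ ⟨j, rfl⟩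
    set A := ∏ l ∈ Finset.univ.erase j, L l ^ k with hA
    refine ⟨C (C (th l - th j) * A) * X + C A, natDegree_linear_le, fun i => ?_, ?_⟩
    · rcases i with _ | _ | i
      · simp
      · simp only [zero_add, pow_one, coeff_add, coeff_C_mul, coeff_X_one, mul_one, coeff_C_succ,
          add_zero]
        by_cases h : l = j
        · simp [h]
        · exact (Finset.dvd_prod_of_mem _ (by simp [h])).mul_left _
      · simp
    · simp only [hev, Finset.sum_range_succ, Finset.range_zero, Finset.sum_empty, coeff_add,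
        coeff_C_mul, coeff_X_one, coeff_X_zero, coeff_C_zero, coeff_C_succ, algebraMap_eq,
        Nrow, ← hA, hu]
      simp only [map_mul, map_sub, map_add, map_zero, map_one]
      ring
  have hB : Submodule.span ℂ {C l1, C l2} ^ c0 ≤ Rank_Sh (L l ^ k) u 0 := by
    refine Rank_pow_le (fun _ => Rank_Sh (L l ^ k) u 0) (by simpa using hC 1)
      (fun n => Rank_Sh_mul (D := 0) (D' := 0)) _ ?_ c0
    rw [Submodule.span_le]
    rintro _ (rfl | rfl)
    · exact hC _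
    · exact hC _
  exact Rank_Sh_dvd (by simp [hu]) (Rank_Sh_mul (mul_le_mul' hA hB hf)) j hj

/-- Multiples of `P` of degree `≤ E`. -/
theorem Rank_mult (P : ℂ[X]) (hP : P ≠ 0) (E : ℕ) (W : Submodule ℂ ℂ[X])
    (hW : ∀ w ∈ W, P ∣ w ∧ w.natDegree ≤ E) :
    FiniteDimensional ℂ W ∧ Module.finrank ℂ W ≤ E + 1 - P.natDegree := by
  have hle : W ≤ (degreeLT ℂ (E + 1 - P.natDegree)).map (LinearMap.mulLeft ℂ P) := by
    intro w hw
    obtain ⟨⟨q, rfl⟩, hd⟩ := hW w hw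
    refine ⟨q, ?_, rfl⟩
    rw [SetLike.mem_coe, mem_degreeLT]
    by_cases hq : q = 0
    · rw [hq, degree_zero]; exact WithBot.bot_lt_coe _
    · rw [natDegree_mul hP hq] at hd
      rw [← natDegree_lt_iff_degree_lt hq]; omega
  have hfin : FiniteDimensional ℂ (degreeLT ℂ (E + 1 - P.natDegree)) :=
    (degreeLTEquiv ℂ _).symm.finiteDimensional
  refine ⟨Submodule.finiteDimensional_of_le hle, (Submodule.finrank_mono hle).trans
    ((Submodule.finrank_map_le _ _).trans ?_)⟩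
  rw [(degreeLTEquiv ℂ _).finrank_eq]; simp

/-- Truncation of the outer degree. -/
noncomputable def Rank_tr (J : ℕ) : ℂ[X][X] →ₗ[ℂ] (Fin J → ℂ[X]) where
  toFun f j := f.coeff j
  map_add' a b := by ext1 j; simp
  map_smul' c a := by ext1 j; simp

theorem Rank_abstract (V : Submodule ℂ ℂ[X][X]) (b : ℕ → ℕ)
    (hb : ∀ j, ∀ W : Submodule ℂ ℂ[X], (∀ w ∈ W, ∃ f ∈ V, (∀ i < j, f.coeff i = 0) ∧
      w = f.coeff j) → FiniteDimensional ℂ W ∧ Module.finrank ℂ W ≤ b j) (J : ℕ) :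
    FiniteDimensional ℂ (V.map (Rank_tr J)) ∧
      Module.finrank ℂ (V.map (Rank_tr J)) ≤ ∑ j ∈ Finset.range J, b j := by
  induction J with
  | zero =>
    have : V.map (Rank_tr 0) = ⊥ := Subsingleton.elim _ _
    rw [this]
    exact ⟨inferInstance, by simp⟩
  | succ J ih =>
    obtain ⟨ih1, ih2⟩ := ih
    set φ : V.map (Rank_tr (J + 1)) →ₗ[ℂ] (Fin J → ℂ[X]) :=
      (LinearMap.funLeft ℂ ℂ[X] Fin.castSucc).domRestrict _ with hφ
    set ψ : LinearMap.ker φ →ₗ[ℂ] ℂ[X] :=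
      (LinearMap.proj (Fin.last J)).comp ((V.map (Rank_tr (J + 1))).subtype.comp
        (LinearMap.ker φ).subtype) with hψ
    have hr : LinearMap.range φ ≤ V.map (Rank_tr J) := by
      rintro _ ⟨⟨_, f, hf, rfl⟩, rfl⟩
      exact ⟨f, hf, rfl⟩
    have hinj : Function.Injective ψ := by
      rw [injective_iff_map_eq_zero]
      rintro ⟨⟨w, hw⟩, hk⟩ h0
      have h1 : ∀ i : Fin J, w i.castSucc = 0 := fun i => congrFun (LinearMap.mem_ker.mp hk) i
      have h2 : w (Fin.last J) = 0 := h0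
      ext1; ext1; ext1 i
      exact Fin.lastCases h2 h1 i
    obtain ⟨hf1, hf2⟩ := hb J (LinearMap.range ψ) (by
      rintro _ ⟨⟨⟨_, f, hf, rfl⟩, hk⟩, rfl⟩
      exact ⟨f, hf, fun i hi => congrFun (LinearMap.mem_ker.mp hk) ⟨i, hi⟩, rfl⟩)
    have hk : FiniteDimensional ℂ (LinearMap.ker φ) :=
      (LinearEquiv.ofInjective ψ hinj).symm.finiteDimensional
    have hr' : FiniteDimensional ℂ (LinearMap.range φ) := Submodule.finiteDimensional_of_le hr
    have hfin : FiniteDimensional ℂ (V.map (Rank_tr (J + 1))) := by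
      have : FiniteDimensional ℂ (V.map (Rank_tr (J + 1)) ⧸ LinearMap.ker φ) :=
        φ.quotKerEquivRange.symm.finiteDimensional
      exact Module.Finite.of_submodule_quotient (LinearMap.ker φ)
    refine ⟨hfin, ?_⟩
    rw [Finset.sum_range_succ, ← φ.finrank_range_add_finrank_ker,
      (LinearEquiv.ofInjective ψ hinj).finrank_eq]
    exact add_le_add ((Submodule.finrank_mono hr).trans ih2) hf2

/-- Induction on `J`: the kernel of the truncation `≤ J+1 → ≤ J` embeds in the multiples of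
`(∏ L)^(k (J+1))` of degree `≤ (m-1) k D + c0`. -/
theorem trRank_le {m : ℕ} (th : Fin m → ℂ) (L : Fin m → ℂ[X]) (hL : Lins L) (k D c0 : ℕ)
    (l1 l2 : ℂ[X]) (h1 : l1.natDegree ≤ 1) (h2 : l2.natDegree ≤ 1) {ι : Type*}
    (F : ι → ℂ[X][X]) (hF : ∀ a, F a ∈ Vsp th L k D c0 l1 l2) (J : ℕ) :
    trRank F J ≤ ∑ j ∈ Finset.range (J + 1), ((m - 1) * k * D + c0 + 1 - m * k * j) := by
  have h0 : ∀ l, L l ≠ 0 := fun l h => by have := hL.1 l; rw [h] at this; simp at this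
  have hP : (∏ l, L l) ≠ 0 := Finset.prod_ne_zero_iff.mpr fun l _ => h0 l
  have hd : (∏ l, L l).natDegree = m := by
    rw [natDegree_prod _ _ fun l _ => h0 l]; simp [hL.1]
  obtain ⟨hfin, hle⟩ := Rank_abstract (Vsp th L k D c0 l1 l2)
    (fun j => (m - 1) * k * D + c0 + 1 - m * k * j) (fun j W hW => by
      have := Rank_mult ((∏ l, L l) ^ (k * j)) (pow_ne_zero _ hP) ((m - 1) * k * D + c0) W
        (fun w hw => by
          obtain ⟨f, hf, hj, rfl⟩ := hW w hw
          exact ⟨Vsp_dvd th L hL k D c0 l1 l2 f hf j hj,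
            (Vsp_deg th L hL k D c0 l1 l2 h1 h2 f hf).2 j⟩)
      rw [natDegree_pow, hd, mul_comm (k * j) m, ← mul_assoc] at this
      exact this) (J + 1)
  refine le_trans (Submodule.finrank_mono ?_) hle
  rw [Submodule.span_le]
  rintro _ ⟨a, rfl⟩
  exact ⟨F a, hF a, rfl⟩

end Crest.Agent.R22
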