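import Crest.Agent.R22.Card

set_option autoImplicit false
open Polynomial IntermediateField

namespace Crest.Agent.R22

variable {d : ℕ}

theorem Weight_count {r : ℝ} (hr : 0 < r) (I : Finset (ℕ × ℕ)) (n : ℕ) : ∀ a : ℕ,
    ((I.filter fun m => a ≤ m.2 ∧ r * m.1 + m.2 < a + n).card : ℝ) ≤
      (n : ℝ) * (n + 1) / (2 * r) + n := by
  induction n with
  | zero =>
    intro a
    rw [Finset.filter_false_of_mem]
    · simp
    · rintro m - ⟨h1, h2⟩
      have := (Nat.cast_le (α := ℝ)).2 h1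
      have : 0 ≤ r * m.1 := by positivity
      simp only [Nat.cast_zero] at h2
      linarith
  | succ n ih =>
    intro a
    have h1 : (I.filter fun m => a ≤ m.2 ∧ r * m.1 + m.2 < a + (n + 1 : ℕ)).card ≤
        (Finset.range ⌈((n : ℝ) + 1) / r⌉₊ ×ˢ {a}).card +
          (I.filter fun m => a + 1 ≤ m.2 ∧ r * m.1 + m.2 < (a + 1 : ℕ) + n).card := by
      refine le_trans (Finset.card_le_card fun m hm => ?_) (Finset.card_union_le _ _)
      simp only [Finset.mem_union, Finset.mem_filter, Finset.mem_product, Finset.mem_range,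
        Finset.mem_singleton, Nat.lt_ceil, lt_div_iff₀ hr] at hm ⊢
      obtain ⟨h1, h2, h3⟩ := hm
      push_cast at h3 ⊢
      rcases h2.eq_or_lt with h | h
      · exact Or.inl ⟨by rw [h] at h3; linarith, h.symm⟩
      · exact Or.inr ⟨h1, h, by linarith⟩
    have h2 := ((Nat.cast_le (α := ℝ)).2 h1).trans_eq (Nat.cast_add _ _)
    have h3 := Nat.ceil_lt_add_one (by positivity : 0 ≤ ((n : ℝ) + 1) / r)
    have h4 := ih (a + 1)
    have h5 : ((n : ℝ) + 1) * (n + 1 + 1) / (2 * r) = n * (n + 1) / (2 * r) + (n + 1) / r := by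
      field_simp
      ring
    rw [Finset.card_product, Finset.card_range, Finset.card_singleton, mul_one] at h2
    refine h2.trans ?_
    rw [Nat.cast_succ n]
    linarith

theorem Weight_sum1 (N r : ℝ) (ρ : ℕ) :
    ∑ w ∈ Finset.range ρ, (N - (((w : ℝ) + 1) * (w + 2) / (2 * r) + (w + 1))) =
      ρ * N - (ρ : ℝ) * (ρ + 1) * (ρ + 2) / (6 * r) - (ρ : ℝ) * (ρ + 1) / 2 := by
  induction ρ with
  | zero => simp
  | succ n ih =>
    rw [Finset.sum_range_succ, ih]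
    push_cast
    ring

theorem Weight_sum2 (N a b c : ℝ) (K : ℕ) :
    ∑ J ∈ Finset.range K, (N - ∑ j ∈ Finset.range (J + 1), (a - b * j) - c) =
      K * N - (K : ℝ) * (K + 1) / 2 * a + b * ((K : ℝ) ^ 3 - K) / 6 - K * c := by
  have h : ∀ J : ℕ, ∑ j ∈ Finset.range J, (a - b * j) = J * a - b * ((J : ℝ) * (J - 1) / 2) := by
    intro J
    induction J with
    | zero => simp
    | succ n ih =>
      rw [Finset.sum_range_succ, ih]
      push_cast
      ring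
  induction K with
  | zero => simp
  | succ n ih =>
    rw [Finset.sum_range_succ, ih, h]
    push_cast
    ring

/-- Layer cake: `∑ ψ ≥ ∑_{w=1}^{ρ+K} #{ψ ≥ w}`, `ψ = r i + j`. For `w ≤ ρ`:
`#{ψ < w} ≤ ∑_{j<w} ((w-j)/r + 1)`; for `w = ρ + J + 1`: `≤ H J` elements have `j ≤ J`, and the
levels `J < j ≤ ρ + J` contribute `≤ ρ(ρ+1)/(2r) + ρ`. -/
theorem weight_discrete (r : ℝ) (hr : 0 < r) (ρ K : ℕ) (H : ℕ → ℝ) (I : Finset (ℕ × ℕ))
    (hI : ∀ J < K, ((I.filter fun m => m.2 ≤ J).card : ℝ) ≤ H J) :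
    ∑ w ∈ Finset.range ρ, ((I.card : ℝ) - (((w : ℝ) + 1) * (w + 2) / (2 * r) + (w + 1))) +
      ∑ J ∈ Finset.range K, ((I.card : ℝ) - H J - ((ρ : ℝ) * (ρ + 1) / (2 * r) + ρ)) ≤
      ∑ m ∈ I, (r * m.1 + m.2) := by
  have h1 : ∀ ψ : ℝ, 0 ≤ ψ →
      ∑ w ∈ Finset.range (ρ + K), ((1 : ℝ) - if ψ < (w : ℝ) + 1 then 1 else 0) ≤ ψ := by
    intro ψ hψ
    induction ρ + K with
    | zero => simpa using hψ
    | succ n ih =>
      by_cases h : ψ < (n : ℝ) + 1
      · rw [Finset.sum_range_succ, if_pos h]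
        linarith
      · refine le_trans (Finset.sum_le_sum (g := fun _ => (1 : ℝ)) fun w _ => ?_) (by simpa using h)
        split_ifs <;> norm_num
  refine le_trans ?_ (Finset.sum_le_sum fun m _ => h1 _ (by positivity))
  rw [Finset.sum_comm, Finset.sum_range_add]
  simp only [Finset.sum_sub_distrib (s := I), Finset.sum_const, nsmul_eq_mul, mul_one,
    Finset.sum_boole]
  refine add_le_add (Finset.sum_le_sum fun w _ => sub_le_sub_left ?_ _)
    (Finset.sum_le_sum fun J hJ => ?_)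
  · have := Weight_count hr I (w + 1) 0
    push_cast at this
    simpa [add_assoc, one_add_one_eq_two] using this
  · have h2 := Weight_count hr I ρ (J + 1)
    have h3 := hI J (Finset.mem_range.1 hJ)
    have h4 : (I.filter fun m => r * m.1 + m.2 < ((ρ + J : ℕ) : ℝ) + 1).card ≤
        (I.filter fun m => m.2 ≤ J).card +
          (I.filter fun m => J + 1 ≤ m.2 ∧ r * m.1 + m.2 < (J + 1 : ℕ) + ρ).card := by
      refine le_trans (Finset.card_le_card fun m hm => ?_) (Finset.card_union_le _ _)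
      simp only [Finset.mem_union, Finset.mem_filter] at hm ⊢
      rcases le_or_gt m.2 J with h | h
      · exact Or.inl ⟨hm.1, h⟩
      · exact Or.inr ⟨hm.1, h, hm.2.trans_eq (by push_cast; ring)⟩
    have h5 := ((Nat.cast_le (α := ℝ)).2 h4).trans_eq (Nat.cast_add _ _)
    linarith

/-- Asymptotic form, with `ρ = ⌊rho D⌋`, `K = ⌊k0 D⌋`. -/
theorem weight_lb (Mk A Bc r rho k0 C1 : ℝ) (hr : 0 < r) (hrho : 0 ≤ rho) (hk0 : 0 ≤ k0)
    (hM : 0 ≤ Mk) (hA : 0 ≤ A) (hB : 0 ≤ Bc) (hC : 0 ≤ C1) :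
    ∃ C : ℝ, 0 ≤ C ∧ ∀ (D : ℕ) (I : Finset (ℕ × ℕ)), Mk * D ^ 2 - C1 * D ≤ I.card →
      (∀ J : ℕ, J < ⌊k0 * D⌋₊ → ((I.filter fun m => m.2 ≤ J).card : ℝ) ≤
        ∑ j ∈ Finset.range (J + 1), (A * D + C1 - Bc * j)) →
      Theta Mk A Bc r rho k0 * D ^ 3 - C * D ^ 2 ≤ ∑ m ∈ I, (r * m.1 + m.2) := by
  refine ⟨Mk + rho * C1 + (3 * rho ^ 2 + 2 * rho) / (6 * r) + (rho ^ 2 + rho) / 2 + Mk + k0 * C1 +
    (A * k0 + C1 * k0 ^ 2 + C1 * k0) / 2 + Bc * (3 * k0 ^ 2 + 1 + k0) / 6 +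
    (k0 * rho / (2 * r) + k0 * rho), by positivity, fun D I hN hI => ?_⟩
  rcases Nat.eq_zero_or_pos D with rfl | hD
  · simpa using Finset.sum_nonneg fun m _ => by positivity
  refine le_trans ?_ (weight_discrete r hr ⌊rho * D⌋₊ ⌊k0 * D⌋₊ _ I hI)
  rw [Weight_sum1, Weight_sum2]
  have D1 : (1 : ℝ) ≤ D := Nat.one_le_cast.2 hD
  have x1 := Nat.floor_le (by positivity : 0 ≤ rho * D)
  have x2 := (Nat.lt_floor_add_one (rho * D)).le
  have y1 := Nat.floor_le (by positivity : 0 ≤ k0 * D)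
  have y2 := (Nat.lt_floor_add_one (k0 * D)).le
  have x0 : (0 : ℝ) ≤ ⌊rho * D⌋₊ := Nat.cast_nonneg _
  have y0 : (0 : ℝ) ≤ ⌊k0 * D⌋₊ := Nat.cast_nonneg _
  generalize (⌊rho * D⌋₊ : ℝ) = x at *
  generalize (⌊k0 * D⌋₊ : ℝ) = y at *
  generalize (I.card : ℝ) = N at *
  generalize (D : ℝ) = D at *
  have D0 : 0 ≤ D := by linarith
  have D2 : D ≤ D ^ 2 := by nlinarith
  have e : ∀ c z : ℝ, 0 ≤ z → z ≤ c * D → c * D ≤ z + 1 →
      Mk * c * D ^ 3 - (Mk + c * C1) * D ^ 2 ≤ z * N := fun c z h0 h1 h2 => by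
    nlinarith [mul_le_mul_of_nonneg_left hN h0, mul_le_mul_of_nonneg_right h1 (mul_nonneg hC D0),
      mul_le_mul_of_nonneg_right h2 (mul_nonneg hM (sq_nonneg D))]
  have e1 := e _ _ x0 x1 x2
  have e2 := e _ _ y0 y1 y2
  have e3 : x * (x + 1) * (x + 2) / (6 * r) ≤
      rho ^ 3 / (6 * r) * D ^ 3 + (3 * rho ^ 2 + 2 * rho) / (6 * r) * D ^ 2 :=
    calc _ ≤ (rho * D * (rho * D + 1) * (rho * D + 2) + 2 * rho * (D ^ 2 - D)) / (6 * r) := by
          gcongr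
          refine le_add_of_le_of_nonneg (by gcongr) (mul_nonneg (by positivity) (by linarith))
      _ = _ := by ring
  have e4 : x * (x + 1) / 2 ≤ (rho ^ 2 + rho) / 2 * D ^ 2 := by
    nlinarith [mul_le_mul x1 (add_le_add_left x1 1) (by linarith) (by linarith),
      mul_le_mul_of_nonneg_left D2 hrho]
  have e5 : y * (y + 1) / 2 * (A * D + C1) ≤
      A * k0 ^ 2 / 2 * D ^ 3 + (A * k0 + C1 * k0 ^ 2 + C1 * k0) / 2 * D ^ 2 :=
    calc _ ≤ k0 * D * (k0 * D + 1) / 2 * (A * D + C1) := by gcongr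
      _ ≤ _ := by nlinarith [mul_le_mul_of_nonneg_left D2 (mul_nonneg hC hk0)]
  have e6 : Bc * ((k0 * D) ^ 3 - (3 * k0 ^ 2 + 1 + k0) * D ^ 2) ≤ Bc * (y ^ 3 - y) := by
    refine mul_le_mul_of_nonneg_left ?_ hB
    have := (Odd.pow_le_pow (by decide : Odd 3)).2 (sub_le_iff_le_add.2 y2)
    nlinarith [mul_le_mul_of_nonneg_left D2 hk0]
  have e7 : y * (x * (x + 1) / (2 * r) + x) ≤
      k0 * rho ^ 2 / (2 * r) * D ^ 3 + (k0 * rho / (2 * r) + k0 * rho) * D ^ 2 :=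
    calc _ ≤ k0 * D * (rho * D * (rho * D + 1) / (2 * r) + rho * D) := by gcongr
      _ = _ := by ring
  unfold Theta
  linarith

end Crest.Agent.R22
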