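import Crest.Agent.R22.CB
import Crest.Agent.R22.Weight
import Crest.Agent.R22.Rank

set_option autoImplicit false
open Polynomial IntermediateField

namespace Crest.Agent.R22

variable {d : ℕ}

/-- `det_poly_le` + `trRank_le` + `weight_lb` (for `J < k0 D` the truncated subtraction is the
true one because `m k k0 ≤ (m-1) k`). -/
theorem detB (m k c0 : ℕ) (hm : 1 ≤ m) (Mk r rho k0 C0 C1 : ℝ) (hr : 0 < r) (hrho : 0 ≤ rho)
    (hk0 : 0 ≤ k0) (hk1 : (m : ℝ) * k * k0 ≤ (m - 1 : ℝ) * k) (hM : 0 ≤ Mk) (h0 : 1 ≤ C0)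
    (hC : 0 ≤ C1) : ∃ C : ℝ, 0 ≤ C ∧ ∀ D M : ℕ, Mk * D ^ 2 - C1 * D ≤ M → ∃ K' : ℝ, 0 < K' ∧
      ∀ (th : Fin m → ℂ) (L : Fin m → ℂ[X]) (l1 l2 : ℂ[X]) (F : Fin M → ℂ[X][X]) (K Y : ℝ)
        (τ s : Fin M → ℂ), Lins L → l1.natDegree ≤ 1 → l2.natDegree ≤ 1 → 0 ≤ K → 1 ≤ Y →
        (∀ a, F a ∈ Vsp th L k D c0 l1 l2 ∧ CoLE (F a) K) →
        (∀ b, ‖τ b‖ ≤ C0 * Y ^ (-r) ∧ ‖s b‖ ≤ C0 * Y⁻¹) →
        ‖(Matrix.of fun a b => (F a).evalEval (τ b) (s b)).det‖ ≤ K' * K ^ M *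
          Y ^ (-(Theta Mk ((m - 1 : ℝ) * k) ((m : ℝ) * k) r rho k0 * D ^ 3 - C * D ^ 2)) := by
  have hm' : (1 : ℝ) ≤ m := by exact_mod_cast hm
  obtain ⟨C, hC0, hW⟩ := weight_lb Mk ((m - 1 : ℝ) * k) ((m : ℝ) * k) r rho k0 (C1 + c0 + 1) hr hrho
    hk0 hM (mul_nonneg (by linarith) (Nat.cast_nonneg _)) (by positivity) (by positivity)
  refine ⟨C, hC0, fun D M hDM => ?_⟩
  obtain ⟨K', hK', hdet⟩ := det_poly_le M (max D ((m - 1) * k * D + c0)) C0 h0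
  refine ⟨K', hK', fun th L l1 l2 F K Y τ s hL h1 h2 hK hY hF hτ => ?_⟩
  refine hdet F K Y r _ τ s hK hY hr.le (fun a => ⟨?_, (hF a).2⟩) hτ fun I hI hJ => ?_
  · obtain ⟨h3, h4⟩ := Vsp_deg th L hL k D c0 l1 l2 h1 h2 (F a) (hF a).1
    exact ⟨h3.trans (le_max_left _ _), fun i => (h4 i).trans (le_max_right _ _)⟩
  · refine hW D I ?_ fun J hJ' => ?_
    · rw [hI]
      have : (0 : ℝ) ≤ (c0 + 1) * D := by positivity
      linarith
    · have h3 := (hJ J).trans (trRank_le th L hL k D c0 l1 l2 h1 h2 F (fun a => (hF a).1) J)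
      refine le_trans (Nat.cast_le.2 h3) ?_
      rw [Nat.cast_sum]
      refine Finset.sum_le_sum fun j hj => ?_
      have h4 : (j : ℝ) ≤ k0 * D := by
        have h5 : j ≤ ⌊k0 * D⌋₊ := by have := Finset.mem_range.1 hj; omega
        exact (Nat.cast_le.2 h5).trans (Nat.floor_le (by positivity))
      have h5 : (m : ℝ) * k * j ≤ (m - 1 : ℝ) * k * D :=
        calc (m : ℝ) * k * j ≤ m * k * (k0 * D) := by gcongr
          _ = m * k * k0 * D := by ring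
          _ ≤ _ := by gcongr
      have h6 : (((m - 1) * k * D : ℕ) : ℝ) = (m - 1 : ℝ) * k * D := by
        push_cast [Nat.cast_sub hm]; ring
      have h7 : m * k * j ≤ (m - 1) * k * D + c0 + 1 := by
        have : ((m * k * j : ℕ) : ℝ) ≤ (((m - 1) * k * D : ℕ) : ℝ) := by
          rw [h6]; push_cast; exact h5
        have h8 : m * k * j ≤ (m - 1) * k * D := by exact_mod_cast this
        omega
      rw [Nat.cast_sub h7, Nat.cast_add, Nat.cast_add, h6]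
      push_cast
      linarith

end Crest.Agent.R22
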