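import Crest.Agent.R22.CB
import Crest.Agent.R22.Weight

set_option autoImplicit false
open Polynomial IntermediateField

namespace Crest.Agent.R22

variable {d : ℕ}

/-- A number whose `k`-th power is close to `1` is close to a `k`-th root of unity. -/
theorem near_root (k : ℕ) (hk : 1 ≤ k) : ∃ C : ℝ, 1 ≤ C ∧ ∀ z : ℂ, ‖z ^ k - 1‖ ≤ 1 →
    ∃ ζ : ℂ, ζ ^ k = 1 ∧ ‖z - ζ‖ ≤ C * ‖z ^ k - 1‖ := by
  refine ⟨6, by norm_num, fun z hz => ?_⟩
  have hk0 : k ≠ 0 := by omega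
  have hk1 : (1 : ℝ) ≤ k := by exact_mod_cast hk
  rcases le_total ‖z ^ k - 1‖ (1 / 2) with h | h
  · have hw : z ^ k ≠ 0 := by
      intro h0
      rw [h0] at h
      norm_num at h
    have h1 : ‖Complex.log (z ^ k)‖ ≤ 3 / 2 * ‖z ^ k - 1‖ := by
      simpa using Complex.norm_log_one_add_half_le_self h
    have h2 : ‖Complex.log (z ^ k) / k‖ ≤ 3 / 2 * ‖z ^ k - 1‖ := by
      rw [norm_div, Complex.norm_natCast]
      exact (div_le_self (norm_nonneg _) hk1).trans h1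
    have h3 := Complex.norm_exp_sub_one_le (h2.trans (by linarith))
    have h4 : Complex.exp (Complex.log (z ^ k) / k) ^ k = z ^ k := by
      rw [← Complex.exp_nat_mul, mul_div_cancel₀ _ (Nat.cast_ne_zero.2 hk0), Complex.exp_log hw]
    have h5 := Complex.exp_ne_zero (Complex.log (z ^ k) / k)
    generalize Complex.exp (Complex.log (z ^ k) / k) = u at h3 h4 h5
    have h6 : (z / u) ^ k = 1 := by rw [div_pow, h4, div_self hw]
    refine ⟨z / u, h6, ?_⟩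
    have h7 : z - z / u = z / u * (u - 1) := by field_simp
    rw [h7, norm_mul, Complex.norm_eq_one_of_pow_eq_one h6 hk0, one_mul]
    linarith [norm_nonneg (z ^ k - 1)]
  · refine ⟨1, one_pow k, ?_⟩
    have h1 : ‖z‖ ^ k ≤ 2 := by
      have := norm_le_insert' (z ^ k) 1
      rw [norm_pow, norm_one] at this
      linarith
    have h2 : ‖z‖ ≤ 2 := by
      by_contra h3
      have := le_self_pow₀ (show 1 ≤ ‖z‖ by linarith) hk0
      linarith
    have := norm_sub_le z 1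
    rw [norm_one] at this
    linarith

open Filter Topology in
/-- Taylor polynomials. -/
theorem DetC_taylor {f : ℂ → ℂ} (hf : AnalyticAt ℂ f 0) (n : ℕ) : ∃ (P : ℂ[X]) (C : ℝ), 0 ≤ C ∧
    ∀ᶠ y in 𝓝 (0 : ℂ), ‖f y - P.eval y‖ ≤ C * ‖y‖ ^ n := by
  obtain ⟨p, hp⟩ := hf
  obtain ⟨C, hC, h⟩ := (hp.isBigO_sub_partialSum_pow n).exists_nonneg
  refine ⟨∑ t ∈ Finset.range n, monomial t (p.coeff t), C, hC, ?_⟩
  filter_upwards [h.bound] with y hy
  rw [zero_add, norm_pow, norm_norm] at hy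
  have e : (∑ t ∈ Finset.range n, monomial t (p.coeff t)).eval y = p.partialSum n y := by
    simp [FormalMultilinearSeries.partialSum, eval_finsetSum, mul_comm]
  rwa [e]

/-- The branch of `(1 + y) ^ (c / k)`. -/
noncomputable def DetC_br (k : ℕ) (c y : ℂ) : ℂ := Complex.exp (c * Complex.log (1 + y) / k)

theorem DetC_br_an (k : ℕ) (c : ℂ) : AnalyticAt ℂ (DetC_br k c) 0 := by
  have h : AnalyticAt ℂ (fun y : ℂ => Complex.log (1 + y)) 0 :=
    (analyticAt_const.add analyticAt_id).clog (by simp)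
  exact ((analyticAt_const.mul h).div_const).cexp

theorem DetC_br_zero (k : ℕ) (c : ℂ) : DetC_br k c 0 = 1 := by simp [DetC_br]

theorem DetC_br_pow {k : ℕ} (hk : k ≠ 0) (c y : ℂ) :
    DetC_br k c y ^ k = Complex.exp (c * Complex.log (1 + y)) := by
  rw [DetC_br, ← Complex.exp_nat_mul, mul_div_cancel₀ _ (Nat.cast_ne_zero.2 hk)]

open Filter Topology in
theorem DetC_root_one {k : ℕ} (hk : k ≠ 0) : ∀ᶠ ζ in 𝓝 (1 : ℂ), ζ ^ k = 1 → ζ = 1 := by
  have h : ContinuousAt (fun ζ : ℂ => ∑ i ∈ Finset.range k, ζ ^ i) 1 := by fun_prop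
  filter_upwards [h.eventually_ne (y := 0) (by simpa using hk)] with ζ h1 h2
  have h3 := geom_sum_mul ζ k
  rw [h2, sub_self] at h3
  exact sub_eq_zero.1 ((mul_eq_zero.1 h3).resolve_left h1)

open Filter Topology in
theorem DetC_approx {k : ℕ} (hk : k ≠ 0) (n : ℕ) : ∃ (P Q : ℂ[X]) (B δ : ℝ), 1 ≤ B ∧ 0 < δ ∧
    ∀ (u v z : ℂ) (ε : ℝ), ε < δ → ‖u‖ ≤ ε → ‖v‖ ≤ ε → ‖z - 1‖ ≤ ε → z ^ k * (1 + v) = 1 + u →
      ‖z‖ ≤ B ∧ ‖P.eval u * Q.eval v‖ ≤ B ∧ ‖z - P.eval u * Q.eval v‖ ≤ B * ε ^ n := by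
  obtain ⟨P, C, hC, hP⟩ := DetC_taylor (DetC_br_an k 1) n
  obtain ⟨Q, C', hC', hQ⟩ := DetC_taylor (DetC_br_an k (-1)) n
  have cf := (DetC_br_an k 1).continuousAt
  have cg := (DetC_br_an k (-1)).continuousAt
  have t1 : Tendsto (fun x : ℂ × ℂ × ℂ => x.1) (𝓝 (0, 0, 1)) (𝓝 0) := continuous_fst.tendsto _
  have t2 : Tendsto (fun x : ℂ × ℂ × ℂ => x.2.1) (𝓝 (0, 0, 1)) (𝓝 0) :=
    (continuous_fst.comp continuous_snd).tendsto _
  have t3 : Tendsto (fun x : ℂ × ℂ × ℂ => x.2.2) (𝓝 (0, 0, 1)) (𝓝 1) :=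
    (continuous_snd.comp continuous_snd).tendsto _
  have t4 : Tendsto (fun x : ℂ × ℂ × ℂ => x.2.2 / (DetC_br k 1 x.1 * DetC_br k (-1) x.2.1))
      (𝓝 (0, 0, 1)) (𝓝 1) := by
    have := t3.div ((cf.tendsto.comp t1).mul (cg.tendsto.comp t2))
      (by simp [DetC_br_zero])
    rw [DetC_br_zero, DetC_br_zero, mul_one, div_one] at this
    exact this
  have e1 : ∀ᶠ y in 𝓝 (0 : ℂ), ‖DetC_br k 1 y‖ ≤ 2 :=
    cf.norm.eventually_le_const (by simp [DetC_br_zero])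
  have e2 : ∀ᶠ y in 𝓝 (0 : ℂ), ‖DetC_br k (-1) y‖ ≤ 2 :=
    cg.norm.eventually_le_const (by simp [DetC_br_zero])
  obtain ⟨δ, hδ, h⟩ := Metric.eventually_nhds_iff.1
    (((t1.eventually (hP.and e1)).and (t2.eventually (hQ.and e2))).and
      (t4.eventually (DetC_root_one hk)))
  refine ⟨P, Q, (2 + C) * (2 + C'), min δ 1, by nlinarith [mul_nonneg hC hC'], by positivity,
    fun u v z ε hε hu hv hz he => ?_⟩
  have hε1 : ε < 1 := hε.trans_le (min_le_right _ _)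
  have hεδ : ε < δ := hε.trans_le (min_le_left _ _)
  have hε0 : 0 ≤ ε := (norm_nonneg _).trans hu
  obtain ⟨⟨⟨a1, a2⟩, a3, a4⟩, a5⟩ := @h (u, v, z) (by
    rw [Prod.dist_eq, Prod.dist_eq]
    simp only [dist_eq_norm, sub_zero, max_lt_iff]
    exact ⟨by linarith, by linarith, by linarith⟩)
  simp only at a1 a2 a3 a4 a5
  have hne : ∀ y : ℂ, ‖y‖ ≤ ε → 1 + y ≠ 0 := fun y hy h0 => by
    rw [(neg_eq_of_add_eq_zero_right h0).symm, norm_neg, norm_one] at hy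
    linarith
  have hfg : DetC_br k 1 u * DetC_br k (-1) v ≠ 0 :=
    mul_ne_zero (Complex.exp_ne_zero _) (Complex.exp_ne_zero _)
  have hz' : z = DetC_br k 1 u * DetC_br k (-1) v := by
    refine (div_eq_one_iff_eq hfg).1 (a5 ?_)
    rw [div_pow, mul_pow, DetC_br_pow hk, DetC_br_pow hk, one_mul, neg_one_mul, Complex.exp_neg,
      Complex.exp_log (hne u hu), Complex.exp_log (hne v hv), ← he]
    have h1 := hne v hv
    have h2 : z ^ k ≠ 0 := left_ne_zero_of_mul (he ▸ hne u hu)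
    field_simp
  have p0 : 0 ≤ ε ^ n := pow_nonneg hε0 n
  have p1 : ε ^ n ≤ 1 := pow_le_one₀ hε0 hε1.le
  have b1 : ‖DetC_br k 1 u - P.eval u‖ ≤ C * ε ^ n :=
    a1.trans (mul_le_mul_of_nonneg_left (pow_le_pow_left₀ (norm_nonneg _) hu n) hC)
  have b2 : ‖DetC_br k (-1) v - Q.eval v‖ ≤ C' * ε ^ n :=
    a3.trans (mul_le_mul_of_nonneg_left (pow_le_pow_left₀ (norm_nonneg _) hv n) hC')
  rw [hz']
  generalize DetC_br k 1 u = f at a2 b1
  generalize DetC_br k (-1) v = g at a4 b2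
  generalize P.eval u = x at b1
  generalize Q.eval v = y at b2
  generalize ε ^ n = e at p0 p1 b1 b2
  have c1 : ‖x‖ ≤ 2 + C := by
    have := norm_le_insert f x
    nlinarith
  have c2 : ‖y‖ ≤ 2 + C' := by
    have := norm_le_insert g y
    nlinarith
  refine ⟨?_, ?_, ?_⟩
  · rw [norm_mul]
    exact mul_le_mul (by linarith) (by linarith) (norm_nonneg _) (by linarith)
  · rw [norm_mul]
    exact mul_le_mul c1 c2 (norm_nonneg _) (by linarith)
  · have c3 : f * g - x * y = (f - x) * g + x * (g - y) := by ring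
    rw [c3]
    refine (norm_add_le _ _).trans ?_
    rw [norm_mul, norm_mul]
    have c4 : ‖f - x‖ * ‖g‖ ≤ C * e * 2 := mul_le_mul b1 a4 (norm_nonneg _) (by positivity)
    have c5 : ‖x‖ * ‖g - y‖ ≤ (2 + C) * (C' * e) :=
      mul_le_mul c1 b2 (norm_nonneg _) (by linarith)
    nlinarith

/-- Closeness of products. -/
def DetC_Cl (B e : ℝ) (x y : ℂ) (n : ℕ) : Prop :=
  ‖x‖ ≤ B ^ n ∧ ‖y‖ ≤ B ^ n ∧ ‖x - y‖ ≤ n * B ^ n * e

theorem DetC_Cl_one (B e : ℝ) : DetC_Cl B e 1 1 0 := by simp [DetC_Cl]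

theorem DetC_Cl.mul {B e : ℝ} {x y x' y' : ℂ} {n m : ℕ} (h : DetC_Cl B e x y n)
    (h' : DetC_Cl B e x' y' m) : DetC_Cl B e (x * x') (y * y') (n + m) := by
  obtain ⟨h1, h2, h3⟩ := h
  obtain ⟨h4, h5, h6⟩ := h'
  have h0 : 0 ≤ B ^ n := (norm_nonneg _).trans h1
  refine ⟨?_, ?_, ?_⟩
  · rw [norm_mul, pow_add]
    exact mul_le_mul h1 h4 (norm_nonneg _) h0
  · rw [norm_mul, pow_add]
    exact mul_le_mul h2 h5 (norm_nonneg _) h0
  · have c3 : x * x' - y * y' = (x - y) * x' + y * (x' - y') := by ring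
    rw [c3]
    refine (norm_add_le _ _).trans ?_
    rw [norm_mul, norm_mul, pow_add]
    have c4 := mul_le_mul h3 h4 (norm_nonneg _) ((norm_nonneg _).trans h3)
    have c5 := mul_le_mul h2 h6 (norm_nonneg _) h0
    push_cast
    linarith

theorem DetC_Cl.pow {B e : ℝ} {x y : ℂ} (h : DetC_Cl B e x y 1) (a : ℕ) :
    DetC_Cl B e (x ^ a) (y ^ a) a := by
  induction a with
  | zero => simpa using DetC_Cl_one B e
  | succ a ih =>
    rw [pow_succ, pow_succ]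
    exact ih.mul h

theorem DetC_Cl_prod {ι : Type*} {B e : ℝ} {x y : ι → ℂ} (h : ∀ j, DetC_Cl B e (x j) (y j) 1)
    (a : ι → ℕ) (s : Finset ι) :
    DetC_Cl B e (∏ j ∈ s, x j ^ a j) (∏ j ∈ s, y j ^ a j) (∑ j ∈ s, a j) := by
  classical
  induction s using Finset.induction_on with
  | empty => simpa using DetC_Cl_one B e
  | insert j s hj ih =>
    rw [Finset.prod_insert hj, Finset.prod_insert hj, Finset.sum_insert hj]
    exact ((h j).pow _).mul ih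

/-- Degree and height of a polynomial. -/
def DetC_Bd (p : ℂ[X]) (n : ℕ) (K : ℝ) : Prop := p.natDegree ≤ n ∧ ∀ i, ‖p.coeff i‖ ≤ K

theorem DetC_Bd.mul {p q : ℂ[X]} {n m : ℕ} {K L : ℝ} (hq : DetC_Bd q m L) (hp : DetC_Bd p n K) :
    DetC_Bd (q * p) (m + n) (L * ((n + 1) * K)) := by
  have hL : 0 ≤ L := (norm_nonneg _).trans (hq.2 0)
  have hK : 0 ≤ K := (norm_nonneg _).trans (hp.2 0)
  refine ⟨natDegree_mul_le.trans (add_le_add hq.1 hp.1), fun i => ?_⟩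
  rw [p.as_sum_range' (n + 1) (Nat.lt_succ_of_le hp.1), Finset.mul_sum, finsetSum_coeff]
  refine (norm_sum_le _ _).trans ((Finset.sum_le_card_nsmul _ _ (L * K) fun t _ => ?_).trans
    (le_of_eq ?_))
  · rw [← C_mul_X_pow_eq_monomial, ← mul_assoc, coeff_mul_X_pow']
    split_ifs
    · rw [coeff_mul_C, norm_mul]
      exact mul_le_mul (hq.2 _) (hp.2 _) (norm_nonneg _) hL
    · rw [norm_zero]
      positivity
  · rw [Finset.card_range, nsmul_eq_mul]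
    push_cast
    ring

theorem DetC_Bd.mul_pow {p q : ℂ[X]} {n m : ℕ} {K L : ℝ} (hq : DetC_Bd q m L)
    (hp : DetC_Bd p n K) (a : ℕ) : DetC_Bd (q * p ^ a) (m + n * a) (L * ((n + 1) * K) ^ a) := by
  induction a with
  | zero => simpa using hq
  | succ a ih =>
    rw [pow_succ, pow_succ, ← mul_assoc, ← mul_assoc L, Nat.mul_succ, ← add_assoc]
    exact ih.mul hp

theorem DetC_Bd_prod {ι : Type*} {p : ι → ℂ[X]} {n : ℕ} {K : ℝ} (h : ∀ j, DetC_Bd (p j) n K)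
    (a : ι → ℕ) (s : Finset ι) :
    DetC_Bd (∏ j ∈ s, p j ^ a j) (n * ∑ j ∈ s, a j) (((n + 1) * K) ^ ∑ j ∈ s, a j) := by
  classical
  induction s using Finset.induction_on with
  | empty =>
    refine ⟨by simp, fun i => ?_⟩
    rw [Finset.prod_empty, Finset.sum_empty, pow_zero, coeff_one]
    split_ifs <;> simp
  | insert j s hj ih =>
    rw [Finset.prod_insert hj, Finset.sum_insert hj, mul_comm (p j ^ a j), add_comm (a j), mul_add,
      pow_add]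
    exact ih.mul_pow (h j) _

theorem DetC_Bd_comp (P Q : ℂ[X]) {C0 : ℝ} (h0 : 1 ≤ C0) : ∃ (n : ℕ) (K : ℝ), 0 ≤ K ∧
    ∀ c : ℂ, ‖c‖ ≤ C0 → DetC_Bd (P.comp (C c * X)) n K ∧ DetC_Bd (Q.comp (C c * X)) n K := by
  have key : ∀ (P : ℂ[X]) (n : ℕ) (K : ℝ), P.natDegree ≤ n →
      ∑ t ∈ Finset.range (n + 1), ‖P.coeff t‖ ≤ K → ∀ c : ℂ, ‖c‖ ≤ C0 →
      DetC_Bd (P.comp (C c * X)) n (K * C0 ^ n) := by
    intro P n K hn hK c hc
    have hK0 : 0 ≤ K := (Finset.sum_nonneg fun _ _ => norm_nonneg _).trans hK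
    refine ⟨natDegree_comp_le.trans ((Nat.mul_le_mul hn (natDegree_C_mul_le c X |>.trans
      natDegree_X_le)).trans (mul_one n).le), fun i => ?_⟩
    rw [comp_C_mul_X_coeff, norm_mul, norm_pow]
    rcases le_or_gt i n with hi | hi
    · refine mul_le_mul (le_trans ?_ hK) ((pow_le_pow_left₀ (norm_nonneg _) hc i).trans
        (pow_le_pow_right₀ h0 hi)) (by positivity) hK0
      exact Finset.single_le_sum (f := fun t => ‖P.coeff t‖) (fun _ _ => norm_nonneg _)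
        (Finset.mem_range.2 (Nat.lt_succ_of_le hi))
    · rw [coeff_eq_zero_of_natDegree_lt (hn.trans_lt hi), norm_zero, zero_mul]
      positivity
  have h1 : ∀ (P : ℂ[X]) (n : ℕ), 0 ≤ ∑ t ∈ Finset.range (n + 1), ‖P.coeff t‖ := fun P n =>
    Finset.sum_nonneg fun _ _ => norm_nonneg _
  set n := max P.natDegree Q.natDegree
  refine ⟨n, (∑ t ∈ Finset.range (n + 1), ‖P.coeff t‖ + ∑ t ∈ Finset.range (n + 1), ‖Q.coeff t‖) *
    C0 ^ n, mul_nonneg (add_nonneg (h1 _ _) (h1 _ _)) (by positivity), fun c hc => ⟨?_, ?_⟩⟩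
  · exact key P n _ (le_max_left _ _) (le_add_of_nonneg_right (h1 _ _)) c hc
  · exact key Q n _ (le_max_right _ _) (le_add_of_nonneg_left (h1 _ _)) c hc

theorem DetC_sep {A B : ℂ[X]} {n : ℕ} {K : ℝ} (hA : DetC_Bd A n K) (hB : DetC_Bd B n K) :
    DegLE (A.map C * C B) n ∧ CoLE (A.map C * C B) (K * K) := by
  have hK : 0 ≤ K := (norm_nonneg _).trans (hA.2 0)
  refine ⟨⟨(natDegree_mul_C_le _ _).trans (natDegree_map_le.trans hA.1), fun i => ?_⟩,
    fun i j => ?_⟩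
  · rw [coeff_mul_C, coeff_map]
    exact (natDegree_C_mul_le _ _).trans hB.1
  · rw [coeff_mul_C, coeff_map, coeff_C_mul, norm_mul]
    exact mul_le_mul (hA.2 _) (hB.2 _) (norm_nonneg _) hK

/-- Rows are monomials of degree `D` in `z_j = ((1 - θ_j s) / (1 + κ_j τ))^(1/k)` (branch near `1`).
Take polynomials `P, P'` with `P^k ≡ 1 + X`, `P'^k (1 + X) ≡ 1 (mod X^(J+1))`, `P(0) = P'(0) = 1`
(induction on `J`); `φ_j = P(-θ_j s) P'(κ_j τ)`; `(z_j/φ_j)^k = 1 + O(ε^(J+1))`, `z_j/φ_j` is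
`O(ε)`-close to `1`, so by `near_root` it is `O(ε^(J+1))`-close to `1` (`ε = Y^(-min r 1)`). Choose
`J` with `min r 1 * J ≥ Theta D^3`, use `det_sub_le`, `det_poly_le`, `weight_lb` with `k0 = 0`. -/
theorem detC (k : ℕ) (hk : 1 ≤ k) (Mk r rho C0 C1 : ℝ) (hr : 0 < r) (hrho : 0 ≤ rho) (hM : 0 ≤ Mk)
    (h0 : 1 ≤ C0) (hC : 0 ≤ C1) : ∃ C : ℝ, 0 ≤ C ∧ ∀ D M : ℕ, Mk * D ^ 2 - C1 * D ≤ M →
      ∃ K' Y0 : ℝ, 0 < K' ∧ ∀ (th κ : Fin 4 → ℂ) (a : Fin M → Fin 4 → ℕ) (Y : ℝ)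
        (τ s : Fin M → ℂ) (z : Fin M → Fin 4 → ℂ), Y0 ≤ Y → (∀ j, ‖th j‖ ≤ C0 ∧ ‖κ j‖ ≤ C0) →
        (∀ i, ∑ j, a i j = D) → (∀ b, ‖τ b‖ ≤ C0 * Y ^ (-r) ∧ ‖s b‖ ≤ C0 * Y⁻¹) →
        (∀ b j, z b j ^ k * (1 + κ j * τ b) = 1 - th j * s b ∧
          ‖z b j - 1‖ ≤ C0 * Y ^ (-min r 1)) →
        ‖(Matrix.of fun i b => ∏ j, z b j ^ a i j).det‖ ≤
          K' * Y ^ (-(Theta Mk 0 0 r rho 0 * D ^ 3 - C * D ^ 2)) := by
  obtain ⟨Cw, hCw, hw⟩ := weight_lb Mk 0 0 r rho 0 C1 hr hrho le_rfl hM le_rfl le_rfl hC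
  refine ⟨Cw, hCw, fun D M hDM => ?_⟩
  generalize hΘ : Theta Mk 0 0 r rho 0 * D ^ 3 - Cw * D ^ 2 = Θ
  have hρ : 0 < min r 1 := lt_min hr one_pos
  obtain ⟨n, hn⟩ : ∃ n : ℕ, Θ ≤ min r 1 * n :=
    ⟨⌈Θ / min r 1⌉₊, (div_le_iff₀' hρ).1 (Nat.le_ceil _)⟩
  obtain ⟨P, Q, B, δ, hB, hδ, hap⟩ := DetC_approx (show k ≠ 0 by omega) n
  obtain ⟨m, K, hK, hPQ⟩ := DetC_Bd_comp P Q h0
  obtain ⟨C2, hC2, hdet⟩ := det_poly_le M (m * D) C0 h0
  have hlim : Filter.Tendsto (fun Y : ℝ => C0 * C0 * Y ^ (-min r 1)) Filter.atTop (nhds 0) := by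
    simpa using (tendsto_rpow_neg_atTop hρ).const_mul (C0 * C0)
  obtain ⟨Y0, hY0⟩ := Filter.eventually_atTop.1
    ((hlim.eventually (gt_mem_nhds hδ)).and (Filter.eventually_ge_atTop 1))
  refine ⟨1 + C2 * (((m + 1) * K) ^ D * ((m + 1) * K) ^ D) ^ M +
    M.factorial * M * (B ^ D) ^ M * (D * B ^ D * (B * (C0 * C0) ^ n)), Y0, by positivity,
    fun th κ a Y τ s z hY hth ha hτ hz => ?_⟩
  obtain ⟨hε, hY1⟩ := hY0 Y hY
  have hYp : 0 < Y := by linarith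
  have hy0 : 0 < Y ^ (-min r 1) := Real.rpow_pos_of_pos hYp _
  have hy1 : Y ^ (-r) ≤ Y ^ (-min r 1) :=
    Real.rpow_le_rpow_of_exponent_le hY1 (neg_le_neg (min_le_left _ _))
  have hy2 : Y⁻¹ ≤ Y ^ (-min r 1) := by
    rw [← Real.rpow_neg_one]
    exact Real.rpow_le_rpow_of_exponent_le hY1 (neg_le_neg (min_le_right _ _))
  have hy3 : (Y ^ (-min r 1)) ^ n ≤ Y ^ (-Θ) := by
    rw [← Real.rpow_natCast, ← Real.rpow_mul hYp.le]
    exact Real.rpow_le_rpow_of_exponent_le hY1 (by linarith)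
  have hcl : ∀ b j, DetC_Cl B (B * (C0 * C0 * Y ^ (-min r 1)) ^ n) (z b j)
      (P.eval (-th j * s b) * Q.eval (κ j * τ b)) 1 := by
    intro b j
    obtain ⟨c1, c2, c3⟩ := hap (-th j * s b) (κ j * τ b) (z b j) _ hε
      (by
        rw [norm_mul, norm_neg, mul_assoc]
        exact mul_le_mul (hth j).1 ((hτ b).2.trans (mul_le_mul_of_nonneg_left hy2 (by linarith)))
          (norm_nonneg _) (by linarith))
      (by
        rw [norm_mul, mul_assoc]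
        exact mul_le_mul (hth j).2 ((hτ b).1.trans (mul_le_mul_of_nonneg_left hy1 (by linarith)))
          (norm_nonneg _) (by linarith))
      ((hz b j).2.trans (by
        rw [mul_assoc]
        exact le_mul_of_one_le_left (by positivity) h0))
      (by rw [(hz b j).1]; ring)
    refine ⟨by simpa using c1, by simpa using c2, c3.trans ?_⟩
    rw [Nat.cast_one, one_mul, pow_one]
    exact le_mul_of_one_le_left (by positivity) hB
  have hcl' : ∀ i b, DetC_Cl B (B * (C0 * C0 * Y ^ (-min r 1)) ^ n) (∏ j, z b j ^ a i j)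
      (∏ j, (P.eval (-th j * s b) * Q.eval (κ j * τ b)) ^ a i j) D := fun i b =>
    ha i ▸ DetC_Cl_prod (hcl b) (a i) Finset.univ
  have h1 := hdet (fun i => (∏ j, P.comp (C (-th j) * X) ^ a i j).map C *
      C (∏ j, Q.comp (C (κ j) * X) ^ a i j)) (((m + 1) * K) ^ D * ((m + 1) * K) ^ D) Y r Θ τ s
    (by positivity) hY1 hr.le
    (fun i => DetC_sep
      (ha i ▸ DetC_Bd_prod (fun j => (hPQ _ (by rw [norm_neg]; exact (hth j).1)).1) (a i) _)
      (ha i ▸ DetC_Bd_prod (fun j => (hPQ _ (hth j).2).2) (a i) _))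
    hτ (fun I hI _ => hΘ ▸ hw D I (by rw [hI]; exact hDM) (by simp))
  have h2 : (Matrix.of fun i b => ((∏ j, P.comp (C (-th j) * X) ^ a i j).map C *
      C (∏ j, Q.comp (C (κ j) * X) ^ a i j)).evalEval (τ b) (s b)) =
      Matrix.of fun i b => ∏ j, (P.eval (-th j * s b) * Q.eval (κ j * τ b)) ^ a i j := by
    ext i b
    simp only [Matrix.of_apply, evalEval_mul, evalEval_map_C, evalEval_C, eval_prod, eval_pow,
      eval_comp, eval_mul, eval_C, eval_X, mul_pow, Finset.prod_mul_distrib]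
  rw [h2] at h1
  have h3 := det_sub_le (Matrix.of fun i b => ∏ j, z b j ^ a i j)
    (Matrix.of fun i b => ∏ j, (P.eval (-th j * s b) * Q.eval (κ j * τ b)) ^ a i j) (B ^ D) _
    (one_le_pow₀ hB) (fun i b => (hcl' i b).1) (fun i b => (hcl' i b).2.1)
    (fun i b => (hcl' i b).2.2)
  rw [Fintype.card_fin, mul_pow (C0 * C0)] at h3
  have h4 := norm_le_insert' (Matrix.of fun i b => ∏ j, z b j ^ a i j).det
    (Matrix.of fun i b => ∏ j, (P.eval (-th j * s b) * Q.eval (κ j * τ b)) ^ a i j).det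
  have h5 := mul_le_mul_of_nonneg_left hy3
    (show 0 ≤ M.factorial * M * (B ^ D) ^ M * (D * B ^ D * (B * (C0 * C0) ^ n)) by positivity)
  have h6 : 0 < Y ^ (-Θ) := Real.rpow_pos_of_pos hYp _
  linarith

end Crest.Agent.R22
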