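import Crest.Agent.R22.Defs

set_option autoImplicit false
open Polynomial IntermediateField

namespace Crest.Agent.R22

variable {d : ℕ}

theorem DivA_prod (g : ℕ → ℝ) (hg : ∀ a, 0 ≤ g a) {ε A B : ℝ} (hε : 0 < ε) (hA : 1 ≤ A)
    (h1 : ∀ x : ℝ, 2 ^ ε ≤ x → ∀ a : ℕ, a ≠ 0 → g a ≤ A * x ^ a)
    (h2 : ∀ x : ℝ, B ≤ x → ∀ a : ℕ, a ≠ 0 → g a ≤ x ^ a) :
    ∃ C : ℝ, 1 ≤ C ∧ ∀ n : ℕ, n ≠ 0 →
      ∏ p ∈ n.primeFactors, g (n.factorization p) ≤ C * (n : ℝ) ^ ε := by
  obtain ⟨P, hP⟩ := Filter.eventually_atTop.1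
    (((tendsto_rpow_atTop hε).comp tendsto_natCast_atTop_atTop).eventually_ge_atTop B)
  refine ⟨A ^ P, one_le_pow₀ hA, fun n hn => ?_⟩
  have e1 : (n : ℝ) ^ ε = ∏ p ∈ n.primeFactors, ((p : ℝ) ^ ε) ^ n.factorization p := by
    conv_lhs => rw [← Nat.prod_factorization_pow_eq_self hn]
    rw [Finsupp.prod, Nat.support_factorization, Nat.cast_prod,
      ← Real.finsetProd_rpow _ _ fun _ _ => Nat.cast_nonneg _]
    refine Finset.prod_congr rfl fun p _ => ?_
    rw [Nat.cast_pow, ← Real.rpow_natCast, ← Real.rpow_mul (Nat.cast_nonneg _), mul_comm,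
      Real.rpow_mul_natCast (Nat.cast_nonneg _)]
  calc _ ≤ ∏ p ∈ n.primeFactors, (if p < P then A else 1) * ((p : ℝ) ^ ε) ^ n.factorization p := by
        refine Finset.prod_le_prod (fun _ _ => hg _) fun p hp => ?_
        have ha : n.factorization p ≠ 0 := Finsupp.mem_support_iff.1 hp
        split_ifs with h
        · refine h1 _ (Real.rpow_le_rpow zero_le_two ?_ hε.le) _ ha
          exact_mod_cast (Nat.prime_of_mem_primeFactors hp).two_le
        · rw [one_mul]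
          exact h2 _ (hP p (not_lt.1 h)) _ ha
    _ ≤ _ := by
        rw [Finset.prod_mul_distrib, ← e1, Finset.prod_ite, Finset.prod_const_one, mul_one,
          Finset.prod_const]
        refine mul_le_mul_of_nonneg_right (pow_le_pow_right₀ hA ?_) (by positivity)
        refine (Finset.card_le_card fun p hp => ?_).trans (Finset.card_range P).le
        exact Finset.mem_range.2 (Finset.mem_filter.1 hp).2

/-- Divisor bound. -/
theorem card_divisors_le (ε : ℝ) (hε : 0 < ε) : ∃ C : ℝ, 1 ≤ C ∧ ∀ n : ℕ, n ≠ 0 →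
    (n.divisors.card : ℝ) ≤ C * (n : ℝ) ^ ε := by
  have hδ : (0 : ℝ) < 2 ^ ε - 1 := sub_pos.2 (Real.one_lt_rpow one_lt_two hε)
  obtain ⟨C, hC, h⟩ := DivA_prod (fun a => (a : ℝ) + 1) (fun a => by positivity) hε
    (A := 1 + 1 / (2 ^ ε - 1)) (B := 2) (le_add_of_nonneg_right (by positivity))
    (fun x hx a _ => by
      have h1 := one_add_mul_le_pow (a := (2 : ℝ) ^ ε - 1) (by linarith) a
      rw [add_sub_cancel] at h1
      have h2 : (1 + 1 / (2 ^ ε - 1)) * (1 + a * (2 ^ ε - 1)) =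
          (a : ℝ) + 1 + (1 / (2 ^ ε - 1) + a * (2 ^ ε - 1)) := by
        field_simp
        ring
      calc (a : ℝ) + 1 ≤ (1 + 1 / (2 ^ ε - 1)) * (1 + a * (2 ^ ε - 1)) := by
            rw [h2]
            exact le_add_of_nonneg_right (by positivity)
        _ ≤ _ := mul_le_mul_of_nonneg_left (h1.trans (pow_le_pow_left₀ (by positivity) hx a))
            (by positivity))
    fun x hx a _ => by
      have h1 : (a : ℝ) + 1 ≤ 2 ^ a := by exact_mod_cast Nat.lt_two_pow_self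
      exact h1.trans (pow_le_pow_left₀ zero_le_two hx a)
  refine ⟨C, hC, fun n hn => le_of_eq_of_le ?_ (h n hn)⟩
  rw [Nat.card_divisors hn]
  push_cast
  rfl

theorem pow_omega_le (N : ℕ) (ε : ℝ) (hε : 0 < ε) : ∃ C : ℝ, 1 ≤ C ∧ ∀ n : ℕ, n ≠ 0 →
    (N : ℝ) ^ n.primeFactors.card ≤ C * (n : ℝ) ^ ε := by
  have h2 : (1 : ℝ) ≤ 2 ^ ε := Real.one_le_rpow one_le_two hε.le
  obtain ⟨C, hC, h⟩ := DivA_prod (fun _ => (N : ℝ)) (fun _ => by positivity) hε
    (A := N + 1) (B := N + 1) (le_add_of_nonneg_left (by positivity))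
    (fun x hx a _ => (le_add_of_nonneg_right zero_le_one).trans
      (le_mul_of_one_le_right (by positivity) (one_le_pow₀ (h2.trans hx))))
    fun x hx a ha => by
      have h0 : (0 : ℝ) ≤ N := Nat.cast_nonneg N
      exact le_trans (by linarith) (le_self_pow₀ (by linarith) ha)
  exact ⟨C, hC, fun n hn => le_of_eq_of_le (Finset.prod_const _).symm (h n hn)⟩

end Crest.Agent.R22
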