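import Crest.Agent.R22.Defs

set_option autoImplicit false
open Polynomial IntermediateField

namespace Crest.Agent.R22

variable {d : ℕ}

/-- `A` has at most `N` divisors. -/
def DivB_bd {R : Type*} [CommRing R] (A : Ideal R) (N : ℕ) : Prop :=
  ∃ S : Finset (Ideal R), S.card ≤ N ∧ ∀ I, I ∣ A → I ∈ S

section
variable {R : Type*} [CommRing R] [IsDedekindDomain R]

theorem DivB_mul {A B : Ideal R} {N M : ℕ} (hA : DivB_bd A N) (hB : DivB_bd B M) :
    DivB_bd (A * B) (N * M) := by
  classical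
  obtain ⟨S, hS, hS'⟩ := hA
  obtain ⟨T, hT, hT'⟩ := hB
  refine ⟨Finset.image₂ (· * ·) S T, (Finset.card_image₂_le _ _ _).trans (Nat.mul_le_mul hS hT),
    fun I hI => ?_⟩
  obtain ⟨I₁, I₂, h1, h2, rfl⟩ := exists_dvd_and_dvd_of_dvd_mul hI
  exact Finset.mem_image₂_of_mem (hS' _ h1) (hT' _ h2)

omit [IsDedekindDomain R] in
theorem DivB_one : DivB_bd (1 : Ideal R) 1 :=
  ⟨{1}, by simp, fun I hI => Finset.mem_singleton.2 (isUnit_iff_eq_one.1 (isUnit_of_dvd_one hI))⟩

theorem DivB_prod (v : ℕ) (s : Multiset (Ideal R)) (hs : ∀ P ∈ s, Prime P) :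
    DivB_bd (s.prod ^ v) ((v + 1) ^ Multiset.card s) := by
  classical
  induction s using Multiset.induction_on with
  | empty => rw [Multiset.prod_zero, one_pow, Multiset.card_zero, pow_zero]; exact DivB_one
  | cons P s ih =>
    rw [Multiset.prod_cons, mul_pow, Multiset.card_cons, pow_succ']
    refine DivB_mul ⟨(Finset.range (v + 1)).image (P ^ ·), Finset.card_image_le.trans (by simp),
      fun I hI => ?_⟩ (ih fun Q hQ => hs Q (Multiset.mem_cons_of_mem hQ))
    obtain ⟨i, hi, h⟩ := (dvd_prime_pow (hs P (Multiset.mem_cons_self _ _)) v).1 hI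
    exact Finset.mem_image.2 ⟨i, Finset.mem_range.2 (Nat.lt_succ_of_le hi),
      (associated_iff_eq.1 h).symm⟩

end

theorem DivB_prime (K : Type*) [Field K] [NumberField K] {p : ℕ} (hp : p.Prime) (v : ℕ) :
    DivB_bd (Ideal.span {((p ^ v : ℕ) : NumberField.RingOfIntegers K)})
      ((v + 1) ^ Module.finrank ℚ K) := by
  classical
  have h0 : Ideal.span {(p : NumberField.RingOfIntegers K)} ≠ 0 := by
    simpa [Ideal.span_singleton_eq_bot] using hp.ne_zero
  obtain ⟨s, hs, hs'⟩ := UniqueFactorizationMonoid.exists_prime_factors _ h0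
  have h1 := associated_iff_eq.1 hs'
  have h2 : (s.map Ideal.absNorm).prod = p ^ Module.finrank ℚ K := by
    rw [← map_multiset_prod, h1, Ideal.absNorm_span_natCast, NumberField.RingOfIntegers.rank]
  have h3 : ∀ x ∈ s.map Ideal.absNorm, p ≤ x := fun x hx => by
    obtain ⟨i, -, hi⟩ := (Nat.dvd_prime_pow hp).1 (h2 ▸ Multiset.dvd_prod hx)
    obtain ⟨P, hP, rfl⟩ := Multiset.mem_map.1 hx
    rcases i with _ | i
    · exact absurd (Ideal.isUnit_iff.2 (Ideal.absNorm_eq_one_iff.1 hi)) (hs P hP).not_isUnit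
    · rw [hi]; exact Nat.le_self_pow (Nat.succ_ne_zero i) p
  have h4 := Multiset.pow_card_le_prod h3
  rw [h2, Multiset.card_map, Nat.pow_le_pow_iff_right hp.one_lt] at h4
  obtain ⟨S, hS, hS'⟩ := DivB_prod v s hs
  rw [Nat.cast_pow, ← Ideal.span_singleton_pow, ← h1]
  exact ⟨S, hS.trans (Nat.pow_le_pow_right (Nat.succ_pos v) h4), hS'⟩

theorem DivB_all (K : Type*) [Field K] [NumberField K] (m : ℕ) (hm : m ≠ 0) :
    DivB_bd (Ideal.span {(m : NumberField.RingOfIntegers K)})
      (m.divisors.card ^ Module.finrank ℚ K) := by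
  induction m using Nat.recOnPosPrimePosCoprime with
  | zero => exact absurd rfl hm
  | one => simpa using (DivB_one (R := NumberField.RingOfIntegers K))
  | prime_pow p n hp _ =>
    rw [Nat.divisors_prime_pow hp, Finset.card_map, Finset.card_range]
    exact DivB_prime K hp n
  | coprime a b ha hb hab iha ihb =>
    rw [hab.card_divisors_mul, mul_pow, Nat.cast_mul, ← Ideal.span_singleton_mul_span_singleton]
    exact DivB_mul (iha (by omega)) (ihb (by omega))

/-- Ideal divisors of an integer in a number field of degree `≤ E`: above each prime `p ∣ m` lie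
`≤ E` primes, each with exponent `≤ E v_p(m)`, and `(E v + 1)^E ≤ (v+1)^(E²)`. -/
theorem card_ideal_divisors (K : Type*) [Field K] [NumberField K] (E : ℕ)
    (hE : Module.finrank ℚ K ≤ E) (m : ℕ) (hm : m ≠ 0) (T : Finset (Ideal (NumberField.RingOfIntegers K)))
    (hT : ∀ I ∈ T, I ∣ Ideal.span {(m : NumberField.RingOfIntegers K)}) :
    T.card ≤ m.divisors.card ^ (E * E) := by
  obtain ⟨S, hS, hS'⟩ := DivB_all K m hm
  exact (Finset.card_le_card fun I hI => hS' I (hT I hI)).trans (hS.trans (Nat.pow_le_pow_right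
    (Finset.card_pos.2 ⟨1, Nat.one_mem_divisors.2 hm⟩) (hE.trans (Nat.le_mul_self E))))

end Crest.Agent.R22
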