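import Crest.Agent.R22.DivA
import Crest.Agent.R22.DivB

set_option autoImplicit false
open Polynomial IntermediateField

namespace Crest.Agent.R22

variable {d : ℕ}

/-- Uniform Northcott bound. -/
theorem DivBd_northcott (E : ℕ) : ∃ N : ℕ, ∀ (K : Type) [Field K] [NumberField K],
    Module.finrank ℚ K ≤ E → ∀ S : Finset K,
      (∀ x ∈ S, IsIntegral ℤ x ∧ ∀ φ : K →+* ℂ, ‖φ x‖ ≤ 2) → S.card ≤ N := by
  classical
  have hf := bUnion_roots_finite (algebraMap ℤ ℂ) E (Set.finite_Icc (-(4 ^ E) : ℤ) (4 ^ E))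
  refine ⟨hf.toFinset.card, fun K _ _ hE S hS => ?_⟩
  obtain ⟨φ⟩ : Nonempty (K →+* ℂ) := inferInstance
  refine Finset.card_le_card_of_injOn φ (fun x hx => ?_) φ.injective.injOn
  obtain ⟨h1, h2⟩ := hS x hx
  have hm := minpoly.isIntegrallyClosed_eq_field_fractions' ℚ h1
  rw [Set.Finite.coe_toFinset]
  simp_rw [Set.mem_iUnion]
  refine ⟨minpoly ℤ x, ⟨?_, fun i => ?_⟩, ?_⟩
  · rw [← (minpoly.monic h1).natDegree_map (algebraMap ℤ ℚ), ← hm]
    exact (minpoly.natDegree_le x).trans hE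
  · rw [Set.mem_Icc, ← abs_le, ← @Int.cast_le ℝ]
    have h3 := NumberField.Embeddings.coeff_bdd_of_norm_le h2 i
    rw [hm, coeff_map, eq_intCast, Int.norm_cast_rat, Int.norm_eq_abs, ← Int.cast_abs] at h3
    refine h3.trans ?_
    have h4 : ((Module.finrank ℚ K).choose (Module.finrank ℚ K / 2) : ℝ) ≤
        2 ^ Module.finrank ℚ K := by
      exact_mod_cast Nat.choose_le_two_pow _ _
    rw [max_eq_left (by norm_num)]
    push_cast
    calc (2 : ℝ) ^ Module.finrank ℚ K * ((Module.finrank ℚ K).choose (Module.finrank ℚ K / 2) : ℝ)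
        ≤ 2 ^ Module.finrank ℚ K * 2 ^ Module.finrank ℚ K := by gcongr
      _ = 4 ^ Module.finrank ℚ K := by rw [← mul_pow]; norm_num
      _ ≤ 4 ^ E := pow_le_pow_right₀ (by norm_num) hE
  · rw [Finset.mem_coe, Multiset.mem_toFinset, mem_roots ((minpoly.monic h1).map _).ne_zero,
      IsRoot.def, eval_map_algebraMap]
    have h3 := aeval_algHom_apply φ.toIntAlgHom x (minpoly ℤ x)
    rw [minpoly.aeval, map_zero] at h3
    exact h3

/-- Lower bound for the conjugates of a nonzero algebraic integer. -/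
theorem DivBd_lower {K : Type} [Field K] [NumberField K] {E : ℕ} (hE : Module.finrank ℚ K ≤ E)
    {Y : ℝ} (hY : 1 ≤ Y) {ξ : NumberField.RingOfIntegers K} (h0 : ξ ≠ 0)
    (h : ∀ φ : K →+* ℂ, ‖φ ξ‖ ≤ Y) (φ : K →+* ℂ) : 1 ≤ ‖φ ξ‖ * Y ^ E := by
  have h1 := NumberField.norm_norm_le_norm_mul_house_pow (ξ : K) φ
  have h2 : NumberField.house (ξ : K) ≤ Y := by
    rw [NumberField.house, pi_norm_le_iff_of_nonneg (by linarith)]
    exact fun ψ => h ψ
  have h3 : (1 : ℝ) ≤ ‖Algebra.norm ℚ (ξ : K)‖ := by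
    rw [← Algebra.coe_norm_int, Int.norm_cast_rat, Int.norm_eq_abs, ← Int.cast_abs]
    exact_mod_cast Int.one_le_abs (Algebra.norm_ne_zero_iff.mpr h0)
  refine h3.trans (h1.trans (mul_le_mul_of_nonneg_left ?_ (norm_nonneg _)))
  exact (pow_le_pow_left₀ (NumberField.house_nonneg _) h2 _).trans
    (pow_le_pow_right₀ hY ((Nat.sub_le _ _).trans hE))

theorem DivBd_log (η : ℝ) (hη : 0 < η) : ∃ c : ℝ, 1 ≤ c ∧ ∀ L : ℕ,
    (L + 1 : ℝ) ≤ c * ((2 : ℝ) ^ L) ^ η := by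
  have hs : 1 < (2 : ℝ) ^ η := Real.one_lt_rpow (by norm_num) hη
  set s := (2 : ℝ) ^ η with hs'
  refine ⟨1 + 1 / (s - 1), le_add_of_nonneg_right (by have := sub_pos.2 hs; positivity),
    fun L => ?_⟩
  have h1 : ((2 : ℝ) ^ L) ^ η = s ^ L := by
    rw [hs', ← Real.rpow_natCast, ← Real.rpow_natCast, ← Real.rpow_mul (by norm_num),
      ← Real.rpow_mul (by norm_num), mul_comm]
  have h2 := one_add_mul_le_pow (a := s - 1) (by linarith) L
  rw [add_sub_cancel] at h2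
  have h3 : 0 < s - 1 := sub_pos.2 hs
  have h4 : (L : ℝ) ≤ 1 / (s - 1) * s ^ L := by
    rw [one_div, ← div_eq_inv_mul, le_div_iff₀ h3]
    linarith
  have h5 : 1 ≤ s ^ L := one_le_pow₀ hs.le
  rw [h1]
  linarith

/-- The count in terms of ideals and dyadic ranges. -/
theorem DivBd_count {E N : ℕ} {K : Type} [Field K] [NumberField K] (hE : Module.finrank ℚ K ≤ E)
    (hN : ∀ S : Finset K, (∀ x ∈ S, IsIntegral ℤ x ∧ ∀ φ : K →+* ℂ, ‖φ x‖ ≤ 2) → S.card ≤ N)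
    {m L : ℕ} {Y : ℝ} (hm : m ≠ 0) (hY : 1 ≤ Y) (hL : Y ^ (E + 1) < 2 ^ (L + 1))
    (T : Finset (NumberField.RingOfIntegers K))
    (hT : ∀ ξ ∈ T, ξ ∣ (m : NumberField.RingOfIntegers K) ∧ ∀ φ : K →+* ℂ, ‖φ ξ‖ ≤ Y) :
    T.card ≤ N * (m.divisors.card ^ (E * E) * (L + 1) ^ E) := by
  classical
  have h0 : ∀ ξ ∈ T, ξ ≠ 0 := fun ξ hξ =>
    ne_zero_of_dvd_ne_zero (Nat.cast_ne_zero.2 hm) (hT ξ hξ).1
  have hk : ∀ (ξ : NumberField.RingOfIntegers K) (φ : K →+* ℂ), ∃ k : ℕ, ξ ∈ T →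
      (2 : ℝ) ^ k ≤ ‖φ ξ‖ * Y ^ E ∧ ‖φ ξ‖ * Y ^ E < 2 ^ (k + 1) := by
    intro ξ φ
    by_cases hξ : ξ ∈ T
    · obtain ⟨k, hk⟩ := exists_nat_pow_near (DivBd_lower hE hY (h0 ξ hξ) (hT ξ hξ).2 φ)
        (one_lt_two (α := ℝ))
      exact ⟨k, fun _ => hk⟩
    · exact ⟨0, fun h => absurd h hξ⟩
  choose k hk using hk
  have hYE : 0 < Y ^ E := by positivity
  refine (Finset.card_le_mul_card_image_of_maps_to
    (f := fun ξ => (Ideal.span {ξ}, k ξ))
    (t := (T.image fun ξ => Ideal.span {ξ}) ×ˢ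
      Fintype.piFinset fun _ : K →+* ℂ => Finset.range (L + 1)) (fun ξ hξ => ?_) N
    fun b _ => ?_).trans (Nat.mul_le_mul_left _ ?_)
  · refine Finset.mem_product.2 ⟨Finset.mem_image_of_mem _ hξ, Fintype.mem_piFinset.2 fun φ => ?_⟩
    rw [Finset.mem_range, ← pow_lt_pow_iff_right₀ (one_lt_two (α := ℝ))]
    refine lt_of_le_of_lt ((hk ξ φ hξ).1.trans ?_) hL
    rw [pow_succ']
    exact mul_le_mul_of_nonneg_right ((hT ξ hξ).2 φ) hYE.le
  · rcases Finset.eq_empty_or_nonempty (T.filter fun ξ => (Ideal.span {ξ}, k ξ) = b) with h | h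
    · rw [h]
      exact Nat.zero_le _
    obtain ⟨ξ₀, hξ₀⟩ := h
    obtain ⟨h1, h2⟩ := Finset.mem_filter.1 hξ₀
    have h3 : (ξ₀ : K) ≠ 0 := by
      simpa using h0 ξ₀ h1
    have hinj : Function.Injective fun ξ : NumberField.RingOfIntegers K => (ξ : K) / ξ₀ :=
      fun x y hxy => NumberField.RingOfIntegers.ext ((div_left_inj' h3).1 hxy)
    rw [← Finset.card_image_of_injective _ hinj]
    refine hN _ fun x hx => ?_
    obtain ⟨ξ, hξ, rfl⟩ := Finset.mem_image.1 hx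
    obtain ⟨h4, h5⟩ := Finset.mem_filter.1 hξ
    obtain ⟨h6, h7⟩ := Prod.ext_iff.1 (h5.trans h2.symm)
    refine ⟨?_, fun φ => ?_⟩
    · obtain ⟨u, hu⟩ := (Ideal.span_singleton_eq_span_singleton.1 h6).symm.dvd
      have : (ξ : K) / ξ₀ = u := by
        rw [div_eq_iff h3, hu]
        simp [mul_comm]
      rw [this]
      exact u.isIntegral_coe
    · have h8 := (hk ξ φ h4).2
      have h9 := (hk ξ₀ φ h1).1
      have h10 : k ξ φ = k ξ₀ φ := congrFun h7 φ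
      have h11 : 0 < ‖φ ξ₀‖ := norm_pos_iff.2 ((map_ne_zero φ).2 h3)
      rw [map_div₀, norm_div, div_le_iff₀ h11]
      rw [h10, pow_succ] at h8
      refine le_of_mul_le_mul_right ?_ hYE
      linarith
  · rw [Finset.card_product, Fintype.card_piFinset, Finset.prod_const, Finset.card_range,
      Finset.card_univ, NumberField.Embeddings.card]
    refine Nat.mul_le_mul (card_ideal_divisors K E hE m hm _ fun I hI => ?_)
      (Nat.pow_le_pow_right (Nat.succ_pos L) hE)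
    obtain ⟨ξ, hξ, rfl⟩ := Finset.mem_image.1 hI
    exact Ideal.dvd_iff_le.2 (Ideal.span_singleton_le_span_singleton.2 (hT ξ hξ).1)

/-- Uniform count of the divisors of `m` of bounded house in number fields of degree `≤ E`. Group by
the ideal and by the dyadic size of each conjugate (`Y^(-E) ≤ ‖φ ξ‖ ≤ Y` since the norm is a nonzero
integer); two elements of a group differ by a unit with all conjugates `≤ 2`, a root of one of
boundedly many integer polynomials of degree `≤ E`. -/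
theorem card_elt_divisors (E : ℕ) (ε : ℝ) (hε : 0 < ε) : ∃ C : ℝ, 1 ≤ C ∧
    ∀ (K : Type) [Field K] [NumberField K], Module.finrank ℚ K ≤ E → ∀ (m : ℕ) (Y : ℝ), m ≠ 0 →
      2 ≤ Y → ∀ T : Finset (NumberField.RingOfIntegers K),
        (∀ ξ ∈ T, ξ ∣ (m : NumberField.RingOfIntegers K) ∧ ∀ φ : K →+* ℂ, ‖φ ξ‖ ≤ Y) →
        (T.card : ℝ) ≤ C * (m * Y) ^ ε := by
  obtain ⟨N, hN⟩ := DivBd_northcott E
  obtain ⟨C₁, hC₁, h₁⟩ := card_divisors_le (ε / (E * E + 1)) (by positivity)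
  obtain ⟨c, hc, h₂⟩ := DivBd_log (ε / ((E + 1) * (E + 1))) (by positivity)
  refine ⟨(N + 1) * (C₁ ^ (E * E) * c ^ E), one_le_mul_of_one_le_of_one_le
    (le_add_of_nonneg_left (Nat.cast_nonneg N))
    (one_le_mul_of_one_le_of_one_le (one_le_pow₀ hC₁) (one_le_pow₀ hc)),
    fun K _ _ hE m Y hm hY T hT => ?_⟩
  have hY1 : 1 ≤ Y := by linarith
  have hm1 : (1 : ℝ) ≤ m := by exact_mod_cast Nat.one_le_iff_ne_zero.2 hm
  obtain ⟨L, hL1, hL2⟩ := exists_nat_pow_near (one_le_pow₀ (n := E + 1) hY1) (one_lt_two (α := ℝ))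
  have h1 : (T.card : ℝ) ≤ N * ((m.divisors.card : ℝ) ^ (E * E) * (L + 1 : ℝ) ^ E) := by
    exact_mod_cast DivBd_count hE (hN K hE) hm hY1 hL2 T hT
  have h2 : (m.divisors.card : ℝ) ^ (E * E) ≤ C₁ ^ (E * E) * (m : ℝ) ^ ε := by
    refine (pow_le_pow_left₀ (Nat.cast_nonneg _) (h₁ m hm) _).trans ?_
    rw [mul_pow, ← Real.rpow_natCast ((m : ℝ) ^ _), ← Real.rpow_mul (by linarith)]
    refine mul_le_mul_of_nonneg_left (Real.rpow_le_rpow_of_exponent_le hm1 ?_) (by positivity)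
    rw [div_mul_eq_mul_div, div_le_iff₀ (by positivity)]
    push_cast
    nlinarith
  have h3 : (L + 1 : ℝ) ^ E ≤ c ^ E * Y ^ ε := by
    have h4 : ((2 : ℝ) ^ L) ^ (ε / ((E + 1) * (E + 1))) ≤
        (Y ^ (E + 1)) ^ (ε / ((E + 1) * (E + 1))) :=
      Real.rpow_le_rpow (by positivity) hL1 (by positivity)
    refine (pow_le_pow_left₀ (by positivity)
      ((h₂ L).trans (mul_le_mul_of_nonneg_left h4 (by linarith))) _).trans ?_
    rw [mul_pow, ← Real.rpow_natCast Y, ← Real.rpow_mul (by linarith),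
      ← Real.rpow_natCast (Y ^ _), ← Real.rpow_mul (by linarith)]
    refine mul_le_mul_of_nonneg_left (Real.rpow_le_rpow_of_exponent_le hY1 ?_) (by positivity)
    push_cast
    have e : ((E : ℝ) + 1) * (ε / ((E + 1) * (E + 1))) * E = ε * E / (E + 1) := by
      field_simp
    rw [e, div_le_iff₀ (by positivity)]
    nlinarith
  rw [Real.mul_rpow (by linarith) (by linarith)]
  calc (T.card : ℝ) ≤ _ := h1
    _ ≤ (N + 1) * ((C₁ ^ (E * E) * (m : ℝ) ^ ε) * (c ^ E * Y ^ ε)) := by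
      gcongr
      linarith
    _ = _ := by ring

end Crest.Agent.R22
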