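import Crest.Agent.R22.Defs

set_option autoImplicit false
open Polynomial IntermediateField

namespace Crest.Agent.R22

/-- Shift invariance of the homogenised substitution. -/
theorem E2_shift {S : Type*} [CommRing S] (g : S[X]) (e : ℕ) (he : g.natDegree ≤ e) (a R P : S) :
    ∑ i ∈ Finset.range (e + 1), g.coeff i * R ^ i * P ^ (e - i) =
      ∑ i ∈ Finset.range (e + 1), (taylor a g).coeff i * (R - a * P) ^ i * P ^ (e - i) := by
  have hc : ∀ i, (taylor a g).coeff i =
      ∑ j ∈ Finset.range (e + 1), (j.choose i : S) * g.coeff j * a ^ (j - i) := by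
    intro i
    rw [taylor_coeff, hasseDeriv_apply, Polynomial.sum_over_range' _ (by simp) (e + 1) (by omega),
      eval_finsetSum]
    simp [eval_monomial]
  simp_rw [hc, Finset.sum_mul]
  rw [Finset.sum_comm]
  refine Finset.sum_congr rfl fun j hj => ?_
  have hje : j ≤ e := by simpa [Nat.lt_succ_iff] using hj
  have h1 : ∑ i ∈ Finset.range (e + 1),
      (j.choose i : S) * g.coeff j * a ^ (j - i) * (R - a * P) ^ i * P ^ (e - i) =
      ∑ i ∈ Finset.range (j + 1),
      (j.choose i : S) * g.coeff j * a ^ (j - i) * (R - a * P) ^ i * P ^ (e - i) := by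
    symm
    refine Finset.sum_subset (Finset.range_mono (by omega)) fun i _ hi => ?_
    have : j < i := by simpa [Nat.lt_succ_iff] using hi
    simp [Nat.choose_eq_zero_of_lt this]
  rw [h1]
  have h2 : R ^ j = ∑ i ∈ Finset.range (j + 1), (R - a * P) ^ i * (a * P) ^ (j - i) *
      (j.choose i : S) := by
    rw [← add_pow]; congr 1; ring
  rw [h2, Finset.mul_sum, Finset.sum_mul]
  refine Finset.sum_congr rfl fun i hi => ?_
  have hij : i ≤ j := by simpa [Nat.lt_succ_iff] using hi
  have : e - i = (j - i) + (e - j) := by omega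
  rw [this, pow_add, mul_pow]; ring

/-- A nondegenerate Möbius substitution is injective on forms. -/
theorem E2_indep (a : ℕ → ℂ) (e : ℕ) (s0 s1 p0 p1 : ℂ) (hdet : s1 * p0 - s0 * p1 ≠ 0)
    (h : ∀ y : ℂ, ∑ i ∈ Finset.range (e + 1), a i * (s0 + y * s1) ^ i * (p0 + y * p1) ^ (e - i) = 0) :
    ∀ i ≤ e, a i = 0 := by
  set q : ℂ[X] := ∑ i ∈ Finset.range (e + 1), C (a i) * X ^ i with hq
  have hl : (C s1 - C p1 * X : ℂ[X]) ≠ 0 := by
    intro h0
    have h1 := congrArg (fun p => p.coeff 0) h0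
    have h2 := congrArg (fun p => p.coeff 1) h0
    simp [coeff_X, coeff_C] at h1 h2
    apply hdet; rw [h1, h2]; ring
  have hz : q * (C s1 - C p1 * X) = 0 := by
    apply Polynomial.funext
    intro w
    simp only [eval_mul, eval_sub, eval_C, eval_X, eval_zero]
    by_cases hw : s1 - p1 * w = 0
    · rw [hw, mul_zero]
    obtain ⟨y, hy⟩ : ∃ y, y * (s1 - p1 * w) = w * p0 - s0 := ⟨_, div_mul_cancel₀ _ hw⟩
    have hP : p0 + y * p1 ≠ 0 := by
      intro h0
      apply hdet
      linear_combination (s1 - p1 * w) * h0 - p1 * hy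
    have hS : s0 + y * s1 = w * (p0 + y * p1) := by linear_combination hy
    have h3 := h y
    rw [hS] at h3
    set Pv := p0 + y * p1
    have h4 : ∑ i ∈ Finset.range (e + 1), a i * (w * Pv) ^ i * Pv ^ (e - i) =
        q.eval w * Pv ^ e := by
      rw [hq, eval_finsetSum, Finset.sum_mul]
      refine Finset.sum_congr rfl fun i hi => ?_
      have hie : i ≤ e := by simpa [Nat.lt_succ_iff] using hi
      have : Pv ^ e = Pv ^ i * Pv ^ (e - i) := by rw [← pow_add]; congr 1; omega
      rw [this]; simp only [eval_mul, eval_C, eval_pow, eval_X]; ring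
    rw [h4] at h3
    rw [(mul_eq_zero.mp h3).resolve_right (pow_ne_zero _ hP), zero_mul]
  have hq0 : q = 0 := (mul_eq_zero.mp hz).resolve_right hl
  intro i hi
  have := congrArg (fun p => p.coeff i) hq0
  simp only [hq, finsetSum_coeff, coeff_C_mul_X_pow, coeff_zero] at this
  rw [Finset.sum_ite_eq] at this
  simpa [Nat.lt_succ_iff, hi] using this

/-- Local version: divisibility by a power of a linear polynomial. -/
theorem E2_local (π : ℂ[X]) (t0 : ℂ) (hπ0 : π ≠ 0) (hπ : ∀ p : ℂ[X], π ∣ p ↔ p.eval t0 = 0)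
    (e : ℕ) (S0 S1 P0 P1 : ℂ[X]) (hdet : (S1 * P0 - S0 * P1).eval t0 ≠ 0) (r : ℕ) :
    ∀ h : ℕ → ℂ[X], (∀ y : ℂ, π ^ r ∣ ∑ i ∈ Finset.range (e + 1),
      h i * (S0 + C y * S1) ^ i * (P0 + C y * P1) ^ (e - i)) → ∀ i ≤ e, π ^ r ∣ h i := by
  induction r with
  | zero => intro h _ i _; simp
  | succ r ih =>
    intro h hh
    have h1 : ∀ i ≤ e, π ∣ h i := by
      intro i hi
      rw [hπ]
      refine E2_indep (fun i => (h i).eval t0) e (S0.eval t0) (S1.eval t0) (P0.eval t0) (P1.eval t0)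
        (by simpa using hdet) (fun y => ?_) i hi
      have := (hπ _).mp ((dvd_pow_self π (Nat.succ_ne_zero r)).trans (hh y))
      simpa [eval_finsetSum] using this
    have h2 : ∀ i, ∃ q : ℂ[X], i ≤ e → h i = π * q := by
      intro i
      by_cases hi : i ≤ e
      · obtain ⟨q, hq⟩ := h1 i hi
        exact ⟨q, fun _ => hq⟩
      · exact ⟨0, fun h => absurd h hi⟩
    choose q hq using h2
    have h3 := ih q (fun y => by
      have h4 := hh y
      have h5 : ∑ i ∈ Finset.range (e + 1),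
          h i * (S0 + C y * S1) ^ i * (P0 + C y * P1) ^ (e - i) = π * ∑ i ∈ Finset.range (e + 1),
          q i * (S0 + C y * S1) ^ i * (P0 + C y * P1) ^ (e - i) := by
        rw [Finset.mul_sum]
        refine Finset.sum_congr rfl fun i hi => ?_
        rw [hq i (by simpa [Nat.lt_succ_iff] using hi)]; ring
      rw [h5, pow_succ'] at h4
      exact (mul_dvd_mul_iff_left hπ0).mp h4)
    intro i hi
    rw [hq i hi, pow_succ']
    exact mul_dvd_mul_left _ (h3 i hi)

/-- The top coefficient. -/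
theorem E2_top (e D N : ℕ) (h : ℕ → ℂ[X]) (hD : ∀ i, (h i).natDegree ≤ D) (i0 : ℕ) (hi0 : i0 ≤ e)
    (hne : (h i0).coeff D ≠ 0) (S0 S1 P0 P1 : ℂ[X]) (hS0 : S0.natDegree ≤ N)
    (hS1 : S1.natDegree ≤ N) (hP0 : P0.natDegree ≤ N) (hP1 : P1.natDegree ≤ N)
    (hdet : S1.coeff N * P0.coeff N - S0.coeff N * P1.coeff N ≠ 0) :
    ∃ y : ℂ, (∑ i ∈ Finset.range (e + 1),
      h i * (S0 + C y * S1) ^ i * (P0 + C y * P1) ^ (e - i)).coeff (D + e * N) ≠ 0 := by
  by_contra hcon
  push Not at hcon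
  apply hne
  refine E2_indep (fun i => (h i).coeff D) e _ _ _ _ hdet (fun y => ?_) i0 hi0
  rw [← hcon y, finsetSum_coeff]
  refine Finset.sum_congr rfl fun i hi => ?_
  have hie : i ≤ e := by simpa [Nat.lt_succ_iff] using hi
  have hS : (S0 + C y * S1).natDegree ≤ N :=
    (natDegree_add_le _ _).trans (max_le hS0 ((natDegree_C_mul_le _ _).trans hS1))
  have hP : (P0 + C y * P1).natDegree ≤ N :=
    (natDegree_add_le _ _).trans (max_le hP0 ((natDegree_C_mul_le _ _).trans hP1))
  have he : D + e * N = (D + i * N) + (e - i) * N := by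
    rw [add_assoc, ← add_mul]; congr 2; omega
  have hSi : ((S0 + C y * S1) ^ i).natDegree ≤ i * N :=
    natDegree_pow_le.trans (Nat.mul_le_mul_left _ hS)
  have hPi : ((P0 + C y * P1) ^ (e - i)).natDegree ≤ (e - i) * N :=
    natDegree_pow_le.trans (Nat.mul_le_mul_left _ hP)
  rw [he, coeff_mul_add_eq_of_natDegree_le
    (natDegree_mul_le.trans (add_le_add (hD i) hSi)) hPi,
    coeff_mul_add_eq_of_natDegree_le (hD i) hSi, coeff_pow_of_natDegree_le hS,
    coeff_pow_of_natDegree_le hP]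
  simp

theorem E2_coeff_le_degT (g : ℂ[X][X]) (i : ℕ) : (g.coeff i).natDegree ≤ degT g := by
  by_cases hi : i ∈ g.support
  · exact Finset.le_sup (f := fun i => (g.coeff i).natDegree) hi
  · rw [notMem_support_iff.mp hi]; simp

theorem E2_exists_top (g : ℂ[X][X]) (hg : g ≠ 0) :
    ∃ i ≤ g.natDegree, (g.coeff i).coeff (degT g) ≠ 0 := by
  obtain ⟨i, hi, hs⟩ := Finset.exists_mem_eq_sup g.support (support_nonempty.mpr hg)
    (fun i => (g.coeff i).natDegree)
  refine ⟨i, le_natDegree_of_mem_supp i hi, ?_⟩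
  unfold degT
  rw [hs]
  exact leadingCoeff_ne_zero.mpr (mem_support_iff.mp hi)

theorem E2_eval_le_degT (g : ℂ[X][X]) (y : ℂ) : (g.eval (C y)).natDegree ≤ degT g := by
  rw [eval_eq_sum_range]
  refine natDegree_sum_le_of_forall_le _ _ fun i _ => ?_
  rw [← C_pow]
  exact (natDegree_mul_C_le _ _).trans (E2_coeff_le_degT g i)

/-- A linear polynomial has a root which detects divisibility. -/
theorem E2_lin_root (p : ℂ[X]) (hp : p.natDegree = 1) :
    ∃ z : ℂ, ∀ q : ℂ[X], p ∣ q ↔ q.eval z = 0 := by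
  obtain ⟨a, ha, b, rfl⟩ := natDegree_eq_one.mp hp
  refine ⟨-b / a, fun q => ?_⟩
  have h1 : C a * X + C b = C a * (X - C (-b / a)) := by
    rw [mul_sub, ← C_mul, mul_div_cancel₀ _ ha]; simp
  rw [h1, (isUnit_C.mpr (IsUnit.mk0 a ha)).mul_left_dvd, dvd_iff_isRoot, IsRoot.def]

/-- Generic choice of a vector. -/
theorem E2_generic {d : ℕ} {ι : Type*} [Finite ι] (φ : ι → Fin d → ℂ) (hφ : ∀ i, φ i ≠ 0) :
    ∃ lam : Fin d → ℂ, ∀ i, ∑ j, lam j * φ i j ≠ 0 := by
  obtain ⟨f, hf⟩ := Module.exists_dual_forall_apply_ne_zero (K := ℂ) φ hφ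
  refine ⟨fun j => f (Pi.single j 1), fun i => ?_⟩
  have : f (φ i) = ∑ j, f (Pi.single j 1) * φ i j := by
    conv_lhs => rw [← Finset.univ_sum_single (φ i)]
    rw [map_sum]
    refine Finset.sum_congr rfl fun j _ => ?_
    have : (Pi.single j (φ i j) : Fin d → ℂ) = φ i j • Pi.single j 1 := by
      rw [← Pi.single_smul]; simp
    rw [this, map_smul, smul_eq_mul, mul_comm]
  rw [← this]; exact hf i

/-- An irreducible polynomial of positive degree has no common root of the coefficients of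
its shifts. -/
theorem E2_prim (g : ℂ[X][X]) (hg : Irreducible g) (h1 : 1 ≤ g.natDegree) (a : ℂ[X]) (t0 : ℂ) :
    ∃ i ≤ g.natDegree, ((taylor a g).coeff i).eval t0 ≠ 0 := by
  by_contra hcon
  push Not at hcon
  have hirr : Irreducible (taylor a g) := (MulEquiv.irreducible_iff (taylorEquiv a)).mpr hg
  have hdeg : (taylor a g).natDegree = g.natDegree := natDegree_taylor _ _
  have hp := hirr.isPrimitive (by omega)
  have hdvd : C (X - C t0) ∣ taylor a g := by
    rw [C_dvd_iff_dvd_coeff]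
    intro i
    by_cases hi : i ≤ g.natDegree
    · exact dvd_iff_isRoot.mpr (hcon i hi)
    · rw [coeff_eq_zero_of_natDegree_lt (by omega)]; exact dvd_zero _
  exact not_isUnit_X_sub_C t0 (hp _ hdvd)

theorem E2_eval_ne (g : ℂ[X][X]) (hg : Irreducible g) (h2 : 2 ≤ g.natDegree) (a : ℂ[X]) :
    g.eval a ≠ 0 := by
  intro h0
  have hd : X - C a ∣ g := dvd_iff_isRoot.mpr h0
  have := (hg.dvd_iff.mp hd).resolve_left (not_isUnit_X_sub_C a)
  have h3 := natDegree_eq_of_degree_eq (degree_eq_degree_of_associated this)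
  rw [natDegree_X_sub_C] at h3
  omega

/-- Degree of a polynomial from bounds on the multiplicities of the roots. -/
theorem E2_deg_le {d : ℕ} (c : ℂ[X]) (z : Fin d → ℂ) (cj : Fin d → ℕ)
    (h : ∀ t0 r, 1 ≤ r → (X - C t0) ^ r ∣ c → ∃ j, t0 = z j ∧ r ≤ cj j) :
    c.natDegree ≤ ∑ j, cj j := by
  classical
  have hs : c.Splits := IsAlgClosed.splits c
  rw [hs.natDegree_eq_card_roots]
  have hle : c.roots ≤ ∑ j, Multiset.replicate (cj j) (z j) := by
    rw [Multiset.le_iff_count]
    intro t0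
    rw [count_roots]
    rcases Nat.eq_zero_or_pos (rootMultiplicity t0 c) with h0 | h0
    · rw [h0]; exact Nat.zero_le _
    obtain ⟨j, rfl, hj⟩ := h t0 _ h0 (pow_rootMultiplicity_dvd c t0)
    refine hj.trans ?_
    rw [Multiset.count_sum']
    refine le_trans ?_ (Finset.single_le_sum (f := fun i => Multiset.count (z j)
      (Multiset.replicate (cj i) (z i))) (fun _ _ => Nat.zero_le _) (Finset.mem_univ j))
    simp
  simpa using Multiset.card_le_card hle

end Crest.Agent.R22
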