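import Crest.Agent.R22.NF

set_option autoImplicit false
open Polynomial IntermediateField

namespace Crest.Agent.R22

variable {d : ℕ}

theorem Quart1_zero (a0 a1 a2 : ℂ) :
    ∃ x y : ℂ, (x ≠ 0 ∨ y ≠ 0) ∧ a0 * x ^ 2 + a1 * x * y + a2 * y ^ 2 = 0 := by
  by_cases h : a0 = 0
  · exact ⟨1, 0, Or.inl one_ne_zero, by simp [h]⟩
  · obtain ⟨x, hx⟩ := exists_quadratic_eq_zero (b := a1) (c := a2) h
      (IsAlgClosed.exists_eq_mul_self _)
    exact ⟨x, 1, Or.inr one_ne_zero, by linear_combination hx⟩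

/-- `res2 = 0` iff the two binary quadratic forms have a common zero in `ℙ¹(ℂ)`. -/
theorem res2_eq_zero_iff (a0 a1 a2 b0 b1 b2 : ℂ) : res2 a0 a1 a2 b0 b1 b2 = 0 ↔
    ∃ x y : ℂ, (x ≠ 0 ∨ y ≠ 0) ∧ a0 * x ^ 2 + a1 * x * y + a2 * y ^ 2 = 0 ∧
      b0 * x ^ 2 + b1 * x * y + b2 * y ^ 2 = 0 := by
  unfold res2
  constructor
  · intro h
    by_cases hv : a0 * b1 - a1 * b0 = 0
    swap
    · exact ⟨a0 * b2 - a2 * b0, -(a0 * b1 - a1 * b0), Or.inr (neg_ne_zero.2 hv),
        by linear_combination a0 * h, by linear_combination b0 * h⟩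
    by_cases hw : a1 * b2 - a2 * b1 = 0
    swap
    · exact ⟨a1 * b2 - a2 * b1, -(a0 * b2 - a2 * b0), Or.inl hw,
        by linear_combination a2 * h, by linear_combination b2 * h⟩
    have hu : a0 * b2 - a2 * b0 = 0 := by
      rw [hv, zero_mul, sub_zero] at h
      exact pow_eq_zero_iff two_ne_zero |>.1 h
    by_cases ha : a0 = 0 ∧ a1 = 0 ∧ a2 = 0
    · obtain ⟨x, y, hxy, h1⟩ := Quart1_zero b0 b1 b2
      exact ⟨x, y, hxy, by simp [ha.1, ha.2.1, ha.2.2], h1⟩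
    · obtain ⟨x, y, hxy, h1⟩ := Quart1_zero a0 a1 a2
      refine ⟨x, y, hxy, h1, ?_⟩
      by_contra hb
      refine ha ⟨(mul_eq_zero_iff_right hb).1 ?_, (mul_eq_zero_iff_right hb).1 ?_,
        (mul_eq_zero_iff_right hb).1 ?_⟩
      · linear_combination b0 * h1 + x * y * hv + y ^ 2 * hu
      · linear_combination b1 * h1 - x ^ 2 * hv + y ^ 2 * hw
      · linear_combination b2 * h1 - x ^ 2 * hu - x * y * hw
  · rintro ⟨x, y, hxy, h1, h2⟩
    have e1 : (a0 * b1 - a1 * b0) * x * y + (a0 * b2 - a2 * b0) * y ^ 2 = 0 := by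
      linear_combination a0 * h2 - b0 * h1
    have e2 : (a0 * b2 - a2 * b0) * x ^ 2 + (a1 * b2 - a2 * b1) * x * y = 0 := by
      linear_combination b2 * h1 - a2 * h2
    have e3 : (a0 * b1 - a1 * b0) * x ^ 2 - (a1 * b2 - a2 * b1) * y ^ 2 = 0 := by
      linear_combination b1 * h1 - a1 * h2
    generalize a0 * b1 - a1 * b0 = v at *
    generalize a0 * b2 - a2 * b0 = u at *
    generalize a1 * b2 - a2 * b1 = w at *
    rcases hxy with h | h
    · refine (mul_eq_zero_iff_right (pow_ne_zero 3 h)).1 ?_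
      linear_combination (u * x - w * y) * e2 - w * x * e3
    · refine (mul_eq_zero_iff_right (pow_ne_zero 3 h)).1 ?_
      linear_combination (u * y - v * x) * e1 + v * y * e3

theorem QN_eq_zero_iff (th a b ν : Fin 4 → ℂ) : QN th a b ν = 0 ↔
    ∃ x y : ℂ, (x ≠ 0 ∨ y ≠ 0) ∧ ∑ j, ν j * (a j * x + b j * y) ^ 2 = 0 ∧
      ∑ j, th j * ν j * (a j * x + b j * y) ^ 2 = 0 := by
  rw [QN, res2_eq_zero_iff]
  refine exists_congr fun x => exists_congr fun y => and_congr_right fun _ => ?_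
  simp only [Fin.sum_univ_four, smul_eq_mul]
  constructor <;> rintro ⟨h1, h2⟩ <;> exact ⟨by linear_combination h1, by linear_combination h2⟩

/-- Value at a vector supported on two indices. -/
theorem QN_two (th a b : Fin 4 → ℂ) (i j : Fin 4) (hij : i ≠ j) (s : ℂ) :
    QN th a b (fun l => if l = i ∨ l = j then s else 0) =
      s ^ 4 * (th i - th j) ^ 2 * (a i * b j - a j * b i) ^ 4 := by
  have h : ∀ u : Fin 4 → ℂ, ∑ l, u l • (if l = i ∨ l = j then s else 0) = (u i + u j) * s := by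
    intro u
    rw [Finset.sum_eq_add i j hij (fun l _ hl => by simp [hl.1, hl.2]) (by simp) (by simp)]
    simp [add_mul]
  simp only [QN, h, res2]
  ring

theorem Quart1_om {th : Fin 4 → ℂ} (hth : Function.Injective th) {a : ℕ} (ha : a < 3) :
    ∑ j, om th j * th j ^ a = 0 := by
  have h := Lagrange.coeff_eq_sum (s := Finset.univ) (v := th) hth.injOn (P := X ^ a)
    (by rw [degree_X_pow, Finset.card_univ, Fintype.card_fin]; exact_mod_cast ha.trans (by norm_num))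
  rw [Finset.card_univ, Fintype.card_fin, coeff_X_pow, if_neg (by omega)] at h
  refine Eq.trans (Finset.sum_congr rfl fun j _ => ?_) h.symm
  rw [om, eval_pow, eval_X, div_eq_inv_mul]

theorem Quart1_om_ne {th : Fin 4 → ℂ} (hth : Function.Injective th) (j : Fin 4) : om th j ≠ 0 :=
  inv_ne_zero (Finset.prod_ne_zero_iff.2 fun _ hl =>
    sub_ne_zero.2 (hth.ne (Finset.ne_of_mem_erase hl).symm))

/-- Two vectors `w` with `∑ om_j w_j = ∑ om_j θ_j w_j = 0` are exactly the `α + β θ_j`. -/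
theorem om_ker_iff (th : Fin 4 → ℂ) (hth : Function.Injective th) (w : Fin 4 → ℂ) :
    (∑ j, om th j * w j = 0 ∧ ∑ j, th j * (om th j * w j) = 0) ↔
      ∃ α β : ℂ, ∀ j, w j = α + β * th j := by
  have h0 := Quart1_om hth (a := 0) (by norm_num)
  have h1 := Quart1_om hth (a := 1) (by norm_num)
  have h2 := Quart1_om hth (a := 2) (by norm_num)
  simp only [Fin.sum_univ_four] at h0 h1 h2 ⊢
  constructor
  · rintro ⟨h3, h4⟩
    have h5 : th 1 - th 0 ≠ 0 := sub_ne_zero.2 (hth.ne (by decide))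
    have h6 : th 2 - th 3 ≠ 0 := sub_ne_zero.2 (hth.ne (by decide))
    obtain ⟨β, hβ⟩ : ∃ β, β * (th 1 - th 0) = w 1 - w 0 := ⟨_, div_mul_cancel₀ _ h5⟩
    obtain ⟨α, hα⟩ : ∃ α, w 0 = α + β * th 0 := ⟨w 0 - β * th 0, by ring⟩
    have hw1 : w 1 = α + β * th 1 := by linear_combination hα - hβ
    rw [hα, hw1] at h3 h4
    have hw2 : w 2 = α + β * th 2 := by
      refine sub_eq_zero.1 ((mul_eq_zero_iff_left (mul_ne_zero h6 (Quart1_om_ne hth 2))).1 ?_)
      linear_combination h4 - α * h1 - β * h2 - th 3 * (h3 - α * h0 - β * h1)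
    have hw3 : w 3 = α + β * th 3 := by
      refine sub_eq_zero.1 ((mul_eq_zero_iff_left (mul_ne_zero h6 (Quart1_om_ne hth 3))).1 ?_)
      linear_combination th 2 * (h3 - α * h0 - β * h1) - (h4 - α * h1 - β * h2)
    refine ⟨α, β, fun j => ?_⟩
    fin_cases j
    exacts [hα, hw1, hw2, hw3]
  · rintro ⟨α, β, h⟩
    simp only [h]
    exact ⟨by linear_combination α * h0 + β * h1, by linear_combination α * h1 + β * h2⟩

/-- The functions given by homogeneous integer polynomials of degree `n`. -/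
def Quart1_P (n : ℕ) (f : (Fin 4 → ℂ) → ℂ) : Prop :=
  ∃ Q : MvPolynomial (Fin 4) ℤ, Q.IsHomogeneous n ∧ ∀ m : Fin 4 → ℂ, MvPolynomial.aeval m Q = f m

theorem Quart1_P.mul {n n' : ℕ} {f g : (Fin 4 → ℂ) → ℂ} (hf : Quart1_P n f) (hg : Quart1_P n' g) :
    Quart1_P (n + n') fun m => f m * g m := by
  obtain ⟨P, hP, hf⟩ := hf
  obtain ⟨Q, hQ, hg⟩ := hg
  exact ⟨P * Q, hP.mul hQ, fun m => by rw [map_mul, hf, hg]⟩

theorem Quart1_P.sub {n : ℕ} {f g : (Fin 4 → ℂ) → ℂ} (hf : Quart1_P n f) (hg : Quart1_P n g) :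
    Quart1_P n fun m => f m - g m := by
  obtain ⟨P, hP, hf⟩ := hf
  obtain ⟨Q, hQ, hg⟩ := hg
  exact ⟨P - Q, hP.sub hQ, fun m => by rw [map_sub, hf, hg]⟩

/-- Weights whose Euler sums are integers. -/
def Quart1_E (c : Ctx 4) (u : Fin 4 → ℂ) : Prop :=
  ∀ a : ℕ, ∃ z : ℤ, ∑ j, om c.th j * (u j * c.th j ^ a) = z

theorem Quart1_E.one (c : Ctx 4) : Quart1_E c fun _ => 1 := fun a => by
  simpa only [one_mul] using euler_int c a

theorem Quart1_E.th {c : Ctx 4} {u : Fin 4 → ℂ} (h : Quart1_E c u) :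
    Quart1_E c fun j => c.th j * u j := fun a => by
  obtain ⟨z, hz⟩ := h (a + 1)
  exact ⟨z, Eq.trans (Finset.sum_congr rfl fun j _ => by ring) hz⟩

theorem Quart1_E.sg {c : Ctx 4} {u : Fin 4 → ℂ} (h : Quart1_E c u) (b : Fin 4 → ℤ) :
    Quart1_E c fun j => u j * c.sg j b := fun a => by
  choose z hz using h
  refine ⟨∑ i : Fin 4, b i * z (i + a), ?_⟩
  simp only [Int.cast_sum, Int.cast_mul, ← hz, Finset.mul_sum, Finset.sum_mul, Ctx.sg]
  rw [Finset.sum_comm]
  exact Finset.sum_congr rfl fun i _ => Finset.sum_congr rfl fun j _ => by ring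

theorem Quart1_E.sq {c : Ctx 4} (b : Fin 4 → ℤ) : Quart1_E c fun j => c.sg j b ^ 2 := by
  simpa only [one_mul, ← pow_two] using ((Quart1_E.one c).sg b).sg b

theorem Quart1_E.two {c : Ctx 4} (b b' : Fin 4 → ℤ) :
    Quart1_E c fun j => 2 * c.sg j b * c.sg j b' := by
  refine (Quart1_E.sg (u := fun _ => 2) (fun a => ?_) b).sg b'
  obtain ⟨z, hz⟩ := euler_int c a
  refine ⟨2 * z, ?_⟩
  rw [Int.cast_mul, ← hz, Finset.mul_sum]
  exact Finset.sum_congr rfl fun j _ => by push_cast; ring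

theorem Quart1_E.lin {c : Ctx 4} {u : Fin 4 → ℂ} (h : Quart1_E c u) :
    Quart1_P 1 fun m => ∑ j, u j • (om c.th j * ∑ i : Fin 4, m i * c.th j ^ (i : ℕ)) := by
  choose z hz using h
  refine ⟨∑ i : Fin 4, MvPolynomial.C (z i) * MvPolynomial.X i,
    MvPolynomial.IsHomogeneous.sum _ _ _ fun i _ =>
      (MvPolynomial.isHomogeneous_X ℤ i).C_mul _, fun m => ?_⟩
  simp only [map_sum, map_mul, MvPolynomial.aeval_X, eq_intCast, map_intCast, ← hz,
    Finset.mul_sum, Finset.sum_mul, smul_eq_mul]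
  rw [Finset.sum_comm]
  exact Finset.sum_congr rfl fun i _ => Finset.sum_congr rfl fun j _ => by ring

/-- The quartic has integer coefficients in the rational coordinates of `μ` (`euler_int`). -/
theorem exists_Qint (c : Ctx 4) (b1 b2 : Fin 4 → ℤ) : ∃ Q : MvPolynomial (Fin 4) ℤ,
    Q.IsHomogeneous 4 ∧ ∀ m : Fin 4 → ℂ, MvPolynomial.aeval m Q =
      QN c.th (fun j => c.sg j b1) (fun j => c.sg j b2)
        fun j => om c.th j * ∑ i : Fin 4, m i * c.th j ^ (i : ℕ) := by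
  have a0 := (Quart1_E.sq (c := c) b1).lin
  have a1 := (Quart1_E.two (c := c) b1 b2).lin
  have a2 := (Quart1_E.sq (c := c) b2).lin
  have c0 := (Quart1_E.sq (c := c) b1).th.lin
  have c1 := (Quart1_E.two (c := c) b1 b2).th.lin
  have c2 := (Quart1_E.sq (c := c) b2).th.lin
  have u := (a0.mul c2).sub (a2.mul c0)
  obtain ⟨Q, hQ, h⟩ := (u.mul u).sub (((a0.mul c1).sub (a1.mul c0)).mul ((a1.mul c2).sub (a2.mul c1)))
  exact ⟨Q, hQ, fun m => by rw [h, QN, res2, pow_two (_ - _)]⟩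

end Crest.Agent.R22
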