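import Crest.Agent.R22.FC
import Crest.Agent.R22.Ind
import Crest.Agent.R22.Quart1

set_option autoImplicit false
open Polynomial IntermediateField

namespace Crest.Agent.R22

variable {d : ℕ}

namespace ElimCAux

section deg
variable {g h : ℂ[X][X]} {a b : ℕ}

theorem degLE_mul (hg : DegLE g a) (hh : DegLE h b) : DegLE (g * h) (a + b) := by
  refine ⟨natDegree_mul_le.trans (add_le_add hg.1 hh.1), fun i => ?_⟩
  rw [coeff_mul]
  exact natDegree_sum_le_of_forall_le _ _ fun p _ =>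
    natDegree_mul_le.trans (add_le_add (hg.2 _) (hh.2 _))

theorem degLE_C {p : ℂ[X]} (hp : p.natDegree ≤ a) : DegLE (C p : ℂ[X][X]) a := by
  refine ⟨by simp, fun i => ?_⟩
  rw [coeff_C]
  split_ifs
  · exact hp
  · simp

theorem degLE_pow (hg : DegLE g a) (n : ℕ) : DegLE (g ^ n) (a * n) := by
  induction n with
  | zero => simpa using degLE_C (p := 1) (a := 0) (by simp)
  | succ n ih => rw [pow_succ, Nat.mul_succ]; exact degLE_mul ih hg

theorem degLE_sum {ι : Type} (s : Finset ι) (f : ι → ℂ[X][X]) (hf : ∀ i ∈ s, DegLE (f i) a) :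
    DegLE (∑ i ∈ s, f i) a := by
  refine ⟨natDegree_sum_le_of_forall_le _ _ fun i hi => (hf i hi).1, fun j => ?_⟩
  rw [finsetSum_coeff]
  exact natDegree_sum_le_of_forall_le _ _ fun i hi => (hf i hi).2 j

theorem degLE_lin (c : ℂ) : DegLE (X - C (C c) : ℂ[X][X]) 1 := by
  refine ⟨(natDegree_X_sub_C _).le, fun i => ?_⟩
  rw [coeff_sub, coeff_X, coeff_C]
  split_ifs <;> simp

end deg

open MvPolynomial in
theorem hom_sum {σ : Type} [Fintype σ] {R : MvPolynomial σ ℂ} {n : ℕ} (hR : R.IsHomogeneous n)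
    {m : σ →₀ ℕ} (hm : m ∈ R.support) : ∑ i, m i = n := by
  by_contra h
  exact mem_support_iff.1 hm (hR.coeff_eq_zero (by rwa [Finsupp.degree_eq_sum]))

theorem degLE_aeval {U : Fin 3 → ℂ[X][X]} {a n : ℕ} (hU : ∀ i, DegLE (U i) a)
    {R : MvPolynomial (Fin 3) ℂ} (hR : R.IsHomogeneous n) :
    DegLE (MvPolynomial.aeval U R) (a * n) := by
  rw [MvPolynomial.aeval_def, MvPolynomial.eval₂_eq']
  refine degLE_sum _ _ fun m hm => ?_
  have := degLE_mul (degLE_C (p := C (R.coeff m)) (a := 0) (by simp))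
    (degLE_mul (degLE_mul (degLE_pow (hU 0) (m 0)) (degLE_pow (hU 1) (m 1)))
      (degLE_pow (hU 2) (m 2)))
  rw [zero_add, ← mul_add, ← mul_add, ← Fin.sum_univ_three, hom_sum hR hm] at this
  rw [Fin.prod_univ_three]
  exact this

theorem eval_mul {R : MvPolynomial (Fin 3) ℂ} {n : ℕ} (hR : R.IsHomogeneous n) (c : ℂ)
    (y : Fin 3 → ℂ) :
    MvPolynomial.aeval (fun i => c * y i) R = c ^ n * MvPolynomial.aeval y R := by
  simp only [MvPolynomial.aeval_def, MvPolynomial.eval₂_eq', Finset.mul_sum]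
  refine Finset.sum_congr rfl fun m hm => ?_
  simp only [mul_pow, Finset.prod_mul_distrib, Finset.prod_pow_eq_pow_sum, hom_sum hR hm]
  ring

open MvPolynomial in
theorem coeff_sc (ζ : Fin 4 → ℂ) (G : MvPolynomial (Fin 4) ℂ) (m : Fin 4 →₀ ℕ) :
    coeff m (aeval (fun i => (MvPolynomial.C (ζ i) * MvPolynomial.X i : MvPolynomial (Fin 4) ℂ)) G) =
      (∏ i, ζ i ^ m i) * coeff m G := by
  induction G using MvPolynomial.induction_on' with
  | add p q hp hq => rw [map_add, MvPolynomial.coeff_add, MvPolynomial.coeff_add, hp, hq, mul_add]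
  | monomial s c =>
    have : aeval (fun i => (MvPolynomial.C (ζ i) * MvPolynomial.X i : MvPolynomial (Fin 4) ℂ))
        (monomial s c) = monomial s ((∏ i, ζ i ^ s i) * c) := by
      rw [MvPolynomial.aeval_monomial, monomial_eq, Finsupp.prod_fintype _ _ (by simp),
        Finsupp.prod_fintype _ _ (by simp)]
      simp only [mul_pow, Finset.prod_mul_distrib, map_mul, map_prod, map_pow,
        MvPolynomial.algebraMap_eq]
      ring
    rw [this, MvPolynomial.coeff_monomial, MvPolynomial.coeff_monomial]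
    split_ifs with h
    · rw [h]
    · simp

open MvPolynomial in
/-- The norm `∏_ζ G(ζ Y)`. -/
theorem exists_norm (k D : ℕ) (hk : 1 ≤ k) : ∃ M : ℕ, ∀ G : MvPolynomial (Fin 4) ℂ,
    G.IsHomogeneous D → ∃ N : MvPolynomial (Fin 4) ℂ, N.IsHomogeneous M ∧ G ∣ N ∧
      (∀ m ∈ N.support, ∀ i, k ∣ m i) ∧
      ∀ F : MvPolynomial (Fin 4) ℂ, Prime F → F ∣ N → ∃ G', F ∣ G' ∧ G'.support = G.support := by
  classical
  have : NeZero k := ⟨by omega⟩
  have : Fintype (rootsOfUnity k ℂ) := Fintype.ofFinite _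
  let v : (Fin 4 → rootsOfUnity k ℂ) → Fin 4 → ℂ := fun ζ i => ((ζ i : ℂˣ) : ℂ)
  let sc : (Fin 4 → rootsOfUnity k ℂ) → MvPolynomial (Fin 4) ℂ →ₐ[ℂ] MvPolynomial (Fin 4) ℂ :=
    fun ζ => aeval fun i => MvPolynomial.C (v ζ i) * MvPolynomial.X i
  have hsc : ∀ ζ G m, coeff m (sc ζ G) = (∏ i, v ζ i ^ m i) * coeff m G := fun ζ => coeff_sc _
  have hv : ∀ ζ (m : Fin 4 →₀ ℕ), ∏ i, v ζ i ^ m i ≠ 0 := fun ζ m =>
    Finset.prod_ne_zero_iff.2 fun i _ => pow_ne_zero _ (Units.ne_zero _)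
  have hmul : ∀ η ζ G, sc η (sc ζ G) = sc (η * ζ) G := fun η ζ G => by
    ext m
    simp only [hsc, v, Pi.mul_apply, Subgroup.coe_mul, Units.val_mul, mul_pow,
      Finset.prod_mul_distrib, mul_assoc]
  refine ⟨∑ _ζ : Fin 4 → rootsOfUnity k ℂ, D, fun G hG => ⟨∏ ζ, sc ζ G, ?_, ?_, ?_, ?_⟩⟩
  · refine IsHomogeneous.prod _ _ _ fun ζ _ m hm => hG ?_
    rw [hsc] at hm
    exact right_ne_zero_of_mul hm
  · have : sc 1 G = G := by
      ext m
      simp [hsc, v]
    conv_lhs => rw [← this]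
    exact Finset.dvd_prod_of_mem _ (Finset.mem_univ _)
  · intro m hm i
    have hω := Complex.isPrimitiveRoot_exp k (by omega)
    let η : Fin 4 → rootsOfUnity k ℂ := Pi.mulSingle i (rootsOfUnity.mkOfPowEq _ hω.pow_eq_one)
    have h1 : sc η (∏ ζ, sc ζ G) = ∏ ζ, sc ζ G := by
      rw [map_prod]
      simp only [hmul]
      exact Fintype.prod_equiv (Equiv.mulLeft η) _ _ fun ζ => rfl
    have h2 := hsc η (∏ ζ, sc ζ G) m
    rw [h1] at h2
    have h3 : ∏ j, v η j ^ m j = 1 :=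
      mul_right_cancel₀ (mem_support_iff.1 hm) (by rw [← h2, one_mul])
    rw [Finset.prod_eq_single i (fun j _ hj => by simp [v, η, Pi.mulSingle_eq_of_ne hj])
      (by simp)] at h3
    refine hω.dvd_of_pow_eq_one _ ?_
    simpa [v, η] using h3
  · intro F hF hd
    obtain ⟨ζ, -, hζ⟩ := (hF.dvd_finsetProd_iff _).1 hd
    refine ⟨sc ζ G, hζ, ?_⟩
    ext m
    simp only [MvPolynomial.mem_support_iff, hsc, ne_eq, mul_eq_zero, hv, false_or]

open MvPolynomial in
theorem not_dvd (k : ℕ) (hk : 1 ≤ k) (a : Fin 4 → Fin 4 → ℂ) (ha : a 2 3 ≠ 0)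
    {H : MvPolynomial (Fin 4) ℂ} (h0 : H ≠ 0)
    (h : (∑ i : Fin 4, ∑ j : Fin 4 with i < j,
      MvPolynomial.C (a i j) * MvPolynomial.X i ^ k * MvPolynomial.X j ^ k :
        MvPolynomial (Fin 4) ℂ) ∣ H) : ∃ m ∈ H.support, k ≤ m 2 ∧ k ≤ m 3 := by
  classical
  obtain ⟨W, rfl⟩ := h
  obtain ⟨m, hm, hmax⟩ := Finset.exists_max_image W.support (fun m => m 2 + 2 * m 3)
    (support_nonempty.2 (right_ne_zero_of_mul h0))
  refine ⟨m + (Finsupp.single 2 k + Finsupp.single 3 k), mem_support_iff.2 ?_, by simp, by simp⟩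
  have e : ∀ i j : Fin 4, (MvPolynomial.C (a i j) * MvPolynomial.X i ^ k * MvPolynomial.X j ^ k :
      MvPolynomial (Fin 4) ℂ) = monomial (Finsupp.single i k + Finsupp.single j k) (a i j) := by
    intro i j
    rw [MvPolynomial.X_pow_eq_monomial, MvPolynomial.X_pow_eq_monomial, MvPolynomial.C_mul_monomial,
      MvPolynomial.monomial_mul]
    simp
  have z : ∀ (s : Fin 4 →₀ ℕ) (r : ℂ), s 2 + 2 * s 3 < 3 * k →
      coeff (m + (Finsupp.single 2 k + Finsupp.single 3 k)) (monomial s r * W) = 0 := by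
    intro s r hs
    rw [coeff_monomial_mul']
    split_ifs with h
    · have : coeff (m + (Finsupp.single 2 k + Finsupp.single 3 k) - s) W = 0 := by
        by_contra hne
        have h1 := hmax _ (mem_support_iff.2 hne)
        have h2 := h 2
        have h3 := h 3
        simp at h1 h2 h3
        omega
      rw [this, mul_zero]
    · rfl
  simp only [e, Finset.sum_filter, Fin.sum_univ_four]
  simp only [Fin.reduceLT, if_true, if_false, lt_self_iff_false, add_zero, zero_add, add_mul,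
    MvPolynomial.coeff_add]
  rw [z _ _ (by simp; omega), z _ _ (by simp; omega), z _ _ (by simp; omega),
    z _ _ (by simp; omega), z _ _ (by simp; omega), coeff_monomial_mul', if_pos le_add_self,
    add_tsub_cancel_right]
  simpa using ⟨ha, mem_support_iff.1 hm⟩

open MvPolynomial in
/-- Pseudo-division by `Y_3^k ℓ + q`. -/
theorem exists_R {k M : ℕ} (hk : 1 ≤ k) {N : MvPolynomial (Fin 4) ℂ} (hN : N.IsHomogeneous M)
    (hd : ∀ m ∈ N.support, ∀ i, k ∣ m i) {l q : MvPolynomial (Fin 3) ℂ} (hl : l.IsHomogeneous 1)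
    (hq : q.IsHomogeneous 2) : ∃ R : MvPolynomial (Fin 3) ℂ, R.IsHomogeneous (M / k + M) ∧
      ∀ (S : Type) [CommRing S] [Algebra ℂ S] (y : Fin 4 → S),
        y 3 ^ k * aeval (fun i : Fin 3 => y i.castSucc ^ k) l +
          aeval (fun i : Fin 3 => y i.castSucc ^ k) q = 0 →
        aeval (fun i : Fin 3 => y i.castSucc ^ k) R =
          aeval (fun i : Fin 3 => y i.castSucc ^ k) l ^ M * aeval y N := by
  have key : ∀ m ∈ N.support, ∃ e : Fin 4 → ℕ, (∀ i, m i = k * e i) ∧ (∀ i, m i / k = e i) ∧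
      e 0 + e 1 + e 2 + e 3 = M / k ∧ e 3 ≤ M := by
    intro m hm
    choose e he using hd m hm
    have h1 := hom_sum hN hm
    simp only [he, Fin.sum_univ_four, ← mul_add] at h1
    refine ⟨e, he, fun i => by rw [he, Nat.mul_div_cancel_left _ hk], by
      rw [← h1, Nat.mul_div_cancel_left _ hk], ?_⟩
    have := Nat.le_mul_of_pos_left (e 0 + e 1 + e 2 + e 3) hk
    omega
  refine ⟨∑ m ∈ N.support, MvPolynomial.C (coeff m N) * MvPolynomial.X 0 ^ (m 0 / k) *
    MvPolynomial.X 1 ^ (m 1 / k) * MvPolynomial.X 2 ^ (m 2 / k) * (-q) ^ (m 3 / k) *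
      l ^ (M - m 3 / k), IsHomogeneous.sum _ _ _ fun m hm => ?_, fun S _ _ y hy => ?_⟩
  · obtain ⟨e, -, h2, h3, h4⟩ := key m hm
    simp only [h2]
    convert ((((isHomogeneous_C_mul_X_pow (coeff m N) (0 : Fin 3) (e 0)).mul
      (isHomogeneous_X_pow (1 : Fin 3) (e 1))).mul (isHomogeneous_X_pow (2 : Fin 3) (e 2))).mul
        (hq.neg.pow (e 3))).mul (hl.pow (M - e 3)) using 1
    omega
  · rw [MvPolynomial.aeval_def y, MvPolynomial.eval₂_eq', Finset.mul_sum, map_sum]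
    refine Finset.sum_congr rfl fun m hm => ?_
    obtain ⟨e, h1, h2, -, h4⟩ := key m hm
    obtain ⟨r, hr⟩ := Nat.exists_eq_add_of_le h4
    simp only [h2, map_mul, map_pow, map_neg, MvPolynomial.aeval_C, MvPolynomial.aeval_X,
      neg_eq_of_add_eq_zero_left hy, Fin.prod_univ_four]
    simp only [h1, pow_mul]
    rw [hr, Nat.add_sub_cancel_left, mul_pow, pow_add]
    change _ * (y 0 ^ k) ^ e 0 * (y 1 ^ k) ^ e 1 * (y 2 ^ k) ^ e 2 * _ * _ = _
    ring

theorem tri_three {R : Type} [AddCommMonoid R] (z : Fin 3 → R) : tri z = z := by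
  funext i
  fin_cases i <;> simp [tri, Finset.sum_filter, Fin.sum_univ_three]

theorem lin_eq {L : ℂ[X]} (h : L.natDegree = 1) (t : ℂ) :
    L.eval t = L.coeff 1 * t + L.coeff 0 := by
  rw [eval_eq_sum_range, h]
  simp [Finset.sum_range_succ, add_comm]

theorem pl_ne {L L' : ℂ[X]} (h : L.natDegree = 1) (h' : L'.natDegree = 1) (hc : IsCoprime L L') :
    L.coeff 1 * L'.coeff 0 - L'.coeff 1 * L.coeff 0 ≠ 0 := by
  intro e
  have h1 : L.coeff 1 ≠ 0 := by
    rw [← h]
    exact leadingCoeff_ne_zero.2 (by rintro rfl; simp at h)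
  obtain ⟨u, v, huv⟩ := hc
  have h2 := congrArg (eval (-L.coeff 0 / L.coeff 1)) huv
  have h3 : L.eval (-L.coeff 0 / L.coeff 1) = 0 := by
    rw [lin_eq h]; field_simp; ring
  have h4 : L'.eval (-L.coeff 0 / L.coeff 1) = 0 := by
    rw [lin_eq h']; field_simp; linear_combination e
  simp [h3, h4] at h2

end ElimCAux

open ElimCAux in
/-- Elimination on the surface of scheme C. `a_ij = om_i om_j (θ_j - θ_i) p_ij` where
`L_j = a_j X + b_j`, `p_ij = a_i b_j - a_j b_i ≠ 0`; the relations give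
`∑ om_j z_j^k L_j(t) = ∑ om_j θ_j z_j^k L_j(t) = 0`, hence `F(z) = 0` (`2 × 2` determinant).
`F ∤ G` (leading monomial `Y_3^k Y_2^k` for the lexicographic order, or compare the parts of top degree
in `Y_3` and then `Y_2`), `F ∤ G(ζ Y)`, so `F ∤ N = ∏_{ζ ∈ μ_k⁴} G(ζ Y) = G~(Y^k)`.
`R = ∑_e G~_e (-q)^e ℓ^(m-e)` is a nonzero ternary form in `γ_0, γ_1, γ_2` (`ℓ^m G~ ≡ R mod F`), and
`g = R(Urow (three indices) 1) ≠ 0` by `ind_rows` with `m = 3`, `k = 1`. -/
theorem elimC (k D : ℕ) (hk : 1 ≤ k) : ∃ E : ℕ, ∀ (th : Fin 4 → ℂ) (L : Fin 4 → ℂ[X])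
    (G : MvPolynomial (Fin 4) ℂ), Function.Injective th → Lins L → G ≠ 0 → G.IsHomogeneous D →
    (∀ m ∈ G.support, ¬ (k ≤ m 2 ∧ k ≤ m 3)) → ∃ g : ℂ[X][X], g ≠ 0 ∧ DegLE g E ∧
      ∀ (t n lam : ℂ) (z : Fin 4 → ℂ), lam ≠ 0 →
        (∀ j, z j ^ k * (L j).eval t = lam * (n - th j)) → MvPolynomial.eval z G = 0 →
        g.evalEval t n = 0 := by
  obtain ⟨M, hM⟩ := exists_norm k D hk
  refine ⟨3 * (M / k + M), fun th L G hth hL hG0 hG hs => ?_⟩
  obtain ⟨N, hN, hGN, hdiv, hpr⟩ := hM G hG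
  obtain ⟨a, ha⟩ : ∃ a : Fin 4 → Fin 4 → ℂ, a = fun i j => om th i * om th j * (th j - th i) *
      ((L i).coeff 1 * (L j).coeff 0 - (L j).coeff 1 * (L i).coeff 0) := ⟨_, rfl⟩
  have hom : ∀ j, om th j ≠ 0 := fun j => inv_ne_zero (Finset.prod_ne_zero_iff.2 fun l hl =>
    sub_ne_zero.2 fun e => (Finset.ne_of_mem_erase hl) (hth e).symm)
  have ha0 : ∀ i j, i < j → a i j ≠ 0 := fun i j hij => by
    rw [ha]
    exact mul_ne_zero (mul_ne_zero (mul_ne_zero (hom i) (hom j))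
      (sub_ne_zero.2 fun e => hij.ne' (hth e))) (pl_ne (hL.1 i) (hL.1 j) (hL.2 i j hij.ne))
  have hF := FC_prime k hk a ha0
  have hnd := fun H h0 => not_dvd k hk a (ha0 2 3 (by decide)) (H := H) h0
  obtain ⟨F, hFe⟩ : ∃ F : MvPolynomial (Fin 4) ℂ, F = ∑ i : Fin 4, ∑ j : Fin 4 with i < j,
      MvPolynomial.C (a i j) * MvPolynomial.X i ^ k * MvPolynomial.X j ^ k := ⟨_, rfl⟩
  rw [← hFe] at hF hnd
  let l : MvPolynomial (Fin 3) ℂ := MvPolynomial.C (a 0 3) * MvPolynomial.X 0 +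
    MvPolynomial.C (a 1 3) * MvPolynomial.X 1 + MvPolynomial.C (a 2 3) * MvPolynomial.X 2
  let q : MvPolynomial (Fin 3) ℂ := MvPolynomial.C (a 0 1) * MvPolynomial.X 0 * MvPolynomial.X 1 +
    MvPolynomial.C (a 0 2) * MvPolynomial.X 0 * MvPolynomial.X 2 +
    MvPolynomial.C (a 1 2) * MvPolynomial.X 1 * MvPolynomial.X 2
  have hx := MvPolynomial.isHomogeneous_C_mul_X (σ := Fin 3) (R := ℂ)
  have hx' := MvPolynomial.isHomogeneous_X (σ := Fin 3) ℂ
  obtain ⟨R, hR, hRe⟩ := exists_R hk hN hdiv (l := l) (q := q)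
    (((hx _ _).add (hx _ _)).add (hx _ _))
    ((((hx _ _).mul (hx' _)).add ((hx _ _).mul (hx' _))).add ((hx _ _).mul (hx' _)))
  have hFv : ∀ (S : Type) [CommRing S] [Algebra ℂ S] (y : Fin 4 → S),
      y 3 ^ k * MvPolynomial.aeval (fun i : Fin 3 => y i.castSucc ^ k) l +
        MvPolynomial.aeval (fun i : Fin 3 => y i.castSucc ^ k) q = MvPolynomial.aeval y F := by
    intro S _ _ y
    simp only [hFe, l, q, Finset.sum_filter, Fin.sum_univ_four, Fin.reduceLT, if_true, if_false,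
      lt_self_iff_false, add_zero, zero_add, map_add, map_mul, map_pow, MvPolynomial.aeval_C,
      MvPolynomial.aeval_X]
    change _ * (_ * y 0 ^ k + _ * y 1 ^ k + _ * y 2 ^ k) +
      (_ * y 0 ^ k * y 1 ^ k + _ * y 0 ^ k * y 2 ^ k + _ * y 1 ^ k * y 2 ^ k) = _
    ring
  have hR0 : R ≠ 0 := by
    rintro rfl
    let π := Ideal.Quotient.mkₐ ℂ (Ideal.span {F})
    have hπ : ∀ H : MvPolynomial (Fin 4) ℂ,
        MvPolynomial.aeval (fun i => π (MvPolynomial.X i)) H = π H := fun H => by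
      rw [← MvPolynomial.comp_aeval_apply, MvPolynomial.aeval_X_left_apply]
    have hπ0 : ∀ H, π H = 0 ↔ F ∣ H := fun H =>
      Ideal.Quotient.eq_zero_iff_mem.trans Ideal.mem_span_singleton
    have h1 := hRe _ (fun i => π (MvPolynomial.X i))
      ((hFv _ (fun i => π (MvPolynomial.X i))).trans ((hπ F).trans ((hπ0 F).2 dvd_rfl)))
    have h2 : MvPolynomial.aeval (fun i : Fin 3 => π (MvPolynomial.X i.castSucc) ^ k) l =
        π (MvPolynomial.aeval (fun i : Fin 3 =>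
          (MvPolynomial.X i.castSucc ^ k : MvPolynomial (Fin 4) ℂ)) l) := by
      rw [MvPolynomial.comp_aeval_apply]
      simp only [map_pow]
    rw [map_zero, hπ, h2, ← map_pow, ← map_mul, eq_comm, hπ0] at h1
    rcases hF.dvd_or_dvd h1 with h | h
    · obtain ⟨W, hW⟩ := hF.dvd_of_dvd_pow h
      have h3 := congrArg (MvPolynomial.aeval (![0, 0, 1, 0] : Fin 4 → ℂ)) hW
      have hk0 : k ≠ 0 := by omega
      rw [map_mul, ← hFv] at h3
      simp [l, q, hk0, ha0 2 3 (by decide)] at h3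
    · obtain ⟨G', h3, h4⟩ := hpr F hF h
      obtain ⟨m, hm, h5⟩ := hnd G' (by
        rintro rfl
        exact hG0 (MvPolynomial.support_eq_empty.1 (by simpa using h4.symm))) h3
      exact hs m (h4 ▸ hm) h5
  have hL' : Lins fun i : Fin 3 => L i.castSucc :=
    ⟨fun j => hL.1 _, fun i j hij => hL.2 _ _ fun e => hij (Fin.castSucc_injective _ e)⟩
  refine ⟨MvPolynomial.aeval (Urow (fun i : Fin 3 => th i.castSucc) (fun i => L i.castSucc) 1) R,
    fun h0 => hR0 ?_, degLE_aeval (fun j => ?_) hR, fun t n lam z hlam hz hGz => ?_⟩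
  · refine ind_rows 3 1 _ le_rfl le_rfl _ (hth.comp (Fin.castSucc_injective _)) _ hL' (fun _ => R)
      (fun _ => hR) ?_ ⟨0, by norm_num⟩
    rw [tri_three, ← Finset.sum_mul]
    exact mul_eq_zero_of_right _ h0
  · refine degLE_mul (degLE_lin _) (degLE_C (a := 2) ((natDegree_prod_le _ _).trans ?_))
    simp [hL.1]
  · obtain ⟨h1, h2⟩ := (om_ker_iff th hth fun j => z j ^ k * (L j).eval t).2
      ⟨lam * n, -lam, fun j => by rw [hz]; ring⟩
    have hFz : MvPolynomial.aeval z F = 0 := by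
      simp only [lin_eq (hL.1 _), Fin.sum_univ_four] at h1 h2
      simp only [hFe, ha, Finset.sum_filter, Fin.sum_univ_four, Fin.reduceLT, if_true, if_false,
        lt_self_iff_false, add_zero, zero_add, map_add, map_mul, map_pow, MvPolynomial.aeval_C,
        MvPolynomial.aeval_X, Algebra.algebraMap_self, RingHom.id_apply]
      linear_combination
        (om th 0 * z 0 ^ k * (L 0).coeff 1 + om th 1 * z 1 ^ k * (L 1).coeff 1 +
          om th 2 * z 2 ^ k * (L 2).coeff 1 + om th 3 * z 3 ^ k * (L 3).coeff 1) * h2 -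
        (th 0 * om th 0 * z 0 ^ k * (L 0).coeff 1 + th 1 * om th 1 * z 1 ^ k * (L 1).coeff 1 +
          th 2 * om th 2 * z 2 ^ k * (L 2).coeff 1 + th 3 * om th 3 * z 3 ^ k * (L 3).coeff 1) * h1
    have hNz : MvPolynomial.aeval z N = 0 := by
      obtain ⟨W, rfl⟩ := hGN
      rw [map_mul, MvPolynomial.aeval_eq_eval, hGz, zero_mul]
    have h3 := hRe ℂ z (by rw [hFv, hFz])
    rw [hNz, mul_zero] at h3
    rw [← coe_aevalAeval_eq_evalEval, MvPolynomial.comp_aeval_apply]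
    have h4 := eval_mul hR lam fun j => aevalAeval t n
      (Urow (fun i : Fin 3 => th i.castSucc) (fun i => L i.castSucc) 1 j)
    have h5 : (fun j => lam * aevalAeval t n
        (Urow (fun i : Fin 3 => th i.castSucc) (fun i => L i.castSucc) 1 j)) =
        fun j : Fin 3 => (∏ i : Fin 3, (L i.castSucc).eval t) * z j.castSucc ^ k := by
      funext j
      rw [← Finset.mul_prod_erase _ _ (Finset.mem_univ j), coe_aevalAeval_eq_evalEval, Urow,
        evalEval_mul, evalEval_sub, evalEval_X, evalEval_C, evalEval_C, eval_C, eval_prod,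
        ← mul_assoc, ← hz]
      simp only [pow_one]
      ring
    rw [h5, eval_mul hR, h3, mul_zero] at h4
    exact (mul_eq_zero.1 h4.symm).resolve_left (pow_ne_zero _ hlam)

end Crest.Agent.R22
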