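import Crest.Agent.R22.Defs

set_option autoImplicit false
open Polynomial IntermediateField

namespace Crest.Agent.R22

variable {d : ℕ}

section
variable {L : Type*} [Field L] [Algebra ℂ L]

theorem F1_pow_indep (x : L) (hx : Transcendental ℂ x) :
    LinearIndependent ℂ fun i : ℕ => (AdjoinSimple.gen ℂ x) ^ i := by
  have h1 : Transcendental ℂ (AdjoinSimple.gen ℂ x) :=
    (transcendental_algebraMap_iff (algebraMap ℂ⟮x⟯ L).injective).1 (by simpa using hx)
  have h2 := (basisMonomials ℂ).linearIndependent.map' (aeval (AdjoinSimple.gen ℂ x)).toLinearMap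
    (LinearMap.ker_eq_bot.2 (transcendental_iff_injective.1 h1))
  have h3 : (fun i : ℕ => (AdjoinSimple.gen ℂ x) ^ i) =
      (aeval (AdjoinSimple.gen ℂ x)).toLinearMap ∘ basisMonomials ℂ := by
    funext i
    simp [coe_basisMonomials]
  rw [h3]
  exact h2

/-- The chain `S, S + U, S + U + x U, …`. -/
noncomputable def F1_chain (S U : Submodule ℂ L) (x : L) : ℕ → Submodule ℂ L
  | 0 => S
  | j + 1 => F1_chain S U x j ⊔ U.map (LinearMap.mulLeft ℂ (x ^ j))

theorem F1_chain_fin (S U : Submodule ℂ L) [FiniteDimensional ℂ S] [FiniteDimensional ℂ U] (x : L) :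
    ∀ j, FiniteDimensional ℂ (F1_chain S U x j) ∧
      Module.finrank ℂ (F1_chain S U x j) ≤ Module.finrank ℂ S + j * Module.finrank ℂ U
  | 0 => ⟨inferInstanceAs (FiniteDimensional ℂ S), by rw [zero_mul]; exact le_rfl⟩
  | j + 1 => by
    obtain ⟨h1, h2⟩ := F1_chain_fin S U x j
    refine ⟨inferInstanceAs (FiniteDimensional ℂ
      ↥(F1_chain S U x j ⊔ U.map (LinearMap.mulLeft ℂ (x ^ j)))), ?_⟩
    have h3 := Submodule.finrank_add_le_finrank_add_finrank (F1_chain S U x j)
      (U.map (LinearMap.mulLeft ℂ (x ^ j)))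
    have h4 := Submodule.finrank_map_le (LinearMap.mulLeft ℂ (x ^ j)) U
    show Module.finrank ℂ ↥(F1_chain S U x j ⊔ U.map (LinearMap.mulLeft ℂ (x ^ j))) ≤ _
    rw [add_mul, one_mul]
    omega

theorem F1_chain_mul (S U : Submodule ℂ L) (x : L) (h : ∀ s ∈ S, x * s ∈ S ⊔ U) :
    ∀ j, ∀ y ∈ F1_chain S U x j, x * y ∈ F1_chain S U x (j + 1)
  | 0 => fun y hy => by
    have := h y hy
    simpa [F1_chain] using this
  | j + 1 => fun y hy => by
    obtain ⟨a, ha, b, ⟨u, hu, rfl⟩, rfl⟩ := Submodule.mem_sup.1 hy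
    rw [mul_add]
    refine Submodule.add_mem_sup (F1_chain_mul S U x h j a ha) ⟨u, hu, ?_⟩
    simp only [LinearMap.mulLeft_apply]
    ring

theorem F1_chain_mono (S U : Submodule ℂ L) (x : L) : Monotone (F1_chain S U x) :=
  monotone_nat_of_le_succ fun _ => le_sup_left

/-- Increment lemma. Let `S_j = S + x S + … + x^j S`. Multiplication by `x` maps
`S_j / S_{j-1}` onto `S_{j+1} / S_j`, so the increments are nonincreasing; the `ρ (j+1)` elements
`x^i s_a` are independent over `ℂ`, so no increment can be `< ρ`. -/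
theorem finrank_sup_mul (S : Submodule ℂ L) [FiniteDimensional ℂ S] (x : L)
    (hx : Transcendental ℂ x) (ρ : ℕ) (s : Fin ρ → L) (hs : ∀ a, s a ∈ S)
    (hi : LinearIndependent ℂ⟮x⟯ s) :
    Module.finrank ℂ S + ρ ≤ Module.finrank ℂ ↥(S ⊔ Submodule.span ℂ {x} * S) := by
  have hfg : S.FG := Module.Finite.iff_fg.1 inferInstance
  have : FiniteDimensional ℂ ↥(Submodule.span ℂ {x} * S) :=
    Module.Finite.iff_fg.2 ((Submodule.fg_span (Set.finite_singleton x)).mul hfg)
  obtain ⟨U, hU1, hU2⟩ := IsModularLattice.exists_disjoint_and_sup_eq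
    (le_sup_left : S ≤ S ⊔ Submodule.span ℂ {x} * S)
  have : FiniteDimensional ℂ U :=
    Submodule.finiteDimensional_of_le (hU2 ▸ le_sup_right : U ≤ S ⊔ Submodule.span ℂ {x} * S)
  have hdim := Submodule.finrank_sup_add_finrank_inf_eq S U
  rw [hU1.eq_bot, finrank_bot, hU2, add_zero] at hdim
  rw [hdim]
  have hmul : ∀ y ∈ S, x * y ∈ S ⊔ U := fun y hy => by
    rw [hU2]
    exact Submodule.mem_sup_right (Submodule.mul_mem_mul (Submodule.mem_span_singleton_self x) hy)
  have hmem : ∀ (i : ℕ) (a : Fin ρ), x ^ i * s a ∈ F1_chain S U x i := fun i a => by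
    induction i with
    | zero => simpa [F1_chain] using hs a
    | succ i ih =>
      rw [pow_succ', mul_assoc]
      exact F1_chain_mul S U x hmul i _ ih
  have key : ∀ j : ℕ, (j + 1) * ρ ≤ Module.finrank ℂ S + j * Module.finrank ℂ U := fun j => by
    obtain ⟨h1, h2⟩ := F1_chain_fin S U x j
    have h3 := linearIndependent_smul
      ((F1_pow_indep x hx).comp (fun i : Fin (j + 1) => (i : ℕ)) Fin.val_injective) hi
    have h4 : LinearIndependent ℂ fun p : Fin (j + 1) × Fin ρ =>
        (⟨x ^ (p.1 : ℕ) * s p.2, F1_chain_mono S U x (Nat.lt_succ_iff.1 p.1.2) (hmem _ _)⟩ :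
          F1_chain S U x j) := by
      refine LinearIndependent.of_comp (F1_chain S U x j).subtype ?_
      convert h3 using 1
      funext p
      simp [Algebra.smul_def]
    have h5 := h4.fintype_card_le_finrank
    simp only [Fintype.card_prod, Fintype.card_fin] at h5
    exact h5.trans h2
  by_contra hlt
  have h1 : Module.finrank ℂ U + 1 ≤ ρ := by omega
  have h2 := key (Module.finrank ℂ S + 1)
  nlinarith

/-- The stabiliser of a finite-dimensional subspace is a field. -/
def F1_stab (K : IntermediateField ℂ L) (N : Submodule K L) [FiniteDimensional K N] :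
    IntermediateField ℂ L where
  carrier := {y | ∀ n ∈ N, y * n ∈ N}
  mul_mem' := fun {a b} ha hb n hn => by rw [mul_assoc]; exact ha _ (hb n hn)
  one_mem' := fun n hn => by rwa [one_mul]
  add_mem' := fun {a b} ha hb n hn => by rw [add_mul]; exact N.add_mem (ha n hn) (hb n hn)
  zero_mem' := fun n _ => by rw [zero_mul]; exact N.zero_mem
  algebraMap_mem' := fun r n hn => N.smul_mem (algebraMap ℂ K r) hn
  inv_mem' := fun y hy n hn => by
    by_cases h0 : y = 0
    · rw [h0, inv_zero, zero_mul]; exact N.zero_mem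
    have hinj : Function.Injective ((LinearMap.mulLeft K y).restrict (p := N) (q := N) hy) :=
      fun a b hab => Subtype.ext (mul_left_cancel₀ h0 (congrArg Subtype.val hab))
    obtain ⟨m, hm⟩ := LinearMap.injective_iff_surjective.1 hinj ⟨n, hn⟩
    have h1 : y * m = n := congrArg Subtype.val hm
    rw [← h1, ← mul_assoc, inv_mul_cancel₀ h0, one_mul]
    exact m.2

theorem F1_step (W V : Submodule ℂ L) (j : ℕ) {y w z : L} (hy : y ∈ W ^ j * V ^ j) (hw : w ∈ W)
    (hz : z ∈ V) : y * (w * z) ∈ W ^ (j + 1) * V ^ (j + 1) := by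
  rw [pow_succ, pow_succ, mul_mul_mul_comm]
  exact Submodule.mul_mem_mul hy (Submodule.mul_mem_mul hw hz)

/-- Over an intermediate field `K` with `e ≤ [L : K]`, the `K`-spans `T_j` of `(W/v)^j V^j`
increase strictly until they are everything (if `T_j = T_{j+1}` then `T_j` is a finite-dimensional
`K`-subalgebra, hence a field, containing `t` and the ratios). -/
theorem exists_indep (W : Submodule ℂ L) (t : L) (hgen : GenBy W t) (v : L) (hv : v ∈ W)
    (hv0 : v ≠ 0) (K : IntermediateField ℂ L) (e : ℕ) (he : e ≤ Module.finrank K L) (A c : ℕ)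
    (hA : e ≤ A) (hc : e ≤ c) : ∃ s : Fin e → L,
      (∀ a, s a ∈ W ^ A * Submodule.span ℂ {1, t} ^ c) ∧ LinearIndependent K s := by
  rcases Nat.eq_zero_or_pos e with rfl | hpos
  · exact ⟨Fin.elim0, fun a => a.elim0, linearIndependent_empty_type⟩
  have : FiniteDimensional K L := Module.finite_of_finrank_pos (by omega)
  obtain ⟨V, hV⟩ : ∃ V : Submodule ℂ L, V = Submodule.span ℂ {1, t} := ⟨_, rfl⟩
  rw [← hV]
  have h1 : (1 : L) ∈ V := hV ▸ Submodule.subset_span (by simp)
  have ht : t ∈ V := hV ▸ Submodule.subset_span (by simp)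
  let G : ℕ → Set L := fun j => {y | v ^ j * y ∈ W ^ j * V ^ j}
  let N : ℕ → Submodule K L := fun j => Submodule.span K (G j)
  have hstep : ∀ (j : ℕ) (w z : L), w ∈ W → z ∈ V → ∀ n ∈ N j, w / v * z * n ∈ N (j + 1) := by
    intro j w z hw hz n hn
    have : N j ≤ (N (j + 1)).comap (LinearMap.mulLeft K (w / v * z)) := by
      refine Submodule.span_le.2 fun y hy => Submodule.subset_span ?_
      have h2 := F1_step W V j hy hw hz
      show v ^ (j + 1) * (w / v * z * y) ∈ W ^ (j + 1) * V ^ (j + 1)
      convert h2 using 1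
      field_simp
      ring
    exact this hn
  have hmono : ∀ j, N j ≤ N (j + 1) := fun j n hn => by
    simpa [hv0] using hstep j v 1 hv h1 n hn
  have hone : ∀ j, (1 : L) ∈ N j := fun j => by
    induction j with
    | zero => exact Submodule.subset_span (by
        show v ^ 0 * 1 ∈ W ^ 0 * V ^ 0
        rw [pow_zero, pow_zero, pow_zero, mul_one, mul_one, Submodule.one_eq_span]
        exact Submodule.mem_span_singleton_self 1)
    | succ j ih => exact hmono j ih
  have hdim : ∀ j, j ≤ Module.finrank K L → j ≤ Module.finrank K (N j) := fun j => by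
    induction j with
    | zero => exact fun _ => Nat.zero_le _
    | succ j ih =>
      intro hj
      rcases (hmono j).lt_or_eq with hlt | heq
      · have := Submodule.finrank_lt_finrank_of_lt hlt
        have := ih (by omega)
        omega
      · have hw : ∀ w ∈ W, w / v ∈ F1_stab K (N j) := fun w hw n hn => by
          have := hstep j w 1 hw h1 n hn
          rwa [mul_one, ← heq] at this
        have htop : F1_stab K (N j) = ⊤ := by
          refine hgen _ (fun n hn => ?_) fun w hw1 w' hw2 => ?_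
          · have := hstep j v t hv ht n hn
            rwa [div_self hv0, one_mul, ← heq] at this
          · have := div_mem (hw w hw1) (hw w' hw2)
            rwa [div_div_div_cancel_right₀ hv0] at this
        have hN : N j = ⊤ := eq_top_iff.2 fun y _ => by
          have hy : y ∈ F1_stab K (N j) := htop ▸ mem_top
          simpa using hy 1 (hone j)
        rw [← heq, hN, finrank_top]
        exact hj
  obtain ⟨f, hf1, -, hf2⟩ := Submodule.exists_fun_fin_finrank_span_eq K (G e)
  have hle : e ≤ Module.finrank K (Submodule.span K (G e)) := hdim e he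
  refine ⟨fun a => v ^ A * f (Fin.castLE hle a), fun a => ?_, ?_⟩
  · obtain ⟨a', rfl⟩ := Nat.exists_eq_add_of_le hA
    obtain ⟨c', rfl⟩ := Nat.exists_eq_add_of_le hc
    have h2 : v ^ e * f (Fin.castLE hle a) ∈ W ^ e * V ^ e := hf1 _
    have h3 := Submodule.mul_mem_mul h2 (Submodule.mul_mem_mul (Submodule.pow_mem_pow W hv a')
      (Submodule.pow_mem_pow V h1 c'))
    rw [mul_mul_mul_comm (W ^ e), ← pow_add, ← pow_add] at h3
    convert h3 using 1
    ring
  · exact (hf2.comp (Fin.castLE hle) (Fin.castLE_injective hle)).map'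
      (LinearMap.mulLeft K (v ^ A))
      (LinearMap.ker_eq_bot.2 fun a b hab => mul_left_cancel₀ (pow_ne_zero A hv0) hab)

/-- Hilbert function bound: each step in `A` gains `e0` (`W S ⊇ v (S + x S)`, `x = u/v`), each step
in `c` gains `f0`. -/
theorem hilbert_lb (W : Submodule ℂ L) [FiniteDimensional ℂ W] (t : L) (ht : Transcendental ℂ t)
    (hgen : GenBy W t) (e0 f0 m : ℕ) (he : GoodRatio W e0) (hf : f0 ≤ fdeg t) (hm1 : e0 ≤ m)
    (hm2 : f0 ≤ m) (A c : ℕ) :
    e0 * A + f0 * c ≤
      Module.finrank ℂ ↥(W ^ (m + A) * Submodule.span ℂ {1, t} ^ (m + c)) := by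
  obtain ⟨u, hu, v, hv, hv0, hx, hex⟩ := he
  have hW : W.FG := Module.Finite.iff_fg.1 inferInstance
  have hV : (Submodule.span ℂ {1, t} : Submodule ℂ L).FG := Submodule.fg_span (Set.toFinite _)
  have hfin : ∀ a b : ℕ, FiniteDimensional ℂ ↥(W ^ a * Submodule.span ℂ {1, t} ^ b) := fun a b =>
    Module.Finite.iff_fg.2 ((hW.pow a).mul (hV.pow b))
  have h1 : (1 : L) ∈ (Submodule.span ℂ {1, t} : Submodule ℂ L) := Submodule.subset_span (by simp)
  have ht' : t ∈ (Submodule.span ℂ {1, t} : Submodule ℂ L) := Submodule.subset_span (by simp)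
  have stepA : ∀ a b : ℕ, m ≤ a → m ≤ b →
      Module.finrank ℂ ↥(W ^ a * Submodule.span ℂ {1, t} ^ b) + e0 ≤
        Module.finrank ℂ ↥(W ^ (a + 1) * Submodule.span ℂ {1, t} ^ b) := fun a b ha hb => by
    obtain ⟨s, hs1, hs2⟩ := exists_indep W t hgen v hv hv0 ℂ⟮u / v⟯ e0 hex a b (by omega) (by omega)
    have := hfin a b
    have := hfin (a + 1) b
    refine (finrank_sup_mul _ (u / v) hx e0 s hs1 hs2).trans ?_
    rw [(Submodule.equivMapOfInjective (LinearMap.mulLeft ℂ v)
      (fun a b hab => mul_left_cancel₀ hv0 hab) _).finrank_eq]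
    refine Submodule.finrank_mono (Submodule.map_le_iff_le_comap.2 (sup_le ?_ ?_))
    · intro y hy
      show v * y ∈ W ^ (a + 1) * Submodule.span ℂ {1, t} ^ b
      rw [pow_succ', mul_assoc]
      exact Submodule.mul_mem_mul hv hy
    · intro y hy
      obtain ⟨z, hz, rfl⟩ := Submodule.mem_span_singleton_mul.1 hy
      show v * (u / v * z) ∈ W ^ (a + 1) * Submodule.span ℂ {1, t} ^ b
      rw [← mul_assoc, mul_div_cancel₀ _ hv0, pow_succ', mul_assoc]
      exact Submodule.mul_mem_mul hu hz
  have stepC : ∀ a b : ℕ, m ≤ a → m ≤ b →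
      Module.finrank ℂ ↥(W ^ a * Submodule.span ℂ {1, t} ^ b) + f0 ≤
        Module.finrank ℂ ↥(W ^ a * Submodule.span ℂ {1, t} ^ (b + 1)) := fun a b ha hb => by
    obtain ⟨s, hs1, hs2⟩ := exists_indep W t hgen v hv hv0 ℂ⟮t⟯ f0 hf a b (by omega) (by omega)
    have := hfin a b
    have := hfin a (b + 1)
    refine (finrank_sup_mul _ t ht f0 s hs1 hs2).trans ?_
    refine Submodule.finrank_mono (sup_le ?_ ?_)
    · intro y hy
      rw [pow_succ, ← mul_assoc, ← mul_one y]
      exact Submodule.mul_mem_mul hy h1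
    · intro y hy
      obtain ⟨z, hz, rfl⟩ := Submodule.mem_span_singleton_mul.1 hy
      rw [pow_succ, ← mul_assoc, mul_comm t z]
      exact Submodule.mul_mem_mul hz ht'
  induction A with
  | zero =>
    induction c with
    | zero => simp
    | succ c ih =>
      have := stepC (m + 0) (m + c) (by omega) (by omega)
      rw [← add_assoc m c 1, mul_add f0]
      omega
  | succ A ih =>
    have := stepA (m + A) (m + c) (by omega) (by omega)
    rw [← add_assoc m A 1, mul_add e0]
    omega

end

end Crest.Agent.R22
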