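import Crest.Agent.R22.Defs

set_option autoImplicit false
open Polynomial IntermediateField

namespace Crest.Agent.R22

variable {d : ℕ}

theorem FC_rename {n : ℕ} (p : MvPolynomial (Fin n) ℂ) :
    MvPolynomial.finSuccEquiv ℂ n (MvPolynomial.rename Fin.succ p) = C p := by
  induction p using MvPolynomial.induction_on with
  | C a => rw [MvPolynomial.rename_C]; exact (MvPolynomial.finSuccEquiv ℂ n).commutes a
  | add p q hp hq => rw [map_add, map_add, hp, hq, map_add]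
  | mul_X p i hp =>
    rw [map_mul, map_mul, hp, MvPolynomial.rename_X, MvPolynomial.finSuccEquiv_X_succ, map_mul]

/-- Eisenstein's criterion at a simple zero of the constant coefficient -/
theorem FC_eis {n k : ℕ} (hk : 1 ≤ k) {l q : MvPolynomial (Fin n) ℂ} (z : Fin n → ℂ) (i : Fin n)
    (hl : MvPolynomial.eval z l ≠ 0) (hq : MvPolynomial.eval z q = 0)
    (hd : MvPolynomial.eval z (MvPolynomial.pderiv i q) ≠ 0)
    (hp : ∀ r, r ∣ l → r ∣ q → IsUnit r) :
    Irreducible (MvPolynomial.rename Fin.succ l * MvPolynomial.X 0 ^ k +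
      MvPolynomial.rename Fin.succ q : MvPolynomial (Fin (n + 1)) ℂ) := by
  rw [← MulEquiv.irreducible_iff (MvPolynomial.finSuccEquiv ℂ n), map_add, map_mul, map_pow,
    FC_rename, FC_rename, MvPolynomial.finSuccEquiv_X_zero]
  have hl0 : l ≠ 0 := fun h => hl (by rw [h, map_zero])
  have hc : ∀ m, (C l * X ^ k + C q).coeff m = (if m = k then l else 0) + if m = 0 then q else 0 :=
    fun m => by rw [coeff_add, coeff_C_mul_X_pow, coeff_C]
  have hdeg : (C l * X ^ k + C q).degree = (k : WithBot ℕ) := by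
    rw [degree_add_C, degree_C_mul_X_pow _ hl0]
    rw [degree_C_mul_X_pow _ hl0]
    exact_mod_cast hk
  have hck : (C l * X ^ k + C q).coeff k = l := by
    rw [hc, if_pos rfl, if_neg (by omega), add_zero]
  have hc0 : (C l * X ^ k + C q).coeff 0 = q := by
    rw [hc, if_neg (by omega), if_pos rfl, zero_add]
  refine irreducible_of_eisenstein_criterion (P := RingHom.ker (MvPolynomial.eval z))
    (RingHom.ker_isPrime _) ?_ (fun m hm => ?_) (by rw [hdeg]; exact_mod_cast hk) (fun h => ?_)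
    fun r hr => ?_
  · rwa [leadingCoeff, natDegree_eq_of_degree_eq_some hdeg, hck]
  · rw [hdeg, Nat.cast_lt] at hm
    rw [hc, if_neg hm.ne, zero_add]
    split_ifs
    · exact hq
    · exact zero_mem _
  · rw [hc0, sq] at h
    refine hd (Submodule.mul_induction_on h (fun a ha b hb => ?_) fun a b ha hb => ?_)
    · rw [MvPolynomial.pderiv_mul, map_add, map_mul, map_mul, RingHom.mem_ker.1 ha,
        RingHom.mem_ker.1 hb, mul_zero, zero_mul, add_zero]
    · rw [map_add, map_add, ha, hb, add_zero]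
  · rw [C_dvd_iff_dvd_coeff] at hr
    exact hp r (hck ▸ hr k) (hc0 ▸ hr 0)

theorem FC_roots {n k : ℕ} (hk : 1 ≤ k) (g : Fin n → ℂ) : ∃ z : Fin n → ℂ, ∀ i, z i ^ k = g i := by
  choose z hz using fun i => IsAlgClosed.exists_pow_nat_eq (g i) hk
  exact ⟨z, hz⟩

theorem FC_lin {k : ℕ} (hk : 1 ≤ k) {c0 c1 c2 : ℂ} (h0 : c0 ≠ 0) (h1 : c1 ≠ 0) (h2 : c2 ≠ 0) :
    Irreducible (MvPolynomial.C c0 * MvPolynomial.X 0 ^ k + MvPolynomial.C c1 * MvPolynomial.X 1 ^ k +
      MvPolynomial.C c2 * MvPolynomial.X 2 ^ k : MvPolynomial (Fin 3) ℂ) := by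
  obtain ⟨z, hz⟩ := FC_roots hk ![c2, -c1]
  have z0 : z 0 ^ k = c2 := hz 0
  have z1 : z 1 ^ k = -c1 := hz 1
  have z2 : z 0 ≠ 0 := fun h => h2 (by rw [← z0, h, zero_pow (by omega)])
  have h := FC_eis hk (l := MvPolynomial.C c0) (q := MvPolynomial.C c1 * MvPolynomial.X 0 ^ k +
    MvPolynomial.C c2 * MvPolynomial.X 1 ^ k) z 0 (by simpa using h0)
    (by simp only [map_add, map_mul, map_pow, MvPolynomial.eval_C, MvPolynomial.eval_X, z0, z1]; ring)
    (by simp [h1, z2, show k ≠ 0 by omega])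
    fun r hr _ => isUnit_of_dvd_unit hr (h0.isUnit.map MvPolynomial.C)
  simp only [map_add, map_mul, map_pow, MvPolynomial.rename_C, MvPolynomial.rename_X,
    ← add_assoc] at h
  exact h

/-- `F = ∑_{i<j} a_ij Y_i^k Y_j^k = Y_3^k ℓ + q`, `ℓ = a03 Y_0^k + a13 Y_1^k + a23 Y_2^k`,
`q = a01 Y_0^k Y_1^k + a02 Y_0^k Y_2^k + a12 Y_1^k Y_2^k`, all `a_ij ≠ 0`, is irreducible. View it in
`ℂ[Y_0,Y_1,Y_2][Y_3]`. A factor of degree `0` in `Y_3` divides `ℓ` and `q`, hence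
`r = a01 g0 g1 - (a02 g0 + a12 g1)(a03 g0 + a13 g1)/a23 ≠ 0` (`g_i = Y_i^k`), so it is free of `Y_2`,
and it divides `ℓ`, whose leading coefficient in `Y_2` is a unit. A factorisation in two factors of
positive degree in `Y_3` survives the specialisation `(Y_0,Y_1,Y_2) ↦ (1, y1, y2 + T)` where
`q(1,y1,y2) = 0` simply and `ℓ(1,y1,y2) ≠ 0`; this contradicts Eisenstein at `T` in `ℂ[T][Y_3]`. -/
theorem FC_prime (k : ℕ) (hk : 1 ≤ k) (a : Fin 4 → Fin 4 → ℂ) (ha : ∀ i j, i < j → a i j ≠ 0) :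
    Prime (∑ i : Fin 4, ∑ j : Fin 4 with i < j,
      MvPolynomial.C (a i j) * MvPolynomial.X i ^ k * MvPolynomial.X j ^ k :
        MvPolynomial (Fin 4) ℂ) := by
  have h01 := ha 0 1 (by decide)
  have h02 := ha 0 2 (by decide)
  have h03 := ha 0 3 (by decide)
  have h12 := ha 1 2 (by decide)
  have h13 := ha 1 3 (by decide)
  have e1 : ∀ᶠ s in nhds (0 : ℂ), a 1 3 + a 2 3 * s ≠ 0 :=
    ContinuousAt.eventually_ne (by fun_prop) (by simpa using h13)
  have e2 : ∀ᶠ s in nhds (0 : ℂ), (a 0 1 + a 0 2 * s) * (a 1 3 + a 2 3 * s) - a 0 3 * a 1 2 * s ≠ 0 :=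
    ContinuousAt.eventually_ne (by fun_prop) (by simp [h01, h13])
  obtain ⟨s, ⟨s1, s2⟩, s0⟩ := (((e1.and e2).filter_mono
    (nhdsWithin_le_nhds (s := {0}ᶜ))).and self_mem_nhdsWithin).exists
  obtain ⟨z, hz⟩ := FC_roots hk ![a 1 3 + a 2 3 * s, s * (a 1 3 + a 2 3 * s), -(a 1 2 * s)]
  have z0 : z 0 ^ k = a 1 3 + a 2 3 * s := hz 0
  have z1 : z 1 ^ k = s * (a 1 3 + a 2 3 * s) := hz 1
  have z2 : z 2 ^ k = -(a 1 2 * s) := hz 2
  have z3 : z 2 ≠ 0 := fun h => neg_ne_zero.2 (mul_ne_zero h12 s0)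
    (by rw [← z2, h, zero_pow (by omega)])
  obtain ⟨w, hw⟩ := FC_roots hk ![a 0 2, -a 0 1, 0]
  have w0 : w 0 ^ k = a 0 2 := hw 0
  have w1 : w 1 ^ k = -a 0 1 := hw 1
  have w2 : w 2 ^ k = 0 := hw 2
  have hl := FC_lin hk h01 h02 h03
  have h := FC_eis hk (q := MvPolynomial.C (a 1 2) * MvPolynomial.X 0 ^ k * MvPolynomial.X 1 ^ k +
    (MvPolynomial.C (a 1 3) * MvPolynomial.X 0 ^ k + MvPolynomial.C (a 2 3) * MvPolynomial.X 1 ^ k) *
      MvPolynomial.X 2 ^ k) z 2 ?_ ?_ ?_ fun r hr hr' => (hl.dvd_iff.1 hr).resolve_right fun hr2 => ?_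
  · refine UniqueFactorizationMonoid.irreducible_iff_prime.1 ?_
    simp only [map_add, map_mul, map_pow, MvPolynomial.rename_C, MvPolynomial.rename_X] at h
    change Irreducible ((MvPolynomial.C (a 0 1) * MvPolynomial.X 1 ^ k +
      MvPolynomial.C (a 0 2) * MvPolynomial.X 2 ^ k + MvPolynomial.C (a 0 3) * MvPolynomial.X 3 ^ k) *
      MvPolynomial.X 0 ^ k + (MvPolynomial.C (a 1 2) * MvPolynomial.X 1 ^ k * MvPolynomial.X 2 ^ k +
      (MvPolynomial.C (a 1 3) * MvPolynomial.X 1 ^ k + MvPolynomial.C (a 2 3) * MvPolynomial.X 2 ^ k) *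
      MvPolynomial.X 3 ^ k) : MvPolynomial (Fin 4) ℂ) at h
    refine (congrArg Irreducible ?_).mpr h
    simp [Finset.sum_filter, Fin.sum_univ_four]
    ring
  · simp only [map_add, map_mul, map_pow, MvPolynomial.eval_C, MvPolynomial.eval_X, z0, z1, z2]
    convert s2 using 1
    ring
  · simp only [map_add, map_mul, map_pow, MvPolynomial.eval_C, MvPolynomial.eval_X, z0, z1, z2]
    ring
  · have e : a 1 3 * (a 1 3 + a 2 3 * s) + a 2 3 * (s * (a 1 3 + a 2 3 * s)) =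
        (a 1 3 + a 2 3 * s) ^ 2 := by ring
    simp [z0, z1, z3, e, s1, show k ≠ 0 by omega]
  · have h1 := map_dvd (MvPolynomial.eval w) (hr2.dvd.trans hr')
    simp [w0, w1, w2, mul_comm, h01, h02, h12] at h1

end Crest.Agent.R22
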