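import Crest.Agent.R22.FFa

set_option autoImplicit false
open Polynomial IntermediateField

namespace Crest.Agent.R22

variable {d : ℕ}

variable {L : Type*} [Field L] [Algebra ℂ L]

/-- `L` as an algebra over the rational function field, `X ↦ x`. -/
@[reducible] noncomputable def FF_alg (x : L) (hx : Transcendental ℂ x) : Algebra (RatFunc ℂ) L :=
  ((algebraMap ℂ⟮x⟯ L).comp
    (RatFunc.algEquivOfTranscendental x hx : RatFunc ℂ →+* ℂ⟮x⟯)).toAlgebra

theorem FF_alg_poly (x : L) (hx : Transcendental ℂ x) (p : ℂ[X]) :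
    letI := FF_alg x hx
    algebraMap (RatFunc ℂ) L (algebraMap ℂ[X] (RatFunc ℂ) p) = aeval x p := by
  change algebraMap ℂ⟮x⟯ L (RatFunc.algEquivOfTranscendental x hx (algebraMap _ _ p)) = _
  rw [RatFunc.algEquivOfTranscendental_algebraMap, ← aeval_algebraMap_apply]
  rfl

theorem FF_eval (x y : L) (hx : Transcendental ℂ x) (h : ℂ[X][X]) :
    letI := FF_alg x hx
    aevalAeval x y h = aeval y (h.map (algebraMap ℂ[X] (RatFunc ℂ))) := by
  letI := FF_alg x hx
  induction h using Polynomial.induction_on' with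
  | add p q hp hq => rw [map_add, Polynomial.map_add, map_add, hp, hq]
  | monomial n a =>
    rw [← C_mul_X_pow_eq_monomial, map_mul, map_pow, aevalAeval_C, aevalAeval_Y,
      Polynomial.map_mul, Polynomial.map_pow, map_C, map_X, map_mul, map_pow, aeval_C, aeval_X,
      FF_alg_poly]

/-- Two elements `x, y` of `L`, `x` transcendental, `y` algebraic over `ℂ(x)`: the kernel of the
evaluation is generated by an irreducible polynomial of positive degree in `y`. -/
theorem exists_isFF (x y : L) (hx : Transcendental ℂ x) (hy : IsIntegral ℂ⟮x⟯ y) :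
    ∃ g : ℂ[X][X], Irreducible g ∧ 1 ≤ g.natDegree ∧ IsFF g x y := by
  letI := FF_alg x hx
  have hy' : IsIntegral (RatFunc ℂ) y := by
    obtain ⟨p, pm, hp⟩ := hy
    let e := RatFunc.algEquivOfTranscendental x hx
    refine ⟨p.map (e.symm : ℂ⟮x⟯ →+* RatFunc ℂ), pm.map _, ?_⟩
    rw [eval₂_map, ← hp]
    congr 1
    ext1 z
    change algebraMap ℂ⟮x⟯ L (e (e.symm z)) = _
    rw [AlgEquiv.apply_symm_apply]
  have hinj := IsFractionRing.injective ℂ[X] (RatFunc ℂ)
  let P : Ideal ℂ[X][X] := RingHom.ker (aevalAeval x y : ℂ[X][X] →ₐ[ℂ] L)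
  have hP : P.IsPrime := RingHom.ker_isPrime _
  have hP0 : P ≠ ⊥ := by
    obtain ⟨b, hb, hq⟩ := IsLocalization.integerNormalization_spec (nonZeroDivisors ℂ[X])
      (minpoly (RatFunc ℂ) y)
    refine (Submodule.ne_bot_iff _).2 ⟨IsLocalization.integerNormalization (nonZeroDivisors ℂ[X])
      (minpoly (RatFunc ℂ) y), ?_, ?_⟩
    · change aevalAeval x y _ = 0
      rw [FF_eval x y hx, hq, Algebra.smul_def, map_mul, minpoly.aeval, mul_zero]
    · exact fun h0 => minpoly.ne_zero hy' (IsFractionRing.integerNormalization_eq_zero_iff.1 h0)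
  obtain ⟨g, hgP, hg⟩ := hP.exists_mem_prime_of_ne_bot hP0
  have hg0 : aevalAeval x y g = 0 := hgP
  have hdeg : 1 ≤ g.natDegree := by
    by_contra h
    have h1 : g = C (g.coeff 0) := eq_C_of_natDegree_eq_zero (by omega)
    rw [h1, aevalAeval_C] at hg0
    have h2 : g.coeff 0 = 0 := transcendental_iff.1 hx _ hg0
    exact hg.ne_zero (by rw [h1, h2, map_zero])
  have hprim : g.IsPrimitive := hg.irreducible.isPrimitive (by omega)
  have hirr := (hprim.irreducible_iff_irreducible_map_fraction_map (K := RatFunc ℂ)).1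
    hg.irreducible
  refine ⟨g, hg.irreducible, hdeg, fun h => ⟨fun h0 => ?_, ?_⟩⟩
  · rw [FF_eval x y hx] at h0 hg0
    refine hprim.dvd_of_fraction_map_dvd_fraction_map (K := RatFunc ℂ) ?_
    exact (((minpoly.irreducible hy').associated_of_dvd hirr
      (minpoly.dvd _ _ hg0)).symm.dvd).trans (minpoly.dvd _ _ h0)
  · rintro ⟨k, rfl⟩
    rw [map_mul, hg0, zero_mul]

/-- In a function field of one variable every nonconstant function has finite degree
(`x` is algebraic over `ℂ(t)`; by `exists_isFF` and `swap`, `t` is algebraic over `ℂ(x)`). -/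
theorem finite_of_trans (t x : L) (ht : Transcendental ℂ t) [FiniteDimensional ℂ⟮t⟯ L]
    (hx : Transcendental ℂ x) : FiniteDimensional ℂ⟮x⟯ L := by
  letI := FF_alg t ht
  haveI : IsScalarTower ℂ (RatFunc ℂ) L := IsScalarTower.of_algebraMap_eq fun c => by
    rw [IsScalarTower.algebraMap_apply ℂ ℂ[X] (RatFunc ℂ), FF_alg_poly]
    simp
  haveI : FunctionField ℂ L := by
    let e := RatFunc.algEquivOfTranscendental t ht
    refine Module.Finite.of_equiv_equiv (A₁ := ℂ⟮t⟯) (B₁ := L) e.symm.toRingEquiv (RingEquiv.refl L) ?_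
    ext1 z
    change algebraMap ℂ⟮t⟯ L (e (e.symm z)) = _
    rw [AlgEquiv.apply_symm_apply]
    rfl
  exact FunctionField.finiteDimensional_of_adjoin_transcendental hx

theorem const_of_not_trans (x : L) (hx : ¬ Transcendental ℂ x) : ∃ a : ℂ, x = algebraMap ℂ L a := by
  have h : IsIntegral ℂ x := (not_not.1 hx : IsAlgebraic ℂ x).isIntegral
  obtain ⟨a, ha⟩ := minpoly.mem_range_of_degree_eq_one ℂ x
    (IsAlgClosed.degree_eq_one_of_irreducible ℂ (minpoly.irreducible h))
  exact ⟨a, ha.symm⟩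

end Crest.Agent.R22
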