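import Crest.Agent.R22.Defs

set_option autoImplicit false
open Polynomial IntermediateField

namespace Crest.Agent.R22

variable {d : ℕ}

theorem ffa_mem {L : Type*} [Field L] [Algebra ℂ L] (K : IntermediateField ℂ L) {t n : L}
    (ht : t ∈ K) (hn : n ∈ K) (h : ℂ[X][X]) : aevalAeval t n h ∈ K := by
  have : (aevalAeval t n : ℂ[X][X] →ₐ[ℂ] L) =
      K.val.comp (aevalAeval (⟨t, ht⟩ : K) (⟨n, hn⟩ : K)) := by
    ext <;> simp
  rw [this]
  exact (aevalAeval (⟨t, ht⟩ : K) (⟨n, hn⟩ : K) h).2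

/-- The fraction field of `ℂ[t][n] / (g)`. -/
theorem exists_FF (g : ℂ[X][X]) (hg : Irreducible g) :
    ∃ (L : Type) (_ : Field L) (_ : Algebra ℂ L) (t n : L), IsFF g t n ∧
      IntermediateField.adjoin ℂ {t, n} = ⊤ := by
  have hp : (Ideal.span {g}).IsPrime := (Ideal.span_singleton_prime hg.ne_zero).2 hg.prime
  let A := ℂ[X][X] ⧸ Ideal.span {g}
  let φ : ℂ[X][X] →ₐ[ℂ] FractionRing A :=
    (IsScalarTower.toAlgHom ℂ A (FractionRing A)).comp (Ideal.Quotient.mkₐ ℂ (Ideal.span {g}))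
  have hφ : (aevalAeval (φ (C X)) (φ X) : ℂ[X][X] →ₐ[ℂ] FractionRing A) = φ := by
    ext <;> simp
  have hφ' : ∀ h, φ h = algebraMap A (FractionRing A) (Ideal.Quotient.mk _ h) := fun _ => by
    simp only [φ, AlgHom.comp_apply, IsScalarTower.coe_toAlgHom']
    exact congrArg _ (congrFun (Ideal.Quotient.mkₐ_eq_mk ℂ (Ideal.span {g})) _)
  refine ⟨FractionRing A, inferInstance, inferInstance, φ (C X), φ X, fun h => ?_, ?_⟩
  · rw [hφ, hφ', map_eq_zero_iff _ (IsFractionRing.injective A (FractionRing A)),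
      Ideal.Quotient.eq_zero_iff_mem, Ideal.mem_span_singleton]
  · refine eq_top_iff.2 fun z _ => ?_
    obtain ⟨a, b, -, rfl⟩ := IsFractionRing.div_surjective (A := A) z
    obtain ⟨a, rfl⟩ := Ideal.Quotient.mk_surjective a
    obtain ⟨b, rfl⟩ := Ideal.Quotient.mk_surjective b
    have key : ∀ h, φ h ∈ IntermediateField.adjoin ℂ {φ (C X), φ X} := fun h => by
      have := ffa_mem (IntermediateField.adjoin ℂ {φ (C X), φ X})
        (IntermediateField.subset_adjoin ℂ _ (Set.mem_insert _ _))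
        (IntermediateField.subset_adjoin ℂ _ (Set.mem_insert_of_mem _ rfl)) h
      rwa [hφ] at this
    exact div_mem (key a) (key b)

variable {L : Type*} [Field L] [Algebra ℂ L]

theorem IsFF.trans_t {g : ℂ[X][X]} {t n : L} (h : IsFF g t n) (hg : Irreducible g)
    (h1 : 1 ≤ g.natDegree) : Transcendental ℂ t := by
  rintro ⟨p, hp0, hp⟩
  have h2 := natDegree_le_of_dvd ((h (C p)).1 (by rw [aevalAeval_C, hp])) (C_ne_zero.2 hp0)
  have := hg.ne_zero
  rw [natDegree_C] at h2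
  omega

theorem ffa_eval₂ (t n : L) (h : ℂ[X][X]) :
    aevalAeval t n h = eval₂ (aeval t : ℂ[X] →ₐ[ℂ] L).toRingHom n h := by
  induction h using Polynomial.induction_on' with
  | add p q hp hq => rw [map_add, eval₂_add, hp, hq]
  | monomial i a => simp [← C_mul_X_pow_eq_monomial]

/-- `g` stays irreducible over `ℂ(t)` (Gauss), so it is the minimal polynomial of `n`. -/
theorem IsFF.finrank_t {g : ℂ[X][X]} {t n : L} (h : IsFF g t n) (hg : Irreducible g)
    (h1 : 1 ≤ g.natDegree) : IsIntegral ℂ⟮t⟯ n ∧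
      Module.finrank ℂ⟮t⟯ ℂ⟮t⟯⟮n⟯ = g.natDegree := by
  have ht := h.trans_t hg h1
  let φ : ℂ[X] →+* ℂ⟮t⟯ := (aeval (AdjoinSimple.gen ℂ t) : ℂ[X] →ₐ[ℂ] ℂ⟮t⟯).toRingHom
  have hφ : ∀ p, algebraMap ℂ⟮t⟯ L (φ p) = aeval t p := fun p => by
    simp only [φ, AlgHom.toRingHom_eq_coe, RingHom.coe_coe]
    rw [← aeval_algebraMap_apply, AdjoinSimple.algebraMap_gen]
  have hcomp : (algebraMap ℂ⟮t⟯ L).comp φ = (aeval t : ℂ[X] →ₐ[ℂ] L).toRingHom :=
    RingHom.ext hφ
  have hinj : Function.Injective φ := fun p q hpq =>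
    transcendental_iff_injective.1 ht (by rw [← hφ, ← hφ, hpq])
  have hdeg : (g.map φ).natDegree = g.natDegree := natDegree_map_eq_of_injective hinj g
  have hg0 : g.map φ ≠ 0 := (Polynomial.map_ne_zero_iff hinj).2 hg.ne_zero
  have hz : aeval n (g.map φ) = 0 := by
    rw [aeval_def, eval₂_map, hcomp, ← ffa_eval₂]
    exact (h g).2 dvd_rfl
  have hint : IsIntegral ℂ⟮t⟯ n := (show IsAlgebraic ℂ⟮t⟯ n from ⟨_, hg0, hz⟩).isIntegral
  refine ⟨hint, ?_⟩
  rw [adjoin.finrank hint]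
  refine le_antisymm (hdeg ▸ natDegree_le_natDegree (minpoly.degree_le_of_ne_zero _ _ hg0 hz)) ?_
  let _ : Algebra ℂ[X] ℂ⟮t⟯ := φ.toAlgebra
  have : FaithfulSMul ℂ[X] ℂ⟮t⟯ := (faithfulSMul_iff_algebraMap_injective _ _).2 hinj
  have : IsFractionRing ℂ[X] ℂ⟮t⟯ := IsFractionRing.of_field _ _ fun z => by
    obtain ⟨r, s, hrs⟩ := (mem_adjoin_simple_iff ℂ (z : L)).1 z.2
    refine ⟨r, s, (algebraMap ℂ⟮t⟯ L).injective ?_⟩
    rw [map_div₀]
    exact hrs.trans (by rw [← hφ, ← hφ]; rfl)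
  set q := IsLocalization.integerNormalization (nonZeroDivisors ℂ[X]) (minpoly ℂ⟮t⟯ n) with hq
  have hq0 : q ≠ 0 := fun h0 =>
    minpoly.ne_zero hint (IsFractionRing.integerNormalization_eq_zero_iff.1 h0)
  have hq1 : aevalAeval t n q = 0 := by
    rw [ffa_eval₂, ← hcomp]
    exact IsLocalization.integerNormalization_eval₂_eq_zero (nonZeroDivisors ℂ[X])
      (algebraMap ℂ⟮t⟯ L) _ (minpoly.aeval ℂ⟮t⟯ n)
  refine (natDegree_le_of_dvd ((h q).1 hq1) hq0).trans ?_
  exact le_natDegree_of_mem_supp _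
    (IsLocalization.integerNormalization_support _ _ (natDegree_mem_support_of_nonzero hq0))

theorem IsFF.fdeg_t {g : ℂ[X][X]} {t n : L} (h : IsFF g t n) (hg : Irreducible g)
    (h1 : 1 ≤ g.natDegree) (gen : IntermediateField.adjoin ℂ {t, n} = ⊤) :
    fdeg t = g.natDegree := by
  have h2 : ℂ⟮t⟯⟮n⟯ = ⊤ := by
    rw [← restrictScalars_eq_top_iff (K := ℂ), adjoin_simple_adjoin_simple, gen]
  rw [fdeg, ← (h.finrank_t hg h1).2, h2, finrank_top']

theorem IsFF.swap {g : ℂ[X][X]} {t n : L} (h : IsFF g t n) :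
    IsFF (Bivariate.swap g) n t := by
  intro p
  rw [← Bivariate.aevalAeval_swap, h, ← map_dvd_iff (Bivariate.swap (R := ℂ)),
    Bivariate.swap_swap_apply]

theorem ffa_coeff_swap (g : ℂ[X][X]) (i j : ℕ) :
    ((Bivariate.swap g).coeff i).coeff j = (g.coeff j).coeff i := by
  induction g using Polynomial.induction_on' with
  | add p q hp hq => simp only [map_add, coeff_add, hp, hq]
  | monomial m a =>
    rw [Bivariate.swap_monomial, coeff_mul_C, coeff_map, coeff_C_mul, coeff_X_pow, coeff_monomial]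
    by_cases hm : m = j
    · simp [hm]
    · simp [hm, Ne.symm hm]

theorem natDegree_swap (g : ℂ[X][X]) : (Bivariate.swap g).natDegree = degT g := by
  refine le_antisymm ?_ ?_
  · rw [natDegree_le_iff_coeff_eq_zero]
    intro i hi
    ext j
    rw [ffa_coeff_swap, coeff_zero]
    by_cases hj : j ∈ g.support
    · exact coeff_eq_zero_of_natDegree_lt (lt_of_le_of_lt
        (Finset.le_sup (f := fun i => (g.coeff i).natDegree) hj) hi)
    · rw [notMem_support_iff.1 hj, coeff_zero]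
  · refine Finset.sup_le fun j _ => ?_
    rw [natDegree_le_iff_coeff_eq_zero]
    intro i hi
    rw [← ffa_coeff_swap, coeff_eq_zero_of_natDegree_lt hi, coeff_zero]

end Crest.Agent.R22
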