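import Crest.Agent.R22.NF

set_option autoImplicit false
open Polynomial IntermediateField

namespace Crest.Agent.R22

variable {d : ℕ}

theorem FacA_zero {φ : Fin d → ℂ} (hφ : Function.Injective φ) {g : ℤ[X]} (hg : g.natDegree < d)
    (h : ∀ j, aeval (φ j) g = 0) : g = 0 := by
  have h1 : g.map (algebraMap ℤ ℂ) = 0 :=
    eq_zero_of_natDegree_lt_card_of_eval_eq_zero _ hφ
      (fun j => by rw [eval_map_algebraMap, h])
      (by rw [Fintype.card_fin]; exact natDegree_map_le.trans_lt hg)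
  exact (Polynomial.map_eq_zero_iff (algebraMap ℤ ℂ).injective_int).1 h1

theorem FacA_lt {G : ℤ[X]} (hG : G.Monic) (hd : G.natDegree = d) (h0 : 0 < d) (g : ℤ[X]) :
    (g %ₘ G).natDegree < d :=
  hd ▸ natDegree_modByMonic_lt g hG fun h => by
    rw [h, natDegree_one] at hd
    omega

theorem FacA_sum {g : ℤ[X]} (hg : g.natDegree < d) (z : ℂ) :
    ∑ l : Fin d, (g.coeff l : ℂ) * z ^ (l : ℕ) = aeval z g := by
  rw [aeval_eq_sum_range' hg, Finset.sum_range]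
  simp only [zsmul_eq_mul]

theorem FacA_poly (v : Fin d → ℤ) : ∃ g : ℤ[X],
    (∀ z : ℂ, aeval z g = ∑ l, (v l : ℂ) * z ^ (l : ℕ)) ∧ ∀ n : ℤ, g.eval n = ∑ l, v l * n ^ (l : ℕ) :=
  ⟨∑ l, C (v l) * X ^ (l : ℕ), fun z => by simp, fun n => by simp [eval_finsetSum]⟩

/-- Cramer's rule for the multiplication by `b` from `R` to the ideal `(p, X)`. -/
theorem FacA_cramer {φ : Fin d → ℂ} (hφ : Function.Injective φ) (hd : 2 ≤ d) {G : ℤ[X]}
    (hG : G.Monic) (hdeg : G.natDegree = d) (hr : ∀ j, aeval (φ j) G = 0) {p : ℤ}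
    (hG0 : p ∣ G.coeff 0) {b : ℤ[X]} (hb : p ∣ b.coeff 0) :
    ∃ (ka : ℤ) (w₀ w₁ : ℤ[X]), ∏ j, aeval (φ j) b = ((ka * p : ℤ) : ℂ) ∧
      (∀ j, aeval (φ j) b * aeval (φ j) w₀ = ka * p) ∧
      ∀ j, aeval (φ j) b * aeval (φ j) w₁ = ka * φ j := by
  classical
  obtain ⟨i0, hi0⟩ : ∃ i0 : Fin d, (i0 : ℕ) = 0 := ⟨⟨0, by omega⟩, rfl⟩
  obtain ⟨i1, hi1⟩ : ∃ i1 : Fin d, (i1 : ℕ) = 1 := ⟨⟨1, by omega⟩, rfl⟩
  obtain ⟨D, hD⟩ : ∃ D : Fin d → ℤ, D = fun l => if l = i0 then p else 1 := ⟨_, rfl⟩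
  have h1 : ∀ l i : Fin d, D l ∣ ((b * X ^ (i : ℕ)) %ₘ G).coeff l := by
    intro l i
    rw [hD]
    dsimp only
    split_ifs with h
    · rw [h, hi0, modByMonic_eq_sub_mul_div, coeff_sub, mul_coeff_zero, mul_coeff_zero]
      exact dvd_sub (hb.mul_right _) (hG0.mul_right _)
    · exact one_dvd _
  choose B hB using h1
  obtain ⟨M, hM⟩ : ∃ M : Matrix (Fin d) (Fin d) ℤ, M = Matrix.of B := ⟨_, rfl⟩
  have h2 : Matrix.vandermonde φ * Matrix.diagonal (fun l => (D l : ℂ)) *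
      (Int.castRingHom ℂ).mapMatrix M =
      Matrix.diagonal (fun j => aeval (φ j) b) * Matrix.vandermonde φ := by
    ext j i
    rw [Matrix.mul_apply, Matrix.diagonal_mul, Matrix.vandermonde_apply]
    have h3 := FacA_sum (FacA_lt hG hdeg (by omega) (b * X ^ (i : ℕ))) (φ j)
    rw [aeval_modByMonic_eq_self_of_root (hr j), map_mul, map_pow, aeval_X] at h3
    rw [← h3]
    refine Finset.sum_congr rfl fun l _ => ?_
    rw [Matrix.mul_diagonal, Matrix.vandermonde_apply, hB, hM]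
    simp only [RingHom.mapMatrix_apply, Matrix.map_apply, Matrix.of_apply, eq_intCast,
      Int.cast_mul]
    ring
  have h4 := congrArg Matrix.det h2
  rw [Matrix.det_mul, Matrix.det_mul, Matrix.det_mul, Matrix.det_diagonal, Matrix.det_diagonal,
    ← RingHom.map_det] at h4
  have h5 : ∏ l, (D l : ℂ) = p := by
    rw [Finset.prod_eq_single i0 (fun l _ hl => by simp [hD, hl]) (by simp)]
    simp [hD]
  have hV := Matrix.det_vandermonde_ne_zero_iff.2 hφ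
  have h6 : ∀ j l : Fin d, φ j ^ (l : ℕ) * D l * M.det =
      aeval (φ j) b * ∑ i, (M.adjugate i l : ℂ) * φ j ^ (i : ℕ) := by
    intro j l
    have h7 := congrArg (fun A => (A * (Int.castRingHom ℂ).mapMatrix M.adjugate) j l) h2
    rw [Matrix.mul_assoc, ← map_mul, Matrix.mul_adjugate, Matrix.mul_assoc _ (Matrix.vandermonde φ),
      Matrix.diagonal_mul, Matrix.mul_apply (M := Matrix.vandermonde φ)
        (N := (Int.castRingHom ℂ).mapMatrix M.adjugate)] at h7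
    have h8 : (Int.castRingHom ℂ).mapMatrix (M.det • (1 : Matrix (Fin d) (Fin d) ℤ)) =
        Matrix.diagonal fun _ => (M.det : ℂ) := by
      ext a a'
      rw [RingHom.mapMatrix_apply, Matrix.map_apply, Matrix.smul_apply, Matrix.one_apply,
        Matrix.diagonal_apply]
      split_ifs <;> simp
    rw [h8, Matrix.mul_diagonal, Matrix.mul_diagonal, Matrix.vandermonde_apply] at h7
    rw [h7]
    congr 1
    exact Finset.sum_congr rfl fun i _ => by simp [mul_comm]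
  obtain ⟨w₀, hw₀, -⟩ := FacA_poly fun i => M.adjugate i i0
  obtain ⟨w₁, hw₁, -⟩ := FacA_poly fun i => M.adjugate i i1
  have h01 : i1 ≠ i0 := fun h => by rw [h] at hi1; omega
  refine ⟨M.det, w₀, w₁, ?_, fun j => ?_, fun j => ?_⟩
  · refine mul_right_cancel₀ hV ?_
    rw [← h4, h5, eq_intCast, Int.cast_mul]
    ring
  · rw [hw₀, ← h6, hi0, hD]
    simp [mul_comm]
  · rw [hw₁, ← h6, hi1, hD]
    simp [h01, mul_comm]

/-- The factorisation in the coordinate `φ = θ - n`. -/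
theorem FacA_core {φ : Fin d → ℂ} (hφ : Function.Injective φ) (hd : 2 ≤ d) {G : ℤ[X]}
    (hG : G.Monic) (hdeg : G.natDegree = d) (hr : ∀ j, aeval (φ j) G = 0) {p : ℤ} (hp : p ≠ 0)
    {k : ℕ} (hk : 1 ≤ k) (hG0 : p ^ k ∣ G.coeff 0) {b : ℤ[X]} (hb : p ∣ b.coeff 0)
    (hb0 : ∀ j, aeval (φ j) b ≠ 0) :
    ∃ (ka : ℤ) (m : ℤ[X]), ∏ j, aeval (φ j) b = ((ka * p : ℤ) : ℂ) ∧
      ∀ j, aeval (φ j) m * aeval (φ j) b ^ k = ka ^ k * -φ j := by
  have hG1 : p ∣ G.coeff 0 := (dvd_pow_self p (by omega)).trans hG0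
  obtain ⟨ka, w₀, w₁, h1, h2, h3⟩ := FacA_cramer hφ hd hG hdeg hr hG1 hb
  have h4 : G ∣ X * w₀ - C p * w₁ := by
    refine (modByMonic_eq_zero_iff_dvd hG).1 (FacA_zero hφ (FacA_lt hG hdeg (by omega) _)
      fun j => ?_)
    rw [aeval_modByMonic_eq_self_of_root (hr j)]
    refine mul_left_cancel₀ (hb0 j) ?_
    simp only [map_sub, map_mul, aeval_X, eq_intCast, map_intCast]
    linear_combination φ j * h2 j - p * h3 j
  obtain ⟨q, hq⟩ := h4
  obtain ⟨g, hg⟩ := hG0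
  obtain ⟨g', hg'⟩ := hG1
  have hGX := X_mul_divX_add G
  have h5 : C p ∣ w₀ - G.divX * q := by
    refine (C_dvd_iff_dvd_coeff _ _).2 fun i => ?_
    have h6 : X * (w₀ - G.divX * q) = C p * (w₁ + C g' * q) := by
      rw [hg', C_mul] at hGX
      linear_combination hq - q * hGX
    rw [← coeff_X_mul, h6, coeff_C_mul]
    exact dvd_mul_right _ _
  obtain ⟨η, hη⟩ := h5
  obtain ⟨s, hs⟩ := sub_dvd_pow_sub_pow w₀ (C p * η) k
  have h7 : C p ^ k * (C g * q * s - X * η ^ k) = -(X * w₀ ^ k) + G * (q * s) := by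
    rw [hg, C_mul, C_pow] at hGX
    rw [mul_pow] at hs
    linear_combination q * s * hGX + X * hs + X * s * hη
  refine ⟨ka, C g * q * s - X * η ^ k, h1, fun j => ?_⟩
  have h8 := congrArg (aeval (φ j)) h7
  rw [map_mul, map_add, map_neg, map_mul, map_mul _ G, hr, map_pow, map_pow, aeval_X, aeval_C,
    eq_intCast] at h8
  have h9 : (aeval (φ j) b * aeval (φ j) w₀) ^ k = (ka * p) ^ k := by rw [h2]
  rw [mul_pow, mul_pow] at h9
  refine mul_left_cancel₀ (pow_ne_zero k (Int.cast_ne_zero.2 hp : (p : ℂ) ≠ 0)) ?_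
  linear_combination aeval (φ j) b ^ k * h8 - φ j * h9

theorem FacA_prim {v : Fin d → ℤ} (hv : v ≠ 0) :
    ∃ (e : ℤ) (w : Fin d → ℤ), e ≠ 0 ∧ v = e • w ∧ Prim w := by
  classical
  obtain ⟨i, hi⟩ := Function.ne_iff.1 hv
  obtain ⟨w, h1, h2⟩ := Finset.extract_gcd (s := Finset.univ) v ⟨i, Finset.mem_univ _⟩
  refine ⟨Finset.univ.gcd v, w, fun h => hi ?_, funext fun l => h1 l (Finset.mem_univ _),
    fun l hl => ?_⟩
  · rw [h1 i (Finset.mem_univ _), h, zero_mul]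
    rfl
  · by_contra h
    push Not at h
    have h3 : (l : ℤ) ∣ 1 := h2 ▸ Finset.dvd_gcd fun a _ => h a
    exact hl.one_lt.ne' (Nat.dvd_one.1 (by exact_mod_cast h3))

/-- Pigeonhole: a short primitive vector in the ideal `(p, θ - n)`. -/
theorem FacA_short (hd : 2 ≤ d) (n : ℤ) {p : ℕ} (hp : p.Prime) :
    ∃ v : Fin d → ℤ, v ≠ 0 ∧ Prim v ∧ ‖v‖ ^ d ≤ p ∧ (p : ℤ) ∣ ∑ l, v l * n ^ (l : ℕ) := by
  classical
  obtain ⟨M, hM1, hM2⟩ : ∃ M : ℕ, M ^ d ≤ p ∧ p < (M + 1) ^ d :=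
    ⟨Nat.nthRoot d p, Nat.pow_nthRoot_le_iff.2 (Or.inl (by omega)),
      Nat.lt_pow_nthRoot_add_one (by omega) p⟩
  have : NeZero p := ⟨hp.ne_zero⟩
  obtain ⟨u, u', hne, he⟩ := Fintype.exists_ne_map_eq_of_card_lt
    (fun u : Fin d → Fin (M + 1) => ((∑ l, ((u l : ℕ) : ℤ) * n ^ (l : ℕ) : ℤ) : ZMod p))
    (by simpa using hM2)
  obtain ⟨v, hv⟩ : ∃ v : Fin d → ℤ, v = fun l => ((u' l : ℕ) : ℤ) - (u l : ℕ) := ⟨_, rfl⟩
  have hv0 : v ≠ 0 := fun h => hne (funext fun l => Fin.ext (by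
    have := congrFun h l
    simp only [hv, Pi.zero_apply] at this
    omega))
  have hvM : ∀ l, |v l| ≤ M := fun l => by
    have h1 := (u l).2
    have h2 := (u' l).2
    rw [hv, abs_le]
    constructor <;> dsimp only <;> omega
  have hdv : (p : ℤ) ∣ ∑ l, v l * n ^ (l : ℕ) := by
    have := (ZMod.intCast_eq_intCast_iff_dvd_sub _ _ _).1 he
    simpa only [hv, sub_mul, Finset.sum_sub_distrib] using this
  obtain ⟨e, w, he0, hw, hP⟩ := FacA_prim hv0
  have hw0 : w ≠ 0 := fun h => hv0 (by rw [hw, h, smul_zero])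
  have he1 : 1 ≤ |e| := Int.one_le_abs he0
  have hew : ∀ l, |e| * |w l| ≤ M := fun l => by
    have := hvM l
    rwa [hw, Pi.smul_apply, smul_eq_mul, abs_mul] at this
  have hMp : M < p := by
    rcases Nat.lt_or_ge M 2 with h | h
    · exact h.trans_le hp.two_le
    · exact (lt_self_pow₀ (by omega) (by omega)).trans_le hM1
  refine ⟨w, hw0, hP, ?_, ?_⟩
  · have h1 : ‖w‖ ≤ M := (pi_norm_le_iff_of_nonneg (Nat.cast_nonneg _)).2 fun l => by
      rw [Int.norm_eq_abs]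
      exact_mod_cast (le_mul_of_one_le_left (abs_nonneg _) he1).trans (hew l)
    exact (pow_le_pow_left₀ (norm_nonneg _) h1 _).trans (by exact_mod_cast hM1)
  · have h1 : ∑ l, v l * n ^ (l : ℕ) = e * ∑ l, w l * n ^ (l : ℕ) := by
      simp only [hw, Pi.smul_apply, smul_eq_mul, Finset.mul_sum, mul_assoc]
    rw [h1] at hdv
    refine ((Nat.prime_iff_prime_int.1 hp).dvd_or_dvd hdv).resolve_left fun h => ?_
    obtain ⟨l, hl⟩ := Function.ne_iff.1 hw0
    have h2 : (p : ℤ) ≤ |e| := Int.le_of_dvd (by omega) ((dvd_abs _ _).2 h)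
    have h3 := (le_mul_of_one_le_right (abs_nonneg e) (Int.one_le_abs hl)).trans (hew l)
    omega

theorem FacA_taylor (g : ℤ[X]) (n : ℤ) (z : ℂ) : aeval z (taylor n g) = aeval (z + n) g := by
  simp [taylor_apply, aeval_comp]

/-- Factorisation. `F(X) - F(n) = (X - n) F1(X)`, `F1` monic of degree `d - 1`, `R = ℤ[X]/(F)`.
Pigeonhole on the vectors `t F1 mod p`, `0 ≤ t < p`, and boxes of side `≍ p^((d-1)/d)`:
`ξ = t F1 + p η ≠ 0` with coordinates `≤ C p^((d-1)/d)`. Since `(θ - n) F1(θ) = -F(n)`,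
`p^k ∣ (n - θ) ξ^k` in `R`: `μ = (n - θ) ξ^k / p^k`. The map `γ ↦ γ ξ / p` from
`𝔭 = ⟨p, (θ-n) θ^i⟩` to `R` has an integer matrix `A` with `p^d det A = ± p N(ξ)`; Cramer's rule gives
`β ∈ 𝔭` with `β ξ = p κ`, `κ = det A`, `0 < |κ| ≤ C`. Then `μ β^k = κ^k (n - θ)`, `N β = ± κ^(d-1) p`,
`|σ ξ| ≍ p^((d-1)/d)`. Finally divide `β` and `μ` by their contents (`e^d ∣ ka`, `e' ∣ cc`: look at the
coefficient of `θ`). -/
theorem facA (c : Ctx d) (hd : 2 ≤ d) (k : ℕ) (hk : 1 ≤ k) : ∃ C : ℝ, 1 ≤ C ∧ ∀ (n : ℤ) (p : ℕ),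
    p.Prime → C < p → (p : ℤ) ^ k ∣ c.F.eval n → ∃ P : Pt c k, P.n = n ∧ P.p = p ∧
      |(P.cc : ℝ)| ≤ C ∧ |(P.ka : ℝ)| ≤ C ∧ ∀ j, ‖c.sg j P.be‖ ^ d ≤ C * p := by
  obtain ⟨C1, hC1, -, -, hN⟩ := norm_equiv c
  have hCd : 1 ≤ C1 ^ d := one_le_pow₀ hC1
  have hCk : C1 ^ d ≤ (C1 ^ d) ^ k := le_self_pow₀ hCd (by omega)
  refine ⟨(C1 ^ d) ^ k, hCd.trans hCk, fun n p hp _ hpk => ?_⟩
  have hp0 : (0 : ℝ) < p := Nat.cast_pos.2 hp.pos
  obtain ⟨be, hbe0, hbeP, hbeN, hbeD⟩ := FacA_short hd n hp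
  obtain ⟨b, hb1, hb2⟩ := FacA_poly be
  have hb3 : ∀ j, aeval (c.th j - n) (taylor n b) = c.sg j be := fun j => by
    rw [FacA_taylor, sub_add_cancel, hb1, Ctx.sg]
  obtain ⟨ka, m, h1, h2⟩ := FacA_core (φ := fun j => c.th j - n) (G := taylor n c.F)
    (fun i j h => c.inj (sub_left_injective h)) hd
    (by rw [Monic, leadingCoeff_taylor]; exact c.monic) (by rw [natDegree_taylor, c.deg])
    (fun j => by rw [FacA_taylor, sub_add_cancel, c.root]) (p := p)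
    (Nat.cast_ne_zero.2 hp.ne_zero) hk (by rwa [taylor_coeff_zero]) (b := taylor n b)
    (by rwa [taylor_coeff_zero, hb2]) (fun j => by rw [hb3]; exact sg_ne_zero c j hbe0)
  simp only [hb3, neg_sub] at h1 h2
  have hsg : ∀ j, ‖c.sg j be‖ ^ d ≤ C1 ^ d * p := fun j => by
    refine (pow_le_pow_left₀ (norm_nonneg _) ((hN be).1 j) _).trans ?_
    rw [mul_pow]
    exact mul_le_mul_of_nonneg_left hbeN (by positivity)
  have hka0 : ka ≠ 0 := fun h => by
    rw [h, zero_mul, Int.cast_zero, Finset.prod_eq_zero_iff] at h1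
    obtain ⟨j, -, hj⟩ := h1
    exact sg_ne_zero c j hbe0 hj
  have hka : |(ka : ℝ)| ≤ C1 ^ d := by
    have h3 := congrArg norm h1
    rw [norm_prod, Complex.norm_intCast, Int.cast_mul, abs_mul, Int.cast_natCast,
      abs_of_pos hp0] at h3
    have h4 : ∏ j, ‖c.sg j be‖ ≤ (C1 * ‖be‖) ^ d := by
      refine (Finset.prod_le_prod (fun _ _ => norm_nonneg _) fun j _ => (hN be).1 j).trans_eq ?_
      rw [Finset.prod_const, Finset.card_univ, Fintype.card_fin]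
    rw [h3, mul_pow] at h4
    exact le_of_mul_le_mul_right
      (h4.trans (mul_le_mul_of_nonneg_left hbeN (by positivity))) hp0
  have hvec : ∀ g : ℤ[X], ∀ j, c.sg j (fun l => (g %ₘ c.F).coeff l) = aeval (c.th j) g :=
    fun g j => by
      rw [Ctx.sg, FacA_sum (FacA_lt c.monic c.deg (by omega) g),
        aeval_modByMonic_eq_self_of_root (c.root j)]
  obtain ⟨μ, hμ⟩ : ∃ μ : Fin d → ℤ, ∀ j, c.sg j μ * c.sg j be ^ k = ka ^ k * (n - c.th j) :=
    ⟨_, fun j => by rw [hvec (taylor (-n) m), FacA_taylor, Int.cast_neg, ← sub_eq_add_neg, h2]⟩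
  have hμ0 : μ ≠ 0 := fun h => by
    have h3 := hμ ⟨0, by omega⟩
    rw [h, Ctx.sg] at h3
    simp only [Pi.zero_apply, Int.cast_zero, zero_mul, Finset.sum_const_zero] at h3
    exact mul_ne_zero (pow_ne_zero k (Int.cast_ne_zero.2 hka0)) (th_ne_int c hd _ n) h3.symm
  obtain ⟨e, mu, he0, hmu, hmuP⟩ := FacA_prim hμ0
  obtain ⟨a, ha, -⟩ := FacA_poly mu
  have ha' : ∀ j, aeval (c.th j) a = c.sg j mu := fun j => ha _
  have hb' : ∀ j, aeval (c.th j) b = c.sg j be := fun j => hb1 _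
  simp only [hmu, sg_smul] at hμ
  have h5 : C e * ((a * b ^ k) %ₘ c.F) - C (ka ^ k) * (C n - X) = 0 := by
    refine FacA_zero c.inj ((natDegree_sub_le _ _).trans_lt (max_lt
      ((natDegree_C_mul_le _ _).trans_lt (FacA_lt c.monic c.deg (by omega) _))
      ((natDegree_C_mul_le _ _).trans_lt ((natDegree_sub_le _ _).trans_lt ?_)))) fun j => ?_
    · rw [natDegree_C, natDegree_X]
      exact max_lt (by omega) (by omega)
    · rw [map_sub, map_mul, aeval_modByMonic_eq_self_of_root (c.root j)]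
      simp only [map_sub, map_mul, map_pow, aeval_X, eq_intCast, map_intCast, ha', hb']
      linear_combination hμ j
  obtain ⟨cc, hcc⟩ : ∃ cc : ℤ, e * cc = ka ^ k := by
    have h6 := congrArg (fun g => g.coeff 1) h5
    simp only [coeff_sub, coeff_C_mul, coeff_X_one, coeff_zero, coeff_C_of_ne_zero one_ne_zero]
      at h6
    exact ⟨-((a * b ^ k) %ₘ c.F).coeff 1, by linear_combination -h6⟩
  have hcc0 : cc ≠ 0 := fun h => pow_ne_zero k hka0 (by rw [← hcc, h, mul_zero])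
  have hrel : ∀ j, c.sg j mu * c.sg j be ^ k = (cc : ℂ) * ((n : ℂ) - c.th j) := fun j => by
    refine mul_left_cancel₀ (Int.cast_ne_zero.2 he0 : (e : ℂ) ≠ 0) ?_
    have h7 : (e : ℂ) * cc = ka ^ k := by exact_mod_cast hcc
    linear_combination hμ j - (n - c.th j) * h7
  refine ⟨⟨n, p, cc, ka, be, mu, hp, hpk, hrel, h1, hcc0, hka0, hbeP, hmuP⟩, rfl, rfl, ?_,
    hka.trans hCk, fun j => (hsg j).trans (mul_le_mul_of_nonneg_right hCk hp0.le)⟩
  have h8 : |cc| ≤ |ka| ^ k := by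
    rw [← abs_pow, ← hcc, abs_mul]
    exact le_mul_of_one_le_left (abs_nonneg _) (Int.one_le_abs he0)
  have h9 : |(cc : ℝ)| ≤ |(ka : ℝ)| ^ k := by exact_mod_cast h8
  exact h9.trans (pow_le_pow_left₀ (abs_nonneg _) hka _)

end Crest.Agent.R22
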