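import Crest.Agent.R22.NF
import Crest.Agent.R22.FacA

set_option autoImplicit false
open Polynomial IntermediateField

namespace Crest.Agent.R22

variable {d : ℕ}

/-- Sizes: `2^i ≤ p^(1/d) < 2^(i+1)`; lower bounds from `|N β| ≥ p`; `|n - θ_j| ≍ X`. -/
theorem fac (c : Ctx d) (hd : 2 ≤ d) (k : ℕ) (hk : 1 ≤ k) (c0 : ℝ) (h0 : 1 ≤ c0) :
    ∃ C0 X0 : ℝ, 1 ≤ C0 ∧ ∀ (X : ℝ) (n : ℤ) (p : ℕ), X0 ≤ X → X ≤ n → (n : ℝ) ≤ 2 * X → p.Prime →
      X / c0 ≤ p → (p : ℤ) ^ k ∣ c.F.eval n →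
      ∃ (P : Pt c k) (i : ℕ), P.n = n ∧ Sz C0 X (2 ^ i) P := by
  obtain ⟨C, hC, hA⟩ := facA c hd k hk
  obtain ⟨C1, hC1, hth, -, hN⟩ := norm_equiv c
  obtain ⟨a, ha⟩ : ∃ a, a = 2 * C := ⟨_, rfl⟩
  have ha1 : 1 ≤ a := by linarith
  obtain ⟨A, hAe⟩ : ∃ A, A = a ^ (d * k) := ⟨_, rfl⟩
  have a1 : a ^ d ≤ A := hAe ▸ pow_le_pow_right₀ ha1 (Nat.le_mul_of_pos_right d hk)
  have a2 : a ^ k ≤ A := hAe ▸ pow_le_pow_right₀ ha1 (Nat.le_mul_of_pos_left k (by omega))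
  have a3 : a ≤ A := (le_self_pow₀ ha1 (by omega)).trans a1
  have a4 : 3 * A ≤ 3 * C * A := by nlinarith
  have a5 : 3 * C * A ≤ C1 * (3 * C * A) := le_mul_of_one_le_left (by linarith) hC1
  have a6 : C1 * (3 * C * A) ≤ c0 * (C1 * (3 * C * A)) := le_mul_of_one_le_left (by linarith) h0
  have a7 : c0 ≤ c0 * (C1 * (3 * C * A)) := le_mul_of_one_le_right (by linarith) (by linarith)
  have a8 : C1 * a ≤ C1 * (3 * C * A) := mul_le_mul_of_nonneg_left (by linarith) (by linarith)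
  obtain ⟨C0, hC0⟩ : ∃ C0, C0 = c0 * (C1 * (3 * C * A)) := ⟨_, rfl⟩
  rw [← hC0] at a6 a7
  refine ⟨C0, max (2 * C1) ((C + 1) * c0), by linarith, fun X n p hX hn1 hn2 hp hXp hpk => ?_⟩
  have hX1 : 2 * C1 ≤ X := (le_max_left _ _).trans hX
  have hX0 : 0 < X := by linarith
  have hCp : C + 1 ≤ p := ((le_div_iff₀ (by linarith)).2 ((le_max_right _ _).trans hX)).trans hXp
  obtain ⟨P, rfl, rfl, hcc, hka, hbe⟩ := hA n p hp (by linarith) hpk
  obtain ⟨i, hi1, hi2⟩ := exists_nat_pow_near (x := (P.p : ℝ)) (y := (2 : ℝ) ^ d) (by linarith)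
    (one_lt_pow₀ (by norm_num) (by omega))
  obtain ⟨B, hB⟩ : ∃ B : ℝ, B = 2 ^ i := ⟨_, rfl⟩
  have hB0 : 0 < B := by rw [hB]; positivity
  rw [pow_succ] at hi2
  rw [← pow_mul, mul_comm d i, pow_mul, ← hB] at hi1 hi2
  refine ⟨P, i, rfl, ?_⟩
  rw [← hB]
  have b2 : ∀ j, ‖c.sg j P.be‖ ≤ a * B := fun j => by
    refine le_of_pow_le_pow_left₀ (n := d) (by omega) (by positivity) ((hbe j).trans ?_)
    rw [ha, mul_pow, mul_pow, mul_comm (2 ^ d : ℝ), mul_assoc, mul_comm (2 ^ d : ℝ)]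
    exact mul_le_mul (le_self_pow₀ hC (by omega)) hi2.le (by positivity) (by positivity)
  have b1 : ∀ j, B ≤ ‖c.sg j P.be‖ * a ^ d := fun j => by
    have h1 := congrArg norm P.nrm
    rw [norm_prod, Complex.norm_intCast, Int.cast_mul, abs_mul, Int.cast_natCast,
      Nat.abs_cast, ← Finset.mul_prod_erase _ _ (Finset.mem_univ j)] at h1
    have h2 : ∏ l ∈ Finset.univ.erase j, ‖c.sg l P.be‖ ≤ (a * B) ^ (d - 1) := by
      refine (Finset.prod_le_prod (fun _ _ => norm_nonneg _) fun l _ => b2 l).trans_eq ?_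
      rw [Finset.prod_const, Finset.card_erase_of_mem (Finset.mem_univ j), Finset.card_univ,
        Fintype.card_fin]
    have h3 : (1 : ℝ) ≤ |(P.ka : ℝ)| := by exact_mod_cast Int.one_le_abs P.ka0
    have h4 : B ^ d = B * B ^ (d - 1) := by rw [← pow_succ']; congr 1; omega
    refine le_of_mul_le_mul_right ?_ (pow_pos hB0 (d - 1))
    calc B * B ^ (d - 1) ≤ P.p := h4 ▸ hi1
      _ ≤ |(P.ka : ℝ)| * P.p := le_mul_of_one_le_left (Nat.cast_nonneg _) h3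
      _ ≤ ‖c.sg j P.be‖ * (a * B) ^ (d - 1) :=
          h1 ▸ mul_le_mul_of_nonneg_left h2 (norm_nonneg _)
      _ ≤ ‖c.sg j P.be‖ * a ^ d * B ^ (d - 1) := by
          rw [mul_pow, mul_assoc]
          gcongr
          exact Nat.sub_le _ _
  have hr : ∀ j, X / 2 ≤ ‖c.sg j P.mu‖ * ‖c.sg j P.be‖ ^ k ∧
      ‖c.sg j P.mu‖ * ‖c.sg j P.be‖ ^ k ≤ C * (3 * X) := fun j => by
    have h1 := congrArg norm (P.rel j)
    rw [norm_mul, norm_pow, norm_mul, Complex.norm_intCast] at h1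
    have h2 : ‖(P.n : ℂ)‖ = P.n := by rw [Complex.norm_intCast, abs_of_nonneg (by linarith)]
    have h3 := norm_sub_norm_le (P.n : ℂ) (c.th j)
    have h4 := norm_sub_le (P.n : ℂ) (c.th j)
    have h5 : (1 : ℝ) ≤ |(P.cc : ℝ)| := by exact_mod_cast Int.one_le_abs P.cc0
    have h6 := hth j
    rw [h1]
    exact ⟨le_trans (by linarith) (le_mul_of_one_le_left (norm_nonneg _) h5),
      mul_le_mul hcc (by linarith) (norm_nonneg _) (by linarith)⟩
  have m2 : ∀ j, ‖c.sg j P.mu‖ ≤ 3 * C * A * (X / B ^ k) := fun j => by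
    rw [← mul_div_assoc, le_div_iff₀ (by positivity)]
    calc ‖c.sg j P.mu‖ * B ^ k ≤ ‖c.sg j P.mu‖ * (‖c.sg j P.be‖ * a ^ d) ^ k := by
          gcongr; exact b1 j
      _ = ‖c.sg j P.mu‖ * ‖c.sg j P.be‖ ^ k * A := by rw [hAe, pow_mul]; ring
      _ ≤ C * (3 * X) * A := mul_le_mul_of_nonneg_right (hr j).2 (by linarith)
      _ = _ := by ring
  have hXB : 0 ≤ X / B ^ k := by positivity
  refine ⟨hn1, hn2, by linarith, by linarith,
    (div_le_div_of_nonneg_left hX0.le (by linarith) a7).trans hXp, fun j => ?_,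
    fun j => (b2 j).trans (mul_le_mul_of_nonneg_right (by linarith) hB0.le), fun j => ?_,
    fun j => (m2 j).trans (mul_le_mul_of_nonneg_right (by linarith) hXB), ?_, ?_⟩
  · rw [div_le_iff₀ (by linarith)]
    exact (b1 j).trans (mul_le_mul_of_nonneg_left (by linarith) (norm_nonneg _))
  · rw [div_le_iff₀ (by linarith), div_le_iff₀ (by positivity)]
    calc X ≤ 2 * (‖c.sg j P.mu‖ * ‖c.sg j P.be‖ ^ k) := by linarith [(hr j).1]
      _ ≤ 2 * (‖c.sg j P.mu‖ * (a * B) ^ k) := by gcongr; exact b2 j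
      _ = ‖c.sg j P.mu‖ * (2 * a ^ k) * B ^ k := by ring
      _ ≤ _ := by gcongr; linarith
  · refine ((hN _).2 _ (by positivity) b2).trans ?_
    rw [← mul_assoc]
    exact mul_le_mul_of_nonneg_right (by linarith) hB0.le
  · refine ((hN _).2 _ (mul_nonneg (by linarith) hXB) m2).trans ?_
    rw [← mul_assoc]
    exact mul_le_mul_of_nonneg_right a6 hXB

end Crest.Agent.R22
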