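import Crest.Agent.R22.Defs

set_option autoImplicit false
open Polynomial IntermediateField

namespace Crest.Agent.R22

variable {d : ℕ}

section aux
open Matrix

/-- A saturated family of rows has a right inverse. -/
theorem HG_right_inv {E N : Type} [Fintype E] [DecidableEq E] [Fintype N] [DecidableEq N]
    (R : Matrix E N ℤ)
    (h : ∀ l : ℕ, l.Prime → ∀ u : E → ℤ, (∀ j, (l : ℤ) ∣ (u ᵥ* R) j) → ∀ i, (l : ℤ) ∣ u i) :
    ∃ W : Matrix N E ℤ, R * W = 1 := by
  have h1 : ∀ r : ℕ, r ≠ 0 → ∀ u : E → ℤ, (∀ j, (r : ℤ) ∣ (u ᵥ* R) j) → ∀ i, (r : ℤ) ∣ u i := by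
    intro r
    induction r using induction_on_primes with
    | zero => exact fun h0 => absurd rfl h0
    | one => exact fun _ _ _ _ => by simp
    | prime_mul p a hp ih =>
      intro h0 u hu
      choose u' hu' using h p hp u fun j => (Dvd.intro _ (Nat.cast_mul p a).symm).trans (hu j)
      obtain rfl : u = (p : ℤ) • u' := funext hu'
      have hp0 : (p : ℤ) ≠ 0 := by exact_mod_cast hp.ne_zero
      intro i
      rw [Nat.cast_mul]
      refine mul_dvd_mul_left _ (ih (right_ne_zero_of_mul h0) u' (fun j => ?_) i)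
      have := hu j
      rw [Matrix.smul_vecMul, Nat.cast_mul] at this
      exact (mul_dvd_mul_iff_left hp0).1 this
  have h2 : ∀ r : ℤ, r ≠ 0 → ∀ u : E → ℤ, (∀ j, r ∣ (u ᵥ* R) j) → ∀ i, r ∣ u i :=
    fun r hr u hu i => Int.natAbs_dvd.1
      (h1 r.natAbs (Int.natAbs_ne_zero.2 hr) u (fun j => Int.natAbs_dvd.2 (hu j)) i)
  let f : (E → ℤ) →ₗ[ℤ] (N → ℤ) := R.vecMulLinear
  have hf : Function.Injective f := by
    rw [injective_iff_map_eq_zero]
    intro u hu
    funext i
    have h3 : u ᵥ* R = 0 := hu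
    exact Int.eq_zero_of_abs_lt_dvd
      (h2 (|u i| + 1) (by positivity) u (fun j => by rw [h3]; exact dvd_zero _) i) (by simp)
  have ht : Module.IsTorsionFree ℤ ((N → ℤ) ⧸ LinearMap.range f) := by
    refine Module.IsTorsionFree.of_smul_eq_zero fun r m hm => ?_
    obtain ⟨v, rfl⟩ := Submodule.Quotient.mk_surjective _ m
    by_cases hr : r = 0
    · exact Or.inl hr
    right
    rw [← Submodule.Quotient.mk_smul, Submodule.Quotient.mk_eq_zero] at hm
    obtain ⟨u, hu⟩ := hm
    have hu' : u ᵥ* R = r • v := hu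
    choose u' h3 using h2 r hr u fun j => by rw [hu']; exact Dvd.intro _ rfl
    obtain rfl : u = r • u' := funext h3
    rw [Submodule.Quotient.mk_eq_zero]
    rw [map_smul] at hu
    exact ⟨u', smul_right_injective _ hr hu⟩
  have h4 := (Function.Exact.split_tfae f.exact_map_mkQ_range hf
    (Submodule.mkQ_surjective _)).out 0 1
  obtain ⟨g, hg⟩ := h4.1 (Module.projective_lifting_property _ _ (Submodule.mkQ_surjective _))
  refine ⟨Matrix.of fun j i => g (Pi.single j 1) i, ?_⟩
  ext a i
  have h5 : g (f (Pi.single a 1)) = Pi.single a 1 := LinearMap.congr_fun hg _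
  have h6 : f (Pi.single a 1) = ∑ j, R a j • (Pi.single j 1 : N → ℤ) := by
    funext j
    simp [f, Finset.sum_apply, Pi.single_apply]
  rw [h6, map_sum] at h5
  have h7 := congrFun h5 i
  simp only [map_smul, Finset.sum_apply, Pi.smul_apply, smul_eq_mul] at h7
  rw [Matrix.mul_apply]
  simp only [Matrix.of_apply]
  rw [h7, Matrix.one_apply, Pi.single_apply]
  simp only [eq_comm]

theorem HG_block {E S : Type} [Fintype E] [DecidableEq E] [Fintype S] [DecidableEq S]
    (R : Matrix E (E ⊕ S) ℤ) (W : Matrix (E ⊕ S) E ℤ) (V : Matrix (E ⊕ S) S ℤ) (h1 : R * W = 1)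
    (h2 : R * V = 0) : R.toCols₁.det ∣ V.toRows₂.det := by
  rw [← fromCols_toCols R, ← fromRows_toRows W, fromCols_mul_fromRows] at h1
  rw [← fromCols_toCols R, ← fromRows_toRows V, fromCols_mul_fromRows] at h2
  have h3 : fromBlocks R.toCols₁ R.toCols₂ 0 1 * fromBlocks W.toRows₁ V.toRows₁ W.toRows₂ V.toRows₂ =
      fromBlocks 1 0 W.toRows₂ V.toRows₂ := by
    rw [fromBlocks_multiply, h1, h2]
    simp
  have h4 := congrArg Matrix.det h3
  rw [det_mul, det_fromBlocks_zero₂₁, det_fromBlocks_zero₁₂, det_one, det_one, mul_one,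
    one_mul] at h4
  exact Dvd.intro _ h4

theorem HG_det_tri {ι : Type} [Fintype ι] [DecidableEq ι] (M : Matrix ι ι ℤ) (b : ι → ℕ)
    (h : ∀ a c, M a c ≠ 0 → c = a ∨ b c < b a) : M.det = ∏ i, M i i := by
  rw [det_apply, Finset.sum_eq_single 1]
  · simp
  · intro σ _ hσ
    by_contra h0
    have h1 : ∀ i, M (σ i) i ≠ 0 := fun i =>
      Finset.prod_ne_zero_iff.1 (right_ne_zero_of_smul h0) i (Finset.mem_univ i)
    obtain ⟨i, hi⟩ : ∃ i, σ i ≠ i := by
      by_contra h2
      push Not at h2
      exact hσ (Equiv.ext h2)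
    have h2 : ∑ i, b i < ∑ i, b (σ i) := by
      refine Finset.sum_lt_sum (fun j _ => ?_) ⟨i, Finset.mem_univ _, ?_⟩
      · rcases h _ _ (h1 j) with e | e
        · rw [← e]
        · exact e.le
      · exact (h _ _ (h1 i)).resolve_left hi.symm
    rw [Equiv.sum_comp σ b] at h2
    exact lt_irrefl _ h2
  · simp

end aux

/-- Monomials of degree `n`. -/
abbrev HGE (n : ℕ) : Type := Finset.finsuppAntidiag (Finset.univ : Finset (Fin 4)) n

/-- All monomials of degree `n + 4`. -/
noncomputable def HGmon (n : ℕ) : HGE n ⊕ stdB (n + 4) → (Fin 4 →₀ ℕ) :=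
  Sum.elim (fun m => m.1 + Finsupp.single 0 4) fun s => Finsupp.equivFunOnFinite.symm s.1

theorem HG_memE {n : ℕ} {m : Fin 4 →₀ ℕ} :
    m ∈ Finset.finsuppAntidiag (Finset.univ : Finset (Fin 4)) n ↔ m.degree = n := by
  rw [Finset.mem_finsuppAntidiag, Finsupp.degree_eq_sum]
  simp

theorem HG_memS {D : ℕ} {m : Fin 4 → ℕ} : m ∈ stdB D ↔ ∑ l, m l = D ∧ m 0 ≤ 3 := by
  simp [stdB]

theorem HGmon_inj (n : ℕ) : Function.Injective (HGmon n) := by
  rintro (a | a) (b | b) h
  · exact congrArg Sum.inl (Subtype.ext (add_right_cancel h))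
  · have h1 : a.1 0 + 4 = b.1 0 := by simpa [HGmon] using DFunLike.congr_fun h 0
    have := (HG_memS.1 b.2).2
    omega
  · have h1 : a.1 0 = b.1 0 + 4 := by simpa [HGmon] using DFunLike.congr_fun h 0
    have := (HG_memS.1 a.2).2
    omega
  · exact congrArg Sum.inr (Subtype.ext (Finsupp.equivFunOnFinite.symm.injective h))

theorem HGmon_surj {n : ℕ} {m : Fin 4 →₀ ℕ} (h : m.degree = n + 4) : ∃ j, HGmon n j = m := by
  by_cases h0 : m 0 ≤ 3
  · exact ⟨Sum.inr ⟨m, HG_memS.2 ⟨by rw [← h, Finsupp.degree_eq_sum], h0⟩⟩, by simp [HGmon]⟩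
  · have h1 : Finsupp.single 0 4 ≤ m := Finsupp.single_le_iff.2 (by omega)
    have h2 : m - Finsupp.single 0 4 + Finsupp.single 0 4 = m := tsub_add_cancel_of_le h1
    refine ⟨Sum.inl ⟨m - Finsupp.single 0 4, HG_memE.2 ?_⟩, h2⟩
    have h3 := congrArg Finsupp.degree h2
    rw [map_add, Finsupp.degree_single, h] at h3
    omega

theorem HG_deg {n : ℕ} {P : MvPolynomial (Fin 4) ℤ} (hP : P.IsHomogeneous n) {m : Fin 4 →₀ ℕ}
    (h : P.coeff m ≠ 0) : m.degree = n := by
  by_contra h1
  exact h (hP.coeff_eq_zero h1)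

theorem HG_eval {n : ℕ} {P : MvPolynomial (Fin 4) ℤ} (hP : P.IsHomogeneous (n + 4)) (z : Fin 4 → ℤ) :
    ∑ j, P.coeff (HGmon n j) * ∏ l, z l ^ HGmon n j l = MvPolynomial.eval z P := by
  rw [MvPolynomial.eval_eq']
  rw [← Finset.sum_image (s := Finset.univ) (g := HGmon n)
    (f := fun m => P.coeff m * ∏ l, z l ^ m l) (fun a _ b _ h => HGmon_inj n h)]
  symm
  refine Finset.sum_subset (fun m hm => ?_) fun m _ hm => ?_
  · obtain ⟨j, rfl⟩ := HGmon_surj (HG_deg hP (MvPolynomial.mem_support_iff.1 hm))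
    exact Finset.mem_image_of_mem _ (Finset.mem_univ _)
  · rw [MvPolynomial.notMem_support_iff.1 hm, zero_mul]

/-- Height gain. `N` = all monomials of degree `D`, `R` = the `E × N` matrix of the products
`Q · m'` (`deg m' = D - 4`, `E = choose (D-1) 3`), `V` = the `N × M` evaluation matrix, `R V = 0`.
`X = [R; selection of the standard monomials]` has determinant `± Q0^E` (triangular for the order by
the exponent of `Y_0`). For a set `J` of `E` monomials, `X · [V | e_J] = [[0, R_J], [V_std, *]]`, so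
`Q0^E ∣ det(R_J) Δ`. Modulo any prime `l` the rows of `R` are independent (`Q ≠ 0` in the domain
`𝔽_l[Y]`), so some `det R_J` is prime to `l`. -/
theorem height_gain (D : ℕ) (Q : MvPolynomial (Fin 4) ℤ) (hQ : Q.IsHomogeneous 4)
    (hp : ∀ l : ℕ, l.Prime → ¬ (MvPolynomial.C (l : ℤ) ∣ Q)) (z : stdB D → Fin 4 → ℤ)
    (hz : ∀ b, MvPolynomial.eval (z b) Q = 0) :
    Q.coeff (Finsupp.single 0 4) ^ (D - 1).choose 3 ∣
      (Matrix.of fun a b : stdB D => ∏ l, z b l ^ a.1 l).det := by
  by_cases hD : D < 4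
  · rw [Nat.choose_eq_zero_of_lt (by omega), pow_zero]
    exact one_dvd _
  obtain ⟨n, rfl⟩ : ∃ n, D = n + 4 := ⟨D - 4, by omega⟩
  let R : Matrix (HGE n) (HGE n ⊕ stdB (n + 4)) ℤ :=
    Matrix.of fun a j => (Q * MvPolynomial.monomial a.1 1).coeff (HGmon n j)
  let V : Matrix (HGE n ⊕ stdB (n + 4)) (stdB (n + 4)) ℤ :=
    Matrix.of fun j b => ∏ l, z b l ^ HGmon n j l
  have hh : ∀ (a : HGE n) (r : ℤ), (Q * MvPolynomial.monomial a.1 r).IsHomogeneous (n + 4) := by
    intro a r
    rw [add_comm]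
    exact hQ.mul (MvPolynomial.isHomogeneous_monomial r (HG_memE.1 a.2))
  have hRV : R * V = 0 := by
    ext a b
    rw [Matrix.mul_apply]
    simp only [R, V, Matrix.of_apply]
    rw [HG_eval (hh a 1), map_mul, hz, zero_mul, Matrix.zero_apply]
  obtain ⟨W, hW⟩ := HG_right_inv R fun l hl u hu => by
    let U : MvPolynomial (Fin 4) ℤ := ∑ a : HGE n, MvPolynomial.monomial a.1 (u a)
    have h1 : ∀ j, Matrix.vecMul u R j = (Q * U).coeff (HGmon n j) := by
      intro j
      simp only [U, R, Matrix.vecMul, dotProduct, Matrix.of_apply, Finset.mul_sum,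
        MvPolynomial.coeff_sum]
      refine Finset.sum_congr rfl fun a _ => ?_
      rw [← smul_eq_mul, ← MvPolynomial.coeff_smul, ← mul_smul_comm, MvPolynomial.smul_monomial,
        smul_eq_mul, mul_one]
    have h2 : (Q * U).IsHomogeneous (n + 4) := by
      simp only [U, Finset.mul_sum]
      exact MvPolynomial.IsHomogeneous.sum _ _ _ fun a _ => hh a _
    have h3 : MvPolynomial.C (l : ℤ) ∣ Q * U := by
      rw [MvPolynomial.C_dvd_iff_dvd_coeff]
      intro m
      by_cases hm : (Q * U).coeff m = 0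
      · rw [hm]
        exact dvd_zero _
      · obtain ⟨j, rfl⟩ := HGmon_surj (HG_deg h2 hm)
        rw [← h1]
        exact hu j
    have h4 : Prime (MvPolynomial.C (l : ℤ) : MvPolynomial (Fin 4) ℤ) :=
      (MvPolynomial.prime_C_iff _).2 (Nat.prime_iff_prime_int.1 hl)
    have h5 := (MvPolynomial.C_dvd_iff_dvd_coeff _ _).1 ((h4.dvd_or_dvd h3).resolve_left (hp l hl))
    intro i
    have h6 : U.coeff i.1 = u i := by
      simp only [U, MvPolynomial.coeff_sum, MvPolynomial.coeff_monomial]
      rw [Finset.sum_eq_single i]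
      · simp
      · intro b _ hb
        exact if_neg fun e => hb (Subtype.ext e)
      · simp
    exact h6 ▸ h5 i.1
  have h1 := HG_block R W V hW hRV
  have h2 : R.toCols₁.det = Q.coeff (Finsupp.single 0 4) ^ (n + 4 - 1).choose 3 := by
    rw [HG_det_tri _ fun m => m.1 0]
    · have : ∀ i : HGE n, R.toCols₁ i i = Q.coeff (Finsupp.single 0 4) := by
        intro i
        change (Q * MvPolynomial.monomial i.1 1).coeff (i.1 + Finsupp.single 0 4) = _
        rw [add_comm, MvPolynomial.coeff_mul_monomial, mul_one]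
      rw [Finset.prod_congr rfl fun i _ => this i, Finset.prod_const, Finset.card_univ,
        Fintype.card_coe, Finset.card_finsuppAntidiag_nat_eq_choose, Finset.card_univ,
        Fintype.card_fin, show 4 + n - 1 = n + 3 by omega, show n + 4 - 1 = n + 3 by omega,
        Nat.choose_symm_add]
    · intro a c hac
      change (Q * MvPolynomial.monomial a.1 1).coeff (c.1 + Finsupp.single 0 4) ≠ 0 at hac
      rw [MvPolynomial.coeff_mul_monomial'] at hac
      split_ifs at hac with hle
      · rw [mul_one] at hac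
        have e1 := HG_deg hQ hac
        have e2 := tsub_add_cancel_of_le hle
        generalize c.1 + Finsupp.single 0 4 - a.1 = q at e1 e2
        have e3 := fun l => DFunLike.congr_fun e2 l
        have e4 := e3 0
        have e5 := e3 1
        have e6 := e3 2
        have e7 := e3 3
        rw [Finsupp.degree_eq_sum, Fin.sum_univ_four] at e1
        simp only [Finsupp.coe_add, Pi.add_apply, Finsupp.single_eq_same] at e4
        simp only [Finsupp.coe_add, Pi.add_apply, Finsupp.single_apply, Fin.reduceEq, if_false,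
          add_zero] at e5 e6 e7
        by_cases hlt : c.1 0 < a.1 0
        · exact Or.inr hlt
        · left
          refine Subtype.ext (Finsupp.ext fun l => ?_)
          fin_cases l
          · change c.1 0 = a.1 0
            omega
          · change c.1 1 = a.1 1
            omega
          · change c.1 2 = a.1 2
            omega
          · change c.1 3 = a.1 3
            omega
      · exact absurd rfl hac
  rw [h2] at h1
  exact h1

end Crest.Agent.R22
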