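import Crest.Agent.R22.Defs

set_option autoImplicit false
open Polynomial IntermediateField

namespace Crest.Agent.R22

variable {d : ℕ}

/-- Small integer vectors killed by the rows in `T`. -/
def KerG {ι Z : Type*} [Fintype ι] (A : Z → ι → ℤ) (T : Finset Z) (h : ℝ) : Set (ι → ℂ) :=
  {w' | ∃ w : ι → ℤ, (∀ i, w' i = w i) ∧ (∀ z ∈ T, ∑ i, A z i * w i = 0) ∧ ∀ i, |(w i : ℝ)| ≤ h}

theorem Ker_step {ι Z : Type*} [Fintype ι] [DecidableEq Z] (A : Z → ι → ℤ) {H h h' : ℝ}
    (hA : ∀ z i, |(A z i : ℝ)| ≤ H) (hH : 0 ≤ H) (h0 : 0 ≤ h) (h1 : h ≤ h')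
    (h2 : 2 * (Fintype.card ι * (H * h) * h) ≤ h') (T : Finset Z) (z : Z) {v : ι → ℂ}
    (hv : v ∈ Submodule.span ℂ (KerG A T h)) (hz : ∑ i, (A z i : ℂ) * v i = 0) :
    v ∈ Submodule.span ℂ (KerG A (insert z T) h') := by
  have hb : ∀ w : ι → ℤ, (∀ i, |(w i : ℝ)| ≤ h) →
      |((∑ i, A z i * w i : ℤ) : ℝ)| ≤ Fintype.card ι * (H * h) := fun w hw => by
    push_cast
    refine (Finset.abs_sum_le_sum_abs _ _).trans
      ((Finset.sum_le_card_nsmul _ _ (H * h) fun i _ => ?_).trans (by simp))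
    rw [abs_mul]
    exact mul_le_mul (hA z i) (hw i) (abs_nonneg _) hH
  by_cases hall : ∀ w : ι → ℤ, (∀ y ∈ T, ∑ i, A y i * w i = 0) → (∀ i, |(w i : ℝ)| ≤ h) →
      ∑ i, A z i * w i = 0
  · refine Submodule.span_mono ?_ hv
    rintro w' ⟨w, e, hw, hh⟩
    exact ⟨w, e, fun y hy => (Finset.mem_insert.1 hy).elim (fun e => e ▸ hall w hw hh) (hw y),
      fun i => (hh i).trans h1⟩
  push Not at hall
  obtain ⟨w₀, hw₀, hh₀, hne⟩ := hall
  set a : ℤ := ∑ i, A z i * w₀ i with ha
  have key : ∀ u ∈ Submodule.span ℂ (KerG A T h),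
      ((a : ℂ) • u - (∑ i, (A z i : ℂ) * u i) • fun i => (w₀ i : ℂ)) ∈
        Submodule.span ℂ (KerG A (insert z T) h') := by
    intro u hu
    induction hu using Submodule.span_induction with
    | mem u hu =>
      obtain ⟨w, e, hw, hh⟩ := hu
      refine Submodule.subset_span ⟨fun i => a * w i - (∑ l, A z l * w l) * w₀ i, fun i => ?_,
        fun y hy => ?_, fun i => ?_⟩
      · simp [e]
      · have e2 : ∑ i, A y i * (a * w i - (∑ l, A z l * w l) * w₀ i) =
            a * ∑ i, A y i * w i - (∑ l, A z l * w l) * ∑ i, A y i * w₀ i := by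
          rw [Finset.mul_sum, Finset.mul_sum (f := fun i => A y i * w₀ i), ← Finset.sum_sub_distrib]
          exact Finset.sum_congr rfl fun i _ => by ring
        rw [e2]
        rcases Finset.mem_insert.1 hy with rfl | hy
        · rw [← ha]; ring
        · rw [hw y hy, hw₀ y hy]; ring
      · have b1 := hb w hh
        have b2 := hb w₀ hh₀
        rw [← ha] at b2
        rw [Int.cast_sub, Int.cast_mul, Int.cast_mul]
        refine (abs_sub _ _).trans ?_
        rw [abs_mul, abs_mul]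
        have c1 := mul_le_mul b2 (hh i) (abs_nonneg _) (by positivity)
        have c2 := mul_le_mul b1 (hh₀ i) (abs_nonneg _) (by positivity)
        linarith
    | zero => simp
    | add u u' _ _ hu hu' =>
      convert Submodule.add_mem _ hu hu' using 1
      simp only [Pi.add_apply, mul_add, Finset.sum_add_distrib, add_smul, smul_add]
      abel
    | smul r u _ hu =>
      convert Submodule.smul_mem _ r hu using 1
      simp only [Pi.smul_apply, smul_eq_mul, mul_left_comm _ r, ← Finset.mul_sum, smul_sub,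
        mul_smul, smul_comm r (a : ℂ)]
  have h3 := key v hv
  rw [hz, zero_smul, sub_zero] at h3
  exact (Submodule.smul_mem_iff _ (by exact_mod_cast hne)).1 h3

theorem Ker_ind (ι : Type*) [Fintype ι] (m : ℕ) : ∃ C : ℕ, ∀ (Z : Type*) (A : Z → ι → ℤ) (H : ℝ),
    2 ≤ H → (∀ z i, |(A z i : ℝ)| ≤ H) → ∀ T : Finset Z, T.card ≤ m → ∀ v : ι → ℂ,
      (∀ z ∈ T, ∑ i, (A z i : ℂ) * v i = 0) → v ∈ Submodule.span ℂ (KerG A T (H ^ C)) := by
  classical
  have base : ∀ (Z : Type _) (A : Z → ι → ℤ) (h : ℝ), 1 ≤ h → ∀ v : ι → ℂ,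
      v ∈ Submodule.span ℂ (KerG A ∅ h) := fun Z A h hh v => by
    rw [← Finset.univ_sum_single v]
    refine Submodule.sum_mem _ fun i _ => ?_
    have e : (Pi.single i (v i) : ι → ℂ) = v i • (Pi.single i 1 : ι → ℂ) := by
      rw [← Pi.single_smul, smul_eq_mul, mul_one]
    rw [e]
    refine Submodule.smul_mem _ _ (Submodule.subset_span ⟨Pi.single i 1, fun l => ?_, by simp,
      fun l => ?_⟩)
    · by_cases hl : l = i
      · subst hl; simp
      · simp [hl]
    · by_cases hl : l = i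
      · subst hl; simpa using hh
      · simp only [Pi.single_eq_of_ne hl, Int.cast_zero, abs_zero]; linarith
  induction m with
  | zero =>
    refine ⟨0, fun Z A H _ _ T hT v _ => ?_⟩
    obtain rfl := Finset.card_eq_zero.1 (Nat.le_zero.1 hT)
    exact base Z A _ (by simp) v
  | succ m ih =>
    obtain ⟨C, hC⟩ := ih
    refine ⟨Fintype.card ι + 2 + 2 * C, fun Z A H hH hA T hT v hv => ?_⟩
    have hH1 : 1 ≤ H := by linarith
    rcases T.eq_empty_or_nonempty with rfl | ⟨z, hz⟩
    · exact base Z A _ (one_le_pow₀ hH1) v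
    have h1 := hC Z A H hH hA (T.erase z) (by rw [Finset.card_erase_of_mem hz]; omega) v
      fun y hy => hv y (Finset.mem_of_mem_erase hy)
    rw [← Finset.insert_erase hz]
    refine Ker_step A hA (by linarith) (by positivity) (pow_le_pow_right₀ hH1 (by omega)) ?_ _ z h1
      (hv z hz)
    have h2 : (Fintype.card ι : ℝ) ≤ H ^ Fintype.card ι := by
      have : (Fintype.card ι : ℝ) ≤ 2 ^ Fintype.card ι := by
        exact_mod_cast (Nat.lt_two_pow_self).le
      exact this.trans (by gcongr)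
    calc 2 * (Fintype.card ι * (H * H ^ C) * H ^ C)
        ≤ H * (H ^ Fintype.card ι * (H * H ^ C) * H ^ C) := by gcongr
      _ = H ^ (Fintype.card ι + 2 + 2 * C) := by ring

/-- The complex kernel of an integer matrix is spanned by integer vectors of polynomially bounded
height (Cramer: choose a maximal nonsingular square submatrix; or induction on the rows of a
maximal independent subfamily). -/
theorem ker_bounded (ι : Type*) [Fintype ι] : ∃ C : ℕ, ∀ (Z : Type*) (A : Z → ι → ℤ) (H : ℝ),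
    2 ≤ H → (∀ z i, |(A z i : ℝ)| ≤ H) → ∀ v : ι → ℂ, (∀ z, ∑ i, (A z i : ℂ) * v i = 0) →
      v ∈ Submodule.span ℂ {w' : ι → ℂ | ∃ w : ι → ℤ, (∀ i, w' i = w i) ∧
        (∀ z, ∑ i, A z i * w i = 0) ∧ ∀ i, |(w i : ℝ)| ≤ H ^ C} := by
  classical
  obtain ⟨C, hC⟩ := Ker_ind ι (Fintype.card ι)
  refine ⟨C, fun Z A H hH hA v hv => ?_⟩
  obtain ⟨κ, a, ha, hsp, hli⟩ := exists_linearIndependent' ℂ fun z i => (A z i : ℂ)
  haveI : Finite κ := hli.finite
  haveI := Fintype.ofFinite κ
  have hcard : Fintype.card κ ≤ Fintype.card ι := by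
    simpa using hli.fintype_card_le_finrank
  refine Submodule.span_mono ?_ (hC Z A H hH hA (Finset.univ.image a)
    (Finset.card_image_le.trans hcard) v fun z _ => hv z)
  rintro w' ⟨w, e, hw, hh⟩
  refine ⟨w, e, fun z => ?_, hh⟩
  have h1 : ∀ u ∈ Submodule.span ℂ (Set.range ((fun z i => (A z i : ℂ)) ∘ a)),
      ∑ i, u i * (w i : ℂ) = 0 := by
    intro u hu
    induction hu using Submodule.span_induction with
    | mem u hu =>
      obtain ⟨x, rfl⟩ := hu
      have := hw (a x) (Finset.mem_image_of_mem _ (Finset.mem_univ _))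
      simp only [Function.comp]
      exact_mod_cast this
    | zero => simp
    | add u u' _ _ hu hu' => simp [add_mul, Finset.sum_add_distrib, hu, hu']
    | smul r u _ hu => simp [mul_assoc, ← Finset.mul_sum, hu]
  have h2 := h1 (fun i => (A z i : ℂ)) (by rw [hsp]; exact Submodule.subset_span ⟨z, rfl⟩)
  exact_mod_cast h2

end Crest.Agent.R22
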