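import Crest.Agent.R22.Basic

set_option autoImplicit false
open Polynomial IntermediateField

namespace Crest.Agent.R22

variable {d : ℕ}

theorem LineA_abs_le (w : Fin d → ℤ) (i : Fin d) : |(w i : ℝ)| ≤ ‖w‖ := by
  have := norm_le_pi_norm w i
  rwa [Int.norm_eq_abs] at this

theorem LineA_norm (i0 : Fin d) (w : Fin d → ℤ) : ∃ a, |(w a : ℝ)| = ‖w‖ := by
  obtain ⟨a, -, ha⟩ := Finset.exists_max_image Finset.univ (fun i => |(w i : ℝ)|)
    ⟨i0, Finset.mem_univ _⟩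
  refine ⟨a, le_antisymm (LineA_abs_le w a) ?_⟩
  rw [pi_norm_le_iff_of_nonneg (abs_nonneg _)]
  intro i
  rw [Int.norm_eq_abs]
  exact ha i (Finset.mem_univ _)

theorem LineA_dvd {v : Fin d → ℤ} (hv : Prim v) {t μ : ℤ} (h : ∀ i, t ∣ μ * v i) : t ∣ μ := by
  have h1 : (Finset.univ.gcd v).natAbs = 1 := by
    by_contra h1
    obtain ⟨l, hl, h2⟩ := Nat.exists_prime_and_dvd h1
    obtain ⟨i, hi⟩ := hv l hl
    exact hi ((Int.natCast_dvd.2 h2).trans (Finset.gcd_dvd (Finset.mem_univ i)))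
  have h2 : t ∣ Finset.univ.gcd fun i => μ * v i := Finset.dvd_gcd fun i _ => h i
  rw [Finset.gcd_mul_left, (Int.isUnit_iff_natAbs_eq.2 h1).dvd_mul_right] at h2
  exact dvd_normalize_iff.1 h2

/-- Pigeonhole. -/
theorem LineA_pigeon {v : Fin d → ℤ} (hv : Prim v) (a : Fin d) (hmax : ∀ i, |v i| ≤ |v a|)
    (Q W : ℕ) (hW : 0 < W) (hQ : Q ^ (d - 1) < (v a).natAbs) (hQW : (v a).natAbs ≤ Q * W) :
    ∃ b : Fin d → ℤ, (∃ i j, v i * b j - v j * b i ≠ 0) ∧
      ∀ i j, |v i * b j - v j * b i| ≤ 2 * W := by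
  classical
  obtain ⟨t, ht⟩ : ∃ t : ℕ, t = (v a).natAbs := ⟨_, rfl⟩
  rw [← ht] at hQ hQW
  have ht0 : 0 < t := lt_of_le_of_lt (Nat.zero_le _) hQ
  have ht' : (0 : ℤ) < t := by exact_mod_cast ht0
  have hW' : (0 : ℤ) < W := by exact_mod_cast hW
  have hta : (t : ℤ) = |v a| := by rw [ht, Int.natCast_natAbs]
  have hva : v a ≠ 0 := by
    intro h; rw [h, abs_zero] at hta; omega
  obtain ⟨m, hm, m', hm', hne, heq⟩ := Finset.exists_ne_map_eq_of_card_lt_of_maps_to
    (s := Finset.range t) (t := Fintype.piFinset fun _ : {i // i ≠ a} => Finset.Ico (0 : ℤ) Q)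
    (f := fun m : ℕ => fun i : {i // i ≠ a} => ((m : ℤ) * v i % t) / W)
    (by simpa [Fintype.card_piFinset, Fintype.card_subtype_compl] using hQ)
    (fun m _ => by
      simp only [Fintype.coe_piFinset, Set.mem_pi, Set.mem_univ, true_imp_iff, Finset.coe_Ico,
        Set.mem_Ico]
      intro i
      refine ⟨Int.ediv_nonneg (Int.emod_nonneg _ ht'.ne') hW'.le, ?_⟩
      refine Int.ediv_lt_of_lt_mul hW' ((Int.emod_lt_of_pos _ ht').trans_le ?_)
      exact_mod_cast hQW)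
  set r : Fin d → ℤ := fun i => (m : ℤ) * v i % t - (m' : ℤ) * v i % t with hr
  have hr1 : ∀ i, |r i| ≤ W := by
    intro i
    by_cases hi : i = a
    · have h1 : (t : ℤ) ∣ v a := by rw [hta]; exact (abs_dvd _ _).2 dvd_rfl
      have h2 : r i = 0 := by
        simp only [hr, hi, Int.emod_eq_zero_of_dvd (h1.mul_left _), sub_zero]
      rw [h2, abs_zero]; exact hW'.le
    · have h1 := congrFun heq ⟨i, hi⟩
      simp only at h1
      have h2 := Int.mul_ediv_add_emod ((m : ℤ) * v i % t) W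
      have h3 := Int.mul_ediv_add_emod ((m' : ℤ) * v i % t) W
      have h4 := Int.emod_nonneg ((m : ℤ) * v i % t) hW'.ne'
      have h5 := Int.emod_nonneg ((m' : ℤ) * v i % t) hW'.ne'
      have h6 := Int.emod_lt_of_pos ((m : ℤ) * v i % t) hW'
      have h7 := Int.emod_lt_of_pos ((m' : ℤ) * v i % t) hW'
      rw [h1] at h2
      rw [abs_le]
      simp only [hr]
      constructor <;> linarith
  have hr2 : ∀ i, v a ∣ ((m : ℤ) - m') * v i - r i := by
    intro i
    rw [← abs_dvd, ← hta]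
    have h2 := Int.mul_ediv_add_emod ((m : ℤ) * v i) t
    have h3 := Int.mul_ediv_add_emod ((m' : ℤ) * v i) t
    exact ⟨(m : ℤ) * v i / t - (m' : ℤ) * v i / t, by simp only [hr]; linarith⟩
  have hra : r a = 0 := by
    have h1 : (t : ℤ) ∣ v a := by rw [hta]; exact (abs_dvd _ _).2 dvd_rfl
    simp only [hr, Int.emod_eq_zero_of_dvd (h1.mul_left _), sub_zero]
  choose b hb using hr2
  have hba : b a = (m : ℤ) - m' := by
    have := hb a
    rw [hra, sub_zero, mul_comm] at this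
    exact (mul_left_cancel₀ hva this).symm
  refine ⟨b, ?_, fun i j => ?_⟩
  · by_contra hc
    push Not at hc
    have h1 : v a ∣ (m : ℤ) - m' := LineA_dvd hv fun i => ⟨b i, by
      have := hc a i
      rw [hba] at this
      linarith⟩
    rw [← abs_dvd, ← hta] at h1
    have h2 := Finset.mem_range.1 hm
    have h3 := Finset.mem_range.1 hm'
    have h4 := Int.eq_zero_of_abs_lt_dvd h1 (by rw [abs_lt]; constructor <;> omega)
    omega
  · have h1 : v a * (v i * b j - v j * b i) = v j * r i - v i * r j := by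
      linear_combination v j * hb i - v i * hb j
    have h2 : |v a| * |v i * b j - v j * b i| ≤ |v a| * (2 * W) := by
      rw [← abs_mul, h1]
      refine (abs_sub _ _).trans ?_
      rw [abs_mul, abs_mul]
      have h3 := mul_le_mul (hmax j) (hr1 i) (abs_nonneg _) (abs_nonneg _)
      have h4 := mul_le_mul (hmax i) (hr1 j) (abs_nonneg _) (abs_nonneg _)
      linarith
    exact le_of_mul_le_mul_left h2 (abs_pos.2 hva)

/-- Dirichlet: for primitive `v` with `T = ‖v‖ = |v a|` there is `b` with `0 < max |v_i b_j - v_j b_i|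
≤ C T^((d-2)/(d-1))` (pigeonhole for `(m v_i / v_a mod 1)_{i ≠ a}`, `0 ≤ m ≤ Q^(d-1) < T`; `b` is not
parallel to `v` because `0 < |b a| < T`; for small `T` take a basis vector). -/
theorem exists_short_wedge (hd : 3 ≤ d) : ∃ C : ℝ, 1 ≤ C ∧ ∀ v : Fin d → ℤ, Prim v →
    ∃ b : Fin d → ℤ, (∃ i j, v i * b j - v j * b i ≠ 0) ∧ ∀ i j,
      |((v i * b j - v j * b i : ℤ) : ℝ)| ≤ C * ‖v‖ ^ (((d : ℝ) - 2) / (d - 1)) := by
  classical
  refine ⟨6, by norm_num, fun v hv => ?_⟩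
  obtain ⟨a, ha⟩ := LineA_norm ⟨0, by omega⟩ v
  have hmax : ∀ i, |v i| ≤ |v a| := fun i => by
    have := LineA_abs_le v i
    rw [← ha] at this
    exact_mod_cast this
  have hva : v a ≠ 0 := by
    intro h
    obtain ⟨i, hi⟩ := hv 2 Nat.prime_two
    have h1 := hmax i
    rw [h, abs_zero, abs_nonpos_iff] at h1
    exact hi (h1 ▸ dvd_zero _)
  obtain ⟨t, ht⟩ : ∃ t : ℕ, t = (v a).natAbs := ⟨_, rfl⟩
  have hT : ‖v‖ = t := by rw [← ha, ht, Nat.cast_natAbs, Int.cast_abs]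
  have ht1 : 1 ≤ t := by rw [ht]; exact Int.natAbs_pos.2 hva
  have ht1' : (1 : ℝ) ≤ t := by exact_mod_cast ht1
  have hd' : (3 : ℝ) ≤ d := by exact_mod_cast hd
  have he : 0 ≤ ((d : ℝ) - 2) / (d - 1) := div_nonneg (by linarith) (by linarith)
  have hone : 1 ≤ (t : ℝ) ^ (((d : ℝ) - 2) / (d - 1)) := Real.one_le_rpow ht1' he
  rw [hT]
  rcases ht1.eq_or_lt with h1 | h1
  · obtain ⟨j, hj⟩ : ∃ j : Fin d, j ≠ a := by
      have : Nontrivial (Fin d) := Fin.nontrivial_iff_two_le.2 (by omega)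
      exact exists_ne a
    refine ⟨Pi.single j 1, ⟨a, j, by simpa [hj.symm] using hva⟩, fun i i' => ?_⟩
    have h2 : ∀ i, |v i| ≤ 1 := fun i => (hmax i).trans (by rw [← Int.natCast_natAbs, ← ht, ← h1]; rfl)
    have h3 : ∀ i, |(Pi.single j 1 : Fin d → ℤ) i| ≤ 1 := fun i => by
      rw [Pi.single_apply]; split_ifs <;> simp
    have h4 : |v i * (Pi.single j 1 : Fin d → ℤ) i' - v i' * (Pi.single j 1 : Fin d → ℤ) i| ≤ 2 := by
      refine (abs_sub _ _).trans ?_
      rw [abs_mul, abs_mul]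
      have h5 := mul_le_mul (h2 i) (h3 i') (abs_nonneg _) zero_le_one
      have h6 := mul_le_mul (h2 i') (h3 i) (abs_nonneg _) zero_le_one
      linarith
    have h5 : |((v i * (Pi.single j 1 : Fin d → ℤ) i' -
      v i' * (Pi.single j 1 : Fin d → ℤ) i : ℤ) : ℝ)| ≤ 2 := by exact_mod_cast h4
    linarith
  · have hex : ∃ Q : ℕ, t ≤ (Q + 1) ^ (d - 1) :=
      ⟨t, (Nat.le_succ t).trans (Nat.le_self_pow (by omega) _)⟩
    obtain ⟨Q, hQ1, hQ2⟩ : ∃ Q : ℕ, t ≤ (Q + 1) ^ (d - 1) ∧ Q ^ (d - 1) < t := by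
      refine ⟨Nat.find hex, Nat.find_spec hex, ?_⟩
      rcases h : Nat.find hex with _ | Q
      · rw [zero_pow (by omega)]; omega
      · exact not_le.1 (Nat.find_min hex (h ▸ Nat.lt_succ_self Q))
    have hQ0 : 1 ≤ Q := by
      by_contra h
      obtain rfl : Q = 0 := by omega
      simp at hQ1
      omega
    obtain ⟨b, hb1, hb2⟩ := LineA_pigeon hv a hmax Q (t / Q + 1) (Nat.succ_pos _) (ht ▸ hQ2)
      (ht ▸ (Nat.lt_mul_div_succ t hQ0).le)
    refine ⟨b, hb1, fun i j => ?_⟩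
    have h2 : |((v i * b j - v j * b i : ℤ) : ℝ)| ≤ 2 * ((t / Q + 1 : ℕ) : ℝ) := by
      have h0 := (Int.cast_le (R := ℝ)).2 (hb2 i j)
      rwa [Int.cast_abs, Int.cast_mul 2, Int.cast_natCast, Int.cast_ofNat] at h0
    have hQ0' : (1 : ℝ) ≤ Q := by exact_mod_cast hQ0
    have h3 : ((t / Q : ℕ) : ℝ) ≤ (t : ℝ) / Q := Nat.cast_div_le
    have h4 : (t : ℝ) ^ (1 / ((d : ℝ) - 1)) ≤ 2 * Q := by
      have h5 : (t : ℝ) ≤ (2 * Q) ^ (d - 1) := by
        have : t ≤ (2 * Q) ^ (d - 1) := hQ1.trans (Nat.pow_le_pow_left (by omega) _)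
        exact_mod_cast this
      have h6 : ((d : ℝ) - 1) = ((d - 1 : ℕ) : ℝ) := by rw [Nat.cast_sub (by omega)]; simp
      refine (Real.rpow_le_rpow (by linarith) h5 (div_nonneg zero_le_one (by linarith))).trans ?_
      rw [h6, one_div, Real.pow_rpow_inv_natCast (by linarith) (by omega)]
    have h5 : (t : ℝ) / Q ≤ 2 * (t : ℝ) ^ (((d : ℝ) - 2) / (d - 1)) := by
      have h6 : (t : ℝ) = (t : ℝ) ^ (((d : ℝ) - 2) / (d - 1)) * (t : ℝ) ^ (1 / ((d : ℝ) - 1)) := by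
        rw [← Real.rpow_add (by linarith), ← add_div, show (d : ℝ) - 2 + 1 = d - 1 by ring,
          div_self (by linarith), Real.rpow_one]
      rw [div_le_iff₀ (by linarith)]
      calc (t : ℝ) = _ := h6
        _ ≤ (t : ℝ) ^ (((d : ℝ) - 2) / (d - 1)) * (2 * Q) := by gcongr
        _ = _ := by ring
    push_cast at h2 ⊢
    linarith

end Crest.Agent.R22
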