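import Crest.Agent.R22.Basic
import Crest.Agent.R22.LineA

set_option autoImplicit false
open Polynomial IntermediateField

namespace Crest.Agent.R22

variable {d : ℕ}

theorem Line_sp_trans {v b c1 c2 e1 e2 : Fin d → ℤ}
    (h : ∃ x y x' y' : ℤ, v = x • c1 + y • c2 ∧ b = x' • c1 + y' • c2)
    (h' : ∃ x y x' y' : ℤ, c1 = x • e1 + y • e2 ∧ c2 = x' • e1 + y' • e2) :
    ∃ x y x' y' : ℤ, v = x • e1 + y • e2 ∧ b = x' • e1 + y' • e2 := by
  obtain ⟨x, y, x', y', rfl, rfl⟩ := h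
  obtain ⟨s, t, s', t', rfl, rfl⟩ := h'
  refine ⟨x * s + y * s', x * t + y * t', x' * s + y' * s', x' * t + y' * t', ?_, ?_⟩ <;>
  · funext i
    simp only [Pi.add_apply, Pi.smul_apply, smul_eq_mul]
    ring

theorem Line_wedge {v b c1 c2 : Fin d → ℤ} {x y x' y' : ℤ} (h1 : v = x • c1 + y • c2)
    (h2 : b = x' • c1 + y' • c2) (i j : Fin d) :
    v i * b j - v j * b i = (x * y' - y * x') * (c1 i * c2 j - c1 j * c2 i) := by
  subst h1 h2
  simp only [Pi.add_apply, Pi.smul_apply, smul_eq_mul]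
  ring

theorem Line_divide {v b : Fin d → ℤ} {l : ℕ} (hl : l.Prime)
    (h : ∀ i j, (l : ℤ) ∣ v i * b j - v j * b i) :
    ∃ (c1 c2 : Fin d → ℤ) (x y x' y' : ℤ), v = x • c1 + y • c2 ∧ b = x' • c1 + y' • c2 ∧
      x * y' - y * x' = l := by
  by_cases hv : ∀ i, (l : ℤ) ∣ v i
  · choose c hc using hv
    refine ⟨c, b, l, 0, 0, 1, ?_, by simp, by simp⟩
    funext i
    simp [hc i]
  · push Not at hv
    obtain ⟨a, ha⟩ := hv
    have hp : Prime (l : ℤ) := Nat.prime_iff_prime_int.1 hl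
    obtain ⟨s, t, hst⟩ := (hp.irreducible.coprime_iff_not_dvd.2 ha)
    have h2 : ∀ i, (l : ℤ) ∣ b i - t * b a * v i := by
      intro i
      have e : b i - t * b a * v i = l * (s * b i) + t * (v a * b i - v i * b a) := by
        linear_combination (-b i) * hst
      rw [e]
      exact dvd_add (dvd_mul_right _ _) (Dvd.dvd.mul_left (h a i) t)
    choose c hc using h2
    refine ⟨v, c, 1, 0, t * b a, l, by simp, ?_, by simp⟩
    funext i
    simp only [Pi.add_apply, Pi.smul_apply, smul_eq_mul]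
    linear_combination hc i

theorem Line_prim (i0 j0 : Fin d) (n : ℕ) : ∀ v b : Fin d → ℤ, v i0 * b j0 - v j0 * b i0 ≠ 0 →
    (v i0 * b j0 - v j0 * b i0).natAbs < n → ∃ c1 c2 : Fin d → ℤ,
      (∃ x y x' y' : ℤ, v = x • c1 + y • c2 ∧ b = x' • c1 + y' • c2) ∧
      ∀ l : ℕ, l.Prime → ∃ a b, ¬ (l : ℤ) ∣ c1 a * c2 b - c1 b * c2 a := by
  induction n with
  | zero => intro v b _ h; omega
  | succ n ih =>
    intro v b h0 hn
    by_cases hp : ∀ l : ℕ, l.Prime → ∃ i j, ¬ (l : ℤ) ∣ v i * b j - v j * b i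
    · exact ⟨v, b, ⟨1, 0, 0, 1, by simp, by simp⟩, hp⟩
    push Not at hp
    obtain ⟨l, hl, h⟩ := hp
    obtain ⟨c1, c2, x, y, x', y', h1, h2, h3⟩ := Line_divide hl h
    have h4 := Line_wedge h1 h2 i0 j0
    rw [h3] at h4
    have h5 : c1 i0 * c2 j0 - c1 j0 * c2 i0 ≠ 0 := fun h5 => h0 (by rw [h4, h5, mul_zero])
    have h6 : (c1 i0 * c2 j0 - c1 j0 * c2 i0).natAbs < n := by
      rw [h4, Int.natAbs_mul, Int.natAbs_natCast] at hn
      have := Int.natAbs_pos.2 h5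
      have := hl.two_le
      nlinarith
    obtain ⟨e1, e2, h7, h8⟩ := ih c1 c2 h5 h6
    exact ⟨e1, e2, Line_sp_trans ⟨x, y, x', y', h1, h2⟩ h7, h8⟩

theorem Line_abs_le (w : Fin d → ℤ) (i : Fin d) : |(w i : ℝ)| ≤ ‖w‖ := by
  have := norm_le_pi_norm w i
  rwa [Int.norm_eq_abs] at this

theorem Line_norm (i0 : Fin d) (w : Fin d → ℤ) : ∃ a, |(w a : ℝ)| = ‖w‖ := by
  obtain ⟨a, -, ha⟩ := Finset.exists_max_image Finset.univ (fun i => |(w i : ℝ)|)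
    ⟨i0, Finset.mem_univ _⟩
  refine ⟨a, le_antisymm (Line_abs_le w a) ?_⟩
  rw [pi_norm_le_iff_of_nonneg (abs_nonneg _)]
  intro i
  rw [Int.norm_eq_abs]
  exact ha i (Finset.mem_univ _)

theorem Line_round (x y : ℤ) (hy : y ≠ 0) : ∃ q : ℤ, 2 * |((x - q * y : ℤ) : ℝ)| ≤ |(y : ℝ)| := by
  have hy' : (y : ℝ) ≠ 0 := Int.cast_ne_zero.2 hy
  refine ⟨round ((x : ℝ) / y), ?_⟩
  have h := abs_sub_round ((x : ℝ) / y)
  have e : ((x - round ((x : ℝ) / y) * y : ℤ) : ℝ) = ((x : ℝ) / y - round ((x : ℝ) / y)) * y := by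
    push_cast
    field_simp
  rw [e, abs_mul]
  nlinarith [abs_nonneg (y : ℝ)]

theorem Line_red (i0 j0 : Fin d) (n : ℕ) : ∀ c1 c2 : Fin d → ℤ,
    c1 i0 * c2 j0 - c1 j0 * c2 i0 ≠ 0 → ‖c1‖ < n → ∃ e1 e2 : Fin d → ℤ,
      (∃ x y x' y' : ℤ, c1 = x • e1 + y • e2 ∧ c2 = x' • e1 + y' • e2) ∧ e1 ≠ 0 ∧ ‖e1‖ ≤ ‖e2‖ ∧
      ∃ a, |(e1 a : ℝ)| = ‖e1‖ ∧ 2 * |(e2 a : ℝ)| ≤ ‖e1‖ := by
  induction n with
  | zero => intro c1 c2 _ h; exact absurd h (by simp)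
  | succ n ih =>
    intro c1 c2 h0 hn
    have hne : c1 ≠ 0 := by rintro rfl; simp at h0
    obtain ⟨a, ha⟩ := Line_norm i0 c1
    have ha0 : c1 a ≠ 0 := by
      intro h
      rw [h, Int.cast_zero, abs_zero] at ha
      exact hne (norm_eq_zero.1 ha.symm)
    obtain ⟨q, hq⟩ := Line_round (c2 a) (c1 a) ha0
    have e : c2 = q • c1 + (1 : ℤ) • (c2 - q • c1) := by simp
    by_cases hle : ‖c1‖ ≤ ‖c2 - q • c1‖
    · exact ⟨c1, c2 - q • c1, ⟨1, 0, q, 1, by simp, e⟩, hne, hle, a, ha, by rw [← ha]; exact hq⟩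
    push Not at hle
    obtain ⟨a', ha'⟩ := Line_norm i0 (c2 - q • c1)
    have h1 : ‖c2 - q • c1‖ < n := by
      rw [← ha] at hle hn
      rw [← ha'] at hle ⊢
      have h2 : |(c2 - q • c1) a'| < |c1 a| := by exact_mod_cast hle
      have h3 : |c1 a| < n + 1 := by exact_mod_cast hn
      have h4 : |(c2 - q • c1) a'| < n := by omega
      exact_mod_cast h4
    have h2 : (c2 - q • c1) i0 * c1 j0 - (c2 - q • c1) j0 * c1 i0 ≠ 0 := by
      intro h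
      apply h0
      simp only [Pi.sub_apply, Pi.smul_apply, smul_eq_mul] at h
      linear_combination -h
    obtain ⟨e1, e2, h3, h4⟩ := ih (c2 - q • c1) c1 h2 h1
    exact ⟨e1, e2, Line_sp_trans ⟨0, 1, 1, q, by simp, by simp⟩ h3, h4⟩

/-- Reduced basis of `Λ = (ℚ v + ℚ b) ∩ ℤ^d`: `b1` a shortest nonzero vector (sup norm), `b2` minimises
the positive values of a nonzero wedge coordinate with `b1`, then is reduced at a coordinate `a` with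
`|b1 a| = ‖b1‖`. `v ∧ b` is a nonzero integer multiple of `b1 ∧ b2`. -/
theorem exists_basis (v b : Fin d → ℤ) (h : ∃ i j, v i * b j - v j * b i ≠ 0) :
    ∃ (b1 b2 : Fin d → ℤ) (x y m : ℤ), IsLine b1 b2 ∧ v = x • b1 + y • b2 ∧ m ≠ 0 ∧
      ∀ i j, v i * b j - v j * b i = m * (b1 i * b2 j - b1 j * b2 i) := by
  obtain ⟨i0, j0, h0⟩ := h
  obtain ⟨c1, c2, ⟨s, t, s', t', h1, h2⟩, hp⟩ := Line_prim i0 j0 _ v b h0 (Nat.lt_succ_self _)
  have hc : c1 i0 * c2 j0 - c1 j0 * c2 i0 ≠ 0 := fun h =>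
    h0 (by rw [Line_wedge h1 h2, h, mul_zero])
  obtain ⟨n, hn⟩ := exists_nat_gt ‖c1‖
  obtain ⟨e1, e2, ⟨u, w, u', w', h3, h4⟩, h5, h6, h7⟩ := Line_red i0 j0 n c1 c2 hc hn
  obtain ⟨x, y, x', y', h8, h9⟩ :=
    Line_sp_trans ⟨s, t, s', t', h1, h2⟩ ⟨u, w, u', w', h3, h4⟩
  refine ⟨e1, e2, x, y, x * y' - y * x', ⟨h5, h6, h7, fun l hl => ?_⟩, h8, fun h => h0 ?_,
    Line_wedge h8 h9⟩
  · obtain ⟨a, a', ha⟩ := hp l hl
    exact ⟨a, a', fun h => ha (by rw [Line_wedge h3 h4]; exact h.mul_left _)⟩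
  · rw [Line_wedge h8 h9, h, zero_mul]

/-- `IsLine.wedge` and Cramer's rule. -/
theorem exists_line (hd : 3 ≤ d) : ∃ C : ℝ, 1 ≤ C ∧ ∀ v : Fin d → ℤ, Prim v →
    ∃ (b1 b2 : Fin d → ℤ) (x y : ℤ), IsLine b1 b2 ∧ v = x • b1 + y • b2 ∧
      ‖b1‖ * ‖b2‖ ≤ C * ‖v‖ ^ (((d : ℝ) - 2) / (d - 1)) ∧ |(x : ℝ)| * ‖b1‖ ≤ 4 * ‖v‖ ∧
      |(y : ℝ)| * ‖b2‖ ≤ 4 * ‖v‖ := by
  obtain ⟨C, hC, H⟩ := exists_short_wedge hd
  refine ⟨2 * C, by linarith, fun v hv => ?_⟩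
  obtain ⟨b, hb, hw⟩ := H v hv
  obtain ⟨b1, b2, x, y, m, hL, e, hm, hmw⟩ := exists_basis v b hb
  obtain ⟨i, j, hij⟩ := hL.wedge
  have p1 : 0 < ‖b1‖ := norm_pos_iff.2 hL.ne
  have p2 : 0 < ‖b2‖ := p1.trans_le hL.le
  have key : ∀ u w : Fin d → ℤ, |((u i * w j - u j * w i : ℤ) : ℝ)| ≤ 2 * (‖u‖ * ‖w‖) := by
    intro u w
    push_cast
    refine (abs_sub _ _).trans ?_
    rw [abs_mul, abs_mul]
    have h1 := mul_le_mul (Line_abs_le u i) (Line_abs_le w j) (abs_nonneg _) (norm_nonneg _)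
    have h2 := mul_le_mul (Line_abs_le u j) (Line_abs_le w i) (abs_nonneg _) (norm_nonneg _)
    linarith
  refine ⟨b1, b2, x, y, hL, e, ?_, ?_, ?_⟩
  · have h1 := hw i j
    rw [hmw, Int.cast_mul, abs_mul] at h1
    have h2 : (1 : ℝ) ≤ |(m : ℝ)| := by exact_mod_cast Int.one_le_abs hm
    have h3 := mul_le_mul_of_nonneg_right h2
      (abs_nonneg ((b1 i * b2 j - b1 j * b2 i : ℤ) : ℝ))
    linarith
  · have h1 := key v b2
    have h2 : v i * b2 j - v j * b2 i = x * (b1 i * b2 j - b1 j * b2 i) := by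
      rw [e]
      simp only [Pi.add_apply, Pi.smul_apply, smul_eq_mul]
      ring
    rw [h2, Int.cast_mul, abs_mul] at h1
    have h3 := mul_le_mul_of_nonneg_left hij (abs_nonneg (x : ℝ))
    refine le_of_mul_le_mul_right ?_ p2
    linarith
  · have h1 := key b1 v
    have h2 : b1 i * v j - b1 j * v i = y * (b1 i * b2 j - b1 j * b2 i) := by
      rw [e]
      simp only [Pi.add_apply, Pi.smul_apply, smul_eq_mul]
      ring
    rw [h2, Int.cast_mul, abs_mul] at h1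
    have h3 := mul_le_mul_of_nonneg_left hij (abs_nonneg (y : ℝ))
    refine le_of_mul_le_mul_right ?_ p1
    linarith

end Crest.Agent.R22
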