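import Crest.Agent.R22.CNF
import Crest.Agent.R22.SameP

set_option autoImplicit false
open Polynomial IntermediateField

namespace Crest.Agent.R22

variable {d : ℕ}

/-- From curves to a line: `y = 0` is given separately; each covering polynomial is put in normal form
by `cnf` (`H = 2 C0 X ≤ (2X)^C`). -/
theorem line_of_curves (c : Ctx d) (k E : ℕ) (C0 : ℝ) (h0 : 1 ≤ C0) : ∃ C1 : ℝ, ∀ (r η C2 C3 C4 : ℝ),
    0 ≤ r → 0 ≤ η → ∃ C : ℝ, ∀ (X B : ℝ) (S : Finset (LPt c k)) (G : Finset ℂ[X][X]), 1 ≤ X → InjN S →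
      (∀ P ∈ S, Sz C0 X B P.toPt ∧ |(P.x : ℝ)| ≤ C0 * X ∧ |(P.y : ℝ)| ≤ C0 * X) →
      (G.card : ℝ) ≤ C2 * X ^ r → Covers G E S → (∀ T ⊆ S, (∀ P ∈ T, P.y = 0) → (T.card : ℝ) ≤ C3) →
      (∀ g : ℤ[X][X], Curve g E ((2 * X) ^ C1) → ∀ T ⊆ S,
        (∀ P ∈ T, P.y ≠ 0 ∧ hev2 g E P.x P.y P.n = 0) → (T.card : ℝ) ≤ C4 * X ^ η) →
      (S.card : ℝ) ≤ C * X ^ (r + η) := by
  classical
  obtain ⟨C, hC⟩ := cnf E
  obtain ⟨a, ha⟩ := pow_unbounded_of_one_lt C0 (one_lt_two (α := ℝ))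
  refine ⟨(((a + 1) * C : ℕ) : ℝ), fun r η C2 C3 C4 hr hη =>
    ⟨|C3| + |C2| * (C + C * |C4|), fun X B S G hX hS hP hG hcov h3 h4 => ?_⟩⟩
  have hX0 : 0 < X := by linarith
  have h2X : (2 : ℝ) ≤ 2 * X := by linarith
  have hH2 : 2 * X ≤ (2 * X) ^ (a + 1) := le_self_pow₀ (by linarith) (by omega)
  have hHC : C0 * X ≤ (2 * X) ^ (a + 1) := by
    rw [pow_succ]
    have : C0 ≤ (2 * X) ^ a := ha.le.trans (pow_le_pow_left₀ (by norm_num) h2X a)
    exact mul_le_mul this (by linarith) hX0.le (by positivity)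
  have hpow : ((2 * X) ^ (a + 1)) ^ C = (2 * X) ^ ((((a + 1) * C : ℕ) : ℝ)) := by
    rw [Real.rpow_natCast, pow_mul]
  have hXη : 1 ≤ X ^ η := Real.one_le_rpow hX hη
  have hXr : 1 ≤ X ^ r := Real.one_le_rpow hX hr
  -- points on one covering polynomial
  have hone : ∀ g ∈ G, ((S.filter fun P => P.y ≠ 0 ∧
      g.evalEval ((P.x : ℂ) / P.y) (P.n : ℂ) = 0).card : ℝ) ≤ (C + C * |C4|) * X ^ η := by
    intro g hg
    set T := S.filter fun P => P.y ≠ 0 ∧ g.evalEval ((P.x : ℂ) / P.y) (P.n : ℂ) = 0 with hT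
    have hTS : T ⊆ S := Finset.filter_subset _ _
    obtain ⟨G', S0, hG', hS0, hcurve, hcov'⟩ := hC g (hcov.1 g hg).1 (hcov.1 g hg).2
      ((2 * X) ^ (a + 1)) (h2X.trans hH2) T (fun P => P.x) (fun P => P.y) (fun P => P.n)
      (fun P hP' Q hQ' h => hS P (hTS hP') Q (hTS hQ') h) (fun P hP' => by
        obtain ⟨h1, h2, h3⟩ := Finset.mem_filter.1 hP'
        obtain ⟨s, sx, sy⟩ := hP P h1
        refine ⟨h2, sx.trans hHC, sy.trans hHC, ?_, h3⟩
        rw [abs_of_nonneg (hX0.le.trans s.n1)]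
        exact s.n2.trans hH2)
    have hsub : T ⊆ S0 ∪ G'.biUnion fun g' => T.filter fun P => hev2 g' E P.x P.y P.n = 0 := by
      intro P hP'
      by_cases h0 : P ∈ S0
      · exact Finset.mem_union_left _ h0
      · obtain ⟨g', hg', he⟩ := hcov' P hP' h0
        exact Finset.mem_union_right _
          (Finset.mem_biUnion.2 ⟨g', hg', Finset.mem_filter.2 ⟨hP', he⟩⟩)
    have hc1 : (T.card : ℝ) ≤ S0.card +
        ∑ g' ∈ G', ((T.filter fun P => hev2 g' E P.x P.y P.n = 0).card : ℝ) := by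
      have := (Finset.card_le_card hsub).trans ((Finset.card_union_le _ _).trans
        (Nat.add_le_add_left Finset.card_biUnion_le _))
      exact_mod_cast this
    have hc2 : ∑ g' ∈ G', ((T.filter fun P => hev2 g' E P.x P.y P.n = 0).card : ℝ) ≤
        G'.card • (|C4| * X ^ η) := by
      refine Finset.sum_le_card_nsmul _ _ _ fun g' hg' => ?_
      refine (h4 g' (hpow ▸ hcurve g' hg') _ ((Finset.filter_subset _ _).trans hTS)
        fun P hP' => ?_).trans (mul_le_mul_of_nonneg_right (le_abs_self _) (by linarith))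
      obtain ⟨h1, h2⟩ := Finset.mem_filter.1 hP'
      exact ⟨(Finset.mem_filter.1 h1).2.1, h2⟩
    rw [nsmul_eq_mul] at hc2
    have hG'' : (G'.card : ℝ) ≤ C := by exact_mod_cast hG'
    have hS0' : (S0.card : ℝ) ≤ C := by exact_mod_cast hS0
    have hC0 : (0 : ℝ) ≤ C := Nat.cast_nonneg _
    have e1 : (G'.card : ℝ) * (|C4| * X ^ η) ≤ C * (|C4| * X ^ η) :=
      mul_le_mul_of_nonneg_right hG'' (by positivity)
    have e2 : (C : ℝ) ≤ C * X ^ η := le_mul_of_one_le_right hC0 hXη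
    nlinarith
  have hsub : S ⊆ (S.filter fun P => P.y = 0) ∪ G.biUnion fun g => S.filter fun P => P.y ≠ 0 ∧
      g.evalEval ((P.x : ℂ) / P.y) (P.n : ℂ) = 0 := by
    intro P hP'
    by_cases h0 : P.y = 0
    · exact Finset.mem_union_left _ (Finset.mem_filter.2 ⟨hP', h0⟩)
    · obtain ⟨g, hg, he⟩ := hcov.2 P hP' h0
      exact Finset.mem_union_right _
        (Finset.mem_biUnion.2 ⟨g, hg, Finset.mem_filter.2 ⟨hP', h0, he⟩⟩)
  have hc1 : (S.card : ℝ) ≤ (S.filter fun P => P.y = 0).card +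
      ∑ g ∈ G, ((S.filter fun P => P.y ≠ 0 ∧
        g.evalEval ((P.x : ℂ) / P.y) (P.n : ℂ) = 0).card : ℝ) := by
    have := (Finset.card_le_card hsub).trans ((Finset.card_union_le _ _).trans
      (Nat.add_le_add_left Finset.card_biUnion_le _))
    exact_mod_cast this
  have hc2 := Finset.sum_le_card_nsmul _ _ _ hone
  rw [nsmul_eq_mul] at hc2
  have hc3 := h3 (S.filter fun P => P.y = 0) (Finset.filter_subset _ _)
    fun P hP' => (Finset.mem_filter.1 hP').2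
  have hK : (0 : ℝ) ≤ (C + C * |C4|) * X ^ η := by positivity
  have e1 : (G.card : ℝ) * ((C + C * |C4|) * X ^ η) ≤
      (|C2| * X ^ r) * ((C + C * |C4|) * X ^ η) :=
    mul_le_mul_of_nonneg_right (hG.trans (mul_le_mul_of_nonneg_right (le_abs_self _)
      (by linarith))) hK
  have e2 : C3 ≤ |C3| * (X ^ r * X ^ η) :=
    (le_abs_self _).trans (le_mul_of_one_le_right (abs_nonneg _) (by nlinarith))
  rw [Real.rpow_add hX0]
  calc (S.card : ℝ) ≤ |C3| * (X ^ r * X ^ η) + (|C2| * X ^ r) * ((C + C * |C4|) * X ^ η) := by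
        linarith
    _ = _ := by ring

end Crest.Agent.R22
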