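import Crest.Agent.R22.Basic
import Crest.Agent.R22.Ind

/-! Auxiliary lemmas for `surfB5`: degrees, the triple `tri`, the covering polynomial. -/

set_option autoImplicit false
open Polynomial

namespace Crest.Agent.R22

variable {d : ℕ}

theorem SurfB5_deg_mono {g : ℂ[X][X]} {E E' : ℕ} (h : DegLE g E) (hE : E ≤ E') : DegLE g E' :=
  ⟨h.1.trans hE, fun i => (h.2 i).trans hE⟩

theorem SurfB5_deg_zero (E : ℕ) : DegLE (0 : ℂ[X][X]) E := ⟨by simp, fun i => by simp⟩

theorem SurfB5_deg_add {g h : ℂ[X][X]} {E : ℕ} (hg : DegLE g E) (hh : DegLE h E) :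
    DegLE (g + h) E :=
  ⟨natDegree_add_le_of_degree_le hg.1 hh.1, fun i => by
    rw [coeff_add]; exact natDegree_add_le_of_degree_le (hg.2 i) (hh.2 i)⟩

theorem SurfB5_deg_sum {ι : Type*} (s : Finset ι) (g : ι → ℂ[X][X]) {E : ℕ}
    (hg : ∀ a ∈ s, DegLE (g a) E) : DegLE (∑ a ∈ s, g a) E := by
  classical
  induction s using Finset.induction_on with
  | empty => simpa using SurfB5_deg_zero E
  | insert a s ha ih =>
    rw [Finset.sum_insert ha]
    exact SurfB5_deg_add (hg a (Finset.mem_insert_self _ _))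
      (ih fun b hb => hg b (Finset.mem_insert_of_mem hb))

theorem SurfB5_deg_mul {g h : ℂ[X][X]} {E E' : ℕ} (hg : DegLE g E) (hh : DegLE h E') :
    DegLE (g * h) (E + E') := by
  refine ⟨natDegree_mul_le.trans (add_le_add hg.1 hh.1), fun i => ?_⟩
  rw [coeff_mul]
  refine natDegree_sum_le_of_forall_le _ _ fun p _ => ?_
  exact natDegree_mul_le.trans (add_le_add (hg.2 _) (hh.2 _))

theorem SurfB5_deg_C {p : ℂ[X]} {E : ℕ} (hp : p.natDegree ≤ E) : DegLE (C p : ℂ[X][X]) E := by
  refine ⟨by simp, fun i => ?_⟩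
  rw [coeff_C]
  split_ifs
  · exact hp
  · simp

theorem SurfB5_deg_pow {g : ℂ[X][X]} {E : ℕ} (hg : DegLE g E) (n : ℕ) :
    DegLE (g ^ n) (n * E) := by
  induction n with
  | zero => simpa using (SurfB5_deg_C (p := 1) (E := 0) (by simp))
  | succ n ih =>
    rw [pow_succ, Nat.succ_mul]
    exact SurfB5_deg_mul ih hg

theorem SurfB5_deg_Urow (th : Fin d → ℂ) (L : Fin d → ℂ[X]) (hL : ∀ j, (L j).natDegree ≤ 1)
    (k : ℕ) (j : Fin d) : DegLE (Urow th L k j) (1 + d * k) := by
  unfold Urow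
  refine SurfB5_deg_mul ?_ (SurfB5_deg_C ?_)
  · refine ⟨by rw [natDegree_X_sub_C], fun i => ?_⟩
    rw [coeff_sub, coeff_X, coeff_C]
    refine (natDegree_sub_le _ _).trans (max_le ?_ ?_) <;> split_ifs <;> simp
  · refine (natDegree_prod_le _ _).trans ?_
    calc ∑ l ∈ Finset.univ.erase j, (L l ^ k).natDegree ≤ ∑ l ∈ Finset.univ.erase j, k := by
          refine Finset.sum_le_sum fun l _ => natDegree_pow_le.trans ?_
          simpa using Nat.mul_le_mul_left k (hL l)
      _ ≤ d * k := by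
          rw [Finset.sum_const, smul_eq_mul]
          refine Nat.mul_le_mul_right k ?_
          simp

/-- The index sets of the three sums in `tri`. -/
def SurfB5_set (d : ℕ) : Fin 3 → Finset (Fin d) :=
  ![Finset.univ.filter fun j => j.val = 0, Finset.univ.filter fun j => j.val = 1,
    Finset.univ.filter fun j => 2 ≤ j.val]

theorem SurfB5_tri_eq {R : Type*} [AddCommMonoid R] (z : Fin d → R) (l : Fin 3) :
    tri z l = ∑ j ∈ SurfB5_set d l, z j := by
  fin_cases l <;> simp [tri, SurfB5_set]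

theorem SurfB5_deg_tri (z : Fin d → ℂ[X][X]) {E : ℕ} (hz : ∀ j, DegLE (z j) E) (l : Fin 3) :
    DegLE (tri z l) E := by
  rw [SurfB5_tri_eq]
  exact SurfB5_deg_sum _ _ fun j _ => hz j

theorem SurfB5_map_tri {R S : Type*} [CommRing R] [CommRing S] (φ : R →+* S) (z : Fin d → R)
    (l : Fin 3) : φ (tri z l) = tri (fun j => φ (z j)) l := by
  simp only [SurfB5_tri_eq, map_sum]

theorem SurfB5_tri_mul (s : ℂ) (z : Fin d → ℂ) (l : Fin 3) :
    tri (fun j => s * z j) l = s * tri z l := by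
  simp only [SurfB5_tri_eq, Finset.mul_sum]

theorem SurfB5_tri_perm (π : Equiv.Perm (Fin d)) : ∃ W : Fin 3 → Fin d → ℂ,
    (∀ l j, ‖W l j‖ ≤ 1) ∧ ∀ (z : Fin d → ℂ) (l : Fin 3),
      tri (fun j => z (π j)) l = ∑ j, W l j * z j := by
  refine ⟨fun l j => tri (fun j' => if π j' = j then (1 : ℂ) else 0) l, ?_, ?_⟩
  · intro l j
    have key : ∀ s : Finset (Fin d), ‖∑ j' ∈ s, (if π j' = j then (1 : ℂ) else 0)‖ ≤ 1 := by
      intro s
      have : ∀ j', (π j' = j) = (j' = π.symm j) := fun j' => by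
        rw [Equiv.eq_symm_apply]
      simp only [this, Finset.sum_ite_eq']
      split_ifs <;> simp
    simp only [SurfB5_tri_eq]
    exact key _
  · intro z l
    have key : ∀ s : Finset (Fin d), ∑ j' ∈ s, z (π j') =
        ∑ j, (∑ j' ∈ s, (if π j' = j then (1 : ℂ) else 0)) * z j := by
      intro s
      simp only [Finset.sum_mul]
      rw [Finset.sum_comm]
      refine Finset.sum_congr rfl fun j' _ => ?_
      simp
    simp only [SurfB5_tri_eq]
    exact key _

theorem SurfB5_fun (a : Fin 3 → ℕ) (D : ℕ) (ha : ∑ l, a l = D) :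
    ∃ f : Fin D → Fin 3, ∀ z : Fin 3 → ℂ, ∏ e, z (f e) = ∏ l, z l ^ a l := by
  have hc : Fintype.card (Σ l : Fin 3, Fin (a l)) = D := by
    rw [Fintype.card_sigma]; simpa using ha
  let e := Fintype.equivFinOfCardEq hc
  refine ⟨fun i => (e.symm i).1, fun z => ?_⟩
  rw [Equiv.prod_comp e.symm (fun s => z s.1), Fintype.prod_sigma]
  simp

/-- The exponent vectors of degree `D` in three variables. -/
abbrev SurfB5_Mon (D : ℕ) : Type := ↥(Finset.finsuppAntidiag (Finset.univ : Finset (Fin 3)) D)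

theorem SurfB5_mon_sum {D : ℕ} (a : SurfB5_Mon D) : ∑ l, a.1 l = D := by
  have := (Finset.mem_finsuppAntidiag.1 a.2).1
  simpa using this

theorem SurfB5_card (D : ℕ) : 2 * Fintype.card (SurfB5_Mon D) = (D + 1) * (D + 2) := by
  rw [Fintype.card_coe, Finset.card_finsuppAntidiag_nat_eq_choose]
  have h1 : (Finset.univ : Finset (Fin 3)).card + D - 1 = D + 2 := by simp; omega
  rw [h1, Nat.choose_symm_add, Nat.choose_two_right]
  have h2 : 2 ∣ (D + 2) * (D + 2 - 1) := (Nat.even_mul_pred_self (D + 2)).two_dvd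
  rw [Nat.mul_div_cancel' h2]
  have : D + 2 - 1 = D + 1 := by omega
  rw [this, mul_comm]

/-- A linear relation between the rows gives a covering polynomial. -/
theorem SurfB5_cover (c : Ctx d) (hd : 3 ≤ d) (k : ℕ) (hk : 1 ≤ k) (D : ℕ) (b1 b2 : Fin d → ℤ)
    (hN : c.Nondeg b1 b2) (T : Finset (LPt c k))
    (hT : ∀ P ∈ T, P.be = P.x • b1 + P.y • b2)
    (lam : SurfB5_Mon D × Fin ((d - 2) * k) → ℂ) (hlam : lam ≠ 0)
    (hrel : ∀ P ∈ T, ∑ a, lam a * ((∏ l, tri (fun j => c.sg j P.mu) l ^ a.1.1 l) *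
      (P.x : ℂ) ^ (a.2 : ℕ) * (P.y : ℂ) ^ ((d - 2) * k - 1 - a.2)) = 0) :
    ∃ g : ℂ[X][X], Covers {g} ((d - 2) * k + D * (1 + d * k)) T := by
  classical
  have hL : Lins (c.lin b1 b2) := lins_of_nondeg c (by omega) hN
  set U := tri (Urow c.th (c.lin b1 b2) k) with hU
  let R : Fin ((d - 2) * k) → MvPolynomial (Fin 3) ℂ :=
    fun i => ∑ a : SurfB5_Mon D, MvPolynomial.monomial a.1 (lam (a, i))
  have hR : ∀ i, (R i).IsHomogeneous D := by
    intro i
    refine MvPolynomial.IsHomogeneous.sum _ _ _ fun a _ => MvPolynomial.isHomogeneous_monomial _ ?_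
    rw [Finsupp.degree_eq_sum]
    exact SurfB5_mon_sum a
  have hRev : ∀ i, MvPolynomial.aeval U (R i) =
      ∑ a : SurfB5_Mon D, C (C (lam (a, i))) * ∏ l, U l ^ a.1 l := by
    intro i
    simp only [R, map_sum, MvPolynomial.aeval_monomial]
    refine Finset.sum_congr rfl fun a _ => ?_
    rw [Finsupp.prod_fintype _ _ (fun _ => pow_zero _)]
    rfl
  refine ⟨∑ i : Fin ((d - 2) * k), (C (X ^ (i : ℕ)) : ℂ[X][X]) * MvPolynomial.aeval U (R i),
    ?_, ?_⟩
  · intro g hg
    rw [Finset.mem_singleton] at hg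
    subst hg
    constructor
    · intro h0
      apply hlam
      funext a
      have hR0 := ind_rows d k D hd hk c.th c.inj _ hL R hR h0 a.2
      have := congrArg (MvPolynomial.coeff a.1.1) hR0
      simp only [R, MvPolynomial.coeff_sum, MvPolynomial.coeff_monomial, MvPolynomial.coeff_zero,
        Subtype.val_inj] at this
      rw [Finset.sum_ite_eq'] at this
      simpa using this
    · refine SurfB5_deg_sum _ _ fun i _ => SurfB5_deg_mul (SurfB5_deg_C ?_) ?_
      · rw [natDegree_X_pow]; exact i.2.le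
      · rw [hRev]
        refine SurfB5_deg_sum _ _ fun a _ => ?_
        have hUd : ∀ l, DegLE (U l) (1 + d * k) := fun l =>
          SurfB5_deg_tri _ (fun j => SurfB5_deg_Urow _ _ (fun j => (hL.1 j).le) k j) l
        have h1 := SurfB5_deg_mul (SurfB5_deg_C (p := C (lam (a, i))) (E := 0) (by simp))
          (SurfB5_deg_mul (SurfB5_deg_mul (SurfB5_deg_pow (hUd 0) (a.1 0))
            (SurfB5_deg_pow (hUd 1) (a.1 1))) (SurfB5_deg_pow (hUd 2) (a.1 2)))
        rw [Fin.prod_univ_three]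
        refine SurfB5_deg_mono h1 (le_of_eq ?_)
        have := SurfB5_mon_sum a
        rw [Fin.sum_univ_three] at this
        rw [zero_add, ← add_mul, ← add_mul, this]
  · intro P hP hy
    refine ⟨_, Finset.mem_singleton_self _, ?_⟩
    have hyC : (P.y : ℂ) ≠ 0 := by exact_mod_cast hy
    have hcc : (P.cc : ℂ) ≠ 0 := by exact_mod_cast P.cc0
    set t : ℂ := (P.x : ℂ) / P.y with ht
    have hbe : ∀ j, c.sg j P.be = (P.y : ℂ) * (c.lin b1 b2 j).eval t := fun j => by
      rw [hT P hP]; exact sg_line c b1 b2 P.x P.y hy j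
    set s : ℂ := (∏ l, (c.lin b1 b2 l).eval t ^ k) * (P.y : ℂ) ^ k / P.cc with hs
    have hUrow : ∀ j, (Urow c.th (c.lin b1 b2) k j).evalEval t (P.n : ℂ) = s * c.sg j P.mu := by
      intro j
      have h1 := P.rel j
      rw [hbe j] at h1
      simp only [Urow, evalEval_mul, evalEval_sub, evalEval_X, evalEval_C, eval_C, eval_prod,
        eval_pow]
      rw [hs, ← Finset.mul_prod_erase _ _ (Finset.mem_univ j)]
      field_simp
      rw [mul_pow] at h1
      linear_combination (-∏ l ∈ Finset.univ.erase j, (c.lin b1 b2 l).eval t ^ k) * h1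
    have hUev : ∀ l, (U l).evalEval t (P.n : ℂ) = s * tri (fun j => c.sg j P.mu) l := by
      intro l
      have := SurfB5_map_tri (evalEvalRingHom t (P.n : ℂ)) (Urow c.th (c.lin b1 b2) k) l
      simp only [coe_evalEvalRingHom, hUrow] at this
      rw [hU, this, SurfB5_tri_mul]
    have h2 := hrel P hP
    rw [Fintype.sum_prod_type_right] at h2
    have h3 : (∑ i : Fin ((d - 2) * k), (C (X ^ (i : ℕ)) : ℂ[X][X]) *
        MvPolynomial.aeval U (R i)).evalEval t (P.n : ℂ) * (P.y : ℂ) ^ ((d - 2) * k - 1) =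
        s ^ D * ∑ i : Fin ((d - 2) * k), ∑ a : SurfB5_Mon D, lam (a, i) *
          ((∏ l, tri (fun j => c.sg j P.mu) l ^ a.1 l) *
            (P.x : ℂ) ^ (i : ℕ) * (P.y : ℂ) ^ ((d - 2) * k - 1 - i)) := by
      rw [evalEval_finsetSum, Finset.sum_mul, Finset.mul_sum]
      refine Finset.sum_congr rfl fun i _ => ?_
      rw [hRev, evalEval_mul, evalEval_finsetSum, Finset.mul_sum, Finset.sum_mul, Finset.mul_sum]
      refine Finset.sum_congr rfl fun a _ => ?_
      have hi : (d - 2) * k - 1 = i + ((d - 2) * k - 1 - i) := by have := i.2; omega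
      have hsD : s ^ D = ∏ l, s ^ a.1 l := by
        rw [Finset.prod_pow_eq_pow_sum, SurfB5_mon_sum a]
      simp only [evalEval_mul, evalEval_C, eval_C, eval_pow, eval_X, evalEval_prod, evalEval_pow,
        hUev, mul_pow, Finset.prod_mul_distrib]
      rw [← hsD]
      conv_lhs => rw [hi, pow_add]
      rw [ht, div_pow]
      field_simp
    rw [h2, mul_zero] at h3
    exact (mul_eq_zero.1 h3).resolve_right (pow_ne_zero _ hyC)

end Crest.Agent.R22
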