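import Crest.Agent.R22.SurfAux
import Crest.Agent.R22.DetB
import Crest.Agent.R22.NF
import Crest.Agent.R22.Ind
import Crest.Agent.R22.LinAlg
import Crest.Agent.R22.SurfB5Aux

set_option autoImplicit false
open Polynomial IntermediateField

namespace Crest.Agent.R22

variable {d : ℕ}

theorem SurfB5_num (κ : ℕ) (δ C : ℝ) (hδ : 0 < δ) : ∃ D : ℕ,
    ∀ M : ℕ, 2 * M = κ * ((D + 1) * (D + 2)) →
      (κ : ℝ) * M + κ * (D * (3 * D + 2)) / 2 + C * D ^ 2 + 1 ≤ δ * D ^ 3 := by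
  obtain ⟨D, hD⟩ := exists_nat_ge (max 1 ((1 + C + 3 * κ + 3 * κ ^ 2) / δ))
  have h1 : (1 : ℝ) ≤ D := (le_max_left _ _).trans hD
  have h2 : 1 + C + 3 * κ + 3 * κ ^ 2 ≤ D * δ := (div_le_iff₀ hδ).1 ((le_max_right _ _).trans hD)
  refine ⟨D, fun M hM => ?_⟩
  have hM' : (M : ℝ) = κ * ((D + 1) * (D + 2)) / 2 := by
    have : (2 : ℝ) * M = κ * ((D + 1) * (D + 2)) := by exact_mod_cast hM
    linarith
  have hk : (0 : ℝ) ≤ κ := Nat.cast_nonneg κ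
  have hD2 : (D : ℝ) ≤ D ^ 2 := by nlinarith
  have h3 : ((D : ℝ) + 1) * (D + 2) / 2 ≤ 3 * D ^ 2 := by nlinarith
  have h4 : (D : ℝ) * (3 * D + 2) / 2 ≤ 3 * D ^ 2 := by nlinarith
  have h5 : (κ : ℝ) * M ≤ 3 * κ ^ 2 * D ^ 2 := by
    rw [hM']
    have := mul_le_mul_of_nonneg_left h3 (sq_nonneg (κ : ℝ))
    linarith
  have h6 : (κ : ℝ) * (D * (3 * D + 2)) / 2 ≤ 3 * κ * D ^ 2 := by
    have := mul_le_mul_of_nonneg_left h4 hk
    linarith
  have h7 := mul_le_mul_of_nonneg_right h2 (sq_nonneg (D : ℝ))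
  nlinarith

theorem SurfB5_pow (κ k D M : ℕ) (hk : 1 ≤ k) (X B α Θ C : ℝ) (hX : 1 ≤ X) (hB : 1 ≤ B)
    (hBk : B ^ k ≤ X) (ha : (X / B ^ k) ^ ((κ : ℝ) / 2) ≤ X ^ α)
    (hM : 2 * M = κ * ((D + 1) * (D + 2)))
    (hD : (κ : ℝ) * M + κ * (D * (3 * D + 2)) / 2 + C * D ^ 2 + 1 ≤ (Θ - α) * D ^ 3) :
    (B ^ (κ - 1)) ^ M * ((X / B ^ k) ^ D) ^ M * X ^ (-(Θ * D ^ 3 - C * D ^ 2)) ≤ X⁻¹ := by
  have hX0 : 0 < X := by linarith
  have hBk1 : 1 ≤ B ^ k := one_le_pow₀ hB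
  have hBX : B ≤ X := (le_self_pow₀ hB (by omega)).trans hBk
  set U := X / B ^ k with hU
  have hU1 : 1 ≤ U := (one_le_div (by linarith)).2 hBk
  have hUX : U ≤ X := div_le_self hX0.le hBk1
  have hU0 : 0 < U := by linarith
  have h1 : (B ^ (κ - 1)) ^ M ≤ X ^ ((κ : ℝ) * M) := by
    rw [← Nat.cast_mul, Real.rpow_natCast, pow_mul]
    refine pow_le_pow_left₀ (by positivity) ?_ M
    exact (pow_le_pow_right₀ hB (Nat.sub_le _ _)).trans (pow_le_pow_left₀ (by linarith) hBX κ)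
  have hM' : (D : ℝ) * M = κ / 2 * D ^ 3 + κ * (D * (3 * D + 2)) / 2 := by
    have : (2 : ℝ) * M = κ * ((D + 1) * (D + 2)) := by exact_mod_cast hM
    linear_combination (D : ℝ) / 2 * this
  have h2 : (U ^ D) ^ M ≤ X ^ (α * D ^ 3) * X ^ ((κ : ℝ) * (D * (3 * D + 2)) / 2) := by
    rw [← pow_mul, ← Real.rpow_natCast, Nat.cast_mul, hM', Real.rpow_add hU0,
      Real.rpow_mul hU0.le, Real.rpow_mul hX0.le]
    refine mul_le_mul (Real.rpow_le_rpow (by positivity) ha (by positivity))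
      (Real.rpow_le_rpow hU0.le hUX (by positivity)) (by positivity) (by positivity)
  calc (B ^ (κ - 1)) ^ M * (U ^ D) ^ M * X ^ (-(Θ * D ^ 3 - C * D ^ 2))
      ≤ X ^ ((κ : ℝ) * M) * (X ^ (α * D ^ 3) * X ^ ((κ : ℝ) * (D * (3 * D + 2)) / 2)) *
        X ^ (-(Θ * D ^ 3 - C * D ^ 2)) := by gcongr
    _ = X ^ ((κ : ℝ) * M + (α * D ^ 3 + (κ : ℝ) * (D * (3 * D + 2)) / 2) +
        -(Θ * D ^ 3 - C * D ^ 2)) := by
        rw [Real.rpow_add hX0, Real.rpow_add hX0, Real.rpow_add hX0]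
    _ ≤ X ^ (-1 : ℝ) := Real.rpow_le_rpow_of_exponent_le hX (by linarith)
    _ = X⁻¹ := Real.rpow_neg_one X

/-- The determinant of the rows is the value of an integer polynomial at the roots. -/
theorem SurfB5_int (c : Ctx d) {ι : Type} [Fintype ι] [DecidableEq ι] (al : ι → Fin 3 → ℕ)
    (i j : ι → ℕ) (mu : ι → Fin d → ℤ) (x y : ι → ℤ)
    (h : ∀ π : Equiv.Perm (Fin d), ‖(Matrix.of fun a b =>
      (∏ l, tri (fun e => c.sg (π e) (mu b)) l ^ al a l) * (x b : ℂ) ^ i a *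
        (y b : ℂ) ^ j a).det‖ < 1) :
    (Matrix.of fun a b => (∏ l, tri (fun e => c.sg e (mu b)) l ^ al a l) * (x b : ℂ) ^ i a *
        (y b : ℂ) ^ j a).det = 0 := by
  let A : Matrix ι ι (MvPolynomial (Fin d) ℤ) := Matrix.of fun a b =>
    (∏ l, tri (fun e => ∑ m, MvPolynomial.C (mu b m) * MvPolynomial.X e ^ (m : ℕ)) l ^ al a l) *
      MvPolynomial.C (x b) ^ i a * MvPolynomial.C (y b) ^ j a
  have key : ∀ π : Equiv.Perm (Fin d), MvPolynomial.aeval (c.th ∘ π) A.det =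
      (Matrix.of fun a b => (∏ l, tri (fun e => c.sg (π e) (mu b)) l ^ al a l) * (x b : ℂ) ^ i a *
        (y b : ℂ) ^ j a).det := by
    intro π
    rw [AlgHom.map_det]
    congr 1
    ext a b
    simp [A, SurfB5_tri_eq, Ctx.sg]
  have h1 := nf_zero c A.det fun π => by rw [key]; exact h π
  have h2 := key 1
  simp only [Equiv.Perm.coe_one, Function.comp_id, id_eq] at h2
  rw [← h2, h1]

/-- Surface step without height gain. Rows `(tri σμ)^a x^i y^(κ-1-i)`, `|a| = D`, `i < κ = (d-2)k`,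
`M = κ (D+1)(D+2)/2`. The determinant is `aeval c.th Ψ` for an integer polynomial `Ψ`; with the roots
permuted by `π` it is the determinant of the rows `(tri (σ_{π j} μ))^a …`, again bounded `< 1` by
`box_factor` and `detB`; `nf_zero`, `exists_rel_of_det` (over `ℂ`), `ind_rows`. -/
theorem surfB5 (c : Ctx d) (hd : 5 ≤ d) (k : ℕ) (hk : 1 ≤ k) (C0 r rho k0 α : ℝ) (h0 : 1 ≤ C0)
    (hp : SurfPar d k r rho k0 α) :
    ∃ (E : ℕ) (C : ℝ), ∀ (X B G1 G2 u lam : ℝ) (b1 b2 : Fin d → ℤ) (S : Finset (LPt c k)),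
      1 ≤ X → SizeB d k X B G1 G2 u lam α → LH b1 b2 G1 G2 → c.Nondeg b1 b2 → InjN S →
      (∀ P ∈ S, OnB C0 X B G1 G2 b1 b2 P) →
      ∃ G : Finset ℂ[X][X], (G.card : ℝ) ≤ C * X ^ r ∧ Covers G E S := by
  classical
  obtain ⟨CB, hCB, hcov⟩ := cover_of_boxes c (by omega) k C0 r h0 hp.r0
  set κ := (d - 2) * k with hκ
  have hκR : (κ : ℝ) = (d - 2 : ℝ) * k := by
    rw [hκ, Nat.cast_mul, Nat.cast_sub (by omega)]; norm_num
  have hd2 : (2 : ℝ) ≤ d := by exact_mod_cast (by omega : 2 ≤ d)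
  obtain ⟨C, hC, hdet⟩ := detB d k (κ - 1) (by omega) ((d - 2 : ℝ) * k / 2) r rho k0 1 0 hp.r0
    hp.rho0 hp.k00 hp.k01 (by rw [← hκR]; positivity) le_rfl le_rfl
  set Θ := Theta ((d - 2 : ℝ) * k / 2) ((d - 1 : ℝ) * k) ((d : ℝ) * k) r rho k0 with hΘ
  obtain ⟨D, hD⟩ := SurfB5_num κ (Θ - α) C (sub_pos.2 hp.lt)
  set M := Fintype.card (SurfB5_Mon D × Fin κ) with hMdef
  have hM : 2 * M = κ * ((D + 1) * (D + 2)) := by
    rw [hMdef, Fintype.card_prod, Fintype.card_fin, ← SurfB5_card]; ring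
  have hMR : (2 : ℝ) * M = κ * ((D + 1) * (D + 2)) := by exact_mod_cast hM
  obtain ⟨K', hK', hdet⟩ := hdet D M (by
    rw [← hκR]
    have h1 : (0 : ℝ) ≤ κ * (3 * D + 2) := by positivity
    nlinarith)
  obtain ⟨K, hK, hbox⟩ := box_factor c k D (κ - 1) C0 CB 1 h0 hCB
  obtain ⟨C2, hC2⟩ := hcov (κ + D * (1 + d * k)) 1 (K' * K ^ M * K ^ M + 1) (by
    have : 1 ≤ κ := Nat.mul_pos (by omega) hk
    omega)
  refine ⟨κ + D * (1 + d * k), C2, fun X B G1 G2 u lam b1 b2 S hX hS hL hN hI hP => ?_⟩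
  have hB0 : 0 < B := by linarith [hS.b1]
  refine hC2 X B G1 G2 B b1 b2 S hX hB0 hL hN hI (fun P hPS => ⟨(hP P hPS).sz, (hP P hPS).hx,
    (hP P hPS).hy, fun j => ?_⟩) ?_
  · rw [← (hP P hPS).eq]; exact (hP P hPS).sz.be1 j
  intro hX0 T hT L l1 l2 τ ρ hbd
  obtain ⟨col, hcol, hrow⟩ := hbox X B G1 G2 _ b1 b2 T L l1 l2 τ ρ hX hS.b1 hL.g1 hL.g2
    (fun P hPT => hP P (hT hPT)) hbd
  have hX1 : 0 < X := by linarith
  have ha : (X / B ^ k) ^ ((κ : ℝ) / 2) ≤ X ^ α := by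
    have := hS.ha
    rw [hg, if_neg (by omega), Real.rpow_zero, mul_one, ← hκR] at this
    exact this
  have hpow := SurfB5_pow κ k D M hk X B α Θ C hX hS.b1 hS.bk ha hM (hD M hM)
  suffices hz : ∀ z : SurfB5_Mon D × Fin κ → ↥T, (Matrix.of fun a b : SurfB5_Mon D × Fin κ =>
      (∏ l, tri (fun e => c.sg e (z b).1.mu) l ^ a.1.1 l) * ((z b).1.x : ℂ) ^ (a.2 : ℕ) *
        ((z b).1.y : ℂ) ^ (κ - 1 - a.2)).det = 0 by
    obtain ⟨lam, hlam, hrel⟩ := exists_rel_of_det (K := ℂ) (ι := SurfB5_Mon D × Fin κ) (Z := ↥T)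
      (fun a P => (∏ l, tri (fun e => c.sg e P.1.mu) l ^ a.1.1 l) * (P.1.x : ℂ) ^ (a.2 : ℕ) *
        (P.1.y : ℂ) ^ (κ - 1 - a.2)) hz
    obtain ⟨g, hg⟩ := SurfB5_cover c (by omega) k hk D b1 b2 hN T
      (fun P hPT => (hP P (hT hPT)).eq) lam hlam (fun P hPT => hrel ⟨P, hPT⟩)
    exact ⟨{g}, by simp, hg⟩
  intro z
  refine SurfB5_int c (fun a : SurfB5_Mon D × Fin κ => a.1.1) (fun a => a.2)
    (fun a => κ - 1 - a.2) (fun b => (z b).1.mu) (fun b => (z b).1.x) (fun b => (z b).1.y)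
    fun π => ?_
  obtain ⟨W, hW, hWe⟩ := SurfB5_tri_perm π
  have hrow' : ∀ a : SurfB5_Mon D × Fin κ, ∃ (F : ℂ[X][X]) (rw : ℂ),
      F ∈ Vsp c.th L k D (κ - 1) l1 l2 ∧ CoLE F K ∧ ‖rw‖ ≤ B ^ (κ - 1) ∧ ∀ P ∈ T,
        (∏ l, tri (fun e => c.sg (π e) P.mu) l ^ a.1.1 l) * (P.x : ℂ) ^ (a.2 : ℕ) *
          (P.y : ℂ) ^ (κ - 1 - a.2) = rw * col P * F.evalEval (τ P : ℂ) ((P.n : ℂ))⁻¹ := by
    intro a
    obtain ⟨f, hf⟩ := SurfB5_fun a.1.1 D (SurfB5_mon_sum a.1)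
    obtain ⟨F, rw, h1, h2, h3, h4⟩ := hrow (fun e => W (f e)) a.2 (fun e j => hW _ j)
      (by have := a.2.2; omega)
    refine ⟨F, rw, h1, h2, h3, fun P hPT => ?_⟩
    rw [← h4 P hPT, ← hf]
    simp only [hWe (fun e => c.sg e P.mu)]
  choose F rw hF1 hF2 hrw hFe using hrow'
  let e : Fin M ≃ SurfB5_Mon D × Fin κ := (Fintype.equivFin _).symm
  have h1 := hdet c.th L l1 l2 (fun a => F (e a)) K X (fun b => (τ (z (e b)).1 : ℂ))
    (fun b => (((z (e b)).1.n : ℂ))⁻¹) hbd.lins hbd.d1 hbd.d2 (by linarith) hX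
    (fun a => ⟨hF1 _, hF2 _⟩) (fun b => ⟨by
      rw [Complex.norm_real, Real.norm_eq_abs, one_mul]; exact hbd.tau _ (z (e b)).2, by
      have h2 := (hP _ (hT (z (e b)).2)).sz.n1
      rw [norm_inv, Complex.norm_intCast, one_mul]
      exact inv_anti₀ hX1 (h2.trans (le_abs_self _))⟩)
  have h2 : (Matrix.of fun a b : Fin M => (F (e a)).evalEval (τ (z (e b)).1 : ℂ)
      (((z (e b)).1.n : ℂ))⁻¹).det = (Matrix.of fun a b : SurfB5_Mon D × Fin κ =>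
        (F a).evalEval (τ (z b).1 : ℂ) (((z b).1.n : ℂ))⁻¹).det := by
    rw [← Matrix.det_submatrix_equiv_self e]; rfl
  rw [h2] at h1
  have h3 : (Matrix.of fun a b : SurfB5_Mon D × Fin κ =>
      (∏ l, tri (fun e => c.sg (π e) (z b).1.mu) l ^ a.1.1 l) * ((z b).1.x : ℂ) ^ (a.2 : ℕ) *
        ((z b).1.y : ℂ) ^ (κ - 1 - a.2)) = Matrix.diagonal rw *
          (Matrix.of fun a b : SurfB5_Mon D × Fin κ =>
            (F a).evalEval (τ (z b).1 : ℂ) (((z b).1.n : ℂ))⁻¹) *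
              Matrix.diagonal fun b => col (z b).1 := by
    ext a b
    rw [Matrix.mul_diagonal, Matrix.diagonal_mul, Matrix.of_apply, Matrix.of_apply,
      hFe a _ (z b).2]
    ring
  rw [h3, Matrix.det_mul, Matrix.det_mul, Matrix.det_diagonal, Matrix.det_diagonal, norm_mul,
    norm_mul, norm_prod, norm_prod]
  have h4 : ∏ a, ‖rw a‖ ≤ (B ^ (κ - 1)) ^ M := by
    refine (Finset.prod_le_prod (fun _ _ => norm_nonneg _) fun a _ => hrw a).trans (le_of_eq ?_)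
    rw [Finset.prod_const, Finset.card_univ]
  have h5 : ∏ b, ‖col (z b).1‖ ≤ (K * (X / B ^ k) ^ D) ^ M := by
    refine (Finset.prod_le_prod (fun _ _ => norm_nonneg _)
      fun b _ => hcol _ (z b).2).trans (le_of_eq ?_)
    rw [Finset.prod_const, Finset.card_univ]
  have hK0 : 0 < K := by linarith
  calc _ ≤ (B ^ (κ - 1)) ^ M * (K' * K ^ M * X ^ (-(Θ * D ^ 3 - C * D ^ 2))) *
        (K * (X / B ^ k) ^ D) ^ M :=
        mul_le_mul (mul_le_mul h4 h1 (norm_nonneg _) (by positivity)) h5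
          (Finset.prod_nonneg fun _ _ => norm_nonneg _) (by positivity)
    _ = K' * K ^ M * K ^ M * ((B ^ (κ - 1)) ^ M * ((X / B ^ k) ^ D) ^ M *
        X ^ (-(Θ * D ^ 3 - C * D ^ 2))) := by rw [mul_pow]; ring
    _ ≤ K' * K ^ M * K ^ M * X⁻¹ := mul_le_mul_of_nonneg_left hpow (by positivity)
    _ < 1 := by
        rw [← div_eq_mul_inv, div_lt_one hX1]; linarith

end Crest.Agent.R22
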