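import Crest.Agent.R22.SurfAux
import Crest.Agent.R22.DetC
import Crest.Agent.R22.NF
import Crest.Agent.R22.ElimC
import Crest.Agent.R22.LinAlg
import Crest.Agent.R22.Card

set_option autoImplicit false
open Polynomial IntermediateField

namespace Crest.Agent.R22

variable {d : ℕ}

/-- Vanishing maximal minors give a plane curve through the points. -/
theorem surfC_elim (c : Ctx d) (hd : 4 ≤ d) (k D : ℕ) (hk : 1 ≤ k) : ∃ E : ℕ,
    ∀ (M : ℕ) (a : Fin M → Fin 4 → ℕ), Function.Injective a → (∀ i, a i ∈ stdC k D) →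
    ∀ (b1 b2 : Fin d → ℤ) (T : Finset (LPt c k)), c.Nondeg b1 b2 →
      (∀ P ∈ T, P.mu = P.x • b1 + P.y • b2) →
      (∀ Pb : Fin M → LPt c k, (∀ b, Pb b ∈ T) → (Matrix.of fun i b =>
        ∏ j : Fin 4, c.sg (Fin.castLE hd j) (Pb b).be ^ a i j).det = 0) →
      ∃ g : ℂ[X][X], g ≠ 0 ∧ DegLE g E ∧
        ∀ P ∈ T, P.y ≠ 0 → g.evalEval ((P.x : ℂ) / P.y) (P.n : ℂ) = 0 := by
  classical
  obtain ⟨E, hE⟩ := elimC k D hk
  refine ⟨E, fun M a ha hs b1 b2 T hN hmu hdet => ?_⟩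
  obtain ⟨lam, hlam, hrel⟩ := exists_rel_of_det (ι := Fin M) (Z := T) (K := ℂ)
    (fun i P => ∏ j : Fin 4, c.sg (Fin.castLE hd j) (P : LPt c k).be ^ a i j)
    (fun z => hdet (fun b => (z b : LPt c k)) (fun b => (z b).2))
  set a' : Fin M → (Fin 4 →₀ ℕ) := fun i => Finsupp.equivFunOnFinite.symm (a i) with ha'
  have ha'i : Function.Injective a' := Finsupp.equivFunOnFinite.symm.injective.comp ha
  have ha'a : ∀ i j, a' i j = a i j := fun i j => rfl
  set G : MvPolynomial (Fin 4) ℂ := ∑ i, MvPolynomial.monomial (a' i) (lam i) with hG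
  have hG0 : G ≠ 0 := by
    intro h
    apply hlam
    funext i
    have := congrArg (MvPolynomial.coeff (a' i)) h
    rw [hG, MvPolynomial.coeff_sum] at this
    simp only [MvPolynomial.coeff_monomial, ha'i.eq_iff, Finset.sum_ite_eq', Finset.mem_univ,
      if_true, MvPolynomial.coeff_zero] at this
    exact this
  have hGh : G.IsHomogeneous D := by
    refine MvPolynomial.IsHomogeneous.sum _ _ _ fun i _ => MvPolynomial.isHomogeneous_monomial _ ?_
    have := (Finset.mem_filter.1 (hs i)).1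
    rw [Finset.mem_piAntidiag] at this
    rw [Finsupp.degree_eq_sum]
    exact this.1
  have hGs : ∀ m ∈ G.support, ¬ (k ≤ m 2 ∧ k ≤ m 3) := by
    intro m hm
    have := MvPolynomial.support_sum hm
    rw [Finset.mem_biUnion] at this
    obtain ⟨i, _, hi⟩ := this
    have := MvPolynomial.support_monomial_subset hi
    rw [Finset.mem_singleton] at this
    subst this
    exact (Finset.mem_filter.1 (hs i)).2
  have hL := lins_of_nondeg c (by omega) hN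
  obtain ⟨g, hg0, hgE, hg⟩ := hE (fun j => c.th (Fin.castLE hd j))
    (fun j => c.lin b1 b2 (Fin.castLE hd j)) G (c.inj.comp (Fin.castLE_injective hd))
    ⟨fun j => hL.1 _, fun i j hij => hL.2 _ _ fun h => hij (Fin.castLE_injective hd h)⟩ hG0 hGh hGs
  refine ⟨g, hg0, hgE, fun P hP hy => ?_⟩
  have hy' : (P.y : ℂ) ≠ 0 := by exact_mod_cast hy
  refine hg _ _ ((P.cc : ℂ) / P.y) (fun j => c.sg (Fin.castLE hd j) P.be)
    (div_ne_zero (by exact_mod_cast P.cc0) hy') (fun j => ?_) ?_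
  · have h1 := P.rel (Fin.castLE hd j)
    rw [hmu P hP, sg_line c b1 b2 P.x P.y hy] at h1
    field_simp
    linear_combination h1
  · rw [hG, map_sum, ← hrel ⟨P, hP⟩]
    refine Finset.sum_congr rfl fun i _ => ?_
    rw [MvPolynomial.eval_monomial, Finsupp.prod_fintype _ _ (by simp)]
    rfl

/-- The determinant is an algebraic integer; if all its conjugates are small it vanishes. -/
theorem surfC_nf (c : Ctx d) (hd : 4 ≤ d) {M : ℕ} (a : Fin M → Fin 4 → ℕ)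
    (be : Fin M → Fin d → ℤ) (h : ∀ π : Equiv.Perm (Fin d), ‖(Matrix.of fun i b =>
      ∏ j : Fin 4, c.sg (π (Fin.castLE hd j)) (be b) ^ a i j).det‖ < 1) :
    (Matrix.of fun i b => ∏ j : Fin 4, c.sg (Fin.castLE hd j) (be b) ^ a i j).det = 0 := by
  classical
  set A : Matrix (Fin M) (Fin M) (MvPolynomial (Fin d) ℤ) := Matrix.of fun i b =>
    ∏ j : Fin 4, (∑ l : Fin d, MvPolynomial.C (be b l) *
      MvPolynomial.X (Fin.castLE hd j) ^ (l : ℕ)) ^ a i j with hA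
  have key : ∀ π : Equiv.Perm (Fin d), MvPolynomial.aeval (c.th ∘ π) A.det =
      (Matrix.of fun i b => ∏ j : Fin 4, c.sg (π (Fin.castLE hd j)) (be b) ^ a i j).det := by
    intro π
    rw [AlgHom.map_det]
    congr 1
    ext i b
    simp [hA, Ctx.sg]
  have := nf_zero c A.det fun π => by rw [key]; exact h π
  have h1 := key 1
  simp only [Equiv.Perm.coe_one, Function.comp_id, id] at h1
  rw [← h1]; exact this

theorem surfC_root (k : ℕ) (hk : 1 ≤ k) (w : ℂ) (K : ℝ) (hK : 1 ≤ K) (t : ℝ) (ht : 0 ≤ t)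
    (h : ‖w‖ ≤ K * t ^ k) : ∃ z : ℂ, z ^ k = w ∧ ‖z‖ ≤ K * t := by
  obtain ⟨z, hz⟩ := IsAlgClosed.exists_pow_nat_eq w (n := k) (by omega)
  refine ⟨z, hz, ?_⟩
  refine le_of_pow_le_pow_left₀ (n := k) (by omega) (by positivity) ?_
  rw [← norm_pow, hz, mul_pow]
  refine h.trans (mul_le_mul_of_nonneg_right ?_ (by positivity))
  exact le_self_pow₀ hK (by omega)

/-- Normalisation of one point of a box. -/
theorem surfC_pt (k : ℕ) (hk : 1 ≤ k) (CB Ct r : ℝ) (hB : 1 ≤ CB) (ht : 1 ≤ Ct)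
    (hr : 0 < r) : ∃ C' X0 : ℝ, 1 ≤ C' ∧ ∀ (X : ℝ) (be mu A κ aa lam th τ n cc Zρ : ℂ), X0 ≤ X →
      1 ≤ X → mu * be ^ k = cc * (n - th) → mu = Zρ * (A * (1 + κ * τ)) → aa ^ k = A⁻¹ →
      lam ^ k = cc * n / Zρ → cc ≠ 0 → Zρ ≠ 0 → X ≤ ‖n‖ → ‖th‖ ≤ Ct → ‖κ‖ ≤ CB ^ 2 →
      ‖τ‖ ≤ X ^ (-r) → ‖A‖ ≤ CB → A ≠ 0 → 1 / CB ≤ ‖A * (1 + κ * τ)‖ →
      ∃ ζ z : ℂ, ζ ^ k = 1 ∧ be = lam * aa * ζ * z ∧ z ^ k * (1 + κ * τ) = 1 - th * n⁻¹ ∧
        ‖z - 1‖ ≤ C' * X ^ (-min r 1) := by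
  obtain ⟨Cn, hCn, hn⟩ := near_root k hk
  set m := min r 1 with hm
  have hm0 : 0 < m := lt_min hr one_pos
  set K : ℝ := CB ^ 2 * (Ct + CB ^ 2) with hK
  have hK1 : 1 ≤ K := by
    have : 1 ≤ CB ^ 2 := one_le_pow₀ hB
    nlinarith
  refine ⟨Cn * K, K ^ (1 / m), by nlinarith, ?_⟩
  intro X be mu A κ aa lam th τ n cc Zρ hX0 hX h1 h2 h3 h4 hcc hZ hnX hth hκ hτ hA hA0 hlo
  have hXp : 0 < X := by linarith
  have hn0 : n ≠ 0 := by
    intro h; rw [h, norm_zero] at hnX; linarith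
  have hk0 : k ≠ 0 := by omega
  have haa : aa ≠ 0 := by
    intro h; rw [h, zero_pow hk0] at h3; exact inv_ne_zero hA0 h3.symm
  have hlam : lam ≠ 0 := by
    intro h; rw [h, zero_pow hk0] at h4
    exact div_ne_zero (mul_ne_zero hcc hn0) hZ h4.symm
  have hCB : 0 < CB := by linarith
  have hq : 1 / CB ^ 2 ≤ ‖1 + κ * τ‖ := by
    rw [norm_mul] at hlo
    have : ‖A‖ * ‖1 + κ * τ‖ ≤ CB * ‖1 + κ * τ‖ := mul_le_mul_of_nonneg_right hA (norm_nonneg _)
    rw [div_le_iff₀ hCB] at hlo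
    rw [div_le_iff₀ (by positivity)]
    nlinarith
  have hqp : 0 < ‖1 + κ * τ‖ := lt_of_lt_of_le (by positivity) hq
  have hq0 : 1 + κ * τ ≠ 0 := norm_pos_iff.1 hqp
  set w : ℂ := be / (lam * aa) with hw
  have hw1 : w ^ k * (1 + κ * τ) = 1 - th * n⁻¹ := by
    rw [hw, div_pow, mul_pow, h3, h4]
    rw [h2] at h1
    field_simp
    linear_combination h1
  have hXm1 : X⁻¹ ≤ X ^ (-m) := by
    rw [← Real.rpow_neg_one]
    exact Real.rpow_le_rpow_of_exponent_le hX (neg_le_neg (min_le_right _ _))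
  have hXm2 : X ^ (-r) ≤ X ^ (-m) :=
    Real.rpow_le_rpow_of_exponent_le hX (neg_le_neg (min_le_left _ _))
  have hXm0 : 0 < X ^ (-m) := Real.rpow_pos_of_pos hXp _
  have hw2 : ‖w ^ k - 1‖ ≤ K * X ^ (-m) := by
    have e : w ^ k - 1 = (-(th * n⁻¹) - κ * τ) / (1 + κ * τ) := by
      rw [eq_div_iff hq0]; linear_combination hw1
    rw [e, norm_div, div_le_iff₀ hqp]
    have a1 : ‖th * n⁻¹‖ ≤ Ct * X ^ (-m) := by
      rw [norm_mul, norm_inv]
      exact mul_le_mul hth ((inv_anti₀ hXp hnX).trans hXm1) (by positivity) (by linarith)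
    have a2 : ‖κ * τ‖ ≤ CB ^ 2 * X ^ (-m) := by
      rw [norm_mul]
      exact mul_le_mul hκ (hτ.trans hXm2) (norm_nonneg _) (by positivity)
    have a3 : ‖-(th * n⁻¹) - κ * τ‖ ≤ (Ct + CB ^ 2) * X ^ (-m) := by
      refine (norm_sub_le _ _).trans ?_
      rw [norm_neg]; linarith
    refine a3.trans ?_
    have a4 : 1 ≤ CB ^ 2 * ‖1 + κ * τ‖ := by
      rw [div_le_iff₀ (by positivity)] at hq; linarith
    have a5 : 0 ≤ (Ct + CB ^ 2) * X ^ (-m) := by positivity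
    calc (Ct + CB ^ 2) * X ^ (-m) = (Ct + CB ^ 2) * X ^ (-m) * 1 := (mul_one _).symm
      _ ≤ (Ct + CB ^ 2) * X ^ (-m) * (CB ^ 2 * ‖1 + κ * τ‖) := mul_le_mul_of_nonneg_left a4 a5
      _ = K * X ^ (-m) * ‖1 + κ * τ‖ := by rw [hK]; ring
  have hw3 : K * X ^ (-m) ≤ 1 := by
    have a1 : K ≤ X ^ m := by
      have := Real.rpow_le_rpow (by positivity) hX0 hm0.le
      rwa [← Real.rpow_mul (by linarith), one_div, inv_mul_cancel₀ hm0.ne', Real.rpow_one] at this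
    rw [Real.rpow_neg hXp.le, ← div_eq_mul_inv, div_le_one (Real.rpow_pos_of_pos hXp _)]
    exact a1
  obtain ⟨ζ, hζ, hζw⟩ := hn w (hw2.trans hw3)
  have hζ0 : ζ ≠ 0 := by
    intro h; rw [h, zero_pow hk0] at hζ; exact zero_ne_one hζ
  have hζn : ‖ζ‖ = 1 := by
    have := congrArg norm hζ
    rw [norm_pow, norm_one] at this
    exact (pow_eq_one_iff_of_nonneg (norm_nonneg _) hk0).1 this
  refine ⟨ζ, w / ζ, hζ, ?_, ?_, ?_⟩
  · rw [hw]; field_simp
  · rw [div_pow, hζ, div_one, hw1]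
  · have : w / ζ - 1 = (w - ζ) / ζ := by field_simp
    rw [this, norm_div, hζn, div_one, mul_assoc]
    exact hζw.trans (mul_le_mul_of_nonneg_left hw2 (by linarith))

/-- Normalisation in a box. -/
theorem surfC_norm (c : Ctx d) (k : ℕ) (hk : 1 ≤ k) (C0 CB r : ℝ) (h0 : 1 ≤ C0) (hB : 1 ≤ CB)
    (hr : 0 < r) : ∃ C' X0 : ℝ, 1 ≤ C' ∧ (∀ j, ‖c.th j‖ ≤ C') ∧
    ∀ (X B G1 G2 : ℝ) (b1 b2 : Fin d → ℤ) (T : Finset (LPt c k)) (L : Fin d → ℂ[X])
      (l1 l2 : ℂ[X]) (τ ρ : LPt c k → ℝ), X0 ≤ X → 1 ≤ X → 1 ≤ B →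
      (∀ P ∈ T, OnC C0 X B G1 G2 b1 b2 P) →
      BoxData c b1 b2 G1 G2 (X / B ^ k) (X ^ (-r)) CB T LPt.x LPt.y L l1 l2 τ ρ →
      ∃ (aa κ : Fin d → ℂ) (lam : LPt c k → ℂ) (ζ z : LPt c k → Fin d → ℂ),
        (∀ j, ‖aa j‖ ≤ C' ∧ ‖κ j‖ ≤ C') ∧ ∀ P ∈ T, ‖lam P‖ ≤ C' * B ∧ ∀ j, ζ P j ^ k = 1 ∧
          c.sg j P.be = lam P * aa j * ζ P j * z P j ∧
          z P j ^ k * (1 + κ j * τ P) = 1 - c.th j * ((P.n : ℂ))⁻¹ ∧
          ‖z P j - 1‖ ≤ C' * X ^ (-min r 1) := by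
  classical
  obtain ⟨Ct, hCt, hth, -⟩ := norm_equiv c
  obtain ⟨C1, X0, hC1, h1⟩ := surfC_pt k hk CB Ct r hB hCt hr
  have hB2 : CB ≤ CB ^ 2 := le_self_pow₀ hB two_ne_zero
  have hB3 : 1 ≤ 2 * C0 * CB := by nlinarith
  refine ⟨C1 + Ct + CB ^ 2 + 2 * C0 * CB, X0, by linarith, fun j => (hth j).trans (by linarith), ?_⟩
  intro X B G1 G2 b1 b2 T L l1 l2 τ ρ hX0 hX hBB hon hbox
  have hCB : 0 < CB := by linarith
  have hXp : 0 < X := by linarith
  have hBp : 0 < B := by linarith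
  have hZ : 0 < X / B ^ k := by positivity
  have hA0 : ∀ j, (L j).coeff 0 ≠ 0 := fun j => norm_pos_iff.1
    (lt_of_lt_of_le (by positivity) (hbox.co0 j))
  have haa : ∀ j, ∃ z : ℂ, z ^ k = ((L j).coeff 0)⁻¹ ∧ ‖z‖ ≤ CB * 1 := fun j =>
    surfC_root k hk _ CB hB 1 zero_le_one (by
      rw [norm_inv, one_pow, mul_one]
      have := hbox.co0 j
      rw [one_div] at this
      exact inv_le_of_inv_le₀ hCB this)
  choose aa haa1 haa2 using haa
  set κ : Fin d → ℂ := fun j => (L j).coeff 1 / (L j).coeff 0 with hκ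
  have hκ2 : ∀ j, ‖κ j‖ ≤ CB ^ 2 := fun j => by
    simp only [hκ]
    rw [norm_div, div_le_iff₀ (norm_pos_iff.2 (hA0 j))]
    have a1 := hbox.co0 j
    have a2 := hbox.co j 1
    rw [div_le_iff₀ hCB] at a1
    nlinarith
  have hLe : ∀ j (t : ℂ), (L j).eval t = (L j).coeff 0 * (1 + κ j * t) := fun j t => by
    have := hA0 j
    conv_lhs => rw [eq_X_add_C_of_natDegree_le_one (hbox.lins.1 j).le]
    simp only [hκ, eval_add, eval_mul, eval_C, eval_X]
    field_simp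
    ring
  have hnX : ∀ P ∈ T, X ≤ ‖(P.n : ℂ)‖ := fun P hP => by
    rw [Complex.norm_intCast]
    exact (hon P hP).sz.n1.trans (le_abs_self _)
  have hρ0 : ∀ P ∈ T, 0 < |ρ P| := fun P hP => lt_of_lt_of_le (by positivity) (hbox.rho1 P hP)
  have hlam : ∀ P : LPt c k, ∃ z : ℂ, P ∈ T →
      z ^ k = (P.cc : ℂ) * P.n / (((X / B ^ k : ℝ) : ℂ) * ρ P) ∧ ‖z‖ ≤ (2 * C0 * CB) * B := by
    intro P
    by_cases hP : P ∈ T
    · obtain ⟨z, hz⟩ := surfC_root k hk ((P.cc : ℂ) * P.n / (((X / B ^ k : ℝ) : ℂ) * ρ P))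
        (2 * C0 * CB) hB3 B hBp.le (by
          have s := (hon P hP).sz
          rw [norm_div, norm_mul, norm_mul, Complex.norm_intCast, Complex.norm_intCast,
            Complex.norm_real, Complex.norm_real, Real.norm_eq_abs, Real.norm_eq_abs, abs_of_pos hZ,
            div_le_iff₀ (mul_pos hZ (hρ0 P hP))]
          have a1 : |(P.n : ℝ)| ≤ 2 * X := by
            rw [abs_of_pos (lt_of_lt_of_le hXp s.n1)]; exact s.n2
          have a2 := hbox.rho1 P hP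
          rw [div_le_iff₀ hCB] at a2
          have a3 : |(P.cc : ℝ)| * |(P.n : ℝ)| ≤ C0 * (2 * X) :=
            mul_le_mul s.cc a1 (abs_nonneg _) (by linarith)
          have a4 : 2 * C0 * CB * B ^ k * (X / B ^ k * |ρ P|) = C0 * (2 * X) * (|ρ P| * CB) := by
            field_simp
          rw [a4]
          exact a3.trans (le_mul_of_one_le_right (by positivity) a2))
      exact ⟨z, fun _ => hz⟩
    · exact ⟨0, fun h => absurd h hP⟩
  choose lam hlam using hlam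
  have hz : ∀ (P : LPt c k) (j : Fin d), ∃ ζ z : ℂ, P ∈ T → ζ ^ k = 1 ∧
      c.sg j P.be = lam P * aa j * ζ * z ∧ z ^ k * (1 + κ j * τ P) = 1 - c.th j * ((P.n : ℂ))⁻¹ ∧
        ‖z - 1‖ ≤ C1 * X ^ (-min r 1) := by
    intro P j
    by_cases hP : P ∈ T
    · obtain ⟨ζ, z, h⟩ := h1 X (c.sg j P.be) (c.sg j P.mu) ((L j).coeff 0) (κ j) (aa j) (lam P)
        (c.th j) (τ P) P.n P.cc (((X / B ^ k : ℝ) : ℂ) * ρ P) hX0 hX (P.rel j)
        (by rw [(hon P hP).eq, hbox.ev P hP j, hLe]) (haa1 j) (hlam P hP).1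
        (by exact_mod_cast P.cc0)
        (mul_ne_zero (by exact_mod_cast hZ.ne') (by exact_mod_cast abs_pos.1 (hρ0 P hP)))
        (hnX P hP) (hth j) (hκ2 j) (by rw [Complex.norm_real]; exact hbox.tau P hP) (hbox.co j 0)
        (hA0 j) (by rw [← hLe]; exact hbox.lo P hP j)
      exact ⟨ζ, z, fun _ => h⟩
    · exact ⟨0, 0, fun h => absurd h hP⟩
  choose ζ z hz using hz
  refine ⟨aa, κ, lam, ζ, z, fun j => ⟨(haa2 j).trans (by linarith), (hκ2 j).trans (by linarith)⟩,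
    fun P hP => ⟨(hlam P hP).2.trans (mul_le_mul_of_nonneg_right (by linarith) hBp.le),
      fun j => ?_⟩⟩
  obtain ⟨e1, e2, e3, e4⟩ := hz P j hP
  exact ⟨e1, e2, e3, e4.trans (mul_le_mul_of_nonneg_right (by linarith) (by positivity))⟩

/-- Row and column factors of the determinant. -/
theorem surfC_fac {M : ℕ} (D : ℕ) (a : Fin M → Fin 4 → ℕ) (ha : ∀ i, ∑ j, a i j = D)
    (lam : Fin M → ℂ) (u : Fin 4 → ℂ) (z : Fin M → Fin 4 → ℂ) (K1 K2 : ℝ)
    (h1 : ∀ b, ‖lam b‖ ≤ K1) (h2 : ∀ j, ‖u j‖ ≤ K2) :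
    ‖(Matrix.of fun i b => ∏ j, (lam b * u j * z b j) ^ a i j).det‖ ≤
      (K1 * K2) ^ (D * M) * ‖(Matrix.of fun i b => ∏ j, z b j ^ a i j).det‖ := by
  have e : (Matrix.of fun i b => ∏ j, (lam b * u j * z b j) ^ a i j) =
      Matrix.of fun i b => (∏ j, u j ^ a i j) *
        (Matrix.of fun i b => lam b ^ D * (Matrix.of fun i b => ∏ j, z b j ^ a i j) i b) i b := by
    ext i b
    simp only [Matrix.of_apply, mul_pow, Finset.prod_mul_distrib, Finset.prod_pow_eq_pow_sum, ha]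
    ring
  rw [e, Matrix.det_mul_column, Matrix.det_mul_row, norm_mul, norm_mul, ← mul_assoc]
  refine mul_le_mul_of_nonneg_right ?_ (norm_nonneg _)
  have hK2 : 0 ≤ K2 := (norm_nonneg _).trans (h2 0)
  have a1 : ‖∏ i, ∏ j, u j ^ a i j‖ ≤ K2 ^ (D * M) := by
    rw [norm_prod]
    calc ∏ i, ‖∏ j, u j ^ a i j‖ ≤ ∏ _i : Fin M, K2 ^ D := by
          refine Finset.prod_le_prod (fun _ _ => norm_nonneg _) fun i _ => ?_
          rw [norm_prod, ← ha i, ← Finset.prod_pow_eq_pow_sum]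
          refine Finset.prod_le_prod (fun _ _ => norm_nonneg _) fun j _ => ?_
          rw [norm_pow]
          exact pow_le_pow_left₀ (norm_nonneg _) (h2 j) _
      _ = K2 ^ (D * M) := by simp [pow_mul]
  have a2 : ‖∏ b, lam b ^ D‖ ≤ K1 ^ (D * M) := by
    rw [norm_prod]
    calc ∏ b, ‖lam b ^ D‖ ≤ ∏ _b : Fin M, K1 ^ D := by
          refine Finset.prod_le_prod (fun _ _ => norm_nonneg _) fun b _ => ?_
          rw [norm_pow]
          exact pow_le_pow_left₀ (norm_nonneg _) (h1 b) _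
      _ = K1 ^ (D * M) := by simp [pow_mul]
  rw [mul_pow, mul_comm (K1 ^ (D * M))]
  exact mul_le_mul a1 a2 (norm_nonneg _) (by positivity)

/-- Choice of the degree. -/
theorem surfC_num (k : ℕ) (b Θ C Cs : ℝ) (hb : 0 ≤ b) (hs : 0 ≤ Cs)
    (hlt : k * b < Θ) : ∃ D : ℕ, ∀ M : ℕ, (M : ℝ) ≤ k * D ^ 2 + Cs * D + Cs →
      b * (D * M : ℕ) + -(Θ * D ^ 3 - C * D ^ 2) ≤ -1 := by
  obtain ⟨D, hD⟩ := exists_nat_ge (max 1 ((C + 2 * b * Cs + 1) / (Θ - k * b)))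
  have hD1 : (1 : ℝ) ≤ D := (le_max_left _ _).trans hD
  have hD2 := (le_max_right _ _).trans hD
  rw [div_le_iff₀ (by linarith)] at hD2
  refine ⟨D, fun M hM => ?_⟩
  push_cast
  have a1 : b * (D * M) ≤ b * (D * (k * D ^ 2 + Cs * D + Cs)) := by gcongr
  have a2 : (1 : ℝ) ≤ D ^ 2 := one_le_pow₀ hD1
  have a3 : (C + 2 * b * Cs + 1) * D ^ 2 ≤ D * (Θ - k * b) * D ^ 2 := by gcongr
  have a4 : b * Cs * D ≤ b * Cs * D ^ 2 := by
    have : (D : ℝ) ≤ D ^ 2 := le_self_pow₀ hD1 two_ne_zero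
    gcongr
  nlinarith

/-- Surface step of scheme C (`Z = X / B^k`). In a box `σ_j μ = Z ρ L_j(τ)`,
`L_j(τ) = A_j (1 + κ_j τ)`. Choose `λ_P^k = cc n / (Z ρ)`, `a_j^k = 1/A_j`; `w_j = σ_jβ / (λ_P a_j)` has
`w_j^k (1 + κ_j τ) = 1 - θ_j/n`; by `near_root` split the box in `≤ k^d` classes according to the
roots of unity `ζ_j` near `w_j` (all `j : Fin d`), `z_j = w_j/ζ_j`. Rows: monomials `stdC k D` in the
conjugates `σ_{castLE j} β`, `j : Fin 4`; for every permutation of the roots `detC` gives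
`|Δ_π| ≤ C B^(D M) X^(-(Θ D³ - C D²)) < 1` (`|λ_P| ≤ C B`); `nf_zero`, `exists_rel_of_det`, `elimC`
with `lam = cc / y`. -/
theorem surfC (c : Ctx d) (hd : 4 ≤ d) (k : ℕ) (hk : 1 ≤ k) (C0 r rho b : ℝ) (h0 : 1 ≤ C0)
    (hr : 0 < r) (hrho : 0 ≤ rho) (hb : 0 ≤ b) (hlt : k * b < Theta k 0 0 r rho 0) :
    ∃ (E : ℕ) (C : ℝ), ∀ (X B G1 G2 lam : ℝ) (b1 b2 : Fin d → ℤ) (S : Finset (LPt c k)),
      1 ≤ X → SizeC X B G1 b lam → LH b1 b2 G1 G2 → c.Nondeg b1 b2 → InjN S →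
      (∀ P ∈ S, OnC C0 X B G1 G2 b1 b2 P) →
      ∃ G : Finset ℂ[X][X], (G.card : ℝ) ≤ C * X ^ r ∧ Covers G E S := by
  classical
  obtain ⟨CB, hCB, hcov⟩ := cover_of_boxes c (by omega) k C0 r h0 hr
  obtain ⟨C', X1, hC', hth, hnorm⟩ := surfC_norm c k hk C0 CB r h0 hCB hr
  obtain ⟨Cs, hCs, hcard⟩ := card_stdC k
  obtain ⟨Cd, hCd, hdet⟩ := detC k hk k r rho C' Cs hr hrho (Nat.cast_nonneg k) hC' hCs
  obtain ⟨D, hD⟩ := surfC_num k b _ Cd Cs hb hCs hlt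
  obtain ⟨K', Y0, hK', hdet⟩ := hdet D (stdC k D).card (hcard D).1
  replace hD := hD _ (hcard D).2
  obtain ⟨E, hE⟩ := surfC_elim c hd k D hk
  set M := (stdC k D).card with hM
  set a : Fin M → Fin 4 → ℕ := fun i => ((stdC k D).equivFin.symm i : Fin 4 → ℕ) with ha
  have hai : Function.Injective a := Subtype.val_injective.comp (stdC k D).equivFin.symm.injective
  have has : ∀ i, a i ∈ stdC k D := fun i => ((stdC k D).equivFin.symm i).2
  have haD : ∀ i, ∑ j, a i j = D := fun i =>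
    (Finset.mem_piAntidiag.1 (Finset.mem_filter.1 (has i)).1).1
  set X2 : ℝ := (C' * C') ^ (D * M) * K' + 1 with hX2
  obtain ⟨C, hC⟩ := hcov (max E 1) ((k : ℝ) ^ d) (max X1 (max Y0 X2)) (le_max_right _ _)
  refine ⟨max E 1, C, fun X B G1 G2 lam b1 b2 S hX hsz hLH hN hinj hon => ?_⟩
  have hXp : 0 < X := by linarith
  have hBp : 0 < B := by linarith [hsz.b1]
  refine hC X B G1 G2 (X / B ^ k) b1 b2 S hX (by positivity) hLH hN hinj
    (fun P hP => ⟨(hon P hP).sz, (hon P hP).hx, (hon P hP).hy, fun j => ?_⟩) ?_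
  · rw [← (hon P hP).eq]; exact (hon P hP).sz.mu1 j
  intro hX0 T hTS L l1 l2 τ ρ hbox
  have hX1 : X1 ≤ X := (le_max_left _ _).trans hX0
  have hY0 : Y0 ≤ X := (le_max_left _ _).trans ((le_max_right _ _).trans hX0)
  have hX2' : X2 ≤ X := (le_max_right _ _).trans ((le_max_right _ _).trans hX0)
  have honT : ∀ P ∈ T, OnC C0 X B G1 G2 b1 b2 P := fun P hP => hon P (hTS hP)
  obtain ⟨aa, κ, la, ζ, z, haκ, hP⟩ :=
    hnorm X B G1 G2 b1 b2 T L l1 l2 τ ρ hX1 hX hsz.b1 honT hbox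
  have hcls : ∀ ξ : Fin d → ℂ, ∃ g : ℂ[X][X], g ≠ 0 ∧ DegLE g E ∧
      ∀ P ∈ T.filter (fun P => ζ P = ξ), P.y ≠ 0 →
        g.evalEval ((P.x : ℂ) / P.y) (P.n : ℂ) = 0 := by
    intro ξ
    refine hE M a hai has b1 b2 _ hN (fun P hP' => (honT P (Finset.mem_filter.1 hP').1).eq) ?_
    intro Pb hPb
    have hT : ∀ i, Pb i ∈ T := fun i => (Finset.mem_filter.1 (hPb i)).1
    have hξ : ∀ i, ζ (Pb i) = ξ := fun i => (Finset.mem_filter.1 (hPb i)).2
    refine surfC_nf c hd a (fun i => (Pb i).be) fun π => ?_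
    set e : Fin 4 → Fin d := fun j => π (Fin.castLE hd j) with he
    set ξ' : Fin d → ℂ := fun j => if ξ j ^ k = 1 then ξ j else 1 with hξ'
    have hξ1 : ∀ i j, ζ (Pb i) j = ξ' j := fun i j => by
      have := ((hP _ (hT i)).2 j).1
      rw [hξ i] at this ⊢
      simp only [hξ', this, if_true]
    have hξn : ∀ j, ‖ξ' j‖ = 1 := fun j => by
      simp only [hξ']
      split_ifs with h
      · have := congrArg norm h
        rw [norm_pow, norm_one] at this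
        exact (pow_eq_one_iff_of_nonneg (norm_nonneg _) (by omega)).1 this
      · exact norm_one
    have e1 : (Matrix.of fun i b => ∏ j : Fin 4, c.sg (π (Fin.castLE hd j)) (Pb b).be ^ a i j) =
        Matrix.of fun i b => ∏ j : Fin 4,
          (la (Pb b) * (aa (e j) * ξ' (e j)) * z (Pb b) (e j)) ^ a i j := by
      ext i b'
      simp only [Matrix.of_apply]
      refine Finset.prod_congr rfl fun j _ => ?_
      rw [((hP _ (hT b')).2 (e j)).2.1, hξ1]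
      ring
    rw [e1]
    have f1 := surfC_fac D a haD (fun b' => la (Pb b')) (fun j => aa (e j) * ξ' (e j))
      (fun b' j => z (Pb b') (e j)) (C' * B) C' (fun b' => (hP _ (hT b')).1)
      (fun j => by rw [norm_mul, hξn, mul_one]; exact (haκ _).1)
    have f2 := hdet (fun j => c.th (e j)) (fun j => κ (e j)) a X (fun b' => (τ (Pb b') : ℂ))
      (fun b' => (((Pb b').n : ℂ))⁻¹) (fun b' j => z (Pb b') (e j)) hY0
      (fun j => ⟨hth _, (haκ _).2⟩) haD (fun b' => ⟨by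
        rw [Complex.norm_real]
        exact (hbox.tau _ (hT b')).trans (le_mul_of_one_le_left (by positivity) hC'), by
        rw [norm_inv, Complex.norm_intCast]
        exact (inv_anti₀ hXp ((honT _ (hT b')).sz.n1.trans (le_abs_self _))).trans
          (le_mul_of_one_le_left (by positivity) hC')⟩)
      (fun b' j => ((hP _ (hT b')).2 (e j)).2.2)
    refine lt_of_le_of_lt (f1.trans (mul_le_mul_of_nonneg_left f2 (by positivity))) ?_
    have f3 : B ^ (D * M) ≤ X ^ (b * (D * M : ℕ)) := by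
      rw [Real.rpow_mul hXp.le, Real.rpow_natCast]
      exact pow_le_pow_left₀ hBp.le hsz.hb _
    have f4 : X ^ (b * (D * M : ℕ)) * X ^ (-(Theta k 0 0 r rho 0 * D ^ 3 - Cd * D ^ 2)) ≤ X⁻¹ := by
      rw [← Real.rpow_add hXp, ← Real.rpow_neg_one]
      exact Real.rpow_le_rpow_of_exponent_le hX hD
    have f5 : (C' * C') ^ (D * M) * K' * X⁻¹ < 1 := by
      rw [← div_eq_mul_inv, div_lt_one hXp]; linarith
    calc (C' * B * C') ^ (D * M) * (K' * X ^ (-(Theta k 0 0 r rho 0 * D ^ 3 - Cd * D ^ 2)))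
        = (C' * C') ^ (D * M) * K' *
          (B ^ (D * M) * X ^ (-(Theta k 0 0 r rho 0 * D ^ 3 - Cd * D ^ 2))) := by
          simp only [mul_pow]; ring
      _ ≤ (C' * C') ^ (D * M) * K' * X⁻¹ := by
          refine mul_le_mul_of_nonneg_left (le_trans ?_ f4) (by positivity)
          exact mul_le_mul_of_nonneg_right f3 (by positivity)
      _ < 1 := f5
  choose g hg0 hgE hg using hcls
  refine ⟨(Fintype.piFinset fun _ : Fin d => nthRootsFinset k (1 : ℂ)).image g, ?_, ?_, ?_⟩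
  · have h1 : (nthRootsFinset k (1 : ℂ)).card ≤ k :=
      (Multiset.toFinset_card_le _).trans (card_nthRoots k 1)
    have h2 : ((Fintype.piFinset fun _ : Fin d => nthRootsFinset k (1 : ℂ)).image g).card ≤
        k ^ d := by
      refine Finset.card_image_le.trans ?_
      rw [Fintype.card_piFinset_const]
      exact Nat.pow_le_pow_left h1 d
    exact_mod_cast h2
  · intro g' hg'
    obtain ⟨ξ, -, rfl⟩ := Finset.mem_image.1 hg'
    exact ⟨hg0 ξ, (hgE ξ).1.trans (le_max_left _ _), fun i =>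
      ((hgE ξ).2 i).trans (le_max_left _ _)⟩
  · intro P hPT hy
    refine ⟨g (ζ P), Finset.mem_image_of_mem _ (Fintype.mem_piFinset.2 fun j => ?_),
      hg _ P (Finset.mem_filter.2 ⟨hPT, rfl⟩) hy⟩
    exact (mem_nthRootsFinset (by omega) 1).2 ((hP P hPT).2 j).1

end Crest.Agent.R22
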