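import Crest.Agent.R22.SurfB4
import Crest.Agent.R22.SurfB5
import Crest.Agent.R22.SurfC
import Crest.Agent.R22.CNF
import Crest.Agent.R22.CurveB2
import Crest.Agent.R22.CurveC2
import Crest.Agent.R22.LineOf

set_option autoImplicit false
open Polynomial IntermediateField

namespace Crest.Agent.R22

variable {d : ℕ}

theorem LineBC_eta {σ lam : ℝ} (hσ : 0 ≤ σ) (hl : 0 ≤ lam) (e0 N0 al io : ℕ) :
    0 ≤ etaC σ lam e0 N0 al io := by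
  unfold etaC
  positivity

theorem LineBC_inj {c : Ctx d} {k : ℕ} {S T : Finset (LPt c k)} (h : InjN S) (hT : T ⊆ S) :
    InjN T := fun P hP Q hQ => h P (hT hP) Q (hT hQ)

/-- Points with `y = 0` have the primitive vector `± b1`. -/
theorem LineBC_y0 {c : Ctx d} {k : ℕ} (v : LPt c k → Fin d → ℤ) (T : Finset (LPt c k))
    (b1 b2 : Fin d → ℤ) (C : ℝ)
    (hv : ∀ P ∈ T, Prim (v P) ∧ v P = P.x • b1 + P.y • b2 ∧ P.y = 0)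
    (h : ∀ w, ∀ T' ⊆ T, (∀ P ∈ T', v P = w) → (T'.card : ℝ) ≤ C) : (T.card : ℝ) ≤ 2 * C := by
  classical
  have h1 := h b1 (T.filter fun P => v P = b1) (Finset.filter_subset _ _)
    fun P hP => (Finset.mem_filter.1 hP).2
  have h2 := h (-b1) (T.filter fun P => ¬ v P = b1) (Finset.filter_subset _ _) fun P hP => by
    obtain ⟨hP, hne⟩ := Finset.mem_filter.1 hP
    obtain ⟨a1, a2, a3⟩ := hv P hP
    have a4 := isCoprime_of_prim (a2 ▸ a1)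
    rw [a3, isCoprime_zero_right, Int.isUnit_iff] at a4
    rw [a3, zero_smul, add_zero] at a2
    rcases a4 with a4 | a4
    · exact absurd (by rw [a2, a4, one_smul]) hne
    · rw [a2, a4, neg_smul, one_smul]
  rw [← Finset.card_filter_add_card_filter_not (s := T) fun P => v P = b1]
  push_cast
  linarith

theorem LineBC_div {a C0 Z G X : ℝ} (h0 : 1 ≤ C0) (hZ : 0 ≤ Z) (hG : 1 ≤ G) (hX : Z ≤ X)
    (h : a ≤ C0 * Z / G) : a ≤ C0 * X :=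
  h.trans ((div_le_self (by positivity) hG).trans (by gcongr))

/-- Scheme B: from the surface and curve steps to the line. -/
theorem LineBC_B (c : Ctx d) (k E : ℕ) (hk : 1 ≤ k) (C0 : ℝ) (h0 : 1 ≤ C0) : ∃ C1 : ℝ,
    ∀ r η C2 C4 : ℝ, 0 ≤ r → 0 ≤ η → ∃ C : ℝ, ∀ (X B G1 G2 u lam α : ℝ) (b1 b2 : Fin d → ℤ)
      (S : Finset (LPt c k)), 1 ≤ X → SizeB d k X B G1 G2 u lam α → LH b1 b2 G1 G2 → InjN S →
      (∀ P ∈ S, OnB C0 X B G1 G2 b1 b2 P) →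
      (∃ G : Finset ℂ[X][X], (G.card : ℝ) ≤ C2 * X ^ r ∧ Covers G E S) →
      (∀ (g : ℤ[X][X]) (T : Finset (LPt c k)), Curve g E ((2 * X) ^ C1) → InjN T →
        (∀ P ∈ T, OnB C0 X B G1 G2 b1 b2 P ∧ P.y ≠ 0 ∧ hev2 g E P.x P.y P.n = 0) →
        (T.card : ℝ) ≤ C4 * X ^ η) → (S.card : ℝ) ≤ C * X ^ (r + η) := by
  obtain ⟨C1, h1⟩ := line_of_curves c k E C0 h0
  obtain ⟨C3, h3⟩ := card_same_be c k hk C0 h0
  refine ⟨C1, fun r η C2 C4 hr hη => ?_⟩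
  obtain ⟨C, h2⟩ := h1 r η C2 (2 * C3) C4 hr hη
  refine ⟨C, fun X B G1 G2 u lam α b1 b2 S hX hS hL hi ho ⟨G, hG, hc⟩ hcv => ?_⟩
  have hB0 : 0 ≤ B := zero_le_one.trans hS.b1
  have hB : B ≤ X := (le_self_pow₀ hS.b1 (by omega)).trans hS.bk
  refine h2 X B S G hX hi (fun P hP => ⟨(ho P hP).sz, LineBC_div h0 hB0 hL.g1 hB (ho P hP).hx,
    LineBC_div h0 hB0 hL.g2 hB (ho P hP).hy⟩) hG hc (fun T hT hy => ?_)
    fun g hg T hT h => hcv g T hg (LineBC_inj hi hT) fun P hP => ⟨ho P (hT hP), h P hP⟩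
  exact LineBC_y0 (fun P => P.be) T b1 b2 C3 (fun P hP => ⟨P.pbe, (ho P (hT hP)).eq, hy P hP⟩)
    fun w T' hT' hw => h3 X B hX w T' (LineBC_inj hi (hT'.trans hT))
      fun P hP => ⟨(ho P (hT (hT' hP))).sz, hw P hP⟩

theorem lineB (c : Ctx d) (hd : 4 ≤ d ∧ d ≤ 8) (k : ℕ) (hk : k + 2 = d) (C0 r rho k0 α u lam η : ℝ)
    (h0 : 1 ≤ C0) (hp : SurfPar d k r rho k0 α) (al io : ℕ)
    (hpos : 0 < eMin d * al + (eMin d + 2 * k) * io) (hu : 0 ≤ u) (hl : 0 ≤ lam)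
    (h : etaC u lam (eMin d) (eMin d + 2 * k) al io < η) : ∃ C : ℝ,
    ∀ (X B G1 G2 : ℝ) (b1 b2 : Fin d → ℤ) (S : Finset (LPt c k)), 1 ≤ X →
      SizeB d k X B G1 G2 u lam α → LH b1 b2 G1 G2 → c.Nondeg b1 b2 → InjN S →
      (∀ P ∈ S, OnB C0 X B G1 G2 b1 b2 P) → (S.card : ℝ) ≤ C * X ^ (r + η) := by
  have hk1 : 1 ≤ k := by omega
  obtain ⟨E, C2, h2⟩ : ∃ (E : ℕ) (C : ℝ), ∀ (X B G1 G2 u lam : ℝ) (b1 b2 : Fin d → ℤ)
      (S : Finset (LPt c k)), 1 ≤ X → SizeB d k X B G1 G2 u lam α → LH b1 b2 G1 G2 →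
      c.Nondeg b1 b2 → InjN S → (∀ P ∈ S, OnB C0 X B G1 G2 b1 b2 P) →
      ∃ G : Finset ℂ[X][X], (G.card : ℝ) ≤ C * X ^ r ∧ Covers G E S := by
    rcases hd.1.eq_or_lt with h4 | h5
    · subst h4
      obtain rfl : k = 2 := by omega
      exact surfB4 c C0 r rho k0 α h0 hp
    · exact surfB5 c h5 k hk1 C0 r rho k0 α h0 hp
  obtain ⟨C1, h1⟩ := LineBC_B c k E hk1 C0 h0
  obtain ⟨C4, h4⟩ := curveB c hd k hk E C0 C1 u lam η h0 al io hpos hu hl h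
  obtain ⟨C, h3⟩ := h1 r η C2 C4 hp.r0.le ((LineBC_eta hu hl _ _ _ _).trans h.le)
  exact ⟨C, fun X B G1 G2 b1 b2 S hX hS hL hN hi ho => h3 X B G1 G2 u lam α b1 b2 S hX hS hL hi ho
    (h2 X B G1 G2 u lam b1 b2 S hX hS hL hN hi ho)
    fun g T hg hT hP => h4 X B G1 G2 α b1 b2 g T hX hS hL hN hg hT hP⟩

theorem lineB_sep (c : Ctx 4) (C0 r rho k0 α u lam η0 η : ℝ) (h0 : 1 ≤ C0)
    (hp : SurfPar 4 2 r rho k0 α) (hu : 0 ≤ u) (hl : 0 ≤ lam) (hη0 : 0 ≤ η0) (hη1 : 12 * η0 < 1)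
    (h : 2 * u / 5 - (1 - 12 * η0) / 10 < η) (h7 : etaC u lam 7 11 1 1 < η) : ∃ C : ℝ,
    ∀ (X B G1 G2 : ℝ) (b1 b2 : Fin 4 → ℤ) (S : Finset (LPt c 2)), 1 ≤ X →
      SizeB 4 2 X B G1 G2 u lam α → LH b1 b2 G1 G2 →
      (∀ i j, i ≠ j → X ^ (-η0) * (G1 * G2) ≤ ‖c.pl b1 b2 i j‖) → InjN S →
      (∀ P ∈ S, OnB C0 X B G1 G2 b1 b2 P) → (S.card : ℝ) ≤ C * X ^ (r + η) := by
  obtain ⟨E, C2, h2⟩ := surfB4 c C0 r rho k0 α h0 hp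
  obtain ⟨C1, h1⟩ := LineBC_B c 2 E (by norm_num) C0 h0
  obtain ⟨C4, h4⟩ := curveB_sep c E C0 C1 u lam η0 η h0 hu hl hη0 hη1 h h7
  obtain ⟨C, h3⟩ := h1 r η C2 C4 hp.r0.le ((LineBC_eta hu hl _ _ _ _).trans h7.le)
  refine ⟨C, fun X B G1 G2 b1 b2 S hX hS hL hN hi ho => h3 X B G1 G2 u lam α b1 b2 S hX hS hL hi
    ho (h2 X B G1 G2 u lam b1 b2 S hX hS hL (fun i j hij e => ?_) hi ho)
    fun g T hg hT hP => h4 X B G1 G2 α b1 b2 g T hX hS hL hN hg hT hP⟩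
  have h5 := hN i j hij
  have h6 := hL.g1
  have h7 := hL.g2
  rw [e, norm_zero] at h5
  exact absurd h5 (not_le.2 (by positivity))

theorem lineC (c : Ctx d) (hd : 4 ≤ d) (k : ℕ) (hk : 2 ≤ k) (C0 r rho b lam η : ℝ) (h0 : 1 ≤ C0)
    (hr : 0 < r) (hrho : 0 ≤ rho) (hb : 0 ≤ b) (hlt : k * b < Theta k 0 0 r rho 0) (al io : ℕ)
    (hpos : 0 < 3 * al + (3 * k + 2) * io) (hl : 0 ≤ lam)
    (h : etaC b lam 3 (3 * k + 2) al io < η) : ∃ C : ℝ,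
    ∀ (X B G1 G2 : ℝ) (b1 b2 : Fin d → ℤ) (S : Finset (LPt c k)), 1 ≤ X →
      SizeC X B G1 b lam → LH b1 b2 G1 G2 → c.Nondeg b1 b2 → InjN S →
      (∀ P ∈ S, OnC C0 X B G1 G2 b1 b2 P) → (S.card : ℝ) ≤ C * X ^ (r + η) := by
  obtain ⟨E, C2, h2⟩ := surfC c hd k (by omega) C0 r rho b h0 hr hrho hb hlt
  obtain ⟨C1, h1⟩ := line_of_curves c k E C0 h0
  obtain ⟨C3, h3⟩ := card_same_mu c k hk C0 h0
  obtain ⟨C4, h4⟩ := curveC c (by omega) k hk E C0 C1 b lam η h0 al io hpos hb hl h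
  obtain ⟨C, h5⟩ := h1 r η C2 (2 * C3) C4 hr.le ((LineBC_eta hb hl _ _ _ _).trans h.le)
  refine ⟨C, fun X B G1 G2 b1 b2 S hX hS hL hN hi ho => ?_⟩
  obtain ⟨G, hG, hc⟩ := h2 X B G1 G2 lam b1 b2 S hX hS hL hN hi ho
  have hB0 : 0 < B := zero_lt_one.trans_le hS.b1
  have hZ0 : 0 ≤ X / B ^ k := by positivity
  have hZ : X / B ^ k ≤ X := div_le_self (by positivity) (one_le_pow₀ hS.b1)
  refine h5 X B S G hX hi (fun P hP => ⟨(ho P hP).sz, LineBC_div h0 hZ0 hL.g1 hZ (ho P hP).hx,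
    LineBC_div h0 hZ0 hL.g2 hZ (ho P hP).hy⟩) hG hc (fun T hT hy => ?_)
    fun g hg T hT h => h4 X B G1 G2 b1 b2 g T hX hS hL hN hg (LineBC_inj hi hT)
      fun P hP => ⟨ho P (hT hP), h P hP⟩
  exact LineBC_y0 (fun P => P.mu) T b1 b2 C3 (fun P hP => ⟨P.pmu, (ho P (hT hP)).eq, hy P hP⟩)
    fun w T' hT' hw => h3 X B hX hB0 w T' (LineBC_inj hi (hT'.trans hT))
      fun P hP => ⟨(ho P (hT (hT' hP))).sz, hw P hP⟩

end Crest.Agent.R22
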