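import Crest.Agent.R22.Basic

set_option autoImplicit false
open Polynomial IntermediateField

namespace Crest.Agent.R22

variable {d : ℕ}

theorem NonSep_count {ι : Type} [Fintype ι] [DecidableEq ι] (T : Finset (ι → ℤ)) (I : Finset ι)
    (G : ι → ℝ) {L : ℝ} (hL : 0 ≤ L) (hG0 : ∀ i, 0 ≤ G i) (hG : ∀ x ∈ T, ∀ i, |(x i : ℝ)| ≤ G i)
    (h : ∀ x ∈ T, ∀ y ∈ T, (∀ i ∉ I, x i = y i) → ∀ i ∈ I, |((x i - y i : ℤ) : ℝ)| ≤ L) :
    (T.card : ℝ) ≤ ∏ i, if i ∈ I then L + 1 else 2 * G i + 1 := by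
  set M : ℕ := ⌊L⌋₊ + 1 with hM
  have hM0 : (0 : ℤ) < M := by positivity
  have h1 := Finset.card_le_card_of_injOn (s := T) (t := Fintype.piFinset fun i =>
    if i ∈ I then Finset.Ico (0 : ℤ) M else Finset.Icc (-(⌊G i⌋₊ : ℤ)) ⌊G i⌋₊)
    (fun x i => if i ∈ I then x i % M else x i) (fun x hx => ?_) fun x hx y hy e => ?_
  · rw [Fintype.card_piFinset] at h1
    refine le_trans (Nat.cast_le.2 h1) ?_
    push_cast
    refine Finset.prod_le_prod (fun _ _ => Nat.cast_nonneg _) fun i _ => ?_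
    split_ifs
    · rw [Int.card_Ico, sub_zero, Int.toNat_natCast, hM]
      push_cast
      linarith [Nat.floor_le hL]
    · rw [Int.card_Icc, show ((⌊G i⌋₊ : ℤ) + 1 - -(⌊G i⌋₊ : ℤ)).toNat = 2 * ⌊G i⌋₊ + 1 by omega]
      push_cast
      linarith [Nat.floor_le (hG0 i)]
  · refine Finset.mem_coe.2 (Fintype.mem_piFinset.2 fun i => ?_)
    by_cases hi : i ∈ I
    · simp only [hi, if_true]
      exact Finset.mem_Ico.2 ⟨Int.emod_nonneg _ hM0.ne', Int.emod_lt_of_pos _ hM0⟩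
    · simp only [hi, if_false]
      have a : ((x i).natAbs : ℝ) ≤ G i := by
        rw [Nat.cast_natAbs, Int.cast_abs]; exact hG x hx i
      have := Nat.le_floor a
      rw [Finset.mem_Icc]
      omega
  · have h0 : ∀ i ∉ I, x i = y i := fun i hi => by simpa [hi] using congrFun e i
    funext i
    by_cases hi : i ∈ I
    · have a : x i % M = y i % M := by simpa [hi] using congrFun e i
      have b : ((x i - y i).natAbs : ℝ) ≤ L := by
        rw [Nat.cast_natAbs, Int.cast_abs]; exact h x hx y hy h0 i hi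
      have b' := Nat.le_floor b
      exact sub_eq_zero.1 (Int.eq_zero_of_dvd_of_natAbs_lt_natAbs
        (Int.ModEq.dvd (Int.ModEq.symm a)) (by omega))
    · exact h0 i hi

theorem NonSep_prod (I : Finset (Fin d)) (α β : ℝ) :
    (∏ i, if i ∈ I then α else β) = α ^ I.card * β ^ (d - I.card) := by
  rw [Finset.prod_ite, Finset.prod_const, Finset.prod_const, Finset.filter_mem_eq_inter,
    Finset.univ_inter, Finset.filter_not, Finset.filter_mem_eq_inter, Finset.univ_inter,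
    Finset.card_univ_sdiff, Fintype.card_fin]

theorem NonSep_pair (T : Finset ((Fin d → ℤ) × (Fin d → ℤ))) (I J : Finset (Fin d))
    {G1 G2 L : ℝ} (hL : 0 ≤ L) (h1 : 1 ≤ G1) (h2 : 1 ≤ G2) (hG : ∀ l ∈ T, LH l.1 l.2 G1 G2)
    (h : ∀ x ∈ T, ∀ y ∈ T, (∀ i ∉ I, x.1 i = y.1 i) → (∀ i ∉ J, x.2 i = y.2 i) →
      (∀ i ∈ I, |((x.1 i - y.1 i : ℤ) : ℝ)| ≤ L) ∧ ∀ i ∈ J, |((x.2 i - y.2 i : ℤ) : ℝ)| ≤ L) :
    (T.card : ℝ) ≤ (L + 1) ^ I.card * (5 * G1) ^ (d - I.card) *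
      ((L + 1) ^ J.card * (5 * G2) ^ (d - J.card)) := by
  have hinj : Function.Injective fun l : (Fin d → ℤ) × (Fin d → ℤ) => Sum.elim l.1 l.2 :=
    fun l l' e => Prod.ext (funext fun i => congrFun e (Sum.inl i))
      (funext fun i => congrFun e (Sum.inr i))
  have := NonSep_count (T.image fun l => Sum.elim l.1 l.2) (I.disjSum J)
    (Sum.elim (fun _ => 2 * G1) fun _ => 2 * G2) hL (by rintro (i | i) <;> simp <;> linarith) ?_ ?_
  · rw [Finset.card_image_of_injective _ hinj, Fintype.prod_sum_type] at this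
    simp only [Finset.inl_mem_disjSum, Finset.inr_mem_disjSum, Sum.elim_inl, Sum.elim_inr,
      NonSep_prod] at this
    refine this.trans ?_
    gcongr <;> linarith
  · intro x hx
    obtain ⟨l, hl, rfl⟩ := Finset.mem_image.1 hx
    rintro (i | i)
    · simpa [Int.norm_eq_abs] using (norm_le_pi_norm l.1 i).trans (hG l hl).u1
    · simpa [Int.norm_eq_abs] using (norm_le_pi_norm l.2 i).trans (hG l hl).u2
  · intro x hx y hy hxy
    obtain ⟨l, hl, rfl⟩ := Finset.mem_image.1 hx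
    obtain ⟨l', hl', rfl⟩ := Finset.mem_image.1 hy
    have := h l hl l' hl' (fun i hi => hxy (Sum.inl i) (by simpa using hi))
      fun i hi => hxy (Sum.inr i) (by simpa using hi)
    rintro (i | i) hi
    · exact this.1 i (by simpa using hi)
    · exact this.2 i (by simpa using hi)

theorem NonSep_sg (c : Ctx d) (j : Fin d) {x y : Fin d → ℤ} {I : Finset (Fin d)}
    (h : ∀ i ∉ I, x i = y i) :
    c.sg j x - c.sg j y = ∑ i ∈ I, ((x i - y i : ℤ) : ℂ) * c.th j ^ (i : ℕ) := by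
  simp only [Ctx.sg, ← Finset.sum_sub_distrib, ← sub_mul, ← Int.cast_sub]
  exact (Finset.sum_subset (Finset.subset_univ I) fun i _ hi => by simp [h i hi]).symm

theorem NonSep_sep (c : Ctx d) : ∃ K : ℝ, 1 ≤ K ∧ (∀ j, ‖c.th j‖ ≤ K) ∧
    ∀ i j, i ≠ j → 1 ≤ K * ‖c.th i - c.th j‖ := by
  obtain ⟨C, hC, hth, -⟩ := norm_equiv c
  obtain ⟨K, hK⟩ := Finite.exists_le fun p : Fin d × Fin d => ‖c.th p.1 - c.th p.2‖⁻¹
  refine ⟨max C K, hC.trans (le_max_left _ _), fun j => (hth j).trans (le_max_left _ _),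
    fun i j hij => ?_⟩
  have h0 : 0 < ‖c.th i - c.th j‖ := norm_pos_iff.2 (sub_ne_zero.2 (c.inj.ne hij))
  have := (hK (i, j)).trans (le_max_right C K)
  rwa [inv_le_iff_one_le_mul₀ h0] at this

/-- One pair of conjugates. -/
theorem NonSep_one {e : ℕ} (c : Ctx (e + 2)) {K : ℝ} (hK : 1 ≤ K) (hth : ∀ j, ‖c.th j‖ ≤ K)
    {i j : Fin (e + 2)} (hs : 1 ≤ K * ‖c.th i - c.th j‖) {G1 G2 θ : ℝ}
    (T : Finset ((Fin (e + 2) → ℤ) × (Fin (e + 2) → ℤ))) (h1 : 1 ≤ G1) (h2 : 1 ≤ G2) (hθ : 0 < θ)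
    (hT : ∀ l ∈ T, LH l.1 l.2 G1 G2 ∧ ‖c.pl l.1 l.2 i j‖ ≤ θ ^ 3 * (G1 * G2)) :
    (T.card : ℝ) ≤ 80 * K ^ 4 * 5 ^ (2 * e + 4) * (θ ^ 2 * G1 ^ (e + 2) * G2 ^ (e + 2) +
      G1 ^ e * G2 ^ (e + 2) + G1 ^ (e + 2) * G2 ^ (e + 1)) := by
  classical
  set T1 := T.filter fun l => ‖c.sg i l.1‖ ≤ θ * G1 ∧ ‖c.sg j l.1‖ ≤ θ * G1 with hT1
  set T2 := fun a : Fin (e + 2) => T.filter fun l =>
    θ * G1 ≤ 2 * K ^ 2 * ‖c.sg i l.1 * c.th j ^ (a : ℕ) - c.sg j l.1 * c.th i ^ (a : ℕ)‖ with hT2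
  have hsub : T ⊆ T1 ∪ (T2 0 ∪ T2 1) := by
    intro l hl
    simp only [hT1, hT2, Finset.mem_union, Finset.mem_filter, hl, true_and, Fin.val_zero,
      Fin.val_one, pow_zero, pow_one, mul_one]
    by_contra hne
    push Not at hne
    obtain ⟨n1, n2, n3⟩ := hne
    have key : ∀ α t : ℂ, ‖t‖ ≤ K → α * (c.th i - c.th j) = t * (c.sg i l.1 - c.sg j l.1) -
        (c.sg i l.1 * c.th j - c.sg j l.1 * c.th i) → ‖α‖ ≤ θ * G1 := fun α t ht he => by
      have a1 := congrArg norm he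
      rw [norm_mul] at a1
      have a2 := (norm_sub_le (t * (c.sg i l.1 - c.sg j l.1))
        (c.sg i l.1 * c.th j - c.sg j l.1 * c.th i))
      rw [← a1, norm_mul] at a2
      have a3 := mul_le_mul_of_nonneg_left hs (norm_nonneg α)
      have a4 := mul_le_mul_of_nonneg_right ht (norm_nonneg (c.sg i l.1 - c.sg j l.1))
      have a5 := mul_le_mul_of_nonneg_right hK
        (norm_nonneg (c.sg i l.1 * c.th j - c.sg j l.1 * c.th i))
      have a6 : ‖α‖ * ‖c.th i - c.th j‖ ≤ K * ‖c.sg i l.1 - c.sg j l.1‖ +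
        K * ‖c.sg i l.1 * c.th j - c.sg j l.1 * c.th i‖ := by linarith
      have a7 := mul_le_mul_of_nonneg_left a6 (by linarith : 0 ≤ K)
      nlinarith
    exact absurd (key _ _ (hth j) (by ring)) (n1 (key _ _ (hth i) (by ring))).not_ge
  have c1 : (T1.card : ℝ) ≤ (6 * K ^ 2 * (θ * G1) + 1) ^ 2 * (5 * G1) ^ e * (5 * G2) ^ (e + 2) := by
    have := NonSep_pair T1 {0, 1} ∅ (L := 6 * K ^ 2 * (θ * G1)) (by positivity) h1 h2
      (fun l hl => (hT l (Finset.mem_filter.1 hl).1).1) fun x hx y hy hxy _ => ⟨?_, by simp⟩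
    · simpa using this
    obtain ⟨-, x1, x2⟩ := Finset.mem_filter.1 hx
    obtain ⟨-, y1, y2⟩ := Finset.mem_filter.1 hy
    have e1 := NonSep_sg c i hxy
    have e2 := NonSep_sg c j hxy
    rw [Finset.sum_pair (by simp)] at e1 e2
    simp only [Fin.val_zero, Fin.val_one, pow_zero, pow_one, mul_one] at e1 e2
    have f1 := (norm_sub_le _ _).trans (add_le_add x1 y1)
    have f2 := (norm_sub_le _ _).trans (add_le_add x2 y2)
    rw [e1] at f1
    rw [e2] at f2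
    have hp : 0 < θ * G1 := by positivity
    have g1 : |((x.1 1 - y.1 1 : ℤ) : ℝ)| ≤ 4 * K * (θ * G1) := by
      have a1 := (norm_sub_le _ _).trans (add_le_add f1 f2)
      rw [add_sub_add_left_eq_sub, ← mul_sub, norm_mul, Complex.norm_intCast] at a1
      have a2 := mul_le_mul_of_nonneg_left hs (abs_nonneg ((x.1 1 - y.1 1 : ℤ) : ℝ))
      have a3 := mul_le_mul_of_nonneg_left a1 (by linarith : 0 ≤ K)
      nlinarith
    have g0 : |((x.1 0 - y.1 0 : ℤ) : ℝ)| ≤ 6 * K ^ 2 * (θ * G1) := by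
      have a1 := norm_sub_le (((x.1 0 - y.1 0 : ℤ) : ℂ) + ((x.1 1 - y.1 1 : ℤ) : ℂ) * c.th i)
        (((x.1 1 - y.1 1 : ℤ) : ℂ) * c.th i)
      rw [add_sub_cancel_right, norm_mul, Complex.norm_intCast, Complex.norm_intCast] at a1
      have a2 := mul_le_mul g1 (hth i) (norm_nonneg _) (by positivity)
      have a3 := mul_le_mul_of_nonneg_right (one_le_pow₀ hK : 1 ≤ K ^ 2) hp.le
      nlinarith
    intro a ha
    rcases Finset.mem_insert.1 ha with rfl | ha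
    · exact g0
    · rw [Finset.mem_singleton.1 ha]
      have a3 := mul_le_mul_of_nonneg_right hK (by positivity : 0 ≤ K * (θ * G1))
      nlinarith [mul_pos (by linarith : 0 < K) hp]
  have c2 : ∀ a, ((T2 a).card : ℝ) ≤
      (5 * G1) ^ (e + 2) * ((4 * K ^ 2 * (θ ^ 2 * G2) + 1) * (5 * G2) ^ (e + 1)) := fun a => by
    have := NonSep_pair (T2 a) ∅ {a} (L := 4 * K ^ 2 * (θ ^ 2 * G2)) (by positivity) h1 h2
      (fun l hl => (hT l (Finset.mem_filter.1 hl).1).1) fun x hx y hy hxy hxy' => ⟨by simp, ?_⟩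
    · simpa using this
    obtain ⟨x0, x1⟩ := Finset.mem_filter.1 hx
    obtain ⟨y0, -⟩ := Finset.mem_filter.1 hy
    have e0 : y.1 = x.1 := funext fun i => (hxy i (by simp)).symm
    have e1 := NonSep_sg c i hxy'
    have e2 := NonSep_sg c j hxy'
    rw [Finset.sum_singleton] at e1 e2
    have f1 := (norm_sub_le _ _).trans (add_le_add (hT x x0).2 (hT y y0).2)
    have e3 : c.pl x.1 x.2 i j - c.pl y.1 y.2 i j = ((x.2 a - y.2 a : ℤ) : ℂ) *
        (c.sg i x.1 * c.th j ^ (a : ℕ) - c.sg j x.1 * c.th i ^ (a : ℕ)) := by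
      simp only [Ctx.pl, e0]
      linear_combination c.sg i x.1 * e2 - c.sg j x.1 * e1
    rw [e3, norm_mul, Complex.norm_intCast] at f1
    intro b hb
    rw [Finset.mem_singleton.1 hb]
    refine le_of_mul_le_mul_right ?_ (by positivity : 0 < θ * G1)
    have a1 := mul_le_mul_of_nonneg_left x1 (abs_nonneg ((x.2 a - y.2 a : ℤ) : ℝ))
    have a2 := mul_le_mul_of_nonneg_left f1 (by positivity : 0 ≤ 2 * K ^ 2)
    nlinarith
  have c3 : (T.card : ℝ) ≤ T1.card + ((T2 0).card + (T2 1).card) := by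
    exact_mod_cast (Finset.card_le_card hsub).trans ((Finset.card_union_le _ _).trans
      (Nat.add_le_add_left (Finset.card_union_le _ _) _))
  have hK2 : 1 ≤ K ^ 2 := one_le_pow₀ hK
  have hK4 : K ^ 2 ≤ K ^ 4 := pow_le_pow_right₀ hK (by norm_num)
  set W : ℝ := 5 ^ (2 * e + 4) with hW
  set A := θ ^ 2 * G1 ^ (e + 2) * G2 ^ (e + 2) with hA
  set A' := G1 ^ e * G2 ^ (e + 2) with hA'
  set A'' := G1 ^ (e + 2) * G2 ^ (e + 1) with hA''
  have p1 : 0 ≤ W * A := by positivity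
  have p2 : 0 ≤ W * A' := by positivity
  have p3 : 0 ≤ W * A'' := by positivity
  have d1 : (6 * K ^ 2 * (θ * G1) + 1) ^ 2 * (5 * G1) ^ e * (5 * G2) ^ (e + 2) ≤
      72 * K ^ 4 * (W * A) + 2 * (W * A') := by
    calc _ ≤ (72 * K ^ 4 * (θ * G1) ^ 2 + 2) * (5 * G1) ^ e * (5 * G2) ^ (e + 2) := by
          gcongr
          nlinarith [sq_nonneg (6 * K ^ 2 * (θ * G1) - 1)]
      _ = (72 * K ^ 4 * (W * A) + 2 * (W * A')) / 25 := by simp only [hW, hA, hA']; ring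
      _ ≤ _ := div_le_self (by positivity) (by norm_num)
  have d2 : (5 * G1) ^ (e + 2) * ((4 * K ^ 2 * (θ ^ 2 * G2) + 1) * (5 * G2) ^ (e + 1)) ≤
      4 * K ^ 2 * (W * A) + W * A'' := by
    calc _ = (4 * K ^ 2 * (W * A) + W * A'') / 5 := by simp only [hW, hA, hA'']; ring
      _ ≤ _ := div_le_self (by positivity) (by norm_num)
  have q1 := mul_le_mul_of_nonneg_right hK4 p1
  have q2 := mul_le_mul_of_nonneg_right (hK2.trans hK4) p2
  have q3 := mul_le_mul_of_nonneg_right (hK2.trans hK4) p3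
  nlinarith [c2 0, c2 1]

/-- Non-separated lines, `θ = δ^(1/3)`. If `|σ_i b1|, |σ_j b1| ≤ θ G1`: given the coordinates `≥ 2`,
the coordinates `0, 1` of `b1` lie in a box of side `O(θ G1)` (invertible `2 × 2` Vandermonde).
Otherwise the linear form `v ↦ σ_i b1 σ_j v - σ_j b1 σ_i v` has a coefficient (index `0` or `1`)
`≥ θ G1 / C`, and that coordinate of `b2` lies in an interval of length `O(δ G2 / θ)`. -/
theorem card_lines_nonsep (c : Ctx d) (hd : 2 ≤ d) : ∃ C : ℝ, 0 ≤ C ∧ ∀ (G1 G2 δ : ℝ)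
    (T : Finset ((Fin d → ℤ) × (Fin d → ℤ))), 1 ≤ G1 → 1 ≤ G2 → 0 < δ → δ ≤ 1 →
      (∀ l ∈ T, LH l.1 l.2 G1 G2 ∧ ∃ i j, i ≠ j ∧ ‖c.pl l.1 l.2 i j‖ ≤ δ * (G1 * G2)) →
      (T.card : ℝ) ≤ C * (δ ^ (2 / 3 : ℝ) * G1 ^ d * G2 ^ d + G1 ^ (d - 2) * G2 ^ d +
        G1 ^ d * G2 ^ (d - 1)) := by
  classical
  obtain ⟨e, rfl⟩ : ∃ e, d = e + 2 := ⟨d - 2, by omega⟩
  obtain ⟨K, hK, hth, hs⟩ := NonSep_sep c
  refine ⟨Fintype.card (Fin (e + 2) × Fin (e + 2)) * (80 * K ^ 4 * 5 ^ (2 * e + 4)), by positivity,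
    fun G1 G2 δ T h1 h2 hδ _ hT => ?_⟩
  set θ := δ ^ (1 / 3 : ℝ) with hθ
  have hθ0 : 0 < θ := Real.rpow_pos_of_pos hδ _
  have e3 : θ ^ 3 = δ := by
    rw [hθ, ← Real.rpow_natCast, ← Real.rpow_mul hδ.le]; norm_num
  have e2 : δ ^ (2 / 3 : ℝ) = θ ^ 2 := by
    rw [hθ, ← Real.rpow_natCast, ← Real.rpow_mul hδ.le]; norm_num
  have hsub : T ⊆ Finset.univ.biUnion fun p : Fin (e + 2) × Fin (e + 2) =>
      T.filter fun l => p.1 ≠ p.2 ∧ ‖c.pl l.1 l.2 p.1 p.2‖ ≤ δ * (G1 * G2) := by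
    intro l hl
    obtain ⟨i, j, hij⟩ := (hT l hl).2
    exact Finset.mem_biUnion.2 ⟨(i, j), Finset.mem_univ _, Finset.mem_filter.2 ⟨hl, hij⟩⟩
  refine le_trans (Nat.cast_le.2 ((Finset.card_le_card hsub).trans Finset.card_biUnion_le)) ?_
  rw [Nat.cast_sum, e2, mul_assoc, ← nsmul_eq_mul, ← Finset.card_univ]
  refine Finset.sum_le_card_nsmul _ _ _ fun p _ => ?_
  by_cases hp : p.1 = p.2
  · rw [Finset.filter_false_of_mem fun l _ h => h.1 hp]
    simp only [Finset.card_empty, Nat.cast_zero]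
    positivity
  · exact NonSep_one c hK hth (hs _ _ hp) _ h1 h2 hθ0 fun l hl =>
      ⟨(hT l (Finset.mem_filter.1 hl).1).1, e3 ▸ (Finset.mem_filter.1 hl).2.2⟩

end Crest.Agent.R22
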