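import Crest.Agent.R22.SameMu
import Crest.Agent.R22.NonSep

set_option autoImplicit false
open Polynomial IntermediateField

namespace Crest.Agent.R22

variable {d : ℕ}

/-- The integers of absolute value at most `r`. -/
noncomputable def LineCount_I (r : ℝ) : Finset ℤ := Finset.Icc (-⌊r⌋) ⌊r⌋

theorem LineCount_mem {r : ℝ} {z : ℤ} (h : |(z : ℝ)| ≤ r) : z ∈ LineCount_I r := by
  rw [LineCount_I, Finset.mem_Icc, ← abs_le, Int.le_floor, Int.cast_abs]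
  exact h

theorem LineCount_card {r : ℝ} (h : 0 ≤ r) : ((LineCount_I r).card : ℝ) ≤ 2 * r + 1 := by
  have h0 := Int.floor_nonneg.2 h
  have h1 : ((LineCount_I r).card : ℤ) = 2 * ⌊r⌋ + 1 := by
    rw [LineCount_I, Int.card_Icc_of_le _ _ (by omega)]; ring
  have h2 : ((LineCount_I r).card : ℝ) = 2 * ⌊r⌋ + 1 := by exact_mod_cast h1
  linarith [Int.floor_le r]

open Classical in
theorem LineCount_fib {ι : Type*} (S : Finset ι) (x y : ι → ℤ) {C C0 u v : ℝ} (hC : 0 ≤ C)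
    (h0 : 1 ≤ C0) (hu : 0 ≤ u) (hv : 0 ≤ v)
    (h : ∀ P ∈ S, |(x P : ℝ)| ≤ C0 * u ∧ |(y P : ℝ)| ≤ C0 * v)
    (hf : ∀ a : ℤ × ℤ, ((S.filter fun P => (x P, y P) = a).card : ℝ) ≤ C) :
    (S.card : ℝ) ≤ 4 * C0 ^ 2 * C * (u + 1) * (v + 1) := by
  rw [Finset.card_eq_sum_card_fiberwise (f := fun P => (x P, y P))
    (t := LineCount_I (C0 * u) ×ˢ LineCount_I (C0 * v)) fun P hP => Finset.mem_coe.2
      (Finset.mem_product.2 ⟨LineCount_mem (h P hP).1, LineCount_mem (h P hP).2⟩), Nat.cast_sum]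
  refine (Finset.sum_le_card_nsmul _ _ _ fun a _ => hf a).trans ?_
  rw [nsmul_eq_mul, Finset.card_product, Nat.cast_mul]
  have h1 : ∀ u : ℝ, 0 ≤ u → ((LineCount_I (C0 * u)).card : ℝ) ≤ 2 * C0 * (u + 1) := fun u hu =>
    (LineCount_card (by positivity)).trans (by linarith)
  exact (mul_le_mul_of_nonneg_right (mul_le_mul (h1 u hu) (h1 v hv) (by positivity)
    (by positivity)) hC).trans_eq (by ring)

/-- `b1`: `≤ (5 G1)^d` choices; `a`: `d` choices; `b2 a`: `≤ 5 G1`; the other coordinates `≤ 5 G2`. -/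
theorem card_lines (hd : 1 ≤ d) : ∃ C : ℝ, 0 ≤ C ∧ ∀ (G1 G2 : ℝ)
    (T : Finset ((Fin d → ℤ) × (Fin d → ℤ))), 1 ≤ G1 → 1 ≤ G2 → (∀ l ∈ T, LH l.1 l.2 G1 G2) →
      (T.card : ℝ) ≤ C * G1 ^ (d + 1) * G2 ^ (d - 1) := by
  refine ⟨d * (5 ^ (d + 1) * 5 ^ (d - 1)), by positivity, fun G1 G2 T h1 h2 h => ?_⟩
  have hb : ∀ (b : Fin d → ℤ) (i : Fin d), |(b i : ℝ)| ≤ ‖b‖ := fun b i => norm_le_pi_norm b i
  have hsub : T ⊆ Finset.univ.biUnion fun a : Fin d =>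
      Fintype.piFinset (fun _ => LineCount_I (2 * G1)) ×ˢ
        Fintype.piFinset fun i => LineCount_I (2 * if i = a then G1 else G2) := fun l hl => by
    obtain ⟨a, -, ha⟩ := (h l hl).line.red
    refine Finset.mem_biUnion.2 ⟨a, Finset.mem_univ _, Finset.mem_product.2
      ⟨Fintype.mem_piFinset.2 fun i => LineCount_mem ((hb _ i).trans (h l hl).u1),
        Fintype.mem_piFinset.2 fun i => LineCount_mem ?_⟩⟩
    split_ifs with hi
    · rw [hi]; linarith [(h l hl).u1]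
    · exact (hb _ i).trans (h l hl).u2
  have h3 := (Finset.card_le_card hsub).trans Finset.card_biUnion_le
  rw [← Nat.cast_le (α := ℝ), Nat.cast_sum] at h3
  have h4 : ∀ G : ℝ, 1 ≤ G → ((LineCount_I (2 * G)).card : ℝ) ≤ 5 * G := fun G hG =>
    (LineCount_card (by positivity)).trans (by linarith)
  refine h3.trans ((Finset.sum_le_card_nsmul _ _ ((5 * G1) ^ d * (5 * G1 * (5 * G2) ^ (d - 1)))
    fun a _ => ?_).trans_eq (by simp only [Finset.card_fin, nsmul_eq_mul, mul_pow]; ring))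
  rw [Finset.card_product, Fintype.card_piFinset, Fintype.card_piFinset, Finset.prod_const,
    Finset.card_fin, ← Finset.mul_prod_erase _ _ (Finset.mem_univ a), if_pos rfl,
    Finset.prod_congr rfl fun i hi => by rw [if_neg (Finset.ne_of_mem_erase hi)],
    Finset.prod_const, Finset.card_erase_of_mem (Finset.mem_univ a), Finset.card_fin]
  push_cast
  gcongr
  exacts [h4 _ h1, h4 _ h1, h4 _ h2]

/-- Trivial bound on a line, scheme B (`card_same_be` for each `(x, y)`). -/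
theorem line_trivB (c : Ctx d) (k : ℕ) (hk : 1 ≤ k) (C0 : ℝ) (h0 : 1 ≤ C0) : ∃ C : ℝ, 0 ≤ C ∧
    ∀ (X B G1 G2 : ℝ) (b1 b2 : Fin d → ℤ) (S : Finset (LPt c k)), 1 ≤ X → 0 < B → 0 < G1 →
      0 < G2 → InjN S → (∀ P ∈ S, OnB C0 X B G1 G2 b1 b2 P) →
      (S.card : ℝ) ≤ C * (B / G1 + 1) * (B / G2 + 1) := by
  obtain ⟨C, hC⟩ := card_same_be c k hk C0 h0
  refine ⟨4 * C0 ^ 2 * max C 0, by positivity, fun X B G1 G2 b1 b2 S hX hB h1 h2 hS h => ?_⟩
  refine LineCount_fib S (·.x) (·.y) (le_max_right _ _) h0 (by positivity) (by positivity)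
    (fun P hP => ⟨mul_div_assoc C0 _ _ ▸ (h P hP).hx, mul_div_assoc C0 _ _ ▸ (h P hP).hy⟩)
    fun a => (hC X B hX (a.1 • b1 + a.2 • b2) _ (fun P hP Q hQ => hS P (Finset.mem_filter.1 hP).1
      Q (Finset.mem_filter.1 hQ).1) fun P hP => ?_).trans (le_max_left _ _)
  obtain ⟨h3, rfl⟩ := Finset.mem_filter.1 hP
  exact ⟨(h P h3).sz, (h P h3).eq⟩

/-- Trivial bound on a line, scheme C (`card_same_mu`). -/
theorem line_trivC (c : Ctx d) (k : ℕ) (hk : 2 ≤ k) (C0 : ℝ) (h0 : 1 ≤ C0) : ∃ C : ℝ, 0 ≤ C ∧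
    ∀ (X B G1 G2 : ℝ) (b1 b2 : Fin d → ℤ) (S : Finset (LPt c k)), 1 ≤ X → 0 < B → 0 < G1 →
      0 < G2 → InjN S → (∀ P ∈ S, OnC C0 X B G1 G2 b1 b2 P) →
      (S.card : ℝ) ≤ C * (X / B ^ k / G1 + 1) * (X / B ^ k / G2 + 1) := by
  obtain ⟨C, hC⟩ := card_same_mu c k hk C0 h0
  refine ⟨4 * C0 ^ 2 * max C 0, by positivity, fun X B G1 G2 b1 b2 S hX hB h1 h2 hS h => ?_⟩
  refine LineCount_fib S (·.x) (·.y) (le_max_right _ _) h0 (by positivity) (by positivity)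
    (fun P hP => ⟨mul_div_assoc C0 _ _ ▸ (h P hP).hx, mul_div_assoc C0 _ _ ▸ (h P hP).hy⟩)
    fun a => (hC X B hX hB (a.1 • b1 + a.2 • b2) _ (fun P hP Q hQ => hS P
      (Finset.mem_filter.1 hP).1 Q (Finset.mem_filter.1 hQ).1) fun P hP => ?_).trans
      (le_max_left _ _)
  obtain ⟨h3, rfl⟩ := Finset.mem_filter.1 hP
  exact ⟨(h P h3).sz, (h P h3).eq⟩

end Crest.Agent.R22
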