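import Crest.Agent.R22.Fac
import Crest.Agent.R22.Line
import Crest.Agent.R22.CountB
import Crest.Agent.R22.CountC

set_option autoImplicit false
open Polynomial IntermediateField

namespace Crest.Agent.R22

variable {d : ℕ}

theorem TailA_one_le {v : Fin d → ℤ} (h : v ≠ 0) : 1 ≤ ‖v‖ := by
  obtain ⟨i, hi⟩ := Function.ne_iff.1 h
  refine le_trans ?_ (norm_le_pi_norm v i)
  rw [Int.norm_eq_abs]
  exact_mod_cast Int.one_le_abs hi

theorem TailA_prim {v : Fin d → ℤ} (h : Prim v) : 1 ≤ ‖v‖ := by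
  refine TailA_one_le fun e => ?_
  obtain ⟨i, hi⟩ := h 2 Nat.prime_two
  exact hi (by simp [e])

theorem TailA_sz {c : Ctx d} {k : ℕ} {C0 C1 X B : ℝ} {P : Pt c k} (h : Sz C0 X B P) (h0 : 0 < C0)
    (h1 : C0 ≤ C1) (hX : 0 ≤ X) (hB : 0 ≤ B) : Sz C1 X B P := by
  have hU : 0 ≤ X / B ^ k := by positivity
  exact ⟨h.n1, h.n2, h.cc.trans h1, h.ka.trans h1, (div_le_div_of_nonneg_left hX h0 h1).trans h.p1,
    fun j => (div_le_div_of_nonneg_left hB h0 h1).trans (h.be1 j),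
    fun j => (h.be2 j).trans (mul_le_mul_of_nonneg_right h1 hB),
    fun j => (div_le_div_of_nonneg_left hU h0 h1).trans (h.mu1 j),
    fun j => (h.mu2 j).trans (mul_le_mul_of_nonneg_right h1 hU),
    h.be3.trans (mul_le_mul_of_nonneg_right h1 hB), h.mu3.trans (mul_le_mul_of_nonneg_right h1 hU)⟩

/-- A line of dyadic size through a primitive vector. -/
theorem TailA_line (hd : 3 ≤ d) {C0 : ℝ} (h0 : 1 ≤ C0) : ∃ C1 : ℝ, C0 ≤ C1 ∧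
    ∀ (v : Fin d → ℤ) (Z : ℝ), Prim v → 0 ≤ Z → ‖v‖ ≤ C0 * Z →
      ∃ (b1 b2 : Fin d → ℤ) (x y : ℤ) (j1 j2 : ℕ), LH b1 b2 (2 ^ j1) (2 ^ j2) ∧
        v = x • b1 + y • b2 ∧ |(x : ℝ)| ≤ C1 * Z / 2 ^ j1 ∧ |(y : ℝ)| ≤ C1 * Z / 2 ^ j2 ∧
        (2 : ℝ) ^ j1 * 2 ^ j2 ≤ C1 * Z ^ (((d : ℝ) - 2) / (d - 1)) := by
  obtain ⟨C, hC, h⟩ := exists_line hd
  have hd' : (3 : ℝ) ≤ d := by exact_mod_cast hd
  have hCC : C0 ≤ C * C0 := le_mul_of_one_le_left (by linarith) hC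
  refine ⟨4 * (C * C0), by linarith, fun v Z hv hZ hvZ => ?_⟩
  obtain ⟨b1, b2, x, y, hL, e, h1, h2, h3⟩ := h v hv
  have p1 := TailA_one_le hL.ne
  obtain ⟨j1, a1, a2⟩ := exists_nat_pow_near p1 one_lt_two
  obtain ⟨j2, a3, a4⟩ := exists_nat_pow_near (p1.trans hL.le) one_lt_two
  rw [pow_succ'] at a2 a4
  have hZ' := mul_le_mul_of_nonneg_right hCC hZ
  refine ⟨b1, b2, x, y, j1, j2, ⟨hL, one_le_pow₀ one_le_two, one_le_pow₀ one_le_two, a1, a2.le, a3,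
    a4.le⟩, e, ?_, ?_, ?_⟩
  · rw [le_div_iff₀ (by positivity)]
    linarith [mul_le_mul_of_nonneg_left a1 (abs_nonneg (x : ℝ))]
  · rw [le_div_iff₀ (by positivity)]
    linarith [mul_le_mul_of_nonneg_left a3 (abs_nonneg (y : ℝ))]
  · have t0 : 0 ≤ ((d : ℝ) - 2) / (d - 1) := div_nonneg (by linarith) (by linarith)
    have t1 : ((d : ℝ) - 2) / (d - 1) ≤ 1 := by
      rw [div_le_one (by linarith)]
      linarith
    have h4 := Real.rpow_le_rpow (norm_nonneg v) hvZ t0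
    rw [Real.mul_rpow (by linarith) hZ] at h4
    have h5 := mul_le_mul_of_nonneg_left (h4.trans (mul_le_mul_of_nonneg_right
      (Real.rpow_le_self_of_one_le h0 t1) (Real.rpow_nonneg hZ _))) (zero_le_one.trans hC)
    have h6 : 0 ≤ C * C0 * Z ^ (((d : ℝ) - 2) / (d - 1)) :=
      mul_nonneg (by linarith) (Real.rpow_nonneg hZ _)
    linarith [mul_le_mul a1 a3 (by positivity) (norm_nonneg _)]

/-- From a set of integers to a set of points. -/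
theorem TailA_pts {c : Ctx d} {k : ℕ} (T : Finset ℤ)
    (R : LPt c k → (Fin d → ℤ) × (Fin d → ℤ) → Prop)
    (h : ∀ n ∈ T, ∃ P m, P.n = n ∧ R P m) :
    ∃ (S : Finset (LPt c k)) (l : LPt c k → (Fin d → ℤ) × (Fin d → ℤ)),
      T.card = S.card ∧ InjN S ∧ ∀ P ∈ S, R P (l P) := by
  classical
  choose P m h1 h2 using h
  refine ⟨T.attach.image fun n => P n.1 n.2, fun Q => Classical.epsilon (R Q), ?_, ?_, ?_⟩
  · rw [Finset.card_image_of_injective _ fun n n' e => Subtype.ext ?_, Finset.card_attach]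
    rw [← h1 n.1 n.2, ← h1 n'.1 n'.2]
    exact congrArg (fun Q : LPt c k => Q.n) e
  · intro Q hQ Q' hQ' e
    obtain ⟨n, -, rfl⟩ := Finset.mem_image.1 hQ
    obtain ⟨n', -, rfl⟩ := Finset.mem_image.1 hQ'
    rw [h1, h1] at e
    rw [Subtype.ext e]
  · intro Q hQ
    obtain ⟨n, -, rfl⟩ := Finset.mem_image.1 hQ
    exact Classical.epsilon_spec ⟨_, h2 n.1 n.2⟩

theorem TailA_log {K δ : ℝ} (hK : 1 ≤ K) (hδ : 0 < δ) : ∃ A : ℝ, 0 ≤ A ∧ ∀ (X : ℝ) (i : ℕ), 1 ≤ X →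
    (2 : ℝ) ^ i ≤ K * X → i < ⌊A * X ^ δ⌋₊ := by
  have hl : 0 ≤ Real.log K := Real.log_nonneg hK
  refine ⟨2 * (Real.log K + 1 / δ) + 1, by positivity, fun X i hX h => Nat.le_floor ?_⟩
  have h1 := Real.log_le_log (by positivity) h
  rw [Real.log_pow, Real.log_mul (by linarith) (by linarith)] at h1
  have h2 := Real.log_le_rpow_div (zero_le_one.trans hX) hδ
  have h3 := Real.one_le_rpow hX hδ.le
  have h4 := mul_le_mul_of_nonneg_left Real.log_two_gt_d9.le (Nat.cast_nonneg (α := ℝ) i)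
  have h5 := mul_le_mul_of_nonneg_left h3 hl
  have h6 : (0 : ℝ) ≤ i := Nat.cast_nonneg i
  rw [div_eq_mul_one_div] at h2
  push_cast
  linarith

/-- The data attached to `n` in the group `g = (i, j1, j2)`. -/
def TailA_good (c : Ctx d) (k : ℕ) (C1 X : ℝ) (n : ℤ) (g : ℕ × ℕ × ℕ) : Prop :=
  (((2 : ℝ) ^ g.1) ^ k ≤ X ^ (1 - uStar d) →
    (2 : ℝ) ^ g.2.1 * 2 ^ g.2.2 ≤ C1 * ((2 : ℝ) ^ g.1) ^ (((d : ℝ) - 2) / (d - 1)) ∧
      ∃ (P : LPt c k) (m : (Fin d → ℤ) × (Fin d → ℤ)), P.n = n ∧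
        LH m.1 m.2 (2 ^ g.2.1) (2 ^ g.2.2) ∧ OnB C1 X (2 ^ g.1) (2 ^ g.2.1) (2 ^ g.2.2) m.1 m.2 P) ∧
  (¬ ((2 : ℝ) ^ g.1) ^ k ≤ X ^ (1 - uStar d) →
    (2 : ℝ) ^ g.2.1 * 2 ^ g.2.2 ≤ C1 * (X / ((2 : ℝ) ^ g.1) ^ k) ^ (((d : ℝ) - 2) / (d - 1)) ∧
      ∃ (P : LPt c k) (m : (Fin d → ℤ) × (Fin d → ℤ)), P.n = n ∧
        LH m.1 m.2 (2 ^ g.2.1) (2 ^ g.2.2) ∧ OnC C1 X (2 ^ g.1) (2 ^ g.2.1) (2 ^ g.2.2) m.1 m.2 P)

theorem TailA_group (c : Ctx d) (hd : 4 ≤ d ∧ d ≤ 8) (k : ℕ) (hk : k + 2 = d) (C1 : ℝ)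
    (h1 : 1 ≤ C1) : ∃ η C : ℝ, 0 < η ∧ η ≤ 1 ∧ 0 ≤ C ∧ ∀ (X : ℝ) (T : Finset ℤ) (g : ℕ × ℕ × ℕ),
      1 ≤ X → (∀ n ∈ T, TailA_good c k C1 X n g) → (T.card : ℝ) ≤ C * X ^ (1 - η) := by
  obtain ⟨ηB, CB, hB, HB⟩ := countB c hd k hk C1 h1
  obtain ⟨ηC, CC, hC, HC⟩ := countC c hd k hk C1 h1
  refine ⟨min (min ηB ηC) 1, |CB| + |CC|, lt_min (lt_min hB hC) one_pos, min_le_right _ _,
    by positivity, fun X T g hX hT => ?_⟩
  rcases T.eq_empty_or_nonempty with rfl | ⟨n0, hn0⟩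
  · simp only [Finset.card_empty, Nat.cast_zero]
    positivity
  have key : ∀ C η : ℝ, C ≤ |CB| + |CC| → min ηB ηC ≤ η →
      C * X ^ (1 - η) ≤ (|CB| + |CC|) * X ^ (1 - min (min ηB ηC) 1) := fun C η a1 a2 =>
    mul_le_mul a1 (Real.rpow_le_rpow_of_exponent_le hX (by linarith [min_le_left (min ηB ηC) 1]))
      (by positivity) (by positivity)
  by_cases hc : ((2 : ℝ) ^ g.1) ^ k ≤ X ^ (1 - uStar d)
  · obtain ⟨S, l, e, hS, hP⟩ := TailA_pts T _ fun n hn => ((hT n hn).1 hc).2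
    rw [e]
    exact (HB X _ _ _ S l hX (one_le_pow₀ one_le_two) hc ((hT n0 hn0).1 hc).1 hS hP).trans
      (key _ _ (by linarith [le_abs_self CB, abs_nonneg CC]) (min_le_left _ _))
  · obtain ⟨S, l, e, hS, hP⟩ := TailA_pts T _ fun n hn => ((hT n hn).2 hc).2
    rw [e]
    exact (HC X _ _ _ S l hX (one_le_pow₀ one_le_two) (not_le.1 hc).le ((hT n0 hn0).2 hc).1 hS
      hP).trans (key _ _ (by linarith [le_abs_self CC, abs_nonneg CB]) (min_le_right _ _))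

theorem TailA_exists (c : Ctx d) (hd : 3 ≤ d) (k : ℕ) (hk : 1 ≤ k) {C0 : ℝ} (h0 : 1 ≤ C0) :
    ∃ C1 : ℝ, C0 ≤ C1 ∧ ∀ (X : ℝ) (P : Pt c k) (i : ℕ), 1 ≤ X → Sz C0 X (2 ^ i) P →
      ∃ g : ℕ × ℕ × ℕ, TailA_good c k C1 X P.n g ∧ (2 : ℝ) ^ g.1 ≤ C1 * C0 * X ∧
        (2 : ℝ) ^ g.2.1 ≤ C1 * C0 * X ∧ (2 : ℝ) ^ g.2.2 ≤ C1 * C0 * X := by
  obtain ⟨C1, h1, h⟩ := TailA_line hd h0
  refine ⟨C1, h1, fun X P i hX hP => ?_⟩
  have hd' : (3 : ℝ) ≤ d := by exact_mod_cast hd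
  have hB : (1 : ℝ) ≤ 2 ^ i := one_le_pow₀ one_le_two
  have hBk : (0 : ℝ) < (2 ^ i) ^ k := by positivity
  have hCX : 1 ≤ C0 * X := one_le_mul_of_one_le_of_one_le h0 hX
  have a1 : (2 : ℝ) ^ i ≤ C0 * X := by
    have h2 := (TailA_prim P.pmu).trans hP.mu3
    rw [← mul_div_assoc, le_div_iff₀ hBk, one_mul] at h2
    exact (le_self_pow₀ hB (by omega)).trans h2
  have a2 : X / ((2 : ℝ) ^ i) ^ k ≤ C0 * X :=
    (div_le_self (by linarith) (one_le_pow₀ hB)).trans (le_mul_of_one_le_left (by linarith) h0)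
  have a3 : (2 : ℝ) ^ i ≤ C1 * C0 * X := by
    rw [mul_assoc]
    exact a1.trans (le_mul_of_one_le_left (by linarith) (h0.trans h1))
  have a4 : ∀ (Z : ℝ) (j1 j2 : ℕ), 0 ≤ Z → Z ≤ C0 * X →
      (2 : ℝ) ^ j1 * 2 ^ j2 ≤ C1 * Z ^ (((d : ℝ) - 2) / (d - 1)) →
      (2 : ℝ) ^ j1 ≤ C1 * C0 * X ∧ (2 : ℝ) ^ j2 ≤ C1 * C0 * X := fun Z j1 j2 b1 b2 b3 => by
    have t1 : ((d : ℝ) - 2) / (d - 1) ≤ 1 := by
      rw [div_le_one (by linarith)]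
      linarith
    have b4 := b3.trans (mul_le_mul_of_nonneg_left
      ((Real.rpow_le_rpow b1 b2 (div_nonneg (by linarith) (by linarith))).trans
        (Real.rpow_le_self_of_one_le hCX t1)) (by linarith))
    rw [← mul_assoc] at b4
    exact ⟨(le_mul_of_one_le_right (by positivity) (one_le_pow₀ one_le_two)).trans b4,
      (le_mul_of_one_le_left (by positivity) (one_le_pow₀ one_le_two)).trans b4⟩
  have hP' := TailA_sz hP (by linarith) h1 (by linarith) (by linarith)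
  by_cases hc : ((2 : ℝ) ^ i) ^ k ≤ X ^ (1 - uStar d)
  · obtain ⟨b1, b2, x, y, j1, j2, hL, e, hx, hy, hG⟩ := h P.be _ P.pbe (by positivity) hP.be3
    exact ⟨(i, j1, j2), ⟨fun _ => ⟨hG, ⟨P, x, y⟩, (b1, b2), rfl, hL, hP', e, hx, hy⟩,
      fun hn => absurd hc hn⟩, a3, a4 _ _ _ (by positivity) a1 hG⟩
  · obtain ⟨b1, b2, x, y, j1, j2, hL, e, hx, hy, hG⟩ := h P.mu _ P.pmu (by positivity) hP.mu3
    exact ⟨(i, j1, j2), ⟨fun hn => absurd hn hc,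
      fun _ => ⟨hG, ⟨P, x, y⟩, (b1, b2), rfl, hL, hP', e, hx, hy⟩⟩, a3,
      a4 _ _ _ (by positivity) a2 hG⟩

/-- The main estimate. For each `n` choose `P, i` (`fac`), the scheme according to
`(2^i)^k ≤ X^(1 - uStar d)`, a line for `β` or `μ` (`exists_line`) and dyadic sizes `2^j1, 2^j2`; all of
`2^i, 2^j1, 2^j2` are `≤ C X`, so there are `O(log³ X)` groups; `countB`, `countC` with a larger `C0`. -/
theorem tail (c : Ctx d) (hd : 4 ≤ d ∧ d ≤ 8) (k : ℕ) (hk : k + 2 = d) (c0 : ℝ) (h0 : 1 ≤ c0) :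
    ∃ η C : ℝ, 0 < η ∧ ∀ (X : ℝ) (T : Finset ℤ), 1 ≤ X →
      (∀ n ∈ T, X ≤ n ∧ (n : ℝ) ≤ 2 * X ∧ ∃ p : ℕ, p.Prime ∧ X / c0 ≤ p ∧ (p : ℤ) ^ k ∣ c.F.eval n) →
      (T.card : ℝ) ≤ C * X ^ (1 - η) := by
  obtain ⟨C0, X0, hC0, hf⟩ := fac c (by omega) k (by omega) c0 h0
  obtain ⟨C1, h1, he⟩ := TailA_exists c (by omega) k (by omega) hC0
  obtain ⟨η, C, hη, hη1, hC, hg⟩ := TailA_group c hd k hk C1 (hC0.trans h1)
  obtain ⟨A, hA, hl⟩ := TailA_log (K := C1 * C0) (δ := η / 6)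
    (one_le_mul_of_one_le_of_one_le (hC0.trans h1) hC0) (by positivity)
  refine ⟨η / 2, C * A ^ 3 + (Finset.Icc 0 ⌈2 * X0⌉).card, by positivity, fun X T hX hT => ?_⟩
  have hX0 : 0 < X := by linarith
  have hX1 : 1 ≤ X ^ (1 - η / 2) := Real.one_le_rpow hX (by linarith)
  rw [add_mul]
  rcases le_or_gt X0 X with hX' | hX'
  · have h2 : ∀ n ∈ T, ∃ g : ℕ × ℕ × ℕ, TailA_good c k C1 X n g ∧ (2 : ℝ) ^ g.1 ≤ C1 * C0 * X ∧
        (2 : ℝ) ^ g.2.1 ≤ C1 * C0 * X ∧ (2 : ℝ) ^ g.2.2 ≤ C1 * C0 * X := fun n hn => by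
      obtain ⟨a1, a2, p, a3, a4, a5⟩ := hT n hn
      obtain ⟨P, i, rfl, hP⟩ := hf X n p hX' a1 a2 a3 a4 a5
      exact he X P i hX hP
    choose! g h3 h4 h5 h6 using h2
    have h7 : T.image g ⊆ Finset.range ⌊A * X ^ (η / 6)⌋₊ ×ˢ Finset.range ⌊A * X ^ (η / 6)⌋₊ ×ˢ
        Finset.range ⌊A * X ^ (η / 6)⌋₊ := fun m hm => by
      obtain ⟨n, hn, rfl⟩ := Finset.mem_image.1 hm
      simp only [Finset.mem_product, Finset.mem_range]
      exact ⟨hl X _ hX (h4 n hn), hl X _ hX (h5 n hn), hl X _ hX (h6 n hn)⟩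
    have h8 : ((T.image g).card : ℝ) ≤ (A * X ^ (η / 6)) ^ 3 := by
      refine (Nat.cast_le.2 (Finset.card_le_card h7)).trans ?_
      rw [Finset.card_product, Finset.card_product, Finset.card_range, ← pow_three, Nat.cast_pow]
      exact pow_le_pow_left₀ (Nat.cast_nonneg _) (Nat.floor_le (by positivity)) 3
    refine (card_le_lines T g _ _ (by positivity) (fun m _ => hg X _ m hX fun n hn => ?_)
      h8).trans (le_add_of_le_of_nonneg (le_of_eq ?_) (by positivity))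
    · obtain ⟨a1, a2⟩ := Finset.mem_filter.1 hn
      exact a2 ▸ h3 n a1
    · rw [mul_pow, ← Real.rpow_natCast (X ^ (η / 6)), ← Real.rpow_mul hX0.le,
        show 1 - η / 2 = (1 - η) + η / 6 * (3 : ℕ) by push_cast; ring, Real.rpow_add hX0]
      ring
  · refine le_add_of_nonneg_of_le (by positivity) (le_trans (Nat.cast_le.2
      (Finset.card_le_card fun n hn => Finset.mem_Icc.2 ⟨?_, ?_⟩))
      (le_mul_of_one_le_right (Nat.cast_nonneg _) hX1))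
    · exact_mod_cast hX0.le.trans (hT n hn).1
    · exact Int.cast_le.1 ((hT n hn).2.1.trans ((by linarith : 2 * X ≤ 2 * X0).trans (Int.le_ceil _)))

end Crest.Agent.R22
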