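import Crest.Agent.R22.Fac
import Crest.Agent.R22.Line
import Crest.Agent.R22.CountB
import Crest.Agent.R22.CountC
import Crest.Agent.R22.TailA

set_option autoImplicit false
open Polynomial IntermediateField

namespace Crest.Agent.R22

variable {d : ℕ}

theorem Tail.irr {f : ℤ[X]} (hirr : Irreducible (f.map (Int.castRingHom ℚ)))
    (h1 : 1 ≤ f.natDegree) : Irreducible ((integralNormalization f).map (Int.castRingHom ℚ)) := by
  have h0 : f ≠ 0 := by rintro rfl; simp at h1
  have ha : (f.leadingCoeff : ℚ) ≠ 0 := by simpa using h0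
  have := invertibleOfNonzero ha
  rw [← MulEquiv.irreducible_iff (algEquivCMulXAddC (f.leadingCoeff : ℚ) 0)]
  have e : algEquivCMulXAddC (f.leadingCoeff : ℚ) 0
      ((integralNormalization f).map (Int.castRingHom ℚ)) =
      C ((f.leadingCoeff : ℚ) ^ (f.natDegree - 1)) * f.map (Int.castRingHom ℚ) :=
    Polynomial.funext fun x => by
      have := integralNormalization_eval₂_leadingCoeff_mul h1 (Int.castRingHom ℚ) x
      simpa [algEquivCMulXAddC_apply, ← comp_eq_aeval, eval_comp, eval_map] using this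
  rw [e]
  exact (irreducible_isUnit_mul (isUnit_C.2 (pow_ne_zero _ ha).isUnit)).2 hirr

open Filter Topology in
open Classical in
theorem Tail.pos (f : ℤ[X]) (k : ℕ) (hirr : Irreducible (f.map (Int.castRingHom ℚ)))
    (hdeg : 4 ≤ f.natDegree ∧ f.natDegree ≤ 8) (hk : k + 2 = f.natDegree)
    (ha : 0 < f.leadingCoeff) :
    Tendsto (fun N : ℕ => (((Finset.Icc 1 N).filter fun n : ℕ =>
      ∃ p : ℕ, p.Prime ∧ N < p ∧ (p : ℤ) ^ k ∣ f.eval (n : ℤ)).card : ℝ) / N) atTop (𝓝 0) := by
  have h0 : f ≠ 0 := by rintro rfl; simp at ha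
  have h1 : 1 ≤ f.natDegree := by omega
  obtain ⟨c, hc⟩ := exists_ctx _ (monic_integralNormalization h0) (Tail.irr hirr h1)
  obtain ⟨a, ea⟩ := Int.eq_ofNat_of_zero_le ha.le
  have a1 : 1 ≤ a := by omega
  have a2 : (1 : ℝ) ≤ a := by exact_mod_cast a1
  obtain ⟨η, C, hη, hC⟩ := tail c (by rwa [natDegree_integralNormalization]) k
    (by rwa [natDegree_integralNormalization]) a a2
  obtain ⟨ε, e0, e1, e2⟩ : ∃ ε : ℝ, 0 < ε ∧ 2 * ε ≤ η ∧ 2 * ε ≤ 1 :=
    ⟨min η 1 / 2, by positivity, by linarith [min_le_left η 1], by linarith [min_le_right η 1]⟩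
  have hl := Real.log_pos one_lt_two
  have hlim : Tendsto (fun N : ℕ => |C| * (1 / (ε * Real.log 2) + 1) * a * (N : ℝ) ^ (-ε))
      atTop (𝓝 0) := by
    simpa using ((tendsto_rpow_neg_atTop e0).comp tendsto_natCast_atTop_atTop).const_mul
      (|C| * (1 / (ε * Real.log 2) + 1) * a)
  refine squeeze_zero' (Eventually.of_forall fun N => by positivity) ?_ hlim
  filter_upwards [eventually_ge_atTop 1] with N hN
  have n1 : (1 : ℝ) ≤ N := by exact_mod_cast hN
  have m1 : (1 : ℝ) ≤ a * N := one_le_mul_of_one_le_of_one_le a2 n1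
  set T := (Finset.Icc 1 N).filter fun n : ℕ =>
      ∃ p : ℕ, p.Prime ∧ N < p ∧ (p : ℤ) ^ k ∣ f.eval (n : ℤ)
  have t1 : T.card = ∑ j ∈ Finset.range (Nat.log 2 (a * N) + 1),
      (T.filter fun n => Nat.log 2 (a * n) = j).card :=
    Finset.card_eq_sum_card_fiberwise fun n hn => by
      have := (Finset.mem_Icc.1 (Finset.mem_filter.1 hn).1).2
      simpa [Nat.lt_succ_iff] using Nat.log_mono_right (b := 2) (Nat.mul_le_mul_left a this)
  have t2 : ∀ j ∈ Finset.range (Nat.log 2 (a * N) + 1),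
      ((T.filter fun n => Nat.log 2 (a * n) = j).card : ℝ) ≤ |C| * (a * N : ℝ) ^ (1 - 2 * ε) := by
    intro j hj
    have j1 : (2 : ℝ) ^ j ≤ a * N := by
      exact_mod_cast Nat.pow_le_of_le_log (by positivity)
        (Nat.lt_succ_iff.1 (Finset.mem_range.1 hj))
    have j2 : (1 : ℝ) ≤ 2 ^ j := one_le_pow₀ one_le_two
    rw [← Finset.card_image_of_injective _ (f := fun n : ℕ => (a : ℤ) * n) fun n m e => by
      exact_mod_cast mul_left_cancel₀ (by omega : (a : ℤ) ≠ 0) e]
    refine (hC (2 ^ j) _ j2 fun m hm => ?_).trans ?_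
    · obtain ⟨n, hn, rfl⟩ := Finset.mem_image.1 hm
      obtain ⟨hn1, rfl⟩ := Finset.mem_filter.1 hn
      obtain ⟨hn2, p, p1, p2, p3⟩ := Finset.mem_filter.1 hn1
      have := (Finset.mem_Icc.1 hn2).1
      refine ⟨by exact_mod_cast Nat.pow_log_le_self 2 (by positivity), ?_, p, p1, ?_, ?_⟩
      · rw [← pow_succ']
        exact_mod_cast (Nat.lt_pow_succ_log_self one_lt_two _).le
      · rw [div_le_iff₀' (by linarith)]
        exact j1.trans (mul_le_mul_of_nonneg_left (by exact_mod_cast p2.le) (by linarith))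
      · have := integralNormalization_eval₂_leadingCoeff_mul h1 (RingHom.id ℤ) (n : ℤ)
        rw [eval₂_id, eval₂_id, RingHom.id_apply, ea] at this
        rw [hc, this]
        exact p3.mul_left _
    · refine mul_le_mul (le_abs_self C) ((Real.rpow_le_rpow_of_exponent_le j2
        (by linarith : 1 - η ≤ 1 - 2 * ε)).trans
        (Real.rpow_le_rpow (by positivity) j1 (by linarith))) (by positivity) (abs_nonneg _)
  have t3 : (Nat.log 2 (a * N) : ℝ) + 1 ≤ (1 / (ε * Real.log 2) + 1) * (a * N : ℝ) ^ ε := by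
    have j1 : (2 : ℝ) ^ Nat.log 2 (a * N) ≤ a * N := by
      exact_mod_cast Nat.pow_log_le_self 2 (by positivity)
    have j2 := (Real.log_le_log (by positivity) j1).trans
      (Real.log_le_rpow_div (by positivity) e0)
    rw [Real.log_pow, ← le_div_iff₀ hl, div_div, div_eq_mul_one_div, mul_comm (_ ^ _)] at j2
    rw [add_mul, one_mul]
    exact add_le_add j2 (Real.one_le_rpow m1 e0.le)
  have t4 : (a * N : ℝ) ^ ε * (a * N : ℝ) ^ (1 - 2 * ε) ≤ a * (N : ℝ) ^ (-ε) * N := by
    rw [← Real.rpow_add (by positivity), Real.mul_rpow (by positivity) (by positivity), mul_assoc,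
      ← Real.rpow_add_one (by positivity), show ε + (1 - 2 * ε) = -ε + 1 by ring]
    exact mul_le_mul_of_nonneg_right (Real.rpow_le_self_of_one_le a2 (by linarith))
      (by positivity)
  rw [div_le_iff₀ (by positivity), t1, Nat.cast_sum]
  refine (Finset.sum_le_card_nsmul _ _ _ t2).trans ?_
  rw [Finset.card_range, nsmul_eq_mul, Nat.cast_succ]
  calc _ ≤ (1 / (ε * Real.log 2) + 1) * (a * N : ℝ) ^ ε * (|C| * (a * N : ℝ) ^ (1 - 2 * ε)) :=
        mul_le_mul_of_nonneg_right t3 (by positivity)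
    _ = |C| * (1 / (ε * Real.log 2) + 1) * ((a * N : ℝ) ^ ε * (a * N : ℝ) ^ (1 - 2 * ε)) := by ring
    _ ≤ |C| * (1 / (ε * Real.log 2) + 1) * (a * (N : ℝ) ^ (-ε) * N) :=
        mul_le_mul_of_nonneg_left t4 (by positivity)
    _ = _ := by ring

open Filter Topology in
open Classical in
/-- Large primes for a general `f`. Replace `f` by `-f` if the leading coefficient `a` is negative;
`F = integralNormalization f`, `F(a n) = a^(d-1) f(n)`; `m = a n ∈ [a δ N, a N]` is covered by boundedly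
many dyadic intervals `[Y, 2Y]`, `Y ≤ a N`, and `p > N ≥ Y / a`. -/
theorem tail_f (f : ℤ[X]) (k : ℕ) (hirr : Irreducible (f.map (Int.castRingHom ℚ)))
    (hdeg : 4 ≤ f.natDegree ∧ f.natDegree ≤ 8) (hk : k + 2 = f.natDegree) :
    Tendsto (fun N : ℕ => (((Finset.Icc 1 N).filter fun n : ℕ =>
      ∃ p : ℕ, p.Prime ∧ N < p ∧ (p : ℤ) ^ k ∣ f.eval (n : ℤ)).card : ℝ) / N) atTop (𝓝 0) := by
  have h0 : f.leadingCoeff ≠ 0 := leadingCoeff_ne_zero.2 (by rintro rfl; simp at hdeg)
  rcases h0.lt_or_gt with h | h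
  · simpa using Tail.pos (-f) k (by
      rw [Polynomial.map_neg]
      exact (Associated.refl _).neg_right.irreducible hirr) (by simpa using hdeg)
      (by simpa using hk) (by simpa using h)
  · exact Tail.pos f k hirr hdeg hk h

end Crest.Agent.R22
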