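import Crest.Agent.R22.Sieve
import Crest.Agent.R22.Tail

set_option autoImplicit false
open Polynomial IntermediateField

namespace Crest.Agent.R22

variable {d : ℕ}

open Crest.NumberTheoryR Filter Topology

/-- Sandwich: `count(ξ, N) - middle - tail ≤ powerFreeValueCount ≤ count(ξ, N)`. -/
theorem main (f : Polynomial ℤ) (k : ℕ)
    (hirr : Irreducible (f.map (Int.castRingHom ℚ))) (hdeg : 4 ≤ f.natDegree ∧ f.natDegree ≤ 8)
    (hk : k + 2 = f.natDegree) (hloc : ∀ p : ℕ, p.Prime → polyRootCountMod f (p ^ k) < p ^ k) :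
    ∃ c : ℝ, 0 < c ∧
      HasProd (fun p : Nat.Primes => 1 - (polyRootCountMod f ((p : ℕ) ^ k) : ℝ) / ((p : ℕ) : ℝ) ^ k) c ∧
      Tendsto (fun N : ℕ => (powerFreeValueCount f k N : ℝ) / (N : ℝ)) atTop (𝓝 c) := by
  classical
  have hk2 : 2 ≤ k := by omega
  obtain ⟨c, hc, hP, hT⟩ := euler_prod f k hk2 hirr hloc
  refine ⟨c, hc, hP, ?_⟩
  rw [Metric.tendsto_atTop]
  intro ε hε
  have hε4 : 0 < ε / 4 := by positivity
  obtain ⟨ξ, hξ1, hξ2⟩ := ((middle f k hk2 hirr (ε / 4) hε4).and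
    (Metric.tendsto_nhds.1 hT (ε / 4) hε4)).exists
  have h3 := Metric.tendsto_nhds.1 (finite_sieve f k ξ) (ε / 4) hε4
  have h4 := Metric.tendsto_nhds.1 (tail_f f k hirr hdeg hk) (ε / 4) hε4
  obtain ⟨N0, hN0⟩ := eventually_atTop.1
    (hξ1.and (h3.and (h4.and (eventually_gt_atTop 0))))
  refine ⟨N0, fun N hN => ?_⟩
  obtain ⟨a1, a2, a3, a4⟩ := hN0 N hN
  have hN' : (0 : ℝ) < N := by exact_mod_cast a4
  set S := (Finset.Icc 1 N).filter fun n : ℕ =>
    ∀ p ∈ ξ.primesBelow, ¬ (p : ℤ) ^ k ∣ f.eval (n : ℤ) with hS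
  set M := (Finset.Icc 1 N).filter fun n : ℕ =>
    ∃ p : ℕ, p.Prime ∧ ξ ≤ p ∧ p ≤ N ∧ (p : ℤ) ^ k ∣ f.eval (n : ℤ) with hM
  set T := (Finset.Icc 1 N).filter fun n : ℕ =>
    ∃ p : ℕ, p.Prime ∧ N < p ∧ (p : ℤ) ^ k ∣ f.eval (n : ℤ) with hT'
  set W := (Finset.Icc 1 N).filter fun n : ℕ => IsPowerFree k (f.eval (n : ℤ)) with hW
  have hWc : powerFreeValueCount f k N = W.card := by
    unfold powerFreeValueCount
    congr
  have b1 : W ⊆ S := by
    intro n hn
    rw [hW, Finset.mem_filter] at hn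
    rw [hS, Finset.mem_filter]
    exact ⟨hn.1, fun p hp => hn.2 p (Nat.prime_of_mem_primesBelow hp)⟩
  have b2 : S ⊆ W ∪ (M ∪ T) := by
    intro n hn
    rw [hS, Finset.mem_filter] at hn
    rw [Finset.mem_union, Finset.mem_union, hW, hM, hT', Finset.mem_filter, Finset.mem_filter,
      Finset.mem_filter]
    by_cases h : IsPowerFree k (f.eval (n : ℤ))
    · exact Or.inl ⟨hn.1, h⟩
    · right
      unfold IsPowerFree at h
      push Not at h
      obtain ⟨p, hp, hpd⟩ := h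
      have hξp : ξ ≤ p := by
        by_contra hlt
        exact hn.2 p (Nat.mem_primesBelow.2 ⟨not_le.1 hlt, hp⟩) hpd
      rcases le_or_gt p N with h' | h'
      · exact Or.inl ⟨hn.1, p, hp, hξp, h', hpd⟩
      · exact Or.inr ⟨hn.1, p, hp, h', hpd⟩
  have c1 : (W.card : ℝ) ≤ S.card := by exact_mod_cast Finset.card_le_card b1
  have c2 : (S.card : ℝ) ≤ W.card + (M.card + T.card) := by
    have := (Finset.card_le_card b2).trans ((Finset.card_union_le _ _).trans
      (Nat.add_le_add_left (Finset.card_union_le M T) _))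
    exact_mod_cast this
  have d1 : (W.card : ℝ) / N ≤ S.card / N := by gcongr
  have d2 : (S.card : ℝ) / N ≤ W.card / N + (M.card / N + T.card / N) := by
    rw [← add_div, ← add_div]
    gcongr
  have d3 : (M.card : ℝ) / N ≤ ε / 4 := by
    rw [div_le_iff₀ hN']
    exact a1
  rw [hWc, Real.dist_eq, abs_lt]
  rw [Real.dist_eq, abs_lt] at hξ2 a2 a3
  constructor <;> linarith [hξ2.1, hξ2.2, a2.1, a2.2, a3.1, a3.2]

end Crest.Agent.R22
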