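import Crest.Agent.R22.Defs

set_option autoImplicit false
open Polynomial IntermediateField

namespace Crest.Agent.R22

variable {d : ℕ}

theorem NH_sq_dvd {z : ℂ} {p : ℂ[X]} :
    (X - C z) ^ 2 ∣ p ↔ p.eval z = 0 ∧ p.derivative.eval z = 0 := by
  constructor
  · rintro ⟨q, rfl⟩
    simp [derivative_pow]
  · rintro ⟨h1, h2⟩
    obtain ⟨q, rfl⟩ := dvd_iff_isRoot.2 h1
    rw [sq]
    refine mul_dvd_mul_left _ (dvd_iff_isRoot.2 ?_)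
    simpa using h2

theorem NH_ev {p : ℂ[X]} (hp : p.natDegree ≤ 10) {ε R : ℝ} (hR : 1 ≤ R)
    (h : ∀ i, ‖p.coeff i‖ ≤ ε) {t : ℂ} (ht : ‖t‖ ≤ R) : ‖p.eval t‖ ≤ 11 * (ε * R ^ 10) := by
  have hε : 0 ≤ ε := (norm_nonneg _).trans (h 0)
  rw [eval_eq_sum_range' (n := 11) (by omega)]
  refine (norm_sum_le _ _).trans ((Finset.sum_le_card_nsmul _ _ (ε * R ^ 10) fun i hi => ?_).trans
    (by simp))
  rw [norm_mul, norm_pow]
  refine mul_le_mul (h i) ((pow_le_pow_left₀ (norm_nonneg _) ht i).trans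
    (pow_le_pow_right₀ hR (Nat.lt_succ_iff.1 (Finset.mem_range.1 hi)))) (by positivity) hε

theorem NH_der {p : ℂ[X]} (hp : p.natDegree ≤ 10) {ε : ℝ} (h : ∀ i, ‖p.coeff i‖ ≤ ε) (i : ℕ) :
    ‖p.derivative.coeff i‖ ≤ 10 * ε := by
  have hε : 0 ≤ ε := (norm_nonneg _).trans (h 0)
  rw [coeff_derivative]
  rcases le_or_gt 10 i with hi | hi
  · rw [coeff_eq_zero_of_natDegree_lt (by omega)]
    simpa using hε
  · rw [norm_mul, mul_comm]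
    refine mul_le_mul ?_ (h _) (norm_nonneg _) (by norm_num)
    have : ((i : ℂ) + 1) = ((i + 1 : ℕ) : ℂ) := by push_cast; rfl
    rw [this, Complex.norm_natCast]
    exact_mod_cast hi

theorem NH_coeff {T : ℝ} (hT : 0 < T) : ∃ c : ℝ, 1 ≤ c ∧ ∀ p : ℂ[X], p.natDegree ≤ 10 → ∀ K : ℝ,
    (∀ t : ℂ, T ≤ ‖t‖ → ‖t‖ ≤ 11 * T → ‖p.eval t‖ ≤ K) → ∀ i, ‖p.coeff i‖ ≤ c * K := by
  let v : ℕ → ℂ := fun k => (((k + 1) * T : ℝ) : ℂ)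
  have hv : Set.InjOn v (Finset.range 11 : Finset ℕ) := fun k _ l _ h => by
    have h1 : ((k : ℝ) + 1) * T = (l + 1) * T := Complex.ofReal_injective h
    exact_mod_cast add_right_cancel (mul_right_cancel₀ hT.ne' h1)
  have hn : ∀ k ∈ Finset.range 11, T ≤ ‖v k‖ ∧ ‖v k‖ ≤ 11 * T := fun k hk => by
    have h1 : (k : ℝ) + 1 ≤ 11 := by exact_mod_cast Finset.mem_range.1 hk
    have h2 : (0 : ℝ) ≤ k := Nat.cast_nonneg k
    simp only [v, Complex.norm_real]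
    rw [Real.norm_of_nonneg (by positivity)]
    constructor <;> nlinarith
  let b : ℕ → ℝ := fun k => ∑ i ∈ (Lagrange.basis (Finset.range 11) v k).support,
    ‖(Lagrange.basis (Finset.range 11) v k).coeff i‖
  have hb0 : ∀ k, 0 ≤ b k := fun k => Finset.sum_nonneg fun _ _ => norm_nonneg _
  have hb : ∀ k i, ‖(Lagrange.basis (Finset.range 11) v k).coeff i‖ ≤ b k := fun k i => by
    by_cases hi : i ∈ (Lagrange.basis (Finset.range 11) v k).support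
    · exact Finset.single_le_sum (f := fun i => ‖(Lagrange.basis (Finset.range 11) v k).coeff i‖)
        (fun _ _ => norm_nonneg _) hi
    · rw [notMem_support_iff.1 hi, norm_zero]; exact hb0 k
  have hs : 0 ≤ ∑ k ∈ Finset.range 11, b k := Finset.sum_nonneg fun k _ => hb0 k
  refine ⟨1 + ∑ k ∈ Finset.range 11, b k, by linarith, fun p hp K hK i => ?_⟩
  have hK0 : 0 ≤ K := (norm_nonneg _).trans (hK _ (hn 0 (by simp)).1 (hn 0 (by simp)).2)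
  have h1 := Lagrange.eq_interpolate (f := p) hv (degree_le_natDegree.trans_lt (by
    rw [Finset.card_range]; exact_mod_cast Nat.lt_succ_of_le hp))
  rw [h1, Lagrange.interpolate_apply, finsetSum_coeff, add_mul, Finset.sum_mul]
  refine (norm_sum_le _ _).trans ((Finset.sum_le_sum fun k hk => ?_).trans
    (le_add_of_nonneg_left (by linarith)))
  rw [coeff_C_mul, norm_mul, mul_comm]
  exact mul_le_mul (hb k i) (hK _ (hn k hk).1 (hn k hk).2) (norm_nonneg _) (hb0 k)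

theorem NH_loc {a b c z : ℂ} {δ η : ℝ} (hδ : 0 < δ) (hδ1 : δ ≤ 1) (ha : δ ≤ ‖z - a‖)
    (hb : δ ≤ ‖z - b‖) (hc : δ ≤ ‖z - c‖) (G : ℂ[X]) (h0 : ‖G.eval z‖ ≤ η)
    (h1 : ‖G.derivative.eval z‖ ≤ η) : ∃ A B : ℂ, ‖A‖ + ‖B‖ ≤ 10 * (η / δ ^ 9) ∧
      (X - C z) ^ 2 ∣ G - (X - C a) ^ 4 * (X - C b) ^ 2 * (X - C c) ^ 2 * (C A + C B * (X - C z)) := by
  have hη : 0 ≤ η := (norm_nonneg _).trans h0
  have na : z - a ≠ 0 := norm_pos_iff.1 (hδ.trans_le ha)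
  have nb : z - b ≠ 0 := norm_pos_iff.1 (hδ.trans_le hb)
  have nc : z - c ≠ 0 := norm_pos_iff.1 (hδ.trans_le hc)
  have hw : δ ^ 8 ≤ ‖(z - a) ^ 4 * (z - b) ^ 2 * (z - c) ^ 2‖ := by
    rw [norm_mul, norm_mul, norm_pow, norm_pow, norm_pow, show δ ^ 8 = δ ^ 4 * δ ^ 2 * δ ^ 2 by ring]
    gcongr
  have hd : ∀ {x : ℂ}, ‖x‖ ≤ η → ‖x / ((z - a) ^ 4 * (z - b) ^ 2 * (z - c) ^ 2)‖ ≤ η / δ ^ 8 :=
    fun hx => by
      rw [norm_div]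
      exact div_le_div₀ hη hx (by positivity) hw
  have hi : ∀ {x : ℂ}, δ ≤ ‖x‖ → ‖x⁻¹‖ ≤ δ⁻¹ := fun hx => by
    rw [norm_inv]; exact inv_anti₀ hδ hx
  have hl : ‖4 * (z - a)⁻¹ + 2 * (z - b)⁻¹ + 2 * (z - c)⁻¹‖ ≤ 8 * δ⁻¹ := by
    refine norm_add₃_le.trans ?_
    simp only [norm_mul, Complex.norm_ofNat]
    linarith [hi ha, hi hb, hi hc]
  refine ⟨G.eval z / ((z - a) ^ 4 * (z - b) ^ 2 * (z - c) ^ 2),
    G.derivative.eval z / ((z - a) ^ 4 * (z - b) ^ 2 * (z - c) ^ 2) -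
      G.eval z / ((z - a) ^ 4 * (z - b) ^ 2 * (z - c) ^ 2) *
        (4 * (z - a)⁻¹ + 2 * (z - b)⁻¹ + 2 * (z - c)⁻¹), ?_, NH_sq_dvd.2 ⟨?_, ?_⟩⟩
  · have h2 : η / δ ^ 8 ≤ η / δ ^ 9 :=
      div_le_div_of_nonneg_left hη (by positivity) (pow_le_pow_of_le_one hδ.le hδ1 (by norm_num))
    have h3 := (norm_mul_le _ _).trans (mul_le_mul (hd h0) hl (norm_nonneg _) (by positivity))
    have h4 : η / δ ^ 8 * (8 * δ⁻¹) = 8 * (η / δ ^ 9) := by field_simp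
    have h5 := (norm_sub_le _ _).trans (add_le_add (hd h1) h3)
    linarith [hd h0]
  · simp only [eval_sub, eval_mul, eval_pow, eval_add, eval_X, eval_C]
    field_simp
    ring
  · simp only [derivative_sub, derivative_mul, derivative_pow, derivative_add, derivative_X,
      derivative_C, eval_sub, eval_mul, eval_pow, eval_add, eval_X, eval_C, eval_one, eval_zero]
    norm_num
    field_simp
    ring

/-- Hermite interpolation. -/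
theorem NH_herm {a b c d : ℂ} {δ η : ℝ} (hδ : 0 < δ) (hδ1 : δ ≤ 1) (hba : δ ≤ ‖b - a‖)
    (hca : δ ≤ ‖c - a‖) (hda : δ ≤ ‖d - a‖) (hbc : δ ≤ ‖b - c‖) (hbd : δ ≤ ‖b - d‖)
    (hcd : δ ≤ ‖c - d‖) (G : ℂ[X]) (hG : G.natDegree ≤ 10) (h4 : (X - C a) ^ 4 ∣ G)
    (hb : ‖G.eval b‖ ≤ η ∧ ‖G.derivative.eval b‖ ≤ η)
    (hc : ‖G.eval c‖ ≤ η ∧ ‖G.derivative.eval c‖ ≤ η)
    (hd : ‖G.eval d‖ ≤ η ∧ ‖G.derivative.eval d‖ ≤ η) :
    ∃ m : ℂ, ∀ t w : ℂ, w = (t - a) ^ 4 * (t - b) ^ 2 * (t - c) ^ 2 * (t - d) ^ 2 →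
      1 ≤ ‖t - b‖ → 1 ≤ ‖t - c‖ → 1 ≤ ‖t - d‖ →
      ‖G.eval t - m * w‖ ≤ 30 * (η / δ ^ 9) * ‖w‖ := by
  obtain ⟨A₁, B₁, n₁, d₁⟩ := NH_loc hδ hδ1 hba hbc hbd G hb.1 hb.2
  obtain ⟨A₂, B₂, n₂, d₂⟩ := NH_loc hδ hδ1 hca (norm_sub_rev b c ▸ hbc) hcd G hc.1 hc.2
  obtain ⟨A₃, B₃, n₃, d₃⟩ := NH_loc hδ hδ1 hda (norm_sub_rev b d ▸ hbd) (norm_sub_rev c d ▸ hcd) G
    hd.1 hd.2
  have cop : ∀ {x y : ℂ} (k l : ℕ), δ ≤ ‖x - y‖ → IsCoprime ((X - C y) ^ k) ((X - C x) ^ l) :=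
    fun {x y} k l h => (isCoprime_X_sub_C_of_isUnit_sub (isUnit_iff_ne_zero.2
      (norm_pos_iff.1 (hδ.trans_le (norm_sub_rev x y ▸ h))))).pow
  obtain ⟨E, hE⟩ : ∃ E : ℂ[X], E = G -
      (X - C a) ^ 4 * (X - C c) ^ 2 * (X - C d) ^ 2 * (C A₁ + C B₁ * (X - C b)) -
      (X - C a) ^ 4 * (X - C b) ^ 2 * (X - C d) ^ 2 * (C A₂ + C B₂ * (X - C c)) -
      (X - C a) ^ 4 * (X - C b) ^ 2 * (X - C c) ^ 2 * (C A₃ + C B₃ * (X - C d)) := ⟨_, rfl⟩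
  have e0 : (X - C a) ^ 4 ∣ E := by
    rw [hE]
    simp only [mul_assoc]
    exact ((h4.sub (dvd_mul_right _ _)).sub (dvd_mul_right _ _)).sub (dvd_mul_right _ _)
  have e1 : (X - C b) ^ 2 ∣ E := by
    rw [hE]
    exact (d₁.sub (((dvd_mul_left _ _).mul_right _).mul_right _)).sub
      (((dvd_mul_left _ _).mul_right _).mul_right _)
  have e2 : (X - C c) ^ 2 ∣ E := by
    rw [hE, sub_right_comm G]
    exact (d₂.sub (((dvd_mul_left _ _).mul_right _).mul_right _)).sub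
      ((dvd_mul_left _ _).mul_right _)
  have e3 : (X - C d) ^ 2 ∣ E := by
    rw [hE, sub_right_comm (G - _), sub_right_comm G]
    exact (d₃.sub ((dvd_mul_left _ _).mul_right _)).sub ((dvd_mul_left _ _).mul_right _)
  have e4 : (X - C a) ^ 4 * (X - C b) ^ 2 * (X - C c) ^ 2 * (X - C d) ^ 2 ∣ E :=
    (((cop 4 2 hda).mul_left (cop 2 2 (norm_sub_rev b d ▸ hbd))).mul_left
      (cop 2 2 (norm_sub_rev c d ▸ hcd))).mul_dvd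
      (((cop 4 2 hca).mul_left (cop 2 2 (norm_sub_rev b c ▸ hbc))).mul_dvd
        ((cop 4 2 hba).mul_dvd e0 e1) e2) e3
  have hdeg : E.natDegree ≤ 10 := by
    rw [hE]
    refine (natDegree_sub_le_iff_left ?_).2 ((natDegree_sub_le_iff_left ?_).2
      ((natDegree_sub_le_iff_left ?_).2 hG)) <;> compute_degree!
  obtain ⟨Q, hQ⟩ := e4
  obtain ⟨m, hm⟩ : ∃ m, Q = C m := by
    rcases eq_or_ne Q 0 with rfl | hQ0
    · exact ⟨0, by simp⟩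
    · have hmon : ((X - C a) ^ 4 * (X - C b) ^ 2 * (X - C c) ^ 2 * (X - C d) ^ 2 : ℂ[X]).Monic :=
        ((((monic_X_sub_C a).pow 4).mul ((monic_X_sub_C b).pow 2)).mul
          ((monic_X_sub_C c).pow 2)).mul ((monic_X_sub_C d).pow 2)
      have h10 : ((X - C a) ^ 4 * (X - C b) ^ 2 * (X - C c) ^ 2 * (X - C d) ^ 2 : ℂ[X]).natDegree =
          10 := by compute_degree!
      rw [hQ, natDegree_mul hmon.ne_zero hQ0, h10] at hdeg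
      exact ⟨_, eq_C_of_natDegree_le_zero (by omega)⟩
  refine ⟨m, fun t w hw tb tc td => ?_⟩
  have h5 := congrArg (eval t) (hE.symm.trans hQ)
  simp only [hm, eval_sub, eval_mul, eval_pow, eval_add, eval_X, eval_C] at h5
  have nz : ∀ {x : ℂ}, 1 ≤ ‖x‖ → x ≠ 0 := fun h => norm_pos_iff.1 (one_pos.trans_le h)
  have h6 : G.eval t - m * w = ((A₁ / (t - b) ^ 2 + B₁ / (t - b)) + (A₂ / (t - c) ^ 2 + B₂ / (t - c)) +
      (A₃ / (t - d) ^ 2 + B₃ / (t - d))) * w := by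
    have := nz tb
    have := nz tc
    have := nz td
    rw [hw]
    field_simp
    linear_combination h5
  have h7 : ∀ {A B x : ℂ}, 1 ≤ ‖x‖ → ‖A / x ^ 2 + B / x‖ ≤ ‖A‖ + ‖B‖ := fun {A B x} h => by
    refine (norm_add_le _ _).trans (add_le_add ?_ ?_)
    · rw [norm_div, norm_pow]; exact div_le_self (norm_nonneg _) (one_le_pow₀ h)
    · rw [norm_div]; exact div_le_self (norm_nonneg _) h
  rw [h6, norm_mul]
  refine mul_le_mul_of_nonneg_right (norm_add₃_le.trans ?_) (norm_nonneg _)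
  linarith [h7 (A := A₁) (B := B₁) tb, h7 (A := A₂) (B := B₂) tc, h7 (A := A₃) (B := B₃) td]

theorem NH_polar {a b c μ₀ μ₁ μ₂ : ℂ} {T K δ : ℝ} (hT : 0 < T) (hb : ‖b‖ ≤ T) (hc : ‖c‖ ≤ T)
    (hδ : 0 < δ) (hba : δ ≤ ‖b - a‖) (hca : δ ≤ ‖c - a‖)
    (h : ∀ t : ℂ, T ≤ ‖t‖ → ‖t‖ ≤ 11 * T →
      ‖μ₀ * (t - a) ^ 2 + μ₁ * (t - b) ^ 2 + μ₂ * (t - c) ^ 2‖ ≤ K) : ‖μ₀‖ ≤ 4 * K / δ ^ 2 := by
  have hT' : (T : ℂ) ≠ 0 := by exact_mod_cast hT.ne'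
  have nT : ‖(T : ℂ)‖ = T := by rw [Complex.norm_real, Real.norm_of_nonneg hT.le]
  obtain ⟨F, hF⟩ : ∃ F : ℂ → ℂ, ∀ t, F t =
    μ₀ * (t - a) ^ 2 + μ₁ * (t - b) ^ 2 + μ₂ * (t - c) ^ 2 := ⟨_, fun _ => rfl⟩
  simp only [← hF] at h
  have f1 := h T nT.ge (by rw [nT]; linarith)
  have f2 := h (-T) (by rw [norm_neg, nT]) (by rw [norm_neg, nT]; linarith)
  have f3 := h (Complex.I * T) (by simp [abs_of_pos hT]) (by simp [abs_of_pos hT]; linarith)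
  have f4 := h (-(Complex.I * T)) (by simp [abs_of_pos hT]) (by simp [abs_of_pos hT]; linarith)
  have hK : 0 ≤ K := (norm_nonneg _).trans f1
  obtain ⟨x, rfl⟩ : ∃ x, b = x * T := ⟨b / T, by field_simp⟩
  obtain ⟨y, rfl⟩ : ∃ y, c = y * T := ⟨c / T, by field_simp⟩
  rw [norm_mul, nT] at hb hc
  have hx : ‖x‖ ≤ 1 := le_of_mul_le_mul_right (by linarith) hT
  have hy : ‖y‖ ≤ 1 := le_of_mul_le_mul_right (by linarith) hT
  have key : 4 * (μ₀ * (x * T - a) * (y * T - a)) =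
      (x * y) * (F T + F (-T) - F (Complex.I * T) - F (-(Complex.I * T))) +
      (x + y) * (F T - F (-T)) + (F T + F (-T) + F (Complex.I * T) + F (-(Complex.I * T))) := by
    simp only [hF]
    linear_combination (2 * (T : ℂ) ^ 2 * (μ₀ + μ₁ + μ₂) * (x * y - 1)) * Complex.I_sq
  have g1 : ‖F T + F (-T) - F (Complex.I * T) - F (-(Complex.I * T))‖ ≤ 4 * K := by
    refine (norm_sub_le _ _).trans ?_
    linarith [norm_sub_le (F T + F (-T)) (F (Complex.I * T)), norm_add_le (F T) (F (-T))]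
  have g2 : ‖F T - F (-T)‖ ≤ 2 * K := (norm_sub_le _ _).trans (by linarith)
  have g3 : ‖F T + F (-T) + F (Complex.I * T) + F (-(Complex.I * T))‖ ≤ 4 * K :=
    norm_add₄_le.trans (by linarith)
  have g4 : ‖x * y‖ ≤ 1 := (norm_mul_le _ _).trans (mul_le_one₀ hx (norm_nonneg _) hy)
  have g5 : ‖x + y‖ ≤ 2 := (norm_add_le _ _).trans (by linarith)
  have g6 := (norm_mul_le _ _).trans (mul_le_mul g4 g1 (norm_nonneg _) zero_le_one)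
  have g7 := (norm_mul_le _ _).trans (mul_le_mul g5 g2 (norm_nonneg _) zero_le_two)
  have g8 : ‖4 * (μ₀ * (x * T - a) * (y * T - a))‖ ≤ 12 * K := by
    rw [key]; exact norm_add₃_le.trans (by linarith)
  rw [norm_mul, norm_mul, norm_mul, Complex.norm_ofNat] at g8
  have g9 : ‖μ₀‖ * δ * δ ≤ ‖μ₀‖ * ‖x * T - a‖ * ‖y * T - a‖ := by gcongr
  rw [le_div_iff₀ (by positivity)]
  linarith

theorem NH_step {G₀ G₁ G₂ g m₀ m₁ m₂ β₀ β₁ β₂ P l₀ l₁ l₂ : ℂ} {r R Λ e : ℝ} (hr : 0 ≤ r)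
    (hg : g = l₀ * G₀ + l₁ * G₁ + l₂ * G₂) (h₀ : ‖G₀ - m₀ * (β₀ ^ 2 * P)‖ ≤ r * ‖β₀ ^ 2 * P‖)
    (h₁ : ‖G₁ - m₁ * (β₁ ^ 2 * P)‖ ≤ r * ‖β₁ ^ 2 * P‖)
    (h₂ : ‖G₂ - m₂ * (β₂ ^ 2 * P)‖ ≤ r * ‖β₂ ^ 2 * P‖) (b₀ : ‖β₀‖ ≤ R) (b₁ : ‖β₁‖ ≤ R)
    (b₂ : ‖β₂‖ ≤ R) (c₀ : ‖l₀‖ ≤ Λ) (c₁ : ‖l₁‖ ≤ Λ) (c₂ : ‖l₂‖ ≤ Λ) (hP : 1 ≤ ‖P‖) (he : ‖g‖ ≤ e) :
    ‖l₀ * m₀ * β₀ ^ 2 + l₁ * m₁ * β₁ ^ 2 + l₂ * m₂ * β₂ ^ 2‖ ≤ e + 3 * (Λ * r * R ^ 2) := by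
  have key : ∀ {G m β l : ℂ}, ‖G - m * (β ^ 2 * P)‖ ≤ r * ‖β ^ 2 * P‖ → ‖β‖ ≤ R → ‖l‖ ≤ Λ →
      ‖l * (G - m * (β ^ 2 * P))‖ ≤ Λ * r * R ^ 2 * ‖P‖ := fun {G m β l} h hb hl => by
    have hΛ : 0 ≤ Λ := (norm_nonneg _).trans hl
    rw [norm_mul, norm_pow] at h
    rw [norm_mul]
    calc ‖l‖ * ‖G - m * (β ^ 2 * P)‖ ≤ Λ * (r * (‖β‖ ^ 2 * ‖P‖)) := by gcongr
      _ ≤ Λ * (r * (R ^ 2 * ‖P‖)) := by gcongr
      _ = _ := by ring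
  have e1 : (l₀ * m₀ * β₀ ^ 2 + l₁ * m₁ * β₁ ^ 2 + l₂ * m₂ * β₂ ^ 2) * P =
      g - (l₀ * (G₀ - m₀ * (β₀ ^ 2 * P)) + l₁ * (G₁ - m₁ * (β₁ ^ 2 * P)) +
        l₂ * (G₂ - m₂ * (β₂ ^ 2 * P))) := by rw [hg]; ring
  refine le_of_mul_le_mul_right ?_ (one_pos.trans_le hP)
  rw [← norm_mul, e1]
  refine (norm_sub_le _ _).trans ?_
  have e2 : e ≤ e * ‖P‖ := le_mul_of_one_le_right ((norm_nonneg _).trans he) hP
  linarith [norm_add₃_le (a := l₀ * (G₀ - m₀ * (β₀ ^ 2 * P))) (b := l₁ * (G₁ - m₁ * (β₁ ^ 2 * P)))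
    (c := l₂ * (G₂ - m₂ * (β₂ ^ 2 * P))), key h₀ b₀ c₀, key h₁ b₁ c₁, key h₂ b₂ c₂]

theorem NH_word {g : ℂ[X][X]} (hg : g.natDegree ≤ 2) {L : ℂ[X]} {a : ℂ} (h : WOrd g L a 2 4) :
    L ^ 4 ∣ g.coeff 0 + g.coeff 1 * C a + g.coeff 2 * C a ^ 2 ∧
      L ^ 2 ∣ g.coeff 1 + 2 * g.coeff 2 * C a := by
  have h0 := h 0
  have h1 := h 1
  rw [taylor_coeff_zero, eval_eq_sum_range' (n := 3) (by omega)] at h0
  rw [taylor_coeff_one, eval_eq_sum_range' (n := 2)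
    (lt_of_le_of_lt (natDegree_derivative_le g) (by omega))] at h1
  simp only [Finset.sum_range_succ, Finset.sum_range_zero, coeff_derivative] at h0 h1
  constructor
  · convert h0 using 1; ring
  · convert h1 using 1; push_cast; ring

/-- Non-hugging lemma. `g = g_2 n² + g_1 n + g_0`, `β_j = X - z_j`, `g(θ_j) = β_j⁴ P_j`
(`deg P_j ≤ 6`), `g'(θ_j) = β_j² Q_j`, `ε ≥ ‖g_2‖`. Taylor:
`β_i⁴ P_i = β_j⁴ P_j + κ β_j² Q_j + κ² g_2` (`κ = θ_i - θ_j`), so `P_i(z_j) = O(ε δ⁻⁴)`,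
`P_i'(z_j) = O(ε δ⁻⁵)` for `j ≠ i`. Hermite interpolation:
`P_i = m_i ∏_{j≠i} β_j² + E_i`, `E_i = ∑_j β_l² β_m² q_j` (`q_j` linear), `‖E_i‖ = O(ε δ⁻⁹)`.
Second divided difference: `g_2 = ∑_{i<3} λ_i β_i⁴ P_i`, hence
`(∏ β²) ∑_{i<3} λ_i m_i β_i² = O(ε δ⁻⁹)`; dividing by monic linear factors with bounded roots costs a
constant; the polar form at `(z_1, z_2)` extracts `λ_0 m_0 (z_1-z_0)(z_2-z_0)`, so
`m_i = O(ε δ⁻¹¹)`, and `g` is recovered from `g(θ_0), g(θ_1), g(θ_2)`. -/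
theorem nh (th : Fin 4 → ℂ) (hth : Function.Injective th) (C0 : ℝ) (h0 : 1 ≤ C0) :
    ∃ C : ℝ, 1 ≤ C ∧ ∀ (δ ε : ℝ) (z : Fin 4 → ℂ) (g : ℂ[X][X]), 0 < δ → δ ≤ 1 →
      (∀ j, ‖z j‖ ≤ C0) → (∀ i j, i ≠ j → δ ≤ ‖z i - z j‖) → g.natDegree ≤ 2 →
      (∀ i, (g.coeff i).natDegree ≤ 10) → (∀ j, WOrd g (X - Polynomial.C (z j)) (th j) 2 4) →
      (∀ i, ‖(g.coeff 2).coeff i‖ ≤ ε) → CoLE g (C * ε / δ ^ 12) := by
  obtain ⟨Θ, hΘ1, hΘ, hΘ'⟩ : ∃ Θ : ℝ, 1 ≤ Θ ∧ (∀ i, ‖th i‖ ≤ Θ) ∧ ∀ i j, ‖(th i - th j)⁻¹‖ ≤ Θ := by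
    obtain ⟨x, hx⟩ := (Set.finite_range fun i => ‖th i‖).bddAbove
    obtain ⟨y, hy⟩ := (Set.finite_range fun p : Fin 4 × Fin 4 => ‖(th p.1 - th p.2)⁻¹‖).bddAbove
    exact ⟨max 1 (max x y), le_max_left _ _,
      fun i => (hx ⟨i, rfl⟩).trans ((le_max_left _ _).trans (le_max_right _ _)),
      fun i j => (hy ⟨(i, j), rfl⟩).trans ((le_max_right _ _).trans (le_max_right _ _))⟩
  obtain ⟨T, hT⟩ : ∃ T, T = C0 + 1 := ⟨_, rfl⟩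
  have hT1 : 1 ≤ T := by linarith
  have hT0 : 0 < T := by linarith
  obtain ⟨c, hc1, hc⟩ := NH_coeff hT0
  obtain ⟨R, hR⟩ : ∃ R, R = 12 * T := ⟨_, rfl⟩
  have hR1 : 1 ≤ R := by linarith
  obtain ⟨k₁, hk₁⟩ : ∃ k₁, k₁ = 1 + 360 * Θ ^ 4 * R ^ 2 := ⟨_, rfl⟩
  obtain ⟨k₂, hk₂⟩ : ∃ k₂, k₂ = (16 * Θ ^ 2 * k₁ + 120 * Θ ^ 2) * R ^ 10 := ⟨_, rfl⟩
  obtain ⟨k₃, hk₃⟩ : ∃ k₃, k₃ = 2 * k₂ * Θ + 2 * Θ := ⟨_, rfl⟩
  obtain ⟨k₄, hk₄⟩ : ∃ k₄, k₄ = k₂ + k₃ * Θ + Θ ^ 2 := ⟨_, rfl⟩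
  have p₁ : 0 ≤ k₁ := by rw [hk₁]; positivity
  have p₂ : 0 ≤ k₂ := by rw [hk₂]; positivity
  have p₃ : 0 ≤ k₃ := by rw [hk₃]; positivity
  have p₄ : 0 ≤ k₄ := by rw [hk₄]; positivity
  have hC : 1 ≤ c * ((1 + k₃ + k₄) * (110 * R ^ 10)) :=
    one_le_mul_of_one_le_of_one_le hc1 (one_le_mul_of_one_le_of_one_le (by linarith)
      (one_le_mul_of_one_le_of_one_le (by norm_num) (one_le_pow₀ hR1)))
  refine ⟨_, hC, fun δ ε z g hδ hδ1 hz hsep hg hdeg hW hε => ?_⟩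
  have hε0 : 0 ≤ ε := (norm_nonneg _).trans (hε 0)
  obtain ⟨e, he⟩ : ∃ e, e = 110 * R ^ 10 * ε := ⟨_, rfl⟩
  have he0 : 0 ≤ e := by rw [he]; positivity
  have hg2 : ∀ t : ℂ, ‖t‖ ≤ R → ‖(g.coeff 2).eval t‖ ≤ e ∧ ‖(g.coeff 2).derivative.eval t‖ ≤ e :=
    fun t ht => by
      have h1 := NH_ev (hdeg 2) hR1 hε ht
      have h2 := NH_ev ((natDegree_derivative_le _).trans ((Nat.sub_le _ _).trans (hdeg 2))) hR1
        (NH_der (hdeg 2) hε) ht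
      have h3 : 0 ≤ ε * R ^ 10 := by positivity
      rw [he]
      constructor <;> linarith
  obtain ⟨G, hG⟩ : ∃ G : Fin 4 → ℂ[X], ∀ i, G i =
    g.coeff 0 + g.coeff 1 * C (th i) + g.coeff 2 * C (th i) ^ 2 := ⟨_, fun _ => rfl⟩
  have hGd : ∀ i, (G i).natDegree ≤ 10 := fun i => by
    rw [hG, ← C_pow]
    exact natDegree_add_le_of_degree_le (natDegree_add_le_of_degree_le (hdeg 0)
      ((natDegree_mul_C_le _ _).trans (hdeg 1))) ((natDegree_mul_C_le _ _).trans (hdeg 2))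
  have hG4 : ∀ i, (X - C (z i)) ^ 4 ∣ G i := fun i => hG i ▸ (NH_word hg (hW i)).1
  have hth2 : ∀ i j, ‖th i - th j‖ ≤ 2 * Θ := fun i j =>
    (norm_sub_le _ _).trans (by linarith [hΘ i, hΘ j])
  have hGz : ∀ i j, ‖(G i).eval (z j)‖ ≤ 4 * Θ ^ 2 * e ∧
      ‖(G i).derivative.eval (z j)‖ ≤ 4 * Θ ^ 2 * e := fun i j => by
    have h1 : (X - C (z j)) ^ 2 ∣ G i - C ((th i - th j) ^ 2) * g.coeff 2 := by
      have : G i - C ((th i - th j) ^ 2) * g.coeff 2 =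
          G j + C (th i - th j) * (g.coeff 1 + 2 * g.coeff 2 * C (th j)) := by
        simp only [hG, C_pow, C_sub]; ring
      rw [this]
      exact ((pow_dvd_pow _ (by norm_num)).trans (hG4 j)).add ((NH_word hg (hW j)).2.mul_left _)
    obtain ⟨h2, h3⟩ := NH_sq_dvd.1 h1
    rw [eval_sub, eval_C_mul, sub_eq_zero] at h2
    rw [derivative_sub, derivative_C_mul, eval_sub, eval_C_mul, sub_eq_zero] at h3
    have h4 := hg2 (z j) ((hz j).trans (by linarith))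
    have h5 : ‖(th i - th j) ^ 2‖ ≤ 4 * Θ ^ 2 := by
      rw [norm_pow]
      exact (pow_le_pow_left₀ (norm_nonneg _) (hth2 i j) 2).trans_eq (by ring)
    rw [h2, h3, norm_mul, norm_mul]
    exact ⟨mul_le_mul h5 h4.1 (norm_nonneg _) (by positivity),
      mul_le_mul h5 h4.2 (norm_nonneg _) (by positivity)⟩
  obtain ⟨m₀, hm₀⟩ := NH_herm hδ hδ1 (hsep 1 0 (by decide)) (hsep 2 0 (by decide))
    (hsep 3 0 (by decide)) (hsep 1 2 (by decide)) (hsep 1 3 (by decide)) (hsep 2 3 (by decide))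
    (G 0) (hGd 0) (hG4 0) (hGz 0 1) (hGz 0 2) (hGz 0 3)
  obtain ⟨m₁, hm₁⟩ := NH_herm hδ hδ1 (hsep 0 1 (by decide)) (hsep 2 1 (by decide))
    (hsep 3 1 (by decide)) (hsep 0 2 (by decide)) (hsep 0 3 (by decide)) (hsep 2 3 (by decide))
    (G 1) (hGd 1) (hG4 1) (hGz 1 0) (hGz 1 2) (hGz 1 3)
  obtain ⟨m₂, hm₂⟩ := NH_herm hδ hδ1 (hsep 0 2 (by decide)) (hsep 1 2 (by decide))
    (hsep 3 2 (by decide)) (hsep 0 1 (by decide)) (hsep 0 3 (by decide)) (hsep 1 3 (by decide))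
    (G 2) (hGd 2) (hG4 2) (hGz 2 0) (hGz 2 1) (hGz 2 3)
  have hβ : ∀ t : ℂ, T ≤ ‖t‖ → ‖t‖ ≤ 11 * T → ∀ j, 1 ≤ ‖t - z j‖ ∧ ‖t - z j‖ ≤ R :=
    fun t h1 h2 j => ⟨by linarith [norm_sub_norm_le t (z j), hz j],
      by linarith [norm_sub_le t (z j), hz j]⟩
  have hne : ∀ i j, i ≠ j → th i - th j ≠ 0 := fun i j h => sub_ne_zero.2 (hth.ne h)
  have hl : ∀ i j k, ‖(th i - th j)⁻¹ * (th i - th k)⁻¹‖ ≤ Θ ^ 2 := fun i j k => by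
    rw [norm_mul, sq]; exact mul_le_mul (hΘ' i j) (hΘ' i k) (norm_nonneg _) (by linarith)
  have d9 : e ≤ e / δ ^ 9 := le_div_self he0 (by positivity) (pow_le_one₀ hδ.le hδ1)
  have hS : ∀ t : ℂ, T ≤ ‖t‖ → ‖t‖ ≤ 11 * T →
      ‖(th 0 - th 1)⁻¹ * (th 0 - th 2)⁻¹ * m₀ * (t - z 0) ^ 2 +
        (th 1 - th 0)⁻¹ * (th 1 - th 2)⁻¹ * m₁ * (t - z 1) ^ 2 +
        (th 2 - th 0)⁻¹ * (th 2 - th 1)⁻¹ * m₂ * (t - z 2) ^ 2‖ ≤ k₁ * (e / δ ^ 9) := by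
    intro t h1 h2
    have hb := hβ t h1 h2
    refine (NH_step (P := (t - z 0) ^ 2 * (t - z 1) ^ 2 * (t - z 2) ^ 2 * (t - z 3) ^ 2)
      (g := (g.coeff 2).eval t) (by positivity) ?_
      (hm₀ t _ (by ring) (hb 1).1 (hb 2).1 (hb 3).1) (hm₁ t _ (by ring) (hb 0).1 (hb 2).1 (hb 3).1)
      (hm₂ t _ (by ring) (hb 0).1 (hb 1).1 (hb 3).1) (hb 0).2 (hb 1).2 (hb 2).2 (hl 0 1 2)
      (hl 1 0 2) (hl 2 0 1) ?_ (hg2 t (by linarith)).1).trans ?_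
    · have n01 := hne 0 1 (by decide)
      have n02 := hne 0 2 (by decide)
      have n12 := hne 1 2 (by decide)
      rw [← neg_sub (th 0) (th 1), ← neg_sub (th 0) (th 2), ← neg_sub (th 1) (th 2)]
      simp only [hG, eval_add, eval_mul, eval_pow, eval_C, inv_neg]
      field_simp
      ring
    · simp only [norm_mul, norm_pow]
      exact one_le_mul_of_one_le_of_one_le (one_le_mul_of_one_le_of_one_le
        (one_le_mul_of_one_le_of_one_le (one_le_pow₀ (hb 0).1) (one_le_pow₀ (hb 1).1))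
        (one_le_pow₀ (hb 2).1)) (one_le_pow₀ (hb 3).1)
    · have : 3 * (Θ ^ 2 * (30 * (4 * Θ ^ 2 * e / δ ^ 9)) * R ^ 2) =
        360 * Θ ^ 4 * R ^ 2 * (e / δ ^ 9) := by ring
      rw [this, hk₁]
      linarith
  obtain ⟨y, hy⟩ : ∃ y, y = e / δ ^ 11 := ⟨_, rfl⟩
  have d11 : e / δ ^ 9 ≤ y := hy ▸ div_le_div_of_nonneg_left he0 (by positivity)
    (pow_le_pow_of_le_one hδ.le hδ1 (by norm_num))
  have hy0 : 0 ≤ y := he0.trans (d9.trans d11)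
  have hzT : ∀ j, ‖z j‖ ≤ T := fun j => (hz j).trans (by linarith)
  have hm : ∀ {i j k : Fin 4} {m : ℂ}, i ≠ j → i ≠ k →
      ‖(th i - th j)⁻¹ * (th i - th k)⁻¹ * m‖ ≤ 4 * (k₁ * (e / δ ^ 9)) / δ ^ 2 →
      ‖m‖ ≤ 16 * Θ ^ 2 * k₁ * y := fun {i j k m} hij hik h => by
    have h1 : m = (th i - th j) * (th i - th k) * ((th i - th j)⁻¹ * (th i - th k)⁻¹ * m) := by
      have := hne i j hij
      have := hne i k hik
      field_simp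
    rw [h1, norm_mul, norm_mul]
    calc _ ≤ 2 * Θ * (2 * Θ) * (4 * (k₁ * (e / δ ^ 9)) / δ ^ 2) :=
          mul_le_mul (mul_le_mul (hth2 i j) (hth2 i k) (norm_nonneg _) (by linarith)) h
            (norm_nonneg _) (by positivity)
      _ = _ := by rw [hy]; field_simp; ring
  have b₀ := hm (i := 0) (j := 1) (k := 2) (by decide) (by decide) (NH_polar hT0 (hzT 1) (hzT 2) hδ (hsep 1 0 (by decide))
    (hsep 2 0 (by decide)) hS)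
  have b₁ := hm (i := 1) (j := 0) (k := 2) (m := m₁) (by decide) (by decide)
    (NH_polar hT0 (hzT 0) (hzT 2) hδ (hsep 0 1 (by decide)) (hsep 2 1 (by decide))
      fun t h1 h2 => (congrArg (fun x => ‖x + _‖) (add_comm _ _)).trans_le (hS t h1 h2))
  have hGb : ∀ {x m a b c d : ℂ}, ‖m‖ ≤ 16 * Θ ^ 2 * k₁ * y → ‖a‖ ≤ R → ‖b‖ ≤ R → ‖c‖ ≤ R →
      ‖d‖ ≤ R → ‖x - m * (a ^ 4 * b ^ 2 * c ^ 2 * d ^ 2)‖ ≤
        30 * (4 * Θ ^ 2 * e / δ ^ 9) * ‖a ^ 4 * b ^ 2 * c ^ 2 * d ^ 2‖ → ‖x‖ ≤ k₂ * y :=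
    fun {x m a b c d} h1 ha hb hc hd h2 => by
      have h3 : ‖a ^ 4 * b ^ 2 * c ^ 2 * d ^ 2‖ ≤ R ^ 10 := by
        simp only [norm_mul, norm_pow]
        rw [show R ^ 10 = R ^ 4 * R ^ 2 * R ^ 2 * R ^ 2 by ring]
        gcongr
      have h4 : 30 * (4 * Θ ^ 2 * e / δ ^ 9) ≤ 120 * Θ ^ 2 * y := by
        rw [show 30 * (4 * Θ ^ 2 * e / δ ^ 9) = 120 * Θ ^ 2 * (e / δ ^ 9) by ring]
        gcongr
      have h5 := h2.trans (mul_le_mul h4 h3 (norm_nonneg _) (by positivity))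
      have h6 := (norm_mul_le _ _).trans (mul_le_mul h1 h3 (norm_nonneg _) (by positivity))
      have h7 := norm_sub_norm_le x (m * (a ^ 4 * b ^ 2 * c ^ 2 * d ^ 2))
      rw [hk₂]
      linarith
  have hey : e ≤ y := d9.trans d11
  have hfin : ∀ t : ℂ, T ≤ ‖t‖ → ‖t‖ ≤ 11 * T →
      ‖(g.coeff 1).eval t‖ ≤ k₃ * y ∧ ‖(g.coeff 0).eval t‖ ≤ k₄ * y := by
    intro t h1 h2
    have hb := hβ t h1 h2
    have g0 := hGb b₀ (hb 0).2 (hb 1).2 (hb 2).2 (hb 3).2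
      (hm₀ t _ rfl (hb 1).1 (hb 2).1 (hb 3).1)
    have g1 := hGb b₁ (hb 1).2 (hb 0).2 (hb 2).2 (hb 3).2
      (hm₁ t _ rfl (hb 0).1 (hb 2).1 (hb 3).1)
    have g2 := (hg2 t (by linarith)).1.trans hey
    have e1 : (g.coeff 1).eval t = ((G 0).eval t - (G 1).eval t) * (th 0 - th 1)⁻¹ -
        (g.coeff 2).eval t * (th 0 + th 1) := by
      have := hne 0 1 (by decide)
      simp only [hG, eval_add, eval_mul, eval_pow, eval_C]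
      field_simp
      ring
    have e0 : (g.coeff 0).eval t = (G 0).eval t - (g.coeff 1).eval t * th 0 -
        (g.coeff 2).eval t * th 0 ^ 2 := by
      simp only [hG, eval_add, eval_mul, eval_pow, eval_C]
      ring
    have r1 : ‖(g.coeff 1).eval t‖ ≤ k₃ * y := by
      have h3 := (norm_mul_le _ _).trans (mul_le_mul ((norm_sub_le _ _).trans (add_le_add g0 g1))
        (hΘ' 0 1) (norm_nonneg _) (by positivity))
      have h4 := (norm_mul_le _ _).trans (mul_le_mul g2 ((norm_add_le _ _).trans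
        (add_le_add (hΘ 0) (hΘ 1))) (norm_nonneg _) hy0)
      rw [e1, hk₃]
      exact (norm_sub_le _ _).trans (by linarith)
    refine ⟨r1, ?_⟩
    have h3 := (norm_mul_le _ _).trans (mul_le_mul r1 (hΘ 0) (norm_nonneg _) (by positivity))
    have h4 := (norm_mul_le _ _).trans (mul_le_mul g2 ((norm_pow_le _ 2).trans
      (pow_le_pow_left₀ (norm_nonneg _) (hΘ 0) 2)) (norm_nonneg _) hy0)
    rw [e0, hk₄]
    refine (norm_sub_le _ _).trans ?_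
    linarith [norm_sub_le ((G 0).eval t) ((g.coeff 1).eval t * th 0)]
  have hlast : c * ((1 + k₃ + k₄) * y) ≤ c * ((1 + k₃ + k₄) * (110 * R ^ 10)) * ε / δ ^ 12 := by
    have : y ≤ e / δ ^ 12 := hy ▸ div_le_div_of_nonneg_left he0 (by positivity)
      (pow_le_pow_of_le_one hδ.le hδ1 (by norm_num))
    calc _ ≤ c * ((1 + k₃ + k₄) * (e / δ ^ 12)) := by gcongr
      _ = _ := by rw [he]; ring
  have q₃ : 0 ≤ k₃ * y := by positivity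
  have q₄ : 0 ≤ k₄ * y := by positivity
  intro i j
  refine le_trans (hc _ (hdeg i) _ (fun t h1 h2 => ?_) j) hlast
  rcases i with _ | _ | _ | i
  · linarith [(hfin t h1 h2).2]
  · linarith [(hfin t h1 h2).1]
  · linarith [(hg2 t (by linarith)).1.trans hey]
  · rw [coeff_eq_zero_of_natDegree_lt (by omega), eval_zero, norm_zero]
    positivity

end Crest.Agent.R22
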