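import Crest.Agent.R22.Defs

set_option autoImplicit false
open Polynomial IntermediateField

namespace Crest.Agent.R22

variable {d : ℕ}

theorem NumB5_zero {k : ℕ} {u r : ℝ} (hk : 0 < k) (hu : 0 < u) (h : 9 / 4 * u ^ 2 < r * k ^ 2) :
    SurfPar (k + 2) k r (3 / 2 * u) 0 ((((k + 2 : ℕ) : ℝ) - 2) * k / 2 * u) := by
  have hk' : (0 : ℝ) < k := Nat.cast_pos.2 hk
  have hr : 0 < r := pos_of_mul_pos_left (lt_of_le_of_lt (by positivity) h) (by positivity)
  have e : ((k + 2 : ℕ) : ℝ) - 2 = k := by simp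
  refine ⟨hr, by positivity, le_rfl, ?_, by rw [e]; positivity, ?_⟩
  · push_cast
    nlinarith
  have h1 : (3 / 2 * u) ^ 3 / (6 * r) < k * k / 2 * u / 2 := by
    rw [div_lt_iff₀ (by positivity)]
    nlinarith [mul_lt_mul_of_pos_left h hu]
  simp only [Theta, e]
  linarith [show (0 : ℝ) * (3 / 2 * u) ^ 2 / (2 * r) = 0 by simp]

/-- Scheme B, `d ≥ 5`. `ε = 1/100000`, `η0 = 1/1000`, `u = 1 - k b`, `η = etaC + 1/10000`.
Triangle parameters: `k0 = 0`, `rho = 3u/2`, `r = (9/4) u²/((d-2) k) + 1/10000`; for `d = 5` and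
`u ≤ 1/4` take instead `r = 3/1000`, `rho = 7.5 r`, `k0 = 3/5`. `(al, io) = (2,1), (3,1), (1,0), (1,0)`
for `d = 5, 6, 7, 8`. Checked numerically: totals `≤ .9944, .9964, .9951, .9955`. -/
theorem numB5 (hd : 5 ≤ d ∧ d ≤ 8) (k : ℕ) (hk : k + 2 = d) : ∃ ε η0 : ℝ, 0 < ε ∧ 0 < η0 ∧
    ∀ b g1 g2 : ℝ, CellB d k ε b g1 g2 → 0 ≤ 1 - k * g1 ∧
      ∃ (r rho k0 η : ℝ) (al io : ℕ),
        SurfPar d k r rho k0 ((d - 2 : ℝ) * k / 2 * (1 - k * b) - hg d * (g1 + g2)) ∧
        0 < eMin d * al + (eMin d + 2 * k) * io ∧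
        etaC (1 - k * b) (1 - k * g1) (eMin d) (eMin d + 2 * k) al io < η ∧
        mainE d ε g1 g2 + r + η ≤ 1 - η0 := by
  refine ⟨1 / 100000, 1 / 1000, by norm_num, by norm_num, fun b g1 g2 h => ?_⟩
  obtain ⟨hg1, hg2, b1, b2, g12, hs⟩ := h
  subst hk
  have hg0 : hg (k + 2) = 0 := if_neg (by omega)
  rw [hg0, zero_mul, sub_zero]
  obtain rfl | rfl | rfl | rfl : k = 3 ∨ k = 4 ∨ k = 5 ∨ k = 6 := by omega
  all_goals
    norm_num [uStar] at b1 b2 g12 hs
    refine ⟨by push_cast; linarith, ?_⟩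
  · rcases le_total (1 - 3 * b) (1 / 4) with h | h
    · refine ⟨3 / 1000, 9 / 400, 3 / 5, _, 2, 1, ⟨by norm_num, by norm_num, by norm_num,
        by norm_num, by norm_num; linarith, by norm_num [Theta]; linarith⟩, by norm_num,
        lt_add_of_pos_right _ (by norm_num : (0 : ℝ) < 1 / 10000), ?_⟩
      norm_num [mainE, etaC, eMin]
      linarith
    · refine ⟨(1 - 3 * b) / 5 - 3 / 100, _, _, _, 2, 1, NumB5_zero (by norm_num)
        (by push_cast; linarith) ?_, by norm_num,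
        lt_add_of_pos_right _ (by norm_num : (0 : ℝ) < 1 / 10000), ?_⟩
      · push_cast
        nlinarith [mul_nonneg (sub_nonneg.2 h) (sub_nonneg.2 b1)]
      · norm_num [mainE, etaC, eMin]
        linarith
  · refine ⟨(1 - 4 * b) / 10 - 138 / 10000, _, _, _, 3, 1, NumB5_zero (by norm_num)
      (by push_cast; linarith) ?_, by norm_num,
      lt_add_of_pos_right _ (by norm_num : (0 : ℝ) < 1 / 10000), ?_⟩
    · push_cast
      nlinarith [mul_nonneg (sub_nonneg.2 b2) (sub_nonneg.2 b1)]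
    · norm_num [mainE, etaC, eMin]
      linarith
  · refine ⟨(1 - 5 * b) / 10 - 135 / 10000, _, _, _, 1, 0, NumB5_zero (by norm_num)
      (by push_cast; linarith) ?_, by norm_num [eMin],
      lt_add_of_pos_right _ (by norm_num : (0 : ℝ) < 1 / 10000), ?_⟩
    · push_cast
      nlinarith [mul_nonneg (sub_nonneg.2 b2) (sub_nonneg.2 b1)]
    · norm_num [mainE, etaC, eMin]
      linarith
  · refine ⟨(1 - 6 * b) / 10 - 122 / 10000, _, _, _, 1, 0, NumB5_zero (by norm_num)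
      (by push_cast; linarith) ?_, by norm_num [eMin],
      lt_add_of_pos_right _ (by norm_num : (0 : ℝ) < 1 / 10000), ?_⟩
    · push_cast
      nlinarith [mul_nonneg (sub_nonneg.2 b2) (sub_nonneg.2 b1)]
    · norm_num [mainE, etaC, eMin]
      linarith

end Crest.Agent.R22
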