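import Crest.Agent.R22.Quart1

set_option autoImplicit false
open Polynomial IntermediateField

namespace Crest.Agent.R22

variable {d : ℕ}

/-- A polynomial of degree `≤ 4` vanishing at five points of a coordinate line vanishes on it. -/
theorem QSize_line {Q : MvPolynomial (Fin 4) ℂ} (hQ : Q.totalDegree ≤ 4) (x : Fin 4 → ℂ)
    (i : Fin 4) (s : ℕ)
    (h : ∀ a : Fin 5, MvPolynomial.eval (Function.update x i (((a : ℕ) + s : ℕ) : ℂ)) Q = 0) :
    MvPolynomial.eval x Q = 0 := by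
  set f : Fin 4 → ℂ[X] := fun l => if l = i then X else C (x l) with hf
  have hev : ∀ t : ℂ, (MvPolynomial.aeval f Q).eval t =
      MvPolynomial.eval (Function.update x i t) Q := fun t => by
    have e : (fun l => aeval t (f l)) = Function.update x i t := by
      funext l
      by_cases hl : l = i
      · simp [hf, hl]
      · simp [hf, hl]
    rw [← coe_aeval_eq_eval, ← AlgHom.comp_apply, MvPolynomial.comp_aeval, e]
    rfl
  have hd : (MvPolynomial.aeval f Q).natDegree ≤ 4 * 1 :=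
    MvPolynomial.aeval_natDegree_le Q hQ f fun l => by
      simp only [hf]
      split_ifs <;> simp
  have h0 : MvPolynomial.aeval f Q = 0 :=
    eq_zero_of_natDegree_lt_card_of_eval_eq_zero _ (f := fun a : Fin 5 => (((a : ℕ) + s : ℕ) : ℂ))
      (fun a b hab => Fin.ext (Nat.add_right_cancel (Nat.cast_injective hab)))
      (fun a => by rw [hev, h]) (by simp; omega)
  have := hev (x i)
  rw [h0, eval_zero, Function.update_eq_self] at this
  exact this.symm

theorem QSize_scale {Q : MvPolynomial (Fin 4) ℂ} (hQ : Q.IsHomogeneous 4) (s : ℂ)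
    (x : Fin 4 → ℂ) :
    MvPolynomial.eval (fun i => s * x i) Q = s ^ 4 * MvPolynomial.eval x Q := by
  rw [MvPolynomial.eval_eq', MvPolynomial.eval_eq', Finset.mul_sum]
  refine Finset.sum_congr rfl fun e he => ?_
  have h := hQ (MvPolynomial.mem_support_iff.1 he)
  have h' : ∑ i, e i = 4 := by
    rw [Finsupp.weight_apply, Finsupp.sum_fintype _ _ (by simp)] at h
    simpa using h
  simp only [mul_pow, Finset.prod_mul_distrib, Finset.prod_pow_eq_pow_sum, h']
  ring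

/-- The grid of test points. -/
def QSize_pt (w : Fin 4 → Fin 5) (i : Fin 4) : ℤ := if i = 0 then 1 else (w i : ℕ)

theorem QSize_vanish {Q : MvPolynomial (Fin 4) ℂ} (hQ : Q.IsHomogeneous 4)
    (h : ∀ w, MvPolynomial.eval (fun i => (QSize_pt w i : ℂ)) Q = 0) (m : Fin 4 → ℂ) :
    MvPolynomial.eval m Q = 0 := by
  have hd := hQ.totalDegree_le
  have h1 : ∀ x : Fin 4 → ℂ, x 0 = 1 → MvPolynomial.eval x Q = 0 := fun x hx =>
    QSize_line hd x 1 0 fun a => QSize_line hd _ 2 0 fun b => QSize_line hd _ 3 0 fun e => by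
      rw [← h ![0, a, b, e]]
      congr 2
      funext i
      fin_cases i <;> simp [QSize_pt, hx]
  have h2 : ∀ x : Fin 4 → ℂ, x 0 ≠ 0 → MvPolynomial.eval x Q = 0 := fun x hx => by
    have := QSize_scale hQ (x 0) fun i => (x 0)⁻¹ * x i
    rw [h1 (fun i => (x 0)⁻¹ * x i) (inv_mul_cancel₀ hx), mul_zero] at this
    rw [← this]
    congr 2
    funext i
    rw [mul_inv_cancel_left₀ hx]
  refine QSize_line hd m 0 1 fun a => h2 _ ?_
  rw [Function.update_self]
  exact Nat.cast_ne_zero.2 (Nat.succ_ne_zero _)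

theorem QSize_interp (m : Fin 4 → ℂ) : ∃ K : ℝ, 0 ≤ K ∧ ∀ Q : MvPolynomial (Fin 4) ℂ,
    Q.IsHomogeneous 4 → ∀ A : ℝ, (∀ w, ‖MvPolynomial.eval (fun i => (QSize_pt w i : ℂ)) Q‖ ≤ A) →
      ‖MvPolynomial.eval m Q‖ ≤ K * A := by
  let ev : (Fin 4 → ℂ) → MvPolynomial.homogeneousSubmodule (Fin 4) ℂ 4 →ₗ[ℂ] ℂ := fun x =>
    (MvPolynomial.aeval x).toLinearMap ∘ₗ Submodule.subtype _
  have hev : ∀ x Q, ev x Q = MvPolynomial.eval x Q.1 := fun x Q => by
    simp [ev]
  obtain ⟨a, ha⟩ := (Submodule.mem_span_range_iff_exists_fun ℂ).1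
    (mem_span_of_iInf_ker_le_ker (L := fun w : Fin 4 → Fin 5 => ev fun i => (QSize_pt w i : ℂ))
      (K := ev m) fun Q hQ => by
        simp only [Submodule.mem_iInf, LinearMap.mem_ker, hev] at hQ ⊢
        exact QSize_vanish Q.2 hQ m)
  refine ⟨∑ w, ‖a w‖, by positivity, fun Q hQ A hA => ?_⟩
  have := LinearMap.congr_fun ha ⟨Q, hQ⟩
  simp only [LinearMap.sum_apply, LinearMap.smul_apply, hev, smul_eq_mul] at this
  rw [← this, Finset.sum_mul]
  refine norm_sum_le_of_le _ fun w _ => ?_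
  rw [norm_mul]
  exact mul_le_mul_of_nonneg_left (hA w) (norm_nonneg _)

/-- Size: a quartic form is determined by the values at `(1, v)`, `v ∈ {0,…,4}³`, so
`|Q(m)| ≤ C ‖m‖⁴ max_v |Q(1, v)|` (Lagrange interpolation, or finite-dimensional linear algebra);
take `m = co (1/om_l on {i,j})`, `QN_two`, `pl_large`. -/
theorem Qint_size (c : Ctx 4) : ∃ C : ℝ, 1 ≤ C ∧ ∀ (b1 b2 : Fin 4 → ℤ)
    (Q : MvPolynomial (Fin 4) ℤ), IsLine b1 b2 → Q.IsHomogeneous 4 →
    (∀ m : Fin 4 → ℂ, MvPolynomial.aeval m Q =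
      QN c.th (fun j => c.sg j b1) (fun j => c.sg j b2)
        fun j => om c.th j * ∑ i : Fin 4, m i * c.th j ^ (i : ℕ)) →
    ∃ v : Fin 4 → ℤ, v 0 = 0 ∧ (∀ i, |v i| ≤ 4) ∧ (‖b1‖ * ‖b2‖) ^ 4 ≤
      C * |((MvPolynomial.eval (fun i => if i = 0 then 1 else v i) Q : ℤ) : ℝ)| := by
  obtain ⟨C₁, hC₁, hpl⟩ := pl_large c
  choose K hK0 hK using fun p : Fin 4 × Fin 4 =>
    QSize_interp (c.co fun l => if l = p.1 ∨ l = p.2 then (om c.th l)⁻¹ else 0)
  have hK' : ∀ p : Fin 4 × Fin 4, 0 ≤ K p / ‖c.th p.1 - c.th p.2‖ ^ 2 := fun p =>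
    div_nonneg (hK0 p) (by positivity)
  have hS : 0 ≤ ∑ p : Fin 4 × Fin 4, K p / ‖c.th p.1 - c.th p.2‖ ^ 2 :=
    Finset.sum_nonneg fun p _ => hK' p
  refine ⟨C₁ ^ 4 * (∑ p : Fin 4 × Fin 4, K p / ‖c.th p.1 - c.th p.2‖ ^ 2) + 1,
    le_add_of_nonneg_left (by positivity), fun b1 b2 Q hL hQ hE => ?_⟩
  obtain ⟨w, -, hw⟩ := Finset.exists_max_image Finset.univ
    (fun w : Fin 4 → Fin 5 => |((MvPolynomial.eval (QSize_pt w) Q : ℤ) : ℝ)|) Finset.univ_nonempty
  refine ⟨fun i => if i = 0 then 0 else (w i : ℕ), by simp, fun i => ?_, ?_⟩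
  · have := (w i).2
    dsimp only
    split_ifs
    · simp
    · rw [Nat.abs_cast]
      omega
  have e0 : (fun i : Fin 4 => if i = 0 then (1 : ℤ) else if i = 0 then 0 else (w i : ℕ)) =
      QSize_pt w := by
    funext i
    unfold QSize_pt
    split_ifs <;> rfl
  rw [e0]
  set A := |((MvPolynomial.eval (QSize_pt w) Q : ℤ) : ℝ)| with hA
  have hA0 : 0 ≤ A := abs_nonneg _
  obtain ⟨i, j, hij⟩ := hpl b1 b2 hL
  by_cases h : i = j
  · have : c.pl b1 b2 i j = 0 := by rw [h, Ctx.pl, sub_self]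
    rw [this, norm_zero, mul_zero] at hij
    rw [le_antisymm hij (by positivity), zero_pow (by norm_num)]
    positivity
  have hth : 0 < ‖c.th i - c.th j‖ := norm_pos_iff.2 (sub_ne_zero.2 fun e => h (c.inj e))
  have hmap : ∀ x : Fin 4 → ℂ, MvPolynomial.eval x (MvPolynomial.map (algebraMap ℤ ℂ) Q) =
      MvPolynomial.aeval x Q := fun x => by
    rw [MvPolynomial.eval_map, MvPolynomial.aeval_def]
  have h1 := hK (i, j) _ (hQ.map (algebraMap ℤ ℂ)) A fun w' => by
    have := MvPolynomial.eval₂_comp_left (algebraMap ℤ ℂ) (RingHom.id ℤ) (QSize_pt w') Q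
    rw [RingHom.comp_id, MvPolynomial.eval₂_id, ← MvPolynomial.eval_map] at this
    refine le_trans (le_of_eq ?_) (hw w' (Finset.mem_univ _))
    rw [← Complex.norm_intCast]
    exact congrArg _ this.symm
  have hν : (fun l => om c.th l * ∑ k : Fin 4,
      c.co (fun l => if l = i ∨ l = j then (om c.th l)⁻¹ else 0) k * c.th l ^ (k : ℕ)) =
      fun l => if l = i ∨ l = j then 1 else 0 := by
    funext l
    have := sum_co c (fun l => if l = i ∨ l = j then (om c.th l)⁻¹ else 0) l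
    simp only [smul_eq_mul, mul_comm (c.th l ^ _)] at this
    rw [this]
    split_ifs
    · refine mul_inv_cancel₀ (inv_ne_zero (Finset.prod_ne_zero_iff.2 fun k hk => ?_))
      exact sub_ne_zero.2 fun e => (Finset.mem_erase.1 hk).1 (c.inj e).symm
    · exact mul_zero _
  rw [hmap, hE, hν, QN_two _ _ _ i j h, one_pow, one_mul, norm_mul, norm_pow, norm_pow] at h1
  have h2 : ‖c.pl b1 b2 i j‖ ^ 4 ≤ K (i, j) / ‖c.th i - c.th j‖ ^ 2 * A := by
    rw [div_mul_eq_mul_div, le_div_iff₀ (by positivity), mul_comm]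
    exact h1
  have h3 : K (i, j) / ‖c.th i - c.th j‖ ^ 2 ≤
      ∑ p : Fin 4 × Fin 4, K p / ‖c.th p.1 - c.th p.2‖ ^ 2 :=
    Finset.single_le_sum (f := fun p : Fin 4 × Fin 4 => K p / ‖c.th p.1 - c.th p.2‖ ^ 2)
      (fun p _ => hK' p) (Finset.mem_univ (i, j))
  calc _ ≤ (C₁ * ‖c.pl b1 b2 i j‖) ^ 4 := by gcongr
    _ ≤ C₁ ^ 4 * ((∑ p : Fin 4 × Fin 4, K p / ‖c.th p.1 - c.th p.2‖ ^ 2) * A) := by
      rw [mul_pow]
      exact mul_le_mul_of_nonneg_left (h2.trans (by gcongr)) (by positivity)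
    _ ≤ _ := by nlinarith

end Crest.Agent.R22
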