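import Crest.Agent.R22.Defs

set_option autoImplicit false
open Polynomial IntermediateField

namespace Crest.Agent.R22

variable {d : ℕ}

/-- A cubic form given by a tensor. -/
noncomputable def quart3_cub {m : ℕ} (T : Fin m → Fin m → Fin m → ℂ) (x : Fin m → ℂ) : ℂ :=
  ∑ i, ∑ j, ∑ k, T i j k * (x i * x j * x k)

theorem quart3_core (T : Fin 3 → Fin 3 → Fin 3 → ℂ)
    (h : ∀ r : ℂ, quart3_cub T ![(r + 1) ^ 2, r ^ 2 * (r + 1) ^ 2, r ^ 2] = 0) (x : Fin 3 → ℂ) :
    quart3_cub T x = 0 := by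
  simp only [quart3_cub, Fin.sum_univ_three, Matrix.cons_val_zero, Matrix.cons_val_one,
    Matrix.cons_val] at h ⊢
  have h0 := h (0)
  have h1 := h (-1)
  have h2 := h (1)
  have h3 := h (-2)
  have h4 := h (2)
  have h5 := h (-3)
  have h6 := h (-1/2)
  have h7 := h (1/2)
  have h8 := h (-3/2)
  have h9 := h (-1/3)
  have e0 : T 2 2 2 = 0 := by
    linear_combination (1) * h1
  have e1 : T 1 2 2 + T 2 1 2 + T 2 2 1 = 0 := by
    linear_combination (-4) * h0 + (-41/36) * h1 + (-1/32) * h2 + (1/40) * h3 + (1/5400) * h4 +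
      (-1/5600) * h5 + (-512/25) * h6 + (512/945) * h7
  have e2 : T 1 1 2 + T 1 2 1 + T 2 1 1 = 0 := by
    linear_combination (152/9) * h0 + (-793/36) * h1 + (31/144) * h2 + (-331/1800) * h3 +
      (-109/88200) * h4 + (181/151200) * h5 + (-39296/225) * h6 + (-2176/525) * h7 +
      (4096/1323) * h8 + (9034497/39200) * h9
  have e3 : T 1 1 1 = 0 := by
    linear_combination (-4) * h0 + (5) * h1 + (-1/20) * h2 + (1/25) * h3 + (1/3675) * h4 +
      (-1/4200) * h5 + (1024/25) * h6 + (512/525) * h7 + (-512/735) * h8 + (-531441/9800) * h9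
  have e4 : T 0 2 2 + T 2 0 2 + T 2 2 0 = 0 := by
    linear_combination (16) * h0 + (-761/36) * h1 + (27/160) * h2 + (-33/200) * h3 +
      (-253/264600) * h4 + (1/1050) * h5 + (-1536/25) * h6 + (-14848/4725) * h7 + (2048/735) * h8 +
      (4782969/39200) * h9
  have e5 : T 0 1 2 + T 0 2 1 + T 1 0 2 + T 1 2 0 + T 2 0 1 + T 2 1 0 = 0 := by
    linear_combination (-202/3) * h0 + (5435/48) * h1 + (-2647/2880) * h2 + (6383/7200) * h3 +
      (1087/211680) * h4 + (-617/120960) * h5 + (39296/45) * h6 + (84608/4725) * h7 +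
      (-103424/6615) * h8 + (-170592561/156800) * h9
  have e6 : T 0 1 1 + T 1 0 1 + T 1 1 0 = 0 := by
    linear_combination (146/9) * h0 + (-769/36) * h1 + (143/720) * h2 + (-301/1800) * h3 +
      (-257/264600) * h4 + (47/50400) * h5 + (-39296/225) * h6 + (-18944/4725) * h7 +
      (2176/735) * h8 + (9034497/39200) * h9
  have e7 : T 0 0 2 + T 0 2 0 + T 2 0 0 = 0 := by
    linear_combination (-8/9) * h0 + (-17/4) * h1 + (3/80) * h2 + (-27/800) * h3 +
      (-23/117600) * h4 + (29/151200) * h5 + (-1536/25) * h6 + (-512/525) * h7 + (4096/6615) * h8 +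
      (4782969/39200) * h9
  have e8 : T 0 0 1 + T 0 1 0 + T 1 0 0 = 0 := by
    linear_combination (-41/36) * h0 + (-4) * h1 + (1/40) * h2 + (-1/32) * h3 + (-1/5600) * h4 +
      (1/5400) * h5 + (-512/25) * h6 + (512/945) * h8
  have e9 : T 0 0 0 = 0 := by
    linear_combination (1) * h0
  linear_combination x 2 * x 2 * x 2 * e0 + x 1 * x 2 * x 2 * e1 + x 1 * x 1 * x 2 * e2 +
      x 1 * x 1 * x 1 * e3 + x 0 * x 2 * x 2 * e4 + x 0 * x 1 * x 2 * e5 + x 0 * x 1 * x 1 * e6 +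
      x 0 * x 0 * x 2 * e7 + x 0 * x 0 * x 1 * e8 + x 0 * x 0 * x 0 * e9

theorem quart3_smul {m : ℕ} (T : Fin m → Fin m → Fin m → ℂ) (c : ℂ) (x : Fin m → ℂ) :
    quart3_cub T (fun i => c * x i) = c ^ 3 * quart3_cub T x := by
  simp only [quart3_cub, Finset.mul_sum]
  exact Finset.sum_congr rfl fun _ _ => Finset.sum_congr rfl fun _ _ =>
    Finset.sum_congr rfl fun _ _ => by ring

theorem quart3_tern (T : Fin 3 → Fin 3 → Fin 3 → ℂ) (κ a b : Fin 3 → ℂ) (a' b' : ℂ)
    (hκ : ∀ i, κ i ≠ 0) (ha : a 1 ≠ 0) (hd : ∀ i j, i ≠ j → a i * b j - a j * b i ≠ 0)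
    (hd' : a' * b 1 - a 1 * b' ≠ 0)
    (h : ∀ z : ℂ, (∀ i, a i * z + b i ≠ 0) → a' * z + b' ≠ 0 →
      quart3_cub T (fun i => κ i / (a i * z + b i) ^ 2) = 0) (x : Fin 3 → ℂ) :
    quart3_cub T x = 0 := by
  obtain ⟨p, hp⟩ : ∃ p, p = a 0 * b 1 - a 1 * b 0 := ⟨_, rfl⟩
  obtain ⟨q, hq⟩ : ∃ q, q = a 2 * b 1 - a 1 * b 2 := ⟨_, rfl⟩
  obtain ⟨s, hs⟩ : ∃ s, s = a 0 * b 2 - a 2 * b 0 := ⟨_, rfl⟩
  have hp0 : p ≠ 0 := hp ▸ hd 0 1 (by decide)
  have hq0 : q ≠ 0 := hq ▸ hd 2 1 (by decide)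
  have hs0 : s ≠ 0 := hs ▸ hd 0 2 (by decide)
  let K : Fin 3 → ℂ := ![κ 0 * q ^ 2 / s ^ 2, κ 1, κ 2 * p ^ 2 / s ^ 2]
  have hK : ∀ i, K i ≠ 0 := fun i => by
    have := hκ 0
    have := hκ 1
    have := hκ 2
    fin_cases i <;> simp [K, *]
  have e : ∀ y : Fin 3 → ℂ, quart3_cub (fun i j k => T i j k * (K i * K j * K k)) y =
      quart3_cub T fun i => K i * y i := fun y =>
    Finset.sum_congr rfl fun _ _ => Finset.sum_congr rfl fun _ _ =>
      Finset.sum_congr rfl fun _ _ => by ring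
  have h1 := quart3_core (fun i j k => T i j k * (K i * K j * K k)) ?_ fun i => x i / K i
  · rw [e] at h1
    simpa only [mul_div_cancel₀ _ (hK _)] using h1
  have hfin : ({0, -1, q * a 0 / (s * a 1),
      q * (a' * b 0 - a 0 * b') / (s * (a' * b 1 - a 1 * b'))} : Set ℂ).Countable :=
    (Set.toFinite _).countable
  refine congrFun (Continuous.ext_on (hfin.dense_compl ℂ) ?_ continuous_const fun r hr => ?_)
  · simp only [quart3_cub, Fin.sum_univ_three, Matrix.cons_val_zero, Matrix.cons_val_one,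
      Matrix.cons_val]
    fun_prop
  simp only [Set.mem_compl_iff, Set.mem_insert_iff, Set.mem_singleton_iff, not_or] at hr
  obtain ⟨r0, r1, r2, r3⟩ := hr
  have r1' : r + 1 ≠ 0 := fun h => r1 (eq_neg_of_add_eq_zero_left h)
  have hN : q * a 0 - r * s * a 1 ≠ 0 := fun h =>
    r2 (eq_div_of_mul_eq (mul_ne_zero hs0 ha) (by linear_combination -h))
  obtain ⟨z, hz⟩ : ∃ z, (q * a 0 - r * s * a 1) * z = r * s * b 1 - q * b 0 :=
    ⟨_, mul_div_cancel₀ _ hN⟩
  obtain ⟨v, hv⟩ : ∃ v, v = a 1 * z + b 1 := ⟨_, rfl⟩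
  have hv0 : v ≠ 0 := fun h => mul_ne_zero hq0 hp0 (by
    rw [hp]
    linear_combination (q * a 0 - r * s * a 1) * h - (q * a 0 - r * s * a 1) * hv - a 1 * hz)
  have hu : a 0 * z + b 0 = r * s * v / q := by
    rw [eq_div_iff hq0, hv]
    linear_combination hz
  have hw : a 2 * z + b 2 = s * v * (r + 1) / p := by
    rw [eq_div_iff hp0, hv]
    rw [hp, hq, hs] at *
    linear_combination hz
  have h2 := h z (fun i => by
    fin_cases i
    · exact hu ▸ div_ne_zero (mul_ne_zero (mul_ne_zero r0 hs0) hv0) hq0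
    · exact hv ▸ hv0
    · exact hw ▸ div_ne_zero (mul_ne_zero (mul_ne_zero hs0 hv0) r1') hp0)
    fun h => r3 (eq_div_of_mul_eq (mul_ne_zero hs0 hd') (by
      linear_combination (q * a 0 - r * s * a 1) * h - a' * hz))
  change quart3_cub _ _ = 0
  have h3 := quart3_smul T (v ^ 2 * r ^ 2 * (r + 1) ^ 2) fun i => κ i / (a i * z + b i) ^ 2
  rw [h2, mul_zero] at h3
  rw [e]
  refine Eq.trans ?_ h3
  congr 1
  funext i
  fin_cases i
  · simp only [K, Fin.zero_eta, Matrix.cons_val_zero, hu]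
    field_simp
  · simp only [K, Fin.mk_one, Matrix.cons_val_one, Matrix.cons_val_zero, ← hv]
    field_simp
  · simp only [K, Fin.reduceFinMk, Matrix.cons_val, hw]
    field_simp

theorem quart3_four (T : Fin 4 → Fin 4 → Fin 4 → ℂ)
    (h : ∀ (j : Fin 4) (y : Fin 4 → ℂ), y j = 0 → quart3_cub T y = 0) (y : Fin 4 → ℂ) :
    quart3_cub T y = 0 := by
  have h0 := fun b c d => h 0 ![0, b, c, d] rfl
  have h1 := fun a c d => h 1 ![a, 0, c, d] rfl
  have h2 := fun a b d => h 2 ![a, b, 0, d] rfl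
  have h3 := fun a b c => h 3 ![a, b, c, 0] rfl
  simp only [quart3_cub, Fin.sum_univ_four, Matrix.cons_val_zero, Matrix.cons_val_one,
    Matrix.cons_val, mul_zero, zero_mul, add_zero, zero_add] at h0 h1 h2 h3 ⊢
  linear_combination h0 (y 1) (y 2) (y 3) + h1 (y 0) (y 2) (y 3) + h2 (y 0) (y 1) (y 3) +
    h3 (y 0) (y 1) (y 2) - h0 0 (y 2) (y 3) - h0 (y 1) 0 (y 3) - h0 (y 1) (y 2) 0 -
    h1 (y 0) 0 (y 3) - h1 (y 0) (y 2) 0 - h2 (y 0) (y 1) 0 + h0 0 0 (y 3) + h0 0 (y 2) 0 +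
    h0 (y 1) 0 0 + h1 (y 0) 0 0

theorem quart3_step {n : ℕ} {R : MvPolynomial (Fin 4) ℂ} (hR : R.IsHomogeneous (n + 1)) :
    ∃ Q : Fin 4 → MvPolynomial (Fin 4) ℂ, (∀ i, (Q i).IsHomogeneous n) ∧
      ∀ y, MvPolynomial.eval y R = ∑ i, y i * MvPolynomial.eval y (Q i) := by
  refine ⟨fun i => MvPolynomial.C (1 / (n + 1 : ℂ)) * MvPolynomial.pderiv i R,
    fun i => hR.pderiv.C_mul _, fun y => ?_⟩
  have h := congrArg (MvPolynomial.eval y) hR.sum_X_mul_pderiv
  have h0 : (n + 1 : ℂ) ≠ 0 := by exact_mod_cast n.succ_ne_zero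
  simp only [map_sum, map_mul, MvPolynomial.eval_X, nsmul_eq_mul, map_natCast] at h
  simp only [map_mul, MvPolynomial.eval_C, mul_left_comm _ (1 / (n + 1 : ℂ)), ← Finset.mul_sum, h]
  push_cast
  field_simp

theorem quart3_tensor {R : MvPolynomial (Fin 4) ℂ} (hR : R.IsHomogeneous 3) :
    ∃ T, ∀ y, MvPolynomial.eval y R = quart3_cub T y := by
  obtain ⟨Q₁, h₁, e₁⟩ := quart3_step hR
  choose Q₂ h₂ e₂ using fun i => quart3_step (h₁ i)
  choose Q₃ h₃ e₃ using fun i j => quart3_step (h₂ i j)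
  refine ⟨fun i j k => MvPolynomial.coeff 0 (Q₃ i j k), fun y => ?_⟩
  simp only [e₁, e₂, e₃, quart3_cub, Finset.mul_sum]
  refine Finset.sum_congr rfl fun i _ => Finset.sum_congr rfl fun j _ =>
    Finset.sum_congr rfl fun k _ => ?_
  conv_lhs => rw [MvPolynomial.totalDegree_eq_zero_iff_eq_C.1
    ((MvPolynomial.totalDegree_zero_iff_isHomogeneous _).2 (h₃ i j k)), MvPolynomial.eval_C]
  ring

theorem quart3_three (th : Fin 4 → ℂ) (hth : Function.Injective th) (L : Fin 4 → ℂ[X])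
    (hL : Lins L) (R : MvPolynomial (Fin 4) ℂ) (hR : R.IsHomogeneous 3)
    (h : MvPolynomial.aeval (Urow th L 2) R = 0) : R = 0 := by
  obtain ⟨T, hT⟩ := quart3_tensor hR
  have hev : ∀ j z, (L j).eval z = (L j).coeff 1 * z + (L j).coeff 0 := fun j z => by
    conv_lhs => rw [eq_X_add_C_of_natDegree_le_one (hL.1 j).le]
    simp
  have ha : ∀ j, (L j).coeff 1 ≠ 0 := fun j => by
    rw [← hL.1 j]
    exact leadingCoeff_ne_zero.2 fun h0 => by simpa [h0] using hL.1 j
  have hd : ∀ i j, i ≠ j → (L i).coeff 1 * (L j).coeff 0 - (L j).coeff 1 * (L i).coeff 0 ≠ 0 :=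
    fun i j hij h0 => by
      obtain ⟨z, hz⟩ : ∃ z, (L i).coeff 1 * z = -(L i).coeff 0 := ⟨_, mul_div_cancel₀ _ (ha i)⟩
      rcases aeval_ne_zero_of_isCoprime (hL.2 i j hij) z with h1 | h1
      · exact h1 (by rw [coe_aeval_eq_eval, hev, hz, neg_add_cancel])
      · refine h1 (mul_left_cancel₀ (ha i) ?_)
        rw [coe_aeval_eq_eval, hev]
        linear_combination h0 + (L j).coeff 1 * hz
  have h1 : ∀ n z : ℂ, (∀ l, (L l).eval z ≠ 0) →
      quart3_cub T (fun j => (n - th j) / (L j).eval z ^ 2) = 0 := fun n z hz => by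
    have h2 := congrArg (evalEvalRingHom z n) h
    rw [map_zero, MvPolynomial.map_aeval] at h2
    have h3 : (evalEvalRingHom z n).comp (algebraMap ℂ ℂ[X][X]) = RingHom.id ℂ := by
      ext c
      simp
    rw [h3] at h2
    have h4 : (fun j => evalEvalRingHom z n (Urow th L 2 j)) =
        fun j => (∏ l, (L l).eval z ^ 2) * ((n - th j) / (L j).eval z ^ 2) := by
      funext j
      have := hz j
      rw [← Finset.mul_prod_erase _ _ (Finset.mem_univ j)]
      simp only [Urow, coe_evalEvalRingHom, evalEval_mul, evalEval_sub, evalEval_X, evalEval_C,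
        eval_C, eval_prod, eval_pow]
      field_simp
    rw [h4] at h2
    have h5 := (hT _).symm.trans h2
    rw [quart3_smul] at h5
    exact (mul_eq_zero.1 h5).resolve_left
      (pow_ne_zero _ (Finset.prod_ne_zero_iff.2 fun l _ => pow_ne_zero _ (hz l)))
  refine MvPolynomial.funext fun y => ?_
  rw [hT, map_zero]
  refine quart3_four T (fun j y hy => ?_) y
  have e : ∀ y : Fin 4 → ℂ, y j = 0 → quart3_cub T y =
      quart3_cub (fun a b c => T (j.succAbove a) (j.succAbove b) (j.succAbove c))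
        fun a => y (j.succAbove a) := fun y hy => by
    simp [quart3_cub, Fin.sum_univ_succAbove _ j, hy]
  rw [e y hy]
  refine quart3_tern _ (fun a => th j - th (j.succAbove a)) (fun a => (L (j.succAbove a)).coeff 1)
    (fun a => (L (j.succAbove a)).coeff 0) ((L j).coeff 1) ((L j).coeff 0)
    (fun a => sub_ne_zero.2 (hth.ne (j.succAbove_ne a).symm)) (ha _)
    (fun a b hab => hd _ _ (Fin.succAbove_right_injective.ne hab))
    (hd _ _ (j.succAbove_ne 1).symm) (fun z h2 h3 => ?_) _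
  have h4 := h1 (th j) z fun l => by
    rw [hev]
    rcases Fin.eq_self_or_eq_succAbove j l with rfl | ⟨a, rfl⟩
    exacts [h3, h2 a]
  rw [e _ (by simp)] at h4
  simpa only [hev] using h4

/-- No form of degree `≤ 3` vanishes on the scroll. Induction on `D`. Put `n = θ_3`: `U_3 = 0` and
`U_j = (θ_3-θ_j) L_3² ∏_{l≠j, l<3} L_l²`. For the ternary form `R' = R|_{Y_3=0} ≠ 0` let `A` be the
largest exponent of `Y_0`; the relation `∑ c_a ∏ (κ_j/L_j²)^(a_j) = 0` forces the binary form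
`h_A(Y_1, Y_2)` (degree `D - A`) to have a double zero at `(κ_1/L_1², κ_2/L_2²)(z_0)` (the ratio
`(L_2/L_1)²` has nonzero derivative at `z_0`), a point with nonzero coordinates; so `D - A ≥ 2`,
`A ≤ 1`; the same for each variable, so `R' = c Y_0 Y_1 Y_2` (or `D ≤ 2` and a multilinear form), and
then `h_A` has no such double zero. Hence `R' = 0`, `R = Y_3 R''`, and `U_3 ≠ 0`. -/
theorem no_cubic (th : Fin 4 → ℂ) (hth : Function.Injective th) (L : Fin 4 → ℂ[X]) (hL : Lins L)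
    (D : ℕ) (hD : D ≤ 3) (R : MvPolynomial (Fin 4) ℂ) (hR : R.IsHomogeneous D)
    (h : MvPolynomial.aeval (Urow th L 2) R = 0) : R = 0 := by
  have h1 := quart3_three th hth L hL (MvPolynomial.X 0 ^ (3 - D) * R) (by
    have := (MvPolynomial.isHomogeneous_X_pow (R := ℂ) (0 : Fin 4) (3 - D)).mul hR
    rwa [Nat.sub_add_cancel hD] at this) (by rw [map_mul, h, mul_zero])
  exact (mul_eq_zero.1 h1).resolve_left (pow_ne_zero _ (MvPolynomial.X_ne_zero _))

end Crest.Agent.R22
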