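import Crest.Agent.R22.Quart1
import Crest.Agent.R22.Quart3
import Crest.Agent.R22.Basic

set_option autoImplicit false
open Polynomial IntermediateField

namespace Crest.Agent.R22

variable {d : ℕ}

theorem Quart4_scale {σ S : Type*} [CommRing S] [Algebra ℂ S] {R : MvPolynomial σ ℂ} {D : ℕ}
    (hR : R.IsHomogeneous D) (s : S) (w : σ → S) :
    MvPolynomial.aeval (fun i => s * w i) R = s ^ D * MvPolynomial.aeval w R := by
  simp only [MvPolynomial.aeval_def, MvPolynomial.eval₂_eq, Finset.mul_sum]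
  refine Finset.sum_congr rfl fun e he => ?_
  simp only [mul_pow, Finset.prod_mul_distrib, Finset.prod_pow_eq_pow_sum]
  rw [← hR.degree_eq_sum_deg_support he]
  ring

/-- A quartic form vanishing at `u` is irreducible if no form of lower degree vanishes at `u`. -/
theorem Quart4_irred {σ S : Type*} [CommRing S] [IsDomain S] [Algebra ℂ S] (u : σ → S)
    (Q : MvPolynomial σ ℂ) (hQ : Q.IsHomogeneous 4) (h0 : Q ≠ 0) (hu : MvPolynomial.aeval u Q = 0)
    (hlow : ∀ D ≤ 3, ∀ R : MvPolynomial σ ℂ, R.IsHomogeneous D → MvPolynomial.aeval u R = 0 →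
      R = 0) : Irreducible Q := by
  have hφ : ∀ (D : ℕ) (R : MvPolynomial σ ℂ), R.IsHomogeneous D →
      MvPolynomial.aeval (fun i => (X : S[X]) * C (u i)) R =
        X ^ D * C (MvPolynomial.aeval u R) := by
    intro D R hR
    rw [Quart4_scale hR]
    congr 1
    exact (MvPolynomial.comp_aeval_apply u (Polynomial.CAlgHom (R := ℂ) (A := S)) R).symm
  have hl : ∀ A : MvPolynomial σ ℂ, A.totalDegree ≤ 3 →
      MvPolynomial.aeval (fun i => (X : S[X]) * C (u i)) A = 0 → A = 0 := by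
    intro A hA h
    rw [← A.sum_homogeneousComponent] at h ⊢
    refine Finset.sum_eq_zero fun k hk => ?_
    refine hlow k (by have := Finset.mem_range.1 hk; omega) _
      (MvPolynomial.homogeneousComponent_isHomogeneous k A) ?_
    rw [map_sum, Finset.sum_congr rfl fun j _ =>
      hφ j _ (MvPolynomial.homogeneousComponent_isHomogeneous j A)] at h
    have := congrArg (fun p : S[X] => p.coeff k) h
    simp only [mul_comm (X ^ _ : S[X]), Polynomial.finsetSum_coeff, Polynomial.coeff_C_mul_X_pow,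
      Finset.sum_ite_eq, hk, if_true, Polynomial.coeff_zero] at this
    exact this
  have hd := hQ.totalDegree h0
  have hunit : ∀ A : MvPolynomial σ ℂ, A ≠ 0 → A.totalDegree = 0 → IsUnit A := by
    intro A hA h
    refine MvPolynomial.isUnit_iff_totalDegree_of_isReduced.2 ⟨?_, h⟩
    rw [MvPolynomial.totalDegree_eq_zero_iff_eq_C.1 h] at hA
    simpa using hA
  refine ⟨fun h => ?_, fun A B hAB => ?_⟩
  · have := (MvPolynomial.isUnit_iff_totalDegree_of_isReduced.1 h).2
    omega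
  · have hA : A ≠ 0 := by rintro rfl; simp at hAB; exact h0 hAB
    have hB : B ≠ 0 := by rintro rfl; simp at hAB; exact h0 hAB
    have hdeg := MvPolynomial.totalDegree_mul_of_isDomain hA hB
    rw [← hAB, hd] at hdeg
    have h1 := hφ 4 Q hQ
    rw [hu, map_zero, mul_zero, hAB, map_mul, mul_eq_zero] at h1
    by_contra hn
    rw [not_or] at hn
    have hA' : A.totalDegree ≠ 0 := fun h => hn.1 (hunit A hA h)
    have hB' : B.totalDegree ≠ 0 := fun h => hn.2 (hunit B hB h)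
    rcases h1 with h1 | h1
    · exact hA (hl A (by omega) h1)
    · exact hB (hl B (by omega) h1)

/-- Nullstellensatz. -/
theorem Quart4_null (Q G : MvPolynomial (Fin 4) ℂ) (H : Fin 4 → MvPolynomial (Fin 4) ℂ)
    (hQ : Irreducible Q) (h4 : 4 ≤ Q.degreeOf 0) (hG : G ≠ 0) (hG3 : G.degreeOf 0 ≤ 3)
    (hH : ∀ j, H j ≠ 0) (hH3 : ∀ j, (H j).degreeOf 0 ≤ 3)
    (h : ∀ m : Fin 4 → ℂ, MvPolynomial.aeval m Q = 0 →
      MvPolynomial.aeval m G = 0 ∨ ∃ j, MvPolynomial.aeval m (H j) = 0) : False := by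
  have hp : Prime Q := hQ.prime
  have hnd : ∀ W : MvPolynomial (Fin 4) ℂ, W ≠ 0 → W.degreeOf 0 ≤ 3 → ¬ Q ∣ W := by
    rintro W hW h3 ⟨V, rfl⟩
    rw [MvPolynomial.degreeOf_mul_eq (left_ne_zero_of_mul hW) (right_ne_zero_of_mul hW)] at h3
    omega
  have hmem : G * ∏ j, H j ∈ MvPolynomial.vanishingIdeal ℂ
      (MvPolynomial.zeroLocus ℂ (Ideal.span {Q})) := by
    rw [MvPolynomial.mem_vanishingIdeal_iff]
    intro m hm
    rw [map_mul, map_prod, mul_eq_zero, Finset.prod_eq_zero_iff]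
    rcases h m (hm Q (Ideal.mem_span_singleton_self Q)) with h1 | ⟨j, h1⟩
    · exact Or.inl h1
    · exact Or.inr ⟨j, Finset.mem_univ j, h1⟩
  rw [MvPolynomial.vanishingIdeal_zeroLocus_eq_radical,
    ((Ideal.span_singleton_prime hp.ne_zero).2 hp).radical, Ideal.mem_span_singleton] at hmem
  rcases hp.dvd_or_dvd hmem with h1 | h1
  · exact hnd G hG hG3 h1
  · obtain ⟨j, -, hj⟩ := (hp.dvd_finsetProd_iff _).1 h1
    exact hnd _ (hH j) (hH3 j) hj

theorem Quart4_map {S S' : Type*} [CommRing S] [Algebra ℂ S] [CommRing S'] [Algebra ℂ S']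
    (c : Ctx 4) (v : Fin 4 → ℤ) (φ : S →ₐ[ℂ] S') (z : Fin 4 → S) (R : MvPolynomial (Fin 4) ℂ) :
    φ (MvPolynomial.aeval (shr v (c.co z)) R) =
      MvPolynomial.aeval (shr v (c.co fun j => φ (z j))) R := by
  rw [MvPolynomial.comp_aeval_apply]
  congr 2
  funext i
  simp only [shr, Ctx.co, map_sub, map_mul, map_sum, map_smul, map_intCast]

theorem Quart4_co (c : Ctx d) (m : Fin d → ℂ) :
    (c.co fun j => ∑ i : Fin d, m i * c.th j ^ (i : ℕ)) = m := by
  have hdet : IsUnit (Matrix.vandermonde c.th).det :=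
    (Matrix.det_vandermonde_ne_zero_iff.2 c.inj).isUnit
  have h1 : ((Matrix.vandermonde c.th)⁻¹).mulVec ((Matrix.vandermonde c.th).mulVec m) = m := by
    rw [Matrix.mulVec_mulVec, Matrix.nonsing_inv_mul _ hdet, Matrix.one_mulVec]
  funext l
  rw [← congrFun h1 l]
  simp only [Ctx.co, Matrix.mulVec, dotProduct, Matrix.vandermonde_apply, smul_eq_mul, mul_comm]

theorem Quart4_sum_co (c : Ctx d) (z : Fin d → ℂ) (j : Fin d) :
    ∑ i : Fin d, c.co z i * c.th j ^ (i : ℕ) = z j := by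
  rw [← sum_co c z j]
  simp only [smul_eq_mul, mul_comm]

theorem Quart4_shr {v : Fin 4 → ℤ} (hv : v 0 = 0) (m : Fin 4 → ℂ) :
    shr v (fun i => m i + v i * m 0) = m := by
  funext i
  simp [shr, hv]

theorem Quart4_shr' {v : Fin 4 → ℤ} (hv : v 0 = 0) (m : Fin 4 → ℂ) (i : Fin 4) :
    shr v m i + v i * shr v m 0 = m i := by
  simp [shr, hv]

theorem Quart4_hom (c : Ctx 4) (v : Fin 4 → ℤ) (i : Fin 4) :
    (shr v (c.co (MvPolynomial.X : Fin 4 → MvPolynomial (Fin 4) ℂ)) i).IsHomogeneous 1 := by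
  have h : ∀ l, c.co (MvPolynomial.X : Fin 4 → MvPolynomial (Fin 4) ℂ) l ∈
      MvPolynomial.homogeneousSubmodule (Fin 4) ℂ 1 := fun l =>
    Submodule.sum_mem _ fun j _ => Submodule.smul_mem _ _ (MvPolynomial.isHomogeneous_X ℂ j)
  refine MvPolynomial.IsHomogeneous.sub (h i) ?_
  rw [← map_intCast (MvPolynomial.C : ℂ →+* MvPolynomial (Fin 4) ℂ)]
  exact MvPolynomial.IsHomogeneous.C_mul (h 0) _

theorem Quart4_aeval {S : Type*} [CommRing S] [Algebra ℂ S] (c : Ctx 4) (v : Fin 4 → ℤ)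
    (z : Fin 4 → S) (R : MvPolynomial (Fin 4) ℂ) :
    MvPolynomial.aeval z (MvPolynomial.aeval
      (shr v (c.co (MvPolynomial.X : Fin 4 → MvPolynomial (Fin 4) ℂ))) R) =
      MvPolynomial.aeval (shr v (c.co z)) R := by
  rw [Quart4_map]
  simp only [MvPolynomial.aeval_X]

theorem Quart4_low (c : Ctx 4) (L : Fin 4 → ℂ[X]) (hL : Lins L) {v : Fin 4 → ℤ} (hv : v 0 = 0)
    (D : ℕ) (hD : D ≤ 3) (R : MvPolynomial (Fin 4) ℂ) (hR : R.IsHomogeneous D)
    (h : MvPolynomial.aeval (shr v (c.co (Urow c.th L 2))) R = 0) : R = 0 := by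
  have h1 := hR.aeval _ (Quart4_hom c v)
  rw [one_mul] at h1
  have h2 := no_cubic c.th c.inj L hL D hD _ h1 (by rw [Quart4_aeval, h])
  apply MvPolynomial.funext
  intro m
  have h3 := Quart4_aeval c v
    (fun j => ∑ i : Fin 4, (m i + v i * m 0) * c.th j ^ (i : ℕ)) R
  rw [h2, Quart4_co, Quart4_shr hv] at h3
  exact h3.symm

theorem Quart4_funext (p : ℂ[X][X]) (h : ∀ t n : ℂ, aevalAeval t n p = 0) : p = 0 := by
  ext1 i
  apply Polynomial.funext
  intro t
  have h1 : p.map (evalRingHom t) = 0 := by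
    apply Polynomial.funext
    intro n
    rw [map_evalRingHom_eval, eval_zero, ← coe_aevalAeval_eq_evalEval]
    exact h t n
  have h2 := congrArg (fun q : ℂ[X] => q.coeff i) h1
  simpa using h2

theorem Quart4_U (th a b : Fin 4 → ℂ) (t n : ℂ) (j : Fin 4) :
    aevalAeval t n (Urow th (fun l => C (a l) * X + C (b l)) 2 j) =
      (n - th j) * ∏ l ∈ Finset.univ.erase j, (a l * t + b l) ^ 2 := by
  simp [Urow, map_prod, Polynomial.eval_prod]

/-- The relation on the affine parametrisation extends to the homogenised one. -/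
theorem Quart4_ext (th a b : Fin 4 → ℂ) {D : ℕ} (G : MvPolynomial (Fin 4) ℂ)
    (hG : G.IsHomogeneous D)
    (h : ∀ t n : ℂ, MvPolynomial.aeval
      (fun j => (n - th j) * ∏ l ∈ Finset.univ.erase j, (a l * t + b l) ^ 2) G = 0)
    (x y α β : ℂ) : MvPolynomial.aeval
      (fun j => (α + β * th j) * ∏ l ∈ Finset.univ.erase j, (a l * x + b l * y) ^ 2) G = 0 := by
  have hc : Continuous fun p : ℂ × ℂ => MvPolynomial.aeval
      (fun j => (α + p.2 * th j) * ∏ l ∈ Finset.univ.erase j, (a l * x + b l * p.1) ^ 2) G := by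
    simp only [MvPolynomial.aeval_eq_eval]
    exact (MvPolynomial.continuous_eval G).comp (by fun_prop)
  have hd : Dense (({0}ᶜ : Set ℂ) ×ˢ ({0}ᶜ : Set ℂ)) :=
    (dense_compl_singleton 0).prod (dense_compl_singleton 0)
  refine congrFun (hc.ext_on hd continuous_const (g := fun _ => 0) ?_) (y, β)
  rintro ⟨y, β⟩ ⟨hy, hβ⟩
  have hy : y ≠ 0 := hy
  have hβ : β ≠ 0 := hβ
  have h1 := Quart4_scale hG (-β * y ^ 6)
    fun j => (-α / β - th j) * ∏ l ∈ Finset.univ.erase j, (a l * (x / y) + b l) ^ 2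
  rw [h, mul_zero] at h1
  refine Eq.trans ?_ h1
  dsimp only
  congr 2
  funext j
  have h2 : ∏ l ∈ Finset.univ.erase j, (a l * x + b l * y) ^ 2 =
      ∏ l ∈ Finset.univ.erase j, y ^ 2 * (a l * (x / y) + b l) ^ 2 :=
    Finset.prod_congr rfl fun l _ => by field_simp
  rw [h2, Finset.prod_mul_distrib, Finset.prod_const, Finset.card_erase_of_mem (Finset.mem_univ j)]
  simp only [Finset.card_univ, Fintype.card_fin]
  generalize ∏ l ∈ Finset.univ.erase j, (a l * (x / y) + b l) ^ 2 = P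
  field_simp
  ring

/-- Kernel of the parametrisation. `u' = shr v (co U)`. `Q'` is irreducible: `Q'(λ u') = 0` in the
domain `ℂ[t][n][λ]`, a proper factor `R` would have total degree `≤ 3` and its homogeneous components
vanish at `u'`, so they vanish by `no_cubic` (after the invertible linear change of variables).
In `ℂ[Y_1,Y_2,Y_3][Y_0]`, `Q'` has unit leading coefficient and degree `4`, `G ≠ 0` has degree `≤ 3`,
so `A Q' + B G = r ≠ 0` free of `Y_0`, and `r(λ u') = 0`. Choose `(c1,c2,c3)` with `r ≠ 0` outside four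
planes, a root `c0` of `Q'(·, c)`, the common zero `(x, y)` of `QN_eq_zero_iff`, and `om_ker_iff`:
`σ_j(m) (a_j x + b_j y)² = α + β θ_j`. If `a_j x + b_j y = 0` for some `j`, then `m` lies on one of
four lines (excluded by the planes). Otherwise `m` is a value of the homogenised parametrisation
`λ (n0 - θ_j n1) ∏_{l≠j} (a_l x + b_l y)²`, on which `r` vanishes (polynomial identity, true for
`y n1 ≠ 0`): contradiction. -/
theorem quart_kernel (c : Ctx 4) (b1 b2 : Fin 4 → ℤ) (hnd : c.Nondeg b1 b2) (v : Fin 4 → ℤ)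
    (hv : v 0 = 0) (Q' : MvPolynomial (Fin 4) ℂ) (hQ : Q'.IsHomogeneous 4)
    (h0 : Q'.coeff (Finsupp.single 0 4) ≠ 0) (κ : ℂ) (hκ : κ ≠ 0)
    (hev : ∀ m : Fin 4 → ℂ, κ * MvPolynomial.eval (shr v m) Q' =
      QN c.th (fun j => c.sg j b1) (fun j => c.sg j b2)
        fun j => om c.th j * ∑ i : Fin 4, m i * c.th j ^ (i : ℕ))
    (D : ℕ) (G : MvPolynomial (Fin 4) ℂ) (hG : G ≠ 0) (hD : G.IsHomogeneous D)
    (h3 : G.degreeOf 0 ≤ 3) :
    MvPolynomial.aeval (shr v (c.co (Urow c.th (c.lin b1 b2) 2))) G ≠ 0 := by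
  intro hGu
  have hlin : c.lin b1 b2 = fun l => C (c.sg l b1) * X + C (c.sg l b2) := rfl
  -- zeros of `Q'` in conjugate coordinates
  have hz : ∀ z : Fin 4 → ℂ, MvPolynomial.aeval (shr v (c.co z)) Q' = 0 ↔
      ∃ x y : ℂ, (x ≠ 0 ∨ y ≠ 0) ∧ ∃ α β : ℂ, ∀ j,
        z j * (c.sg j b1 * x + c.sg j b2 * y) ^ 2 = α + β * c.th j := by
    intro z
    have h1 := hev (c.co z)
    simp only [Quart4_sum_co] at h1
    rw [MvPolynomial.aeval_eq_eval, ← mul_eq_zero_iff_left hκ, h1, QN_eq_zero_iff]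
    refine exists_congr fun x => exists_congr fun y => and_congr_right fun _ => ?_
    rw [← om_ker_iff c.th c.inj]
    simp only [mul_assoc]
  have hQ0 : Q' ≠ 0 := by
    rintro rfl
    exact h0 rfl
  have hQu : MvPolynomial.aeval (shr v (c.co (Urow c.th (c.lin b1 b2) 2))) Q' = 0 := by
    apply Quart4_funext
    intro t n
    rw [Quart4_map, hz]
    refine ⟨t, 1, Or.inr one_ne_zero, n * ∏ l, (c.sg l b1 * t + c.sg l b2) ^ 2,
      -∏ l, (c.sg l b1 * t + c.sg l b2) ^ 2, fun j => ?_⟩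
    rw [hlin, Quart4_U, ← Finset.mul_prod_erase Finset.univ _ (Finset.mem_univ j)]
    ring
  have hirr : Irreducible Q' := Quart4_irred _ Q' hQ hQ0 hQu
    (Quart4_low c _ (lins_of_nondeg c (by norm_num) hnd) hv)
  have h4 : 4 ≤ Q'.degreeOf 0 := by
    simpa using MvPolynomial.monomial_le_degreeOf 0 (MvPolynomial.mem_support_iff.2 h0)
  -- the four planes
  obtain ⟨H, hH1, hH⟩ : ∃ H : Fin 4 → MvPolynomial (Fin 4) ℂ, (∀ j, (H j).IsHomogeneous 1) ∧
      ∀ j (z : Fin 4 → ℂ), MvPolynomial.aeval (shr v (c.co z)) (H j) =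
        ∑ l, om c.th l * (z l * c.pl b1 b2 j l ^ 2) := by
    refine ⟨fun j => ∑ l, MvPolynomial.C (om c.th l * c.pl b1 b2 j l ^ 2) *
      ∑ i : Fin 4, MvPolynomial.C (c.th l ^ (i : ℕ)) *
        (MvPolynomial.X i + MvPolynomial.C (v i : ℂ) * MvPolynomial.X 0), fun j => ?_,
      fun j z => ?_⟩
    · refine MvPolynomial.IsHomogeneous.sum _ _ _ fun l _ => MvPolynomial.IsHomogeneous.C_mul
        (MvPolynomial.IsHomogeneous.sum _ _ _ fun i _ => MvPolynomial.IsHomogeneous.C_mul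
          ((MvPolynomial.isHomogeneous_X ℂ i).add (MvPolynomial.isHomogeneous_C_mul_X _ _)) _) _
    · simp only [map_sum, map_mul, map_add, MvPolynomial.aeval_C, MvPolynomial.aeval_X,
        Algebra.algebraMap_self, RingHom.id_apply, Quart4_shr' hv]
      refine Finset.sum_congr rfl fun l _ => ?_
      rw [← Quart4_sum_co c z l]
      simp only [mul_comm (c.th l ^ _)]
      ring
  have hom : ∀ l, om c.th l ≠ 0 := fun l => inv_ne_zero (Finset.prod_ne_zero_iff.2 fun i hi =>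
    sub_ne_zero.2 fun h => (Finset.mem_erase.1 hi).1 (c.inj h).symm)
  have hH0 : ∀ j, H j ≠ 0 := by
    intro j h
    obtain ⟨l, hl⟩ := exists_ne j
    have h1 := hH j (Pi.single l 1)
    rw [h, map_zero, Finset.sum_eq_single l (fun i _ hi => by simp [hi]) (by simp)] at h1
    exact mul_ne_zero (hom l) (mul_ne_zero (by simp) (pow_ne_zero 2 (hnd j l hl.symm))) h1.symm
  refine Quart4_null Q' G H hirr h4 hG h3 hH0 (fun j => (MvPolynomial.degreeOf_le_totalDegree
    _ _).trans ((hH1 j).totalDegree_le.trans (by norm_num))) fun m hm => ?_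
  obtain ⟨z, rfl⟩ : ∃ z : Fin 4 → ℂ, shr v (c.co z) = m :=
    ⟨fun j => ∑ i : Fin 4, (m i + v i * m 0) * c.th j ^ (i : ℕ), by
      rw [Quart4_co, Quart4_shr hv]⟩
  obtain ⟨x, y, hxy, α, β, hαβ⟩ := (hz z).1 hm
  by_cases hl : ∀ j, c.sg j b1 * x + c.sg j b2 * y ≠ 0
  · left
    have hG' := hD.aeval _ (Quart4_hom c v)
    have h1 := Quart4_ext c.th (fun l => c.sg l b1) (fun l => c.sg l b2) _ hG' (fun t n => by
      have := congrArg (aevalAeval t n) hGu
      rw [Quart4_map, map_zero, hlin] at this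
      simp only [Quart4_U] at this
      rw [Quart4_aeval, this]) x y α β
    have h2 : (fun j => (α + β * c.th j) *
        ∏ l ∈ Finset.univ.erase j, (c.sg l b1 * x + c.sg l b2 * y) ^ 2) =
        fun j => (∏ l, (c.sg l b1 * x + c.sg l b2 * y) ^ 2) * z j := by
      funext j
      rw [← hαβ, ← Finset.mul_prod_erase Finset.univ _ (Finset.mem_univ j)]
      ring
    rw [h2, Quart4_scale hG', Quart4_aeval] at h1
    exact (mul_eq_zero.1 h1).resolve_left
      (pow_ne_zero _ (Finset.prod_ne_zero_iff.2 fun l _ => pow_ne_zero 2 (hl l)))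
  · right
    push Not at hl
    obtain ⟨j, hj⟩ := hl
    refine ⟨j, ?_⟩
    rw [hH]
    have h1 := ((om_ker_iff c.th c.inj _).2 ⟨α, β, hαβ⟩).1
    have hx : x ^ 2 * ∑ l, om c.th l * (z l * c.pl b1 b2 j l ^ 2) = 0 := by
      rw [← mul_zero (c.sg j b2 ^ 2), ← h1, Finset.mul_sum, Finset.mul_sum]
      refine Finset.sum_congr rfl fun l _ => ?_
      have : x * c.pl b1 b2 j l = -(c.sg j b2 * (c.sg l b1 * x + c.sg l b2 * y)) := by
        rw [Ctx.pl]
        linear_combination c.sg l b2 * hj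
      calc x ^ 2 * (om c.th l * (z l * c.pl b1 b2 j l ^ 2))
          = om c.th l * z l * (x * c.pl b1 b2 j l) ^ 2 := by ring
        _ = _ := by rw [this]; ring
    have hy : y ^ 2 * ∑ l, om c.th l * (z l * c.pl b1 b2 j l ^ 2) = 0 := by
      rw [← mul_zero (c.sg j b1 ^ 2), ← h1, Finset.mul_sum, Finset.mul_sum]
      refine Finset.sum_congr rfl fun l _ => ?_
      have : y * c.pl b1 b2 j l = c.sg j b1 * (c.sg l b1 * x + c.sg l b2 * y) := by
        rw [Ctx.pl]
        linear_combination (-c.sg l b1) * hj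
      calc y ^ 2 * (om c.th l * (z l * c.pl b1 b2 j l ^ 2))
          = om c.th l * z l * (y * c.pl b1 b2 j l) ^ 2 := by ring
        _ = _ := by rw [this]; ring
    rcases hxy with h | h
    · exact (mul_eq_zero.1 hx).resolve_left (pow_ne_zero 2 h)
    · exact (mul_eq_zero.1 hy).resolve_left (pow_ne_zero 2 h)

end Crest.Agent.R22
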