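import Crest.Agent.R22.Quart2
import Crest.Agent.R22.Quart4

set_option autoImplicit false
open Polynomial IntermediateField

namespace Crest.Agent.R22

variable {d : ℕ}

theorem Quart_eval_single {σ R : Type*} [DecidableEq σ] [CommSemiring R] {Q : MvPolynomial σ R}
    {n : ℕ} (hQ : Q.IsHomogeneous n) (a : σ) :
    MvPolynomial.eval (fun i => if i = a then 1 else 0) Q = Q.coeff (Finsupp.single a n) := by
  rw [MvPolynomial.eval_eq]
  rw [Finset.sum_eq_single (Finsupp.single a n)]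
  · rw [Finset.prod_eq_one, mul_one]
    intro i hi
    have : i = a := by simpa using Finsupp.support_single_subset hi
    simp [this]
  · intro s hs hne
    have hd : s.degree = n := by
      have := hQ (MvPolynomial.mem_support_iff.1 hs)
      rw [Finsupp.degree_eq_weight_one]
      exact this
    by_contra h0
    have h1 := right_ne_zero_of_mul h0
    have h2 : s.support ⊆ {a} := by
      intro i hi
      by_contra hia
      have hia' : i ≠ a := by simpa using hia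
      refine h1 (Finset.prod_eq_zero hi ?_)
      rw [if_neg hia', zero_pow (Finsupp.mem_support_iff.1 hi)]
    obtain ⟨b, rfl⟩ := Finsupp.support_subset_singleton'.1 h2
    rw [Finsupp.degree_single] at hd
    exact hne (by rw [hd])
  · intro h
    rw [MvPolynomial.notMem_support_iff.1 h, zero_mul]

theorem Quart_prim {σ : Type*} (Q1 : MvPolynomial σ ℤ) (h0 : Q1 ≠ 0) :
    ∃ (κ : ℤ) (Q : MvPolynomial σ ℤ), κ ≠ 0 ∧ Q1 = MvPolynomial.C κ * Q ∧
      ∀ l : ℕ, l.Prime → ¬ (MvPolynomial.C (l : ℤ) ∣ Q) := by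
  have h1 : MvPolynomial.C (Q1.support.gcd Q1.coeff) ∣ Q1 := by
    rw [MvPolynomial.C_dvd_iff_dvd_coeff]
    intro i
    by_cases hi : i ∈ Q1.support
    · exact Finset.gcd_dvd hi
    · rw [MvPolynomial.notMem_support_iff.1 hi]
      exact dvd_zero _
  obtain ⟨Q, hQ⟩ := h1
  have hκ : Q1.support.gcd Q1.coeff ≠ 0 := by
    intro h
    rw [h, map_zero, zero_mul] at hQ
    exact h0 hQ
  refine ⟨_, Q, hκ, hQ, fun l hl hd => ?_⟩
  have h2 : Q1.support.gcd Q1.coeff * l ∣ Q1.support.gcd Q1.coeff := by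
    refine Finset.dvd_gcd fun i _ => ?_
    have h3 := (MvPolynomial.C_dvd_iff_dvd_coeff _ _).1 hd i
    have h4 := congrArg (MvPolynomial.coeff i) hQ
    rw [MvPolynomial.coeff_C_mul] at h4
    rw [h4]
    exact mul_dvd_mul_left _ h3
  have h5 : (l : ℤ) ∣ 1 := by
    rwa [← mul_dvd_mul_iff_left hκ, mul_one]
  exact hl.not_dvd_one (by exact_mod_cast h5)

theorem Quart_shear {R : Type*} [CommRing R] [Algebra ℤ R] {v : Fin 4 → ℤ} (hv : v 0 = 0)
    (Q0 : MvPolynomial (Fin 4) ℤ) (m : Fin 4 → R) :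
    MvPolynomial.aeval (shr v m) (MvPolynomial.aeval
      (fun i => MvPolynomial.X i + MvPolynomial.C (v i) * MvPolynomial.X 0 :
        Fin 4 → MvPolynomial (Fin 4) ℤ) Q0) = MvPolynomial.aeval m Q0 := by
  rw [MvPolynomial.comp_aeval_apply]
  congr 2
  funext i
  simp [shr, hv]

/-- Package: `Q` = primitive part of `Qint (Y_0, Y_i + v_i Y_0)`. -/
theorem quart (c : Ctx 4) : ∃ C : ℝ, 1 ≤ C ∧ ∀ b1 b2 : Fin 4 → ℤ, IsLine b1 b2 → c.Nondeg b1 b2 →
    ∃ (v : Fin 4 → ℤ) (Q : MvPolynomial (Fin 4) ℤ), (∀ i, |v i| ≤ 4) ∧ Q.IsHomogeneous 4 ∧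
      (∀ l : ℕ, l.Prime → ¬ (MvPolynomial.C (l : ℤ) ∣ Q)) ∧
      (‖b1‖ * ‖b2‖) ^ 4 ≤ C * |((Q.coeff (Finsupp.single 0 4) : ℤ) : ℝ)| ∧
      (∀ P : LPt c 2, P.be = P.x • b1 + P.y • b2 → MvPolynomial.eval (shr v P.mu) Q = 0) ∧
      ∀ (D : ℕ) (G : MvPolynomial (Fin 4) ℂ), G ≠ 0 → G.IsHomogeneous D → G.degreeOf 0 ≤ 3 →
        MvPolynomial.aeval (shr v (c.co (Urow c.th (c.lin b1 b2) 2))) G ≠ 0 := by
  obtain ⟨C1, hC1, hsize⟩ := Qint_size c
  obtain ⟨C2, hC2, hcont⟩ := Qint_content c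
  refine ⟨C1 * C2, one_le_mul_of_one_le_of_one_le hC1 hC2, fun b1 b2 hl hnd => ?_⟩
  obtain ⟨Q0, hQ0, hev0⟩ := exists_Qint c b1 b2
  obtain ⟨v, hv0, hv4, hsz⟩ := hsize b1 b2 Q0 hl hQ0 hev0
  set Q1 : MvPolynomial (Fin 4) ℤ := MvPolynomial.aeval
    (fun i => MvPolynomial.X i + MvPolynomial.C (v i) * MvPolynomial.X 0 :
      Fin 4 → MvPolynomial (Fin 4) ℤ) Q0 with hQ1
  have hQ1h : Q1.IsHomogeneous 4 := by
    have := hQ0.aeval (fun i => MvPolynomial.X i + MvPolynomial.C (v i) * MvPolynomial.X 0 :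
      Fin 4 → MvPolynomial (Fin 4) ℤ) (n := 1) fun i =>
        (MvPolynomial.isHomogeneous_X ℤ i).add ((MvPolynomial.isHomogeneous_X ℤ 0).C_mul _)
    rwa [one_mul] at this
  have hc1 : Q1.coeff (Finsupp.single 0 4) =
      MvPolynomial.eval (fun i => if i = 0 then 1 else v i) Q0 := by
    rw [← Quart_eval_single hQ1h 0]
    have h1 := Quart_shear hv0 Q0 (fun i => if i = 0 then (1 : ℤ) else v i)
    rw [MvPolynomial.aeval_eq_eval, MvPolynomial.aeval_eq_eval] at h1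
    rw [← h1]
    congr 2
    funext i
    by_cases hi : i = 0
    · simp [shr, hi, hv0]
    · simp [shr, hi]
  have hpos : 0 < (‖b1‖ * ‖b2‖) ^ 4 := by
    have h1 : 0 < ‖b1‖ := norm_pos_iff.2 hl.ne
    exact pow_pos (mul_pos h1 (h1.trans_le hl.le)) 4
  have hc0 : Q1.coeff (Finsupp.single 0 4) ≠ 0 := by
    intro h
    rw [← hc1, h] at hsz
    simp only [Int.cast_zero, abs_zero, mul_zero] at hsz
    exact absurd hpos (not_lt.2 hsz)
  obtain ⟨κ, Q, hκ, hQ, hprim⟩ := Quart_prim Q1 (by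
    intro h
    rw [h] at hc0
    exact hc0 rfl)
  have hcoef : ∀ s, Q1.coeff s = κ * Q.coeff s := fun s => by
    rw [hQ, MvPolynomial.coeff_C_mul]
  have hQh : Q.IsHomogeneous 4 := fun s hs => hQ1h (by
    rw [hcoef]
    exact mul_ne_zero hκ hs)
  have hdvd : MvPolynomial.C κ ∣ Q0 := by
    have h1 := Quart_shear hv0 Q0 (MvPolynomial.X : Fin 4 → MvPolynomial (Fin 4) ℤ)
    rw [← hQ1, hQ, map_mul, MvPolynomial.aeval_C, MvPolynomial.aeval_X_left_apply] at h1
    exact ⟨_, h1.symm⟩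
  have hκ2 := hcont b1 b2 Q0 hl hev0 κ hκ hdvd
  have hκC : (κ : ℂ) ≠ 0 := Int.cast_ne_zero.2 hκ
  have hkey : ∀ m : Fin 4 → ℂ, (κ : ℂ) * MvPolynomial.aeval (shr v m) Q =
      QN c.th (fun j => c.sg j b1) (fun j => c.sg j b2)
        fun j => om c.th j * ∑ i : Fin 4, m i * c.th j ^ (i : ℕ) := by
    intro m
    rw [← hev0, ← Quart_shear hv0 Q0 m, ← hQ1, hQ, map_mul, MvPolynomial.aeval_C]
    simp
  refine ⟨v, Q, hv4, hQh, hprim, ?_, fun P hP => ?_, fun D G hG hD h3 => ?_⟩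
  · rw [← hc1, hcoef, Int.cast_mul, abs_mul] at hsz
    refine hsz.trans ?_
    rw [mul_assoc]
    gcongr
  · have h1 := hkey fun i => (P.mu i : ℂ)
    have h2 : QN c.th (fun j => c.sg j b1) (fun j => c.sg j b2)
        (fun j => om c.th j * ∑ i : Fin 4, (P.mu i : ℂ) * c.th j ^ (i : ℕ)) = 0 := by
      rw [QN_eq_zero_iff]
      refine ⟨P.x, P.y, ?_, ?_⟩
      · by_contra hn
        push Not at hn
        have hx : P.x = 0 := by exact_mod_cast hn.1
        have hy : P.y = 0 := by exact_mod_cast hn.2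
        obtain ⟨i, hi⟩ := P.pbe 2 Nat.prime_two
        rw [hP, hx, hy] at hi
        simp at hi
      · have h3 := (om_ker_iff c.th c.inj fun j => (P.cc : ℂ) * ((P.n : ℂ) - c.th j)).2
          ⟨P.cc * P.n, -P.cc, fun j => by ring⟩
        have h4 : ∀ j, om c.th j * (∑ i : Fin 4, (P.mu i : ℂ) * c.th j ^ (i : ℕ)) *
            (c.sg j b1 * P.x + c.sg j b2 * P.y) ^ 2 =
            om c.th j * ((P.cc : ℂ) * ((P.n : ℂ) - c.th j)) := by
          intro j
          rw [← P.rel j, hP, sg_add, sg_smul, sg_smul, mul_comm (c.sg j b1), mul_comm (c.sg j b2),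
            mul_assoc]
          rfl
        simp only [mul_assoc (c.th _), h4]
        exact h3
    rw [h2, mul_eq_zero_iff_left hκC] at h1
    have h5 : shr v (fun i => (P.mu i : ℂ)) = fun i => ((shr v P.mu i : ℤ) : ℂ) := by
      funext i
      simp [shr]
    have h6 : ((MvPolynomial.eval (shr v P.mu) Q : ℤ) : ℂ) =
        MvPolynomial.aeval (fun i => ((shr v P.mu i : ℤ) : ℂ)) Q := by
      rw [← MvPolynomial.aeval_eq_eval]
      exact MvPolynomial.comp_aeval_apply (shr v P.mu) (Algebra.ofId ℤ ℂ) Q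
    rw [h5, ← h6] at h1
    exact_mod_cast h1
  · refine quart_kernel c b1 b2 hnd v hv0 (Q.map (Int.castRingHom ℂ)) (hQh.map _) ?_ κ hκC
      (fun m => ?_) D G hG hD h3
    · rw [MvPolynomial.coeff_map]
      rw [hcoef] at hc0
      simpa using right_ne_zero_of_mul hc0
    · rw [← hkey, MvPolynomial.eval_map, MvPolynomial.aeval_def]
      rfl

end Crest.Agent.R22
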