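import Crest.Agent.R22.Quart1
import Crest.Agent.R22.QSize

set_option autoImplicit false
open Polynomial IntermediateField

namespace Crest.Agent.R22

variable {d : ℕ}

theorem Quart2_pow_dvd {A ι : Type*} [CommRing A] [Fintype ι] {κ D e : A} {α p : ι → A}
    (he : e = ∑ i, α i * p i) (h : ∀ i, κ ∣ D * p i ^ 4) :
    κ ∣ D * e ^ (Fintype.card ι * 3 + 1) := by
  have h1 := Ideal.sum_pow_mem_span_pow Finset.univ (fun i => α i * p i) 3
  have h2 : Ideal.span ((fun i => (α i * p i) ^ (3 + 1)) '' (Finset.univ : Finset ι)) ≤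
      (Ideal.span {κ}).colon {D} := by
    rw [Ideal.span_le]
    rintro _ ⟨i, -, rfl⟩
    rw [SetLike.mem_coe, Submodule.mem_colon_singleton, Ideal.mem_span_singleton, smul_eq_mul]
    have := (h i).mul_left (α i ^ 4)
    convert this using 1
    ring
  have h3 := h2 h1
  rw [Submodule.mem_colon_singleton, Ideal.mem_span_singleton, smul_eq_mul, mul_comm, ← he] at h3
  exact h3

theorem Quart2_bezout {b1 b2 : Fin d → ℤ} (h : IsLine b1 b2) : ∃ u : Fin d × Fin d → ℤ,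
    ∑ a, (b1 a.1 * b2 a.2 - b1 a.2 * b2 a.1) * u a = 1 := by
  obtain ⟨u, hu⟩ := Finset.gcd_eq_sum_mul (Finset.univ : Finset (Fin d × Fin d))
    fun a => b1 a.1 * b2 a.2 - b1 a.2 * b2 a.1
  have h1 : (∑ a : Fin d × Fin d, (b1 a.1 * b2 a.2 - b1 a.2 * b2 a.1) * u a).natAbs = 1 := by
    by_contra hne
    obtain ⟨l, hl, hd⟩ := Nat.exists_prime_and_dvd hne
    obtain ⟨a, b, hab⟩ := h.prim l hl
    rw [← hu] at hd
    exact hab ((Int.natCast_dvd.2 hd).trans (Finset.gcd_dvd (Finset.mem_univ (a, b))))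
  rcases Int.natAbs_eq_iff.1 h1 with h2 | h2
  · exact ⟨u, h2⟩
  · refine ⟨fun a => -u a, ?_⟩
    simp only [mul_neg, Finset.sum_neg_distrib]
    rw [h2]
    simp

theorem Quart2_pl (c : Ctx d) (b1 b2 : Fin d → ℤ) (a b : Fin d) :
    ((b1 a * b2 b - b1 b * b2 a : ℤ) : ℂ) = ∑ q : Fin d × Fin d,
      (Matrix.vandermonde c.th)⁻¹ a q.1 * (Matrix.vandermonde c.th)⁻¹ b q.2 *
        c.pl b1 b2 q.1 q.2 := by
  push_cast
  rw [← co_sg c b1 a, ← co_sg c b1 b, ← co_sg c b2 a, ← co_sg c b2 b, mul_comm (c.co _ b)]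
  simp only [Ctx.co, smul_eq_mul, Finset.sum_mul_sum, Fintype.sum_prod_type, Ctx.pl,
    ← Finset.sum_sub_distrib]
  refine Finset.sum_congr rfl fun i _ => Finset.sum_congr rfl fun j _ => ?_
  ring

theorem Quart2_aeval_mem {σ : Type*} (S : Subalgebra ℤ ℂ) {m : σ → ℂ} (hm : ∀ i, m i ∈ S)
    (Q : MvPolynomial σ ℤ) : MvPolynomial.aeval m Q ∈ S := by
  have h : Algebra.adjoin ℤ (Set.range m) ≤ S := Algebra.adjoin_le (Set.range_subset_iff.2 hm)
  rw [Algebra.adjoin_range_eq_range_aeval] at h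
  exact h ⟨Q, rfl⟩

theorem Quart2_two (c : Ctx 4) {DF : ℤ}
    (hDF : ∀ l j, (DF : ℂ) * (Matrix.vandermonde c.th)⁻¹ l j ∈ c.AA) {b1 b2 : Fin 4 → ℤ}
    {Q : MvPolynomial (Fin 4) ℤ}
    (hQ : ∀ m : Fin 4 → ℂ, MvPolynomial.aeval m Q =
      QN c.th (fun j => c.sg j b1) (fun j => c.sg j b2)
        fun j => om c.th j * ∑ i : Fin 4, m i * c.th j ^ (i : ℕ))
    {κ : ℤ} (hκ : MvPolynomial.C κ ∣ Q) {i j : Fin 4} (hij : i ≠ j) :
    ∃ w ∈ c.AA, (DF : ℂ) ^ 4 * (c.th i - c.th j) ^ 2 * c.pl b1 b2 i j ^ 4 = κ * w := by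
  obtain ⟨Q', rfl⟩ := hκ
  set ω : Fin 4 → ℂ := fun l => ∏ l' ∈ Finset.univ.erase l, (c.th l - c.th l') with hω
  have ω0 : ∀ l, ω l ≠ 0 := fun l => Finset.prod_ne_zero_iff.2 fun l' hl' =>
    sub_ne_zero.2 fun h => (Finset.ne_of_mem_erase hl') (c.inj h).symm
  have ωA : ∀ l, ω l ∈ c.AA := fun l =>
    prod_mem fun l' _ => sub_mem (th_mem_AA c l) (th_mem_AA c l')
  set z : Fin 4 → ℂ := fun l => if l = i ∨ l = j then DF * ω l else 0 with hz
  have hm : ∀ l, c.co z l ∈ c.AA := fun l => sum_mem fun l' _ => by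
    simp only [hz, smul_eq_mul]
    split_ifs
    · rw [← mul_assoc, mul_comm _ (DF : ℂ)]
      exact mul_mem (hDF l l') (ωA l')
    · rw [mul_zero]
      exact zero_mem _
  refine ⟨_, Quart2_aeval_mem c.AA hm Q', ?_⟩
  have h1 := hQ (c.co z)
  have h2 : (fun l => om c.th l * ∑ i : Fin 4, c.co z i * c.th l ^ (i : ℕ)) =
      fun l => if l = i ∨ l = j then (DF : ℂ) else 0 := by
    funext l
    have h3 := sum_co c z l
    simp only [smul_eq_mul] at h3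
    simp only [mul_comm (c.co z _), h3]
    simp only [hz]
    split_ifs
    · change (ω l)⁻¹ * _ = _
      have := ω0 l
      field_simp
    · rw [mul_zero]
  rw [h2, QN_two _ _ _ i j hij, map_mul, MvPolynomial.aeval_C] at h1
  rw [Ctx.pl, ← h1]
  simp

/-- Content: if `κ ∣ Q` then evaluating at `m = co (DF/om_l on {i,j}) ∈ AA⁴` gives
`κ ∣ DF⁴ (θ_i-θ_j)² pl_ij⁴` in `AA`. The rational Plücker coordinates have gcd `1` (`IsLine.prim`) and
`DF²` times each is an `AA`-combination of the `pl_ij`, so a power of `DF` lies in the ideal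
`(pl_ij⁴)` (`Ideal.sum_pow_mem_span_pow`); hence `κ` divides a fixed nonzero element of `AA`, thus a
fixed nonzero integer (`AA_dvd_int`, `int_dvd_of_AA`). -/
theorem Qint_content (c : Ctx 4) : ∃ C : ℝ, 1 ≤ C ∧ ∀ (b1 b2 : Fin 4 → ℤ)
    (Q : MvPolynomial (Fin 4) ℤ), IsLine b1 b2 →
    (∀ m : Fin 4 → ℂ, MvPolynomial.aeval m Q =
      QN c.th (fun j => c.sg j b1) (fun j => c.sg j b2)
        fun j => om c.th j * ∑ i : Fin 4, m i * c.th j ^ (i : ℕ)) →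
    ∀ κ : ℤ, κ ≠ 0 → MvPolynomial.C κ ∣ Q → |(κ : ℝ)| ≤ C := by
  obtain ⟨DF, hDF0, hDF⟩ := exists_DF c
  set s : Finset (Fin 4 × Fin 4) := Finset.univ.filter fun q => q.1 ≠ q.2 with hs
  have δA : ∀ q : Fin 4 × Fin 4, (c.th q.1 - c.th q.2) ^ 2 ∈ c.AA := fun q =>
    pow_mem (sub_mem (th_mem_AA c _) (th_mem_AA c _)) 2
  set δ : Fin 4 × Fin 4 → c.AA := fun q => ⟨_, δA q⟩ with hδ
  set D : c.AA := (DF : c.AA) ^ 4 * ∏ q ∈ s, δ q with hD
  set z0 : c.AA := D * ((DF : c.AA) ^ 2) ^ (Fintype.card (Fin 4 × Fin 4) * 3 + 1) with hz0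
  have hDF1 : (DF : c.AA) ≠ 0 := Int.cast_ne_zero.2 hDF0
  have hz : z0 ≠ 0 := by
    refine mul_ne_zero (mul_ne_zero (pow_ne_zero _ hDF1) (Finset.prod_ne_zero_iff.2
      fun q hq h => ?_)) (pow_ne_zero _ (pow_ne_zero _ hDF1))
    have h1 : (c.th q.1 - c.th q.2) ^ 2 = 0 := congrArg Subtype.val h
    exact (Finset.mem_filter.1 hq).2 (c.inj (sub_eq_zero.1 (pow_eq_zero_iff two_ne_zero |>.1 h1)))
  obtain ⟨m, hm0, w, hw, hzw⟩ := AA_dvd_int c z0 z0.2 fun h => hz (Subtype.ext h)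
  refine ⟨|(m : ℝ)|, by exact_mod_cast Int.one_le_abs hm0, fun b1 b2 Q hl hQ κ hκ0 hκ => ?_⟩
  have plA : ∀ q : Fin 4 × Fin 4, c.pl b1 b2 q.1 q.2 ∈ c.AA := fun q =>
    sub_mem (mul_mem (sg_mem_AA c _ _) (sg_mem_AA c _ _))
      (mul_mem (sg_mem_AA c _ _) (sg_mem_AA c _ _))
  obtain ⟨u, hu⟩ := Quart2_bezout hl
  have h1 : (κ : c.AA) ∣ z0 := by
    refine Quart2_pow_dvd (p := fun q => ⟨_, plA q⟩)
      (α := fun q => ∑ a : Fin 4 × Fin 4, (u a : c.AA) * (⟨_, hDF a.1 q.1⟩ * ⟨_, hDF a.2 q.2⟩))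
      (Subtype.ext ?_) fun q => ?_
    · have h2 : ∑ a : Fin 4 × Fin 4, ((b1 a.1 * b2 a.2 - b1 a.2 * b2 a.1 : ℤ) : ℂ) * u a = 1 := by
        exact_mod_cast congrArg (Int.cast : ℤ → ℂ) hu
      simp only [Quart2_pl c] at h2
      push_cast
      rw [← mul_one ((DF : ℂ) ^ 2), ← h2]
      simp only [Finset.mul_sum, Finset.sum_mul]
      rw [Finset.sum_comm]
      refine Finset.sum_congr rfl fun i _ => Finset.sum_congr rfl fun j _ => ?_
      ring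
    · by_cases hq : q.1 = q.2
      · have h3 : (⟨_, plA q⟩ : c.AA) = 0 := Subtype.ext (by simp [Ctx.pl, hq])
        simp [h3]
      · obtain ⟨w', hw', h3⟩ := Quart2_two c hDF hQ hκ hq
        have h4 : (κ : c.AA) ∣ (DF : c.AA) ^ 4 * δ q * (⟨_, plA q⟩ : c.AA) ^ 4 :=
          ⟨⟨w', hw'⟩, Subtype.ext (by push_cast; exact h3)⟩
        exact h4.trans (mul_dvd_mul_right (mul_dvd_mul_left _
          (Finset.dvd_prod_of_mem δ (Finset.mem_filter.2 ⟨Finset.mem_univ q, hq⟩))) _)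
  obtain ⟨y, hy⟩ := h1
  have h5 : κ ∣ m := int_dvd_of_AA c κ m hκ0 (y * w) (mul_mem y.2 hw) (by
    rw [← hzw, hy]
    push_cast
    ring)
  exact_mod_cast Int.le_of_dvd (abs_pos.2 hm0) ((abs_dvd_abs _ _).2 h5)

end Crest.Agent.R22
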