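import Crest.Agent.R22.Basic

set_option autoImplicit false
open Polynomial IntermediateField

namespace Crest.Agent.R22

variable {d : ℕ}

/-- Gauss: relatively prime integer polynomials are coprime over `ℚ`. -/
theorem rlder_coprime {K L : ℤ[X]} (h : IsRelPrime K L) (hL : L ≠ 0) :
    IsCoprime (K.map (Int.castRingHom ℚ)) (L.map (Int.castRingHom ℚ)) := by
  refine IsRelPrime.isCoprime fun q hK' hL' => ?_
  have hL0 : L.map (Int.castRingHom ℚ) ≠ 0 :=
    (Polynomial.map_ne_zero_iff (Int.castRingHom ℚ).injective_int).2 hL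
  have hq0 : q ≠ 0 := ne_zero_of_dvd_ne_zero hL0 hL'
  refine isUnit_or_eq_zero_of_isUnit_integerNormalization_primPart (R := ℤ) hq0 ?_
  obtain ⟨b, hb, hbq⟩ := IsLocalization.integerNormalization_spec (nonZeroDivisors ℤ) q
  have hb0 : (b : ℚ) ≠ 0 := by exact_mod_cast nonZeroDivisors.ne_zero hb
  have h1 : ((IsLocalization.integerNormalization (nonZeroDivisors ℤ) q).primPart).map
      (Int.castRingHom ℚ) ∣ q := by
    have h2 := Polynomial.map_dvd (algebraMap ℤ ℚ)
      (primPart_dvd (IsLocalization.integerNormalization (nonZeroDivisors ℤ) q))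
    rw [hbq] at h2
    refine h2.trans ⟨C (b : ℚ)⁻¹, ?_⟩
    rw [zsmul_eq_mul, ← C_eq_intCast, mul_right_comm, ← C_mul, mul_inv_cancel₀ hb0, C_1, one_mul]
  have hp := isPrimitive_primPart (IsLocalization.integerNormalization (nonZeroDivisors ℤ) q)
  exact h ((IsPrimitive.Int.dvd_iff_map_cast_dvd_map_cast _ _ hp).2 (h1.trans hK'))
    ((IsPrimitive.Int.dvd_iff_map_cast_dvd_map_cast _ _ hp).2 (h1.trans hL'))

theorem rlder_res_ne {K L : ℤ[X]} (hL : L ≠ 0)
    (h : IsCoprime (K.map (Int.castRingHom ℚ)) (L.map (Int.castRingHom ℚ))) :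
    resultant K L (K.natDegree + 1) L.natDegree ≠ 0 := by
  have h1 := resultant_ne_zero _ _ h
  rw [natDegree_map_eq_of_injective (Int.castRingHom ℚ).injective_int,
    natDegree_map_eq_of_injective (Int.castRingHom ℚ).injective_int, resultant_map_map] at h1
  rw [resultant_succ_left_deg _ _ _ _ le_rfl]
  refine mul_ne_zero (mul_ne_zero (pow_ne_zero _ (by norm_num)) (leadingCoeff_ne_zero.2 hL)) ?_
  intro h0
  rw [h0, map_zero] at h1
  exact h1 rfl

theorem rlder_res_dvd (K L : ℤ[X]) {e s : ℤ} (hK : e ∣ K.eval s) (hL : e ∣ L.eval s) :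
    e ∣ resultant K L (K.natDegree + 1) L.natDegree := by
  obtain ⟨U, V, -, -, h⟩ := exists_mul_add_mul_eq_C_resultant K L (m := K.natDegree + 1)
    (n := L.natDegree) (Nat.le_succ _) le_rfl (Or.inl (Nat.succ_ne_zero _))
  have h1 := congrArg (eval s) h
  rw [eval_add, eval_mul, eval_mul, eval_C] at h1
  rw [← h1]
  exact dvd_add (hK.mul_right _) (hL.mul_right _)

theorem rlder_res_le {K L : ℤ[X]} {T : ℝ} (hT : 1 ≤ T) (hK : HtLE K T) (hL : HtLE L T) {m n N : ℕ}
    (hN : m + n ≤ N) : |((resultant K L m n : ℤ) : ℝ)| ≤ N.factorial * T ^ N := by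
  have h1 : ((resultant K L m n : ℤ) : ℝ) =
      (sylvester (K.map (Int.castRingHom ℝ)) (L.map (Int.castRingHom ℝ)) m n).det :=
    (resultant_map_map K L m n (Int.castRingHom ℝ)).symm
  have h2 := Matrix.det_le (abv := AbsoluteValue.abs) (x := T)
    (A := sylvester (K.map (Int.castRingHom ℝ)) (L.map (Int.castRingHom ℝ)) m n) fun i j => by
      induction j using Fin.addCases with
      | left j =>
        simp only [sylvester, Matrix.of_apply, Fin.addCases_left, AbsoluteValue.abs_apply]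
        split_ifs
        · rw [coeff_map]; exact hL _
        · rw [abs_zero]; linarith
      | right j =>
        simp only [sylvester, Matrix.of_apply, Fin.addCases_right, AbsoluteValue.abs_apply]
        split_ifs
        · rw [coeff_map]; exact hK _
        · rw [abs_zero]; linarith
  rw [Fintype.card_fin, nsmul_eq_mul, AbsoluteValue.abs_apply] at h2
  rw [h1]
  refine h2.trans ?_
  have h3 : ((m + n).factorial : ℝ) ≤ N.factorial := by exact_mod_cast Nat.factorial_le hN
  have h4 : T ^ (m + n) ≤ T ^ N := pow_le_pow_right₀ hT hN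
  gcongr

theorem rlder_mahler_le {p : ℂ[X]} {E : ℕ} {T : ℝ} (hE : p.natDegree ≤ E)
    (h : ∀ i, ‖p.coeff i‖ ≤ T) : p.mahlerMeasure ≤ (E + 1) * T := by
  refine p.mahlerMeasure_le_sum_norm_coeff.trans ?_
  rw [sum_over_range' p (by simp) (E + 1) (by omega)]
  refine (Finset.sum_le_sum fun i _ => h i).trans (le_of_eq ?_)
  simp

/-- Height of a factor. -/
theorem rlder_ht {D K : ℤ[X]} (hD : D ≠ 0) {n : ℕ} (hn : K.natDegree ≤ n) {M : ℝ}
    (hM : ((D * K).map (Int.castRingHom ℂ)).mahlerMeasure ≤ M) : HtLE K (2 ^ n * M) := by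
  intro i
  have h1 := norm_coeff_le_choose_mul_mahlerMeasure_of_one_le_mahlerMeasure i
    (K.map (Int.castRingHom ℂ)) _ (one_le_mahlerMeasure_of_ne_zero hD)
  rw [← Polynomial.map_mul, mul_comm K D, coeff_map, eq_intCast, Complex.norm_intCast,
    natDegree_map_eq_of_injective (Int.castRingHom ℂ).injective_int] at h1
  refine h1.trans ?_
  have h2 : (K.natDegree.choose i : ℝ) ≤ 2 ^ n := by
    exact_mod_cast (Nat.choose_le_two_pow _ _).trans (Nat.pow_le_pow_right (by norm_num) hn)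
  exact mul_le_mul h2 hM (mahlerMeasure_nonneg _) (by positivity)

theorem rlder_fac (c : Ctx d) (A : ℤ[X]) {δ : ℤ} (hδ : δ ≠ 0) :
    ((c.F.scaleRoots δ).comp A).map (Int.castRingHom ℂ) =
      ∏ j, (A.map (Int.castRingHom ℂ) - C (c.th j * δ)) := by
  have hδ' : (δ : ℂ) ≠ 0 := by exact_mod_cast hδ
  refine Polynomial.funext fun z => ?_
  obtain ⟨w, hw⟩ : ∃ w, (A.map (Int.castRingHom ℂ)).eval z = δ * w :=
    ⟨_, (mul_div_cancel₀ _ hδ').symm⟩
  have h1 := scaleRoots_eval₂_mul (p := c.F) (Int.castRingHom ℂ) w δ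
  have h2 := prod_sub_th c w
  rw [aeval_def, algebraMap_int_eq] at h2
  rw [Polynomial.map_comp, eval_comp, hw, eval_map, eval_prod]
  simp only [eval_sub, eval_C, hw]
  rw [eq_intCast] at h1
  rw [h1, ← h2, c.deg]
  have h3 : ∀ j, (δ : ℂ) * w - c.th j * δ = δ * (w - c.th j) := fun j => by ring
  simp only [h3, Finset.prod_mul_distrib, Finset.prod_const, Finset.card_univ, Fintype.card_fin]

theorem rlder_mahler_F (c : Ctx d) {A : ℤ[X]} {δ : ℤ} {E : ℕ} {H : ℝ} (hδ : δ ≠ 0)
    (hE : A.natDegree ≤ E) (hA : HtLE A H) (hδH : |(δ : ℝ)| ≤ H) :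
    (((c.F.scaleRoots δ).comp A).map (Int.castRingHom ℂ)).mahlerMeasure ≤
      (∏ j, (E + 1) * (1 + ‖c.th j‖)) * H ^ d := by
  have hH : 0 ≤ H := (abs_nonneg _).trans hδH
  have h1 : ∀ j, (A.map (Int.castRingHom ℂ) - C (c.th j * δ)).mahlerMeasure ≤
      (E + 1) * (1 + ‖c.th j‖) * H := fun j => by
    rw [mul_assoc]
    refine rlder_mahler_le ?_ fun i => ?_
    · rw [natDegree_sub_C]
      exact natDegree_map_le.trans hE
    · rw [coeff_sub, coeff_map, eq_intCast, coeff_C]
      refine (norm_sub_le _ _).trans ?_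
      rw [Complex.norm_intCast, add_mul, one_mul]
      refine add_le_add (hA i) ?_
      split_ifs
      · rw [norm_mul, Complex.norm_intCast]
        exact mul_le_mul_of_nonneg_left hδH (norm_nonneg _)
      · rw [norm_zero]; positivity
  rw [rlder_fac c A hδ, Finset.prod_eq_multiset_prod, prod_mahlerMeasure_eq_mahlerMeasure_prod,
    Multiset.map_map, ← Finset.prod_eq_multiset_prod]
  refine (Finset.prod_le_prod (fun j _ => mahlerMeasure_nonneg _) fun j _ => h1 j).trans
    (le_of_eq ?_)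
  rw [Finset.prod_mul_distrib, Finset.prod_const, Finset.card_univ, Fintype.card_fin]

/-- Chain rule. -/
theorem rlder_chain (F A : ℤ[X]) (δ s n : ℤ) (h : A.eval s = n * δ) :
    δ * (derivative ((F.scaleRoots δ).comp A)).eval s =
      (derivative A).eval s * (δ ^ F.natDegree * (derivative F).eval n) := by
  have h1 : (F.scaleRoots δ).comp (C δ * X) = C (δ ^ F.natDegree) * F := by
    refine Polynomial.funext fun r => ?_
    rw [eval_comp, eval_mul, eval_C, eval_X, scaleRoots_eval_mul, eval_mul, eval_C]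
  have h2 := congrArg (fun q => (derivative q).eval n) h1
  simp only [derivative_comp, derivative_C_mul, derivative_X, mul_one, eval_mul, eval_C, eval_comp,
    eval_X] at h2
  rw [derivative_comp, eval_mul, eval_comp, h, mul_comm n δ, ← h2]
  ring

/-- `𝔉 = hev F d A δ = δ^d F(A/δ) ∈ ℤ[s]`, nonconstant. Factor `𝔉 = γ P G1 G2` (primitive parts): `P` the
product of the irreducible factors of multiplicity `≥ 2` with their multiplicities, `G1`, `G2` the
simple factors not dividing / dividing `F1`. Each multiple factor divides `A'` (over `ℚ`: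
`𝔉' = δ^(d-1) F'(A/δ) A'`, and `F(A/δ), F'(A/δ)` are coprime; then Gauss). `G2 ∣ F1` in `ℤ[s]`.
`R = γ · Res(G1, F1)`; heights of `γ`, `G1` by Mahler measure (or `norm_coeff_le_choose_mul_…`). -/
theorem rl_der (c : Ctx d) (E : ℕ) : ∃ C : ℕ, ∀ (A F1 : ℤ[X]) (δ : ℤ) (H : ℝ), 2 ≤ H →
    1 ≤ A.natDegree → A.natDegree ≤ E → F1.natDegree ≤ E → F1 ≠ 0 → δ ≠ 0 → HtLE A H →
    HtLE F1 H → |(δ : ℝ)| ≤ H → ∃ R : ℤ, R ≠ 0 ∧ |(R : ℝ)| ≤ H ^ C ∧
      ∀ (p : ℕ) (s n : ℤ), p.Prime → ¬ (p : ℤ) ∣ R → A.eval s = n * δ →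
        (p : ℤ) ^ 2 ∣ c.F.eval n → (p : ℤ) ∣ F1.eval s → ¬ (p : ℤ) ^ 2 ∣ F1.eval s →
        (p : ℤ) ∣ (derivative A).eval s := by
  -- (Proof used: `𝔉 = D K`, `F1 = D L` with `K, L` coprime; `R = δ Res(F, F') Res(K, L)`.)
  have hsep : IsCoprime (c.F.map (Int.castRingHom ℚ))
      ((derivative c.F).map (Int.castRingHom ℚ)) := by
    rw [← derivative_map]
    exact c.irr.separable
  have hF' : derivative c.F ≠ 0 := fun h0 => by
    rw [h0, Polynomial.map_zero, isCoprime_zero_right] at hsep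
    exact c.irr.not_isUnit hsep
  set r0 := resultant c.F (derivative c.F) (c.F.natDegree + 1) (derivative c.F).natDegree
    with hr0
  have hr0ne : r0 ≠ 0 := rlder_res_ne hF' hsep
  set c1 : ℝ := ∏ j, (E + 1) * (1 + ‖c.th j‖) with hc1
  have hc1' : 0 ≤ c1 := Finset.prod_nonneg fun j _ => by positivity
  set N := d * E + 1 + E with hN
  set c2 : ℝ := 2 ^ N * (c1 + (E + 1)) with hc2
  obtain ⟨k, hk⟩ := pow_unbounded_of_one_lt (|(r0 : ℝ)| * (N.factorial * c2 ^ N))
    (by norm_num : (1 : ℝ) < 2)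
  refine ⟨k + (1 + (d + 1) * N), fun A F1 δ H hH _ hAE hF1E hF1 hδ hA hF1H hδH => ?_⟩
  have hH1 : 1 ≤ H := by linarith
  obtain ⟨K, L, D, hKL, hK, hL⟩ := UniqueFactorizationMonoid.exists_reduced_factors'
    ((c.F.scaleRoots δ).comp A) F1 hF1
  have hD0 : D ≠ 0 := fun h0 => hF1 (by rw [← hL, h0, zero_mul])
  have hL0 : L ≠ 0 := fun h0 => hF1 (by rw [← hL, h0, mul_zero])
  have hLd : L.natDegree ≤ E := (natDegree_le_of_dvd ⟨D, by rw [← hL, mul_comm]⟩ hF1).trans hF1E
  have hKd : K.natDegree ≤ d * E := by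
    by_cases hK0 : K = 0
    · rw [hK0, natDegree_zero]; exact Nat.zero_le _
    · refine (natDegree_le_of_dvd (Dvd.intro_left D rfl) (mul_ne_zero hD0 hK0)).trans ?_
      rw [hK]
      refine natDegree_comp_le.trans ?_
      rw [natDegree_scaleRoots, c.deg]
      exact Nat.mul_le_mul_left _ hAE
  have hHd : H ^ d ≤ H ^ (d + 1) := pow_le_pow_right₀ hH1 (Nat.le_succ _)
  have hHd' : H ≤ H ^ (d + 1) := le_self_pow₀ hH1 (Nat.succ_ne_zero _)
  have hE0 : (0 : ℝ) ≤ E := Nat.cast_nonneg _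
  have hKH : HtLE K (c2 * H ^ (d + 1)) := by
    rw [hc2, mul_assoc]
    refine rlder_ht hD0 (by omega) ?_
    rw [hK]
    refine (rlder_mahler_F c hδ hAE hA hδH).trans ?_
    exact mul_le_mul (by linarith) hHd (by positivity) (by positivity)
  have hLH : HtLE L (c2 * H ^ (d + 1)) := by
    rw [hc2, mul_assoc]
    refine rlder_ht hD0 (by omega) ?_
    rw [hL]
    refine (rlder_mahler_le (E := E) (T := H) (natDegree_map_le.trans hF1E) fun i => ?_).trans ?_
    · rw [coeff_map, eq_intCast, Complex.norm_intCast]; exact hF1H i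
    · exact mul_le_mul (by linarith) hHd' (by positivity) (by positivity)
  have hT : 1 ≤ c2 * H ^ (d + 1) :=
    one_le_mul_of_one_le_of_one_le
      (one_le_mul_of_one_le_of_one_le (one_le_pow₀ (by norm_num)) (by linarith))
      (one_le_pow₀ hH1)
  have hres := rlder_res_le hT hKH hLH (m := K.natDegree + 1) (n := L.natDegree) (N := N)
    (by omega)
  refine ⟨δ * r0 * resultant K L (K.natDegree + 1) L.natDegree,
    mul_ne_zero (mul_ne_zero hδ hr0ne) (rlder_res_ne hL0 (rlder_coprime hKL hL0)), ?_,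
    fun p s n hp hpR hAs hpF hp1 hp2 => ?_⟩
  · rw [Int.cast_mul, Int.cast_mul, abs_mul, abs_mul]
    calc |(δ : ℝ)| * |(r0 : ℝ)| * |((resultant K L (K.natDegree + 1) L.natDegree : ℤ) : ℝ)|
        ≤ H * |(r0 : ℝ)| * (N.factorial * (c2 * H ^ (d + 1)) ^ N) := by gcongr
      _ = |(r0 : ℝ)| * (N.factorial * c2 ^ N) * H ^ (1 + (d + 1) * N) := by
        rw [mul_pow, pow_add H 1, pow_one, pow_mul]; ring
      _ ≤ H ^ k * H ^ (1 + (d + 1) * N) := by
        gcongr
        exact hk.le.trans (pow_le_pow_left₀ (by norm_num) hH k)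
      _ = _ := (pow_add _ _ _).symm
  · have hp' : Prime (p : ℤ) := Nat.prime_iff_prime_int.1 hp
    have hpδ : ¬(p : ℤ) ∣ δ := fun h => hpR ((h.mul_right _).mul_right _)
    have hpr : ¬(p : ℤ) ∣ r0 := fun h => hpR ((h.mul_left _).mul_right _)
    have hpF1 : (p : ℤ) ∣ c.F.eval n := (dvd_pow_self _ two_ne_zero).trans hpF
    have hDK : (p : ℤ) ^ 2 ∣ D.eval s * K.eval s := by
      rw [← eval_mul, hK, eval_comp, hAs, mul_comm n δ, scaleRoots_eval_mul]
      exact hpF.mul_left _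
    rw [← hL, eval_mul] at hp1 hp2
    have hpK : (p : ℤ) ∣ K.eval s := by
      by_contra h
      exact hp2 ((hp'.pow_dvd_of_dvd_mul_right 2 h hDK).mul_right _)
    have hpL : ¬(p : ℤ) ∣ L.eval s := fun h => hpR ((rlder_res_dvd K L hpK h).mul_left _)
    have hpD : (p : ℤ) ∣ D.eval s := (hp'.dvd_or_dvd hp1).resolve_right hpL
    have hder : (p : ℤ) ∣ (derivative ((c.F.scaleRoots δ).comp A)).eval s := by
      rw [← hK, derivative_mul, eval_add, eval_mul, eval_mul]
      exact dvd_add (hpK.mul_left _) (hpD.mul_right _)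
    have h1 := hder.mul_left δ
    rw [rlder_chain c.F A δ s n hAs] at h1
    refine (hp'.dvd_or_dvd h1).resolve_right fun h2 => ?_
    rcases hp'.dvd_or_dvd h2 with h3 | h3
    · exact hpδ (hp'.dvd_of_dvd_pow h3)
    · exact hpr (rlder_res_dvd _ _ hpF1 h3)

end Crest.Agent.R22
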