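import Crest.Agent.R22.Steep

set_option autoImplicit false
open Polynomial IntermediateField

namespace Crest.Agent.R22

variable {d : ℕ}

/-- the coefficients beyond `m` are more divisible by `p` than the earlier ones -/
def RLrefH (p : ℕ) (A : ℤ[X]) (m : ℕ) : Prop :=
  ∀ e : ℕ, (∀ i ≤ m, (p : ℤ) ^ e ∣ A.coeff i) → ∀ j, m < j → (p : ℤ) ^ (e + 1) ∣ A.coeff j

theorem RLref_div {p : ℕ} (hp : p.Prime) {A : ℤ[X]} {m : ℕ} (h : RLrefH p (C (p : ℤ) * A) m) :
    RLrefH p A m := by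
  intro e he j hj
  have hp0 : (p : ℤ) ≠ 0 := by exact_mod_cast hp.ne_zero
  have h1 := h (e + 1) (fun i hi => by
    rw [coeff_C_mul, pow_succ']; exact mul_dvd_mul_left _ (he i hi)) j hj
  rw [coeff_C_mul, pow_succ'] at h1
  exact (mul_dvd_mul_iff_left hp0).1 h1

theorem RLref_comp (A : ℤ[X]) (a q b r : ℤ) :
    A.comp (C (a + q * b) + C (q * r) * X) = (A.comp (C a + C q * X)).comp (C b + C r * X) := by
  rw [comp_assoc]
  congr 1
  simp only [add_comp, mul_comp, C_comp, X_comp, map_add, map_mul]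
  ring

theorem RLref_dvd_comp {c : ℤ} {A : ℤ[X]} (h : C c ∣ A) (B : ℤ[X]) : C c ∣ A.comp B := by
  obtain ⟨D, rfl⟩ := h
  rw [mul_comp, C_comp]
  exact dvd_mul_right _ _

theorem RLref_root {p : ℕ} [hp : Fact p.Prime] {A : ℤ[X]}
    (h0 : A.map (Int.castRingHom (ZMod p)) ≠ 0) (a : ℤ)
    (ha : (A.map (Int.castRingHom (ZMod p))).IsRoot (a : ZMod p)) :
    ∃ B : ℤ[X], A.comp (C a + C (p : ℤ) * X) = C (p : ℤ) * B ∧
      RLrefH p B ((A.map (Int.castRingHom (ZMod p))).rootMultiplicity (a : ZMod p)) := by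
  have e : A.comp (C a + C (p : ℤ) * X) = (A.comp (X + C a)).comp (C (p : ℤ) * X) := by
    rw [comp_assoc]
    congr 1
    simp only [add_comp, C_comp, X_comp]
    ring
  have em : (A.comp (X + C a)).map (Int.castRingHom (ZMod p)) =
      (A.map (Int.castRingHom (ZMod p))).comp (X + C (a : ZMod p)) := by
    rw [map_comp]; simp
  have hd : C (p : ℤ) ∣ A.comp (C a + C (p : ℤ) * X) := by
    rw [C_dvd_iff_dvd_coeff]
    intro i
    rw [e, comp_C_mul_X_coeff]
    rcases Nat.eq_zero_or_pos i with rfl | hi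
    · refine Dvd.dvd.mul_right ?_ _
      rw [← ZMod.intCast_zmod_eq_zero_iff_dvd, coeff_zero_eq_eval_zero, eval_comp]
      have := ha.eq_zero
      rw [← eq_intCast (Int.castRingHom (ZMod p)) a, eval_map, eval₂_at_apply] at this
      simpa using this
    · exact Dvd.dvd.mul_left (dvd_pow_self _ hi.ne') _
  obtain ⟨B, hB⟩ := hd
  refine ⟨B, hB, RLref_div hp.out ?_⟩
  rw [← hB, e, rootMultiplicity_eq_natTrailingDegree]
  set m := ((A.map (Int.castRingHom (ZMod p))).comp (X + C (a : ZMod p))).natTrailingDegree with hm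
  have hne : ¬ (p : ℤ) ∣ (A.comp (X + C a)).coeff m := by
    rw [← ZMod.intCast_zmod_eq_zero_iff_dvd, ← eq_intCast (Int.castRingHom (ZMod p)), ← coeff_map,
      em]
    exact coeff_natTrailingDegree_ne_zero.2 (comp_X_add_C_ne_zero_iff.2 h0)
  intro k hk j hj
  have h1 := hk m le_rfl
  rw [comp_C_mul_X_coeff] at h1 ⊢
  have hpp : Prime (p : ℤ) := Nat.prime_iff_prime_int.1 hp.out
  have h2 : (p : ℤ) ^ k ∣ (p : ℤ) ^ m := hpp.pow_dvd_of_dvd_mul_left k hne h1
  have h3 : k ≤ m := (pow_dvd_pow_iff hpp.ne_zero hpp.not_isUnit).1 h2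
  exact Dvd.dvd.mul_left (pow_dvd_pow _ (by omega)) _

theorem RLref_main (p : ℕ) (hp : p.Prime) (v : ℕ) : ∀ (A : ℤ[X]) (m : ℕ), 1 ≤ m → RLrefH p A m →
    ∃ T : Finset (ℤ × ℕ), T.card ≤ m ∧
      (∀ z ∈ T, C ((p : ℤ) ^ v) ∣ A.comp (C z.1 + C ((p : ℤ) ^ z.2) * X)) ∧
      ∀ s : ℤ, (p : ℤ) ^ v ∣ A.eval s → ∃ z ∈ T, (p : ℤ) ^ z.2 ∣ s - z.1 := by
  classical
  have := Fact.mk hp
  have hp0 : (p : ℤ) ≠ 0 := by exact_mod_cast hp.ne_zero
  induction v with
  | zero =>
    intro A m hm _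
    exact ⟨{(0, 0)}, by simpa using hm, by simp, by simp⟩
  | succ v ih =>
    intro A m hm hH
    by_cases h0 : A.map (Int.castRingHom (ZMod p)) = 0
    · have hd : C (p : ℤ) ∣ A := by
        rw [C_dvd_iff_dvd_coeff]
        intro i
        rw [← ZMod.intCast_zmod_eq_zero_iff_dvd, ← eq_intCast (Int.castRingHom (ZMod p)),
          ← coeff_map, h0, coeff_zero]
      obtain ⟨B, rfl⟩ := hd
      obtain ⟨T, h1, h2, h3⟩ := ih B m hm (RLref_div hp hH)
      refine ⟨T, h1, fun z hz => ?_, fun s hs => h3 s ?_⟩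
      · rw [mul_comp, C_comp, pow_succ', map_mul]
        exact mul_dvd_mul_left _ (h2 z hz)
      · rw [eval_mul, eval_C, pow_succ'] at hs
        exact (mul_dvd_mul_iff_left hp0).1 hs
    · set Ab := A.map (Int.castRingHom (ZMod p)) with hAb
      have hdeg : Ab.natDegree ≤ m := by
        rw [natDegree_le_iff_coeff_eq_zero]
        intro j hj
        rw [hAb, coeff_map, eq_intCast, ZMod.intCast_zmod_eq_zero_iff_dvd]
        simpa using hH 0 (by simp) j hj
      have key : ∀ a : ZMod p, ∃ T : Finset (ℤ × ℕ), Ab.IsRoot a → T.card ≤ Ab.roots.count a ∧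
          (∀ z ∈ T, C ((p : ℤ) ^ (v + 1)) ∣ A.comp (C z.1 + C ((p : ℤ) ^ z.2) * X)) ∧
          ∀ s : ℤ, (s : ZMod p) = a → (p : ℤ) ^ (v + 1) ∣ A.eval s →
            ∃ z ∈ T, (p : ℤ) ^ z.2 ∣ s - z.1 := by
        intro a
        by_cases ha : Ab.IsRoot a
        swap
        · exact ⟨∅, fun h => absurd h ha⟩
        obtain ⟨a, rfl⟩ := ZMod.intCast_surjective a
        obtain ⟨B, hB, hH'⟩ := RLref_root h0 a ha
        obtain ⟨T, h1, h2, h3⟩ := ih B _ ((rootMultiplicity_pos h0).2 ha) hH'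
        refine ⟨T.image fun z => (a + p * z.1, z.2 + 1), fun _ => ⟨?_, ?_, ?_⟩⟩
        · rw [count_roots]
          exact Finset.card_image_le.trans h1
        · intro z hz
          obtain ⟨w, hw, rfl⟩ := Finset.mem_image.1 hz
          rw [pow_succ' (p : ℤ) w.2, RLref_comp, hB, mul_comp, C_comp, pow_succ', map_mul]
          exact mul_dvd_mul_left _ (h2 w hw)
        · intro s hs hs'
          obtain ⟨t, ht⟩ := (ZMod.intCast_eq_intCast_iff_dvd_sub a s p).1 hs.symm
          have e : A.eval s = p * B.eval t := by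
            have := congrArg (eval t) hB
            rw [eval_comp, eval_mul, eval_C, eval_add, eval_mul, eval_C, eval_C, eval_X,
              ← ht] at this
            simpa using this
          rw [e, pow_succ'] at hs'
          obtain ⟨w, hw, hw'⟩ := h3 t ((mul_dvd_mul_iff_left hp0).1 hs')
          refine ⟨_, Finset.mem_image_of_mem _ hw, ?_⟩
          have e2 : s - (a + p * w.1) = p * (t - w.1) := by linear_combination ht
          rw [e2, pow_succ']
          exact mul_dvd_mul_left _ hw'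
      choose T hT using key
      have hr : ∀ a ∈ Ab.roots.toFinset, Ab.IsRoot a := fun a ha =>
        isRoot_of_mem_roots (Multiset.mem_toFinset.1 ha)
      refine ⟨Ab.roots.toFinset.biUnion T, ?_, ?_, ?_⟩
      · refine Finset.card_biUnion_le.trans ((Finset.sum_le_sum fun a ha =>
          (hT a (hr a ha)).1).trans ?_)
        rw [Multiset.toFinset_sum_count_eq]
        exact (card_roots' Ab).trans hdeg
      · intro z hz
        obtain ⟨a, ha, hz⟩ := Finset.mem_biUnion.1 hz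
        exact (hT a (hr a ha)).2.1 z hz
      · intro s hs
        have ha : Ab.IsRoot (s : ZMod p) := by
          rw [IsRoot.def, hAb, ← eq_intCast (Int.castRingHom (ZMod p)) s, eval_map, eval₂_at_apply,
            eq_intCast, ZMod.intCast_zmod_eq_zero_iff_dvd]
          exact (dvd_pow_self _ (Nat.succ_ne_zero v)).trans hs
        obtain ⟨z, hz, hz'⟩ := (hT _ ha).2.2 s rfl hs
        exact ⟨z, Finset.mem_biUnion.2 ⟨_, Multiset.mem_toFinset.2 ((mem_roots h0).2 ha), hz⟩, hz'⟩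

/-- One prime. Induction on `v`. If `p ∣ A` divide. Otherwise `A mod p ≠ 0` has degree `m`; a class
`a mod p` containing a solution is a root of multiplicity `m_a ≥ 1`, `∑ m_a ≤ m`, and
`A(a + p X) = p A_a(X)` where the reduction of the primitive part (at `p`) of `A_a` has degree `≤ m_a`
(the coefficient of `X^(m_a)` in `A(a + pX)` has valuation exactly `m_a`, later ones `> m_a`). Prove by
induction that the number of progressions is at most `max 1 (degree of the normalised reduction)`. -/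
theorem refine_prime (p v : ℕ) (hp : p.Prime) (A : ℤ[X]) (N : ℕ) (hN : 1 ≤ N)
    (hA : A.natDegree ≤ N) : ∃ T : Finset (ℤ × ℕ), T.card ≤ N ∧
      (∀ z ∈ T, C ((p : ℤ) ^ v) ∣ A.comp (C z.1 + C ((p : ℤ) ^ z.2) * X)) ∧
      ∀ s : ℤ, (p : ℤ) ^ v ∣ A.eval s → ∃ z ∈ T, (p : ℤ) ^ z.2 ∣ s - z.1 :=
  RLref_main p hp v A N hN fun _ _ j hj => by
    rw [coeff_eq_zero_of_natDegree_lt (hA.trans_lt hj)]; exact dvd_zero _

/-- All primes: the solutions of `δ ∣ A(s)` are covered by `≤ N^ω(δ)` progressions `a + q ℤ` on which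
`A / δ` has integer coefficients. -/
theorem refine_all (δ : ℕ) (hδ : δ ≠ 0) (A : ℤ[X]) (N : ℕ) (hN : 1 ≤ N) (hA : A.natDegree ≤ N) :
    ∃ T : Finset (ℤ × ℤ), T.card ≤ N ^ δ.primeFactors.card ∧
      (∀ z ∈ T, z.2 ≠ 0 ∧ C (δ : ℤ) ∣ A.comp (C z.1 + C z.2 * X)) ∧
      ∀ s : ℤ, (δ : ℤ) ∣ A.eval s → ∃ z ∈ T, z.2 ∣ s - z.1 := by
  classical
  induction δ using Nat.recOnPosPrimePosCoprime generalizing A with
  | prime_pow p n hp hn =>
    obtain ⟨T, h1, h2, h3⟩ := refine_prime p n hp A N hN hA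
    have hp0 : (p : ℤ) ≠ 0 := by exact_mod_cast hp.ne_zero
    refine ⟨T.image fun z => (z.1, (p : ℤ) ^ z.2), ?_, ?_, ?_⟩
    · rw [Nat.primeFactors_prime_pow hn.ne' hp, Finset.card_singleton, pow_one]
      exact Finset.card_image_le.trans h1
    · intro z hz
      obtain ⟨w, hw, rfl⟩ := Finset.mem_image.1 hz
      exact ⟨pow_ne_zero _ hp0, by rw [Nat.cast_pow]; exact h2 w hw⟩
    · intro s hs
      obtain ⟨w, hw, hw'⟩ := h3 s (by rwa [Nat.cast_pow] at hs)
      exact ⟨_, Finset.mem_image_of_mem _ hw, hw'⟩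
  | zero => exact absurd rfl hδ
  | one => exact ⟨{(0, 1)}, by simp, by simp, by simp⟩
  | coprime a b ha hb hab iha ihb =>
    obtain ⟨T, h1, h2, h3⟩ := iha (by omega) A hA
    have hdeg : ∀ z : ℤ × ℤ, (A.comp (C z.1 + C z.2 * X)).natDegree ≤ N := fun z => by
      refine natDegree_comp_le.trans ?_
      have : (C z.1 + C z.2 * X).natDegree ≤ 1 := by compute_degree
      exact (Nat.mul_le_mul hA this).trans (mul_one N).le
    choose U hU1 hU2 hU3 using fun z : ℤ × ℤ => ihb (by omega) _ (hdeg z)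
    refine ⟨T.biUnion fun z => (U z).image fun w => (z.1 + z.2 * w.1, z.2 * w.2), ?_, ?_, ?_⟩
    · rw [Nat.primeFactors_mul (by omega) (by omega),
        Finset.card_union_of_disjoint hab.disjoint_primeFactors, pow_add]
      refine Finset.card_biUnion_le.trans ((Finset.sum_le_card_nsmul _ _ _ fun z _ =>
        Finset.card_image_le.trans (hU1 z)).trans ?_)
      exact Nat.mul_le_mul_right _ h1
    · intro y hy
      obtain ⟨z, hz, hy⟩ := Finset.mem_biUnion.1 hy
      obtain ⟨w, hw, rfl⟩ := Finset.mem_image.1 hy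
      refine ⟨mul_ne_zero (h2 z hz).1 (hU2 z w hw).1, ?_⟩
      rw [RLref_comp, Nat.cast_mul, map_mul]
      exact ((Nat.isCoprime_iff_coprime.2 hab).map (C : ℤ →+* ℤ[X])).mul_dvd
        (RLref_dvd_comp (h2 z hz).2 _) (hU2 z w hw).2
    · intro s hs
      rw [Nat.cast_mul] at hs
      obtain ⟨z, hz, t, ht⟩ := h3 s ((dvd_mul_right _ _).trans hs)
      obtain ⟨w, hw, hw'⟩ := hU3 z t (by
        rw [eval_comp, eval_add, eval_mul, eval_C, eval_C, eval_X, ← ht, add_sub_cancel]
        exact (dvd_mul_left _ _).trans hs)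
      refine ⟨_, Finset.mem_biUnion.2 ⟨z, hz, Finset.mem_image_of_mem _ hw⟩, ?_⟩
      have e2 : s - (z.1 + z.2 * w.1) = z.2 * (t - w.1) := by linear_combination ht
      rw [e2]
      exact mul_dvd_mul_left _ hw'

end Crest.Agent.R22
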