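import Crest.Agent.R22.RLtwo
import Crest.Agent.R22.RLref
import Crest.Agent.R22.RLder
import Crest.Agent.R22.SameP
import Crest.Agent.R22.LinAlg

set_option autoImplicit false
open Polynomial IntermediateField

namespace Crest.Agent.R22

variable {d : ℕ}

/-- One progression. -/
theorem RLpoly_prog (c : Ctx d) (k E : ℕ) (C0 X B : ℝ) (h0 : 1 ≤ C0) (hX : 1 ≤ X) (A : ℤ[X])
    (hE : A.natDegree ≤ E) (δ a q : ℤ) (hδ : δ ≠ 0) (hq : q ≠ 0)
    (hd : C δ ∣ A.comp (C a + C q * Polynomial.X)) (S : Finset (LPt c k)) (s : LPt c k → ℤ)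
    (hS : InjN S) (h : ∀ P ∈ S, Sz C0 X B P.toPt ∧ A.eval (s P) = P.n * δ ∧ ¬ (P.p : ℤ) ∣ δ ∧
      (P.p : ℤ) ∣ (derivative A).eval (s P) ∧ (derivative A).eval (s P) ≠ 0 ∧ q ∣ s P - a) :
    (S.card : ℝ) ≤ (2 * E + 1) * (C0 + 1) := by
  classical
  obtain ⟨A', hA'⟩ := hd
  have hdeg : A'.natDegree ≤ E := by
    rw [← natDegree_C_mul hδ (p := A'), ← hA']
    refine natDegree_comp_le.trans ((Nat.mul_le_mul hE ?_).trans (mul_one E).le)
    compute_degree
  have hs : ∀ P ∈ S, a + q * ((s P - a) / q) = s P := fun P hP => by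
    rw [Int.mul_ediv_cancel' (h P hP).2.2.2.2.2, add_sub_cancel]
  have h1 : ∀ P ∈ S, A'.eval ((s P - a) / q) = P.n := fun P hP => by
    have h2 := congrArg (eval ((s P - a) / q)) hA'
    simp only [eval_comp, eval_add, eval_mul, eval_C, eval_X, hs P hP, (h P hP).2.1] at h2
    exact mul_left_cancel₀ hδ (h2.symm.trans (mul_comm _ _))
  have h2 : ∀ P ∈ S, δ * (derivative A').eval ((s P - a) / q) = q * (derivative A).eval (s P) :=
    fun P hP => by
    have h3 := congrArg (fun r => eval ((s P - a) / q) (derivative r)) hA'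
    simp only [derivative_comp, derivative_add, derivative_C, derivative_mul, derivative_X,
      zero_mul, zero_add, mul_one, eval_comp, eval_add, eval_mul, eval_C, eval_X, hs P hP] at h3
    exact h3.symm
  rw [← Finset.card_image_of_injOn (f := fun P => (s P - a) / q) fun P hP Q hQ hPQ =>
    hS P hP Q hQ (by rw [← h1 P hP, ← h1 Q hQ]; exact congrArg (fun r => eval r A') hPQ)]
  refine card_steep E C0 h0 A' hdeg X (by linarith) _ fun t ht => ?_
  obtain ⟨P, hP, rfl⟩ := Finset.mem_image.1 ht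
  obtain ⟨b1, -, b2, b3, b4, -⟩ := h P hP
  rw [h1 P hP]
  refine ⟨b1.n1, b1.n2, b1.p1.trans ?_⟩
  have h3 : (P.p : ℤ) ∣ (derivative A').eval ((s P - a) / q) :=
    ((Nat.prime_iff_prime_int.1 P.pp).dvd_or_dvd (by rw [h2 P hP]; exact b3.mul_left _)).resolve_left
      b2
  have h4 : (derivative A').eval ((s P - a) / q) ≠ 0 := fun h5 =>
    mul_ne_zero hq b4 (by rw [← h2 P hP, h5, mul_zero])
  exact_mod_cast Int.le_of_dvd (abs_pos.2 h4) ((dvd_abs _ _).2 h3)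

/-- Polynomial case. Discard the points with `p ∣ R δ` (`rl_der`, `card_dvd_fixed`) and the `≤ E` roots of
`A'`; on each progression of `refine_all`, `A(a + q X) = δ A^`, `δ A^'(s') = q A'(s)`, so
`p ∣ A^'(s') ≠ 0`; `card_steep`, `pow_omega_le`. -/
theorem rl_poly (c : Ctx d) (k : ℕ) (hk : 2 ≤ k) (E : ℕ) (C0 C1 ε : ℝ) (h0 : 1 ≤ C0) (hε : 0 < ε) :
    ∃ C : ℝ, ∀ (X B : ℝ) (A F1 : ℤ[X]) (δ : ℤ) (S : Finset (LPt c k)) (s : LPt c k → ℤ), 1 ≤ X →
      1 ≤ A.natDegree → A.natDegree ≤ E → F1.natDegree ≤ E → δ ≠ 0 → HtLE A ((2 * X) ^ C1) →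
      HtLE F1 ((2 * X) ^ C1) → |(δ : ℝ)| ≤ (2 * X) ^ C1 → InjN S →
      (∀ P ∈ S, Sz C0 X B P.toPt ∧ A.eval (s P) = P.n * δ ∧ (P.p : ℤ) ∣ F1.eval (s P) ∧
        ¬ (P.p : ℤ) ^ 2 ∣ F1.eval (s P)) → (S.card : ℝ) ≤ C * X ^ ε := by
  classical
  obtain ⟨Cd, hCd⟩ := rl_der c E
  have hC1 : (0 : ℝ) < max C1 1 := lt_max_of_lt_right one_pos
  obtain ⟨Ca, hCa⟩ := card_dvd_fixed c k (by omega) C0 (max C1 1 * (Cd + 1 : ℕ)) h0
  obtain ⟨Co, hCo1, hCo⟩ := pow_omega_le E (ε / max C1 1) (by positivity)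
  refine ⟨|Ca| + E + Co * 2 ^ ε * ((2 * E + 1) * (C0 + 1)),
    fun X B A F1 δ S s hX hA1 hAE hF hδ hA hF1 hδH hS h => ?_⟩
  have hXε : 1 ≤ X ^ ε := Real.one_le_rpow hX hε.le
  rcases S.eq_empty_or_nonempty with rfl | ⟨P0, hP0⟩
  · simp only [Finset.card_empty, Nat.cast_zero]
    positivity
  have hF0 : F1 ≠ 0 := fun h1 => (h P0 hP0).2.2.2 (by simp [h1])
  have h2X : (1 : ℝ) ≤ 2 * X := by linarith
  have hH : (2 * X) ^ C1 ≤ (2 * X) ^ max C1 1 :=
    Real.rpow_le_rpow_of_exponent_le h2X (le_max_left _ _)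
  have hH2 : 2 ≤ (2 * X) ^ max C1 1 := by
    refine le_trans ?_ (Real.rpow_le_rpow_of_exponent_le h2X (le_max_right _ _))
    rw [Real.rpow_one]
    linarith
  obtain ⟨R, hR0, hRH, hR⟩ := hCd A F1 δ _ hH2 hA1 hAE hF hF0 hδ (fun i => (hA i).trans hH)
    (fun i => (hF1 i).trans hH) (hδH.trans hH)
  obtain ⟨T, hT1, hT2, hT3⟩ := refine_all δ.natAbs (Int.natAbs_ne_zero.2 hδ) A E (hA1.trans hAE) hAE
  have e1 : ((S.filter fun P => (P.p : ℤ) ∣ R * δ).card : ℝ) ≤ |Ca| := by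
    refine (hCa X B hX (R * δ) _ (fun P hP Q hQ => hS P (Finset.mem_filter.1 hP).1 Q
      (Finset.mem_filter.1 hQ).1) (mul_ne_zero hR0 hδ) ?_ fun P hP =>
      ⟨(h P (Finset.mem_filter.1 hP).1).1, (Finset.mem_filter.1 hP).2⟩).trans (le_abs_self _)
    rw [Real.rpow_mul (by positivity), Real.rpow_natCast, pow_succ, Int.cast_mul, abs_mul]
    exact mul_le_mul hRH (hδH.trans hH) (abs_nonneg _) (by positivity)
  have e2 : (S.filter fun P => (derivative A).eval (s P) = 0).card ≤ E := by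
    have hA' : derivative A ≠ 0 := fun h1 => by
      have := derivative_eq_zero.1 h1
      omega
    refine (Finset.card_le_card_of_injOn (t := (derivative A).roots.toFinset) s
      (fun P hP => ?_) fun P hP Q hQ hPQ => ?_).trans ((Multiset.toFinset_card_le _).trans
        ((card_roots' _).trans ((natDegree_derivative_le _).trans ((Nat.sub_le _ _).trans hAE))))
    · simpa [hA'] using (Finset.mem_filter.1 hP).2
    · have hP' := (Finset.mem_filter.1 hP).1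
      have hQ' := (Finset.mem_filter.1 hQ).1
      refine hS P hP' Q hQ' (mul_right_cancel₀ hδ ?_)
      rw [← (h P hP').2.1, ← (h Q hQ').2.1, hPQ]
  have e3 : ∀ z ∈ T, ((S.filter fun P => ¬ (P.p : ℤ) ∣ R * δ ∧ (derivative A).eval (s P) ≠ 0 ∧
      z.2 ∣ s P - z.1).card : ℝ) ≤ (2 * E + 1) * (C0 + 1) := fun z hz => by
    refine RLpoly_prog c k E C0 X B h0 hX A hAE δ z.1 z.2 hδ (hT2 z hz).1
      ((map_dvd C (Int.dvd_natAbs.2 dvd_rfl)).trans (hT2 z hz).2) _ s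
      (fun P hP Q hQ => hS P (Finset.mem_filter.1 hP).1 Q (Finset.mem_filter.1 hQ).1)
      fun P hP => ?_
    obtain ⟨hP, b1, b2, b3⟩ := Finset.mem_filter.1 hP
    obtain ⟨a1, a2, a3, a4⟩ := h P hP
    exact ⟨a1, a2, fun h1 => b1 (h1.mul_left _), hR P.p (s P) P.n P.pp
      (fun h1 => b1 (h1.mul_right _)) a2 ((pow_dvd_pow _ hk).trans P.pk) a3 a4, b2, b3⟩
  have e4 : S ⊆ ((S.filter fun P => (P.p : ℤ) ∣ R * δ) ∪
      S.filter fun P => (derivative A).eval (s P) = 0) ∪ T.biUnion fun z => S.filter fun P =>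
        ¬ (P.p : ℤ) ∣ R * δ ∧ (derivative A).eval (s P) ≠ 0 ∧ z.2 ∣ s P - z.1 := fun P hP => by
    obtain ⟨z, hz, hz'⟩ := hT3 (s P) (by
      rw [(h P hP).2.1]
      exact (Int.natAbs_dvd.2 dvd_rfl).mul_left _)
    simp only [Finset.mem_union, Finset.mem_filter, Finset.mem_biUnion]
    by_cases b1 : (P.p : ℤ) ∣ R * δ
    · exact .inl (.inl ⟨hP, b1⟩)
    by_cases b2 : (derivative A).eval (s P) = 0
    · exact .inl (.inr ⟨hP, b2⟩)
    exact .inr ⟨z, hz, hP, b1, b2, hz'⟩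
  have e5 : (T.card : ℝ) ≤ Co * 2 ^ ε * X ^ ε := by
    refine (Nat.cast_le.2 hT1).trans ?_
    push_cast
    refine (hCo _ (Int.natAbs_ne_zero.2 hδ)).trans ?_
    rw [mul_assoc, ← Real.mul_rpow (by positivity) (by positivity)]
    refine mul_le_mul_of_nonneg_left ?_ (by positivity)
    rw [Nat.cast_natAbs, Int.cast_abs]
    refine (Real.rpow_le_rpow (abs_nonneg _) (hδH.trans hH) (by positivity)).trans_eq ?_
    rw [← Real.rpow_mul (by positivity), mul_div_cancel₀ _ hC1.ne']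
  have e6 := (Finset.card_le_card e4).trans ((Finset.card_union_le _ _).trans
    (Nat.add_le_add (Finset.card_union_le _ _) Finset.card_biUnion_le))
  have e7 := Finset.sum_le_card_nsmul _ _ _ e3
  have e8 : (S.card : ℝ) ≤ |Ca| + E + T.card * ((2 * E + 1) * (C0 + 1)) := by
    refine (Nat.cast_le.2 e6).trans ?_
    rw [nsmul_eq_mul] at e7
    push_cast
    exact add_le_add (add_le_add e1 (Nat.cast_le.2 e2)) e7
  have e9 := mul_le_mul_of_nonneg_right e5 (show (0 : ℝ) ≤ (2 * E + 1) * (C0 + 1) by positivity)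
  have e10 := mul_le_mul_of_nonneg_left hXε (show (0 : ℝ) ≤ |Ca| + E by positivity)
  linarith

end Crest.Agent.R22
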