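import Crest.Agent.R22.RLtwo
import Crest.Agent.R22.RLref
import Crest.Agent.R22.RLder
import Crest.Agent.R22.SameP
import Crest.Agent.R22.LinAlg
import Crest.Agent.R22.RLpoly
import Crest.Agent.R22.DivA

set_option autoImplicit false
open Polynomial IntermediateField

namespace Crest.Agent.R22

variable {d : ℕ}

theorem RL0_cast (A : ℤ[X]) (N : ℕ) (x y : ℤ) :
    ((hev A N x y : ℤ) : ℂ) = hev A N (x : ℂ) (y : ℂ) := by
  simp [hev]

theorem RL0_ht_mul (f : ℤ[X]) (a H : ℝ) (u v : ℤ) (hf : HtLE f a) (hu : |(u : ℝ)| ≤ H)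
    (hv : |(v : ℝ)| ≤ H) : HtLE (f * (C u + C v * X)) (a * (2 * H)) := by
  have ha : 0 ≤ a := le_trans (abs_nonneg _) (hf 0)
  have hH : 0 ≤ H := le_trans (abs_nonneg _) hu
  have key : ∀ (i : ℕ) (z : ℤ), |(z : ℝ)| ≤ H → |((f.coeff i * z : ℤ) : ℝ)| ≤ a * H := by
    intro i z hz
    rw [Int.cast_mul, abs_mul]
    exact mul_le_mul (hf i) hz (abs_nonneg _) ha
  intro i
  have e : f * (C u + C v * X) = f * C u + (f * C v) * X := by ring
  rw [e, coeff_add]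
  rcases i with _ | i
  · rw [coeff_mul_X_zero, add_zero, coeff_mul_C]
    have := key 0 u hu
    nlinarith [mul_nonneg ha hH]
  · rw [coeff_mul_X, coeff_mul_C, coeff_mul_C, Int.cast_add]
    have h1 := key (i + 1) u hu
    have h2 := key i v hv
    have := abs_add_le ((f.coeff (i + 1) * u : ℤ) : ℝ) ((f.coeff i * v : ℤ) : ℝ)
    nlinarith

theorem RL0_ht_pow (f : ℤ[X]) (a H : ℝ) (u v : ℤ) (hf : HtLE f a) (hu : |(u : ℝ)| ≤ H)
    (hv : |(v : ℝ)| ≤ H) (m : ℕ) : HtLE (f * (C u + C v * X) ^ m) (a * (2 * H) ^ m) := by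
  induction m with
  | zero => simpa using hf
  | succ m ih =>
    rw [pow_succ, pow_succ, ← mul_assoc, ← mul_assoc]
    exact RL0_ht_mul _ _ H u v ih hu hv

/-- The form restricted to a line. -/
noncomputable def RL0_res (A : ℤ[X]) (N : ℕ) (u0 v0 u1 v1 : ℤ) : ℤ[X] :=
  hev A N (C u0 + C v0 * X : ℤ[X]) (C u1 + C v1 * X)

theorem RL0_res_eq (A : ℤ[X]) (N : ℕ) (u0 v0 u1 v1 : ℤ) : RL0_res A N u0 v0 u1 v1 =
    ∑ i ∈ Finset.range (N + 1), C (A.coeff i) * (C u0 + C v0 * X) ^ i * (C u1 + C v1 * X) ^ (N - i) := by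
  simp [RL0_res, hev]

theorem RL0_res_eval (A : ℤ[X]) (N : ℕ) (u0 v0 u1 v1 s : ℤ) :
    (RL0_res A N u0 v0 u1 v1).eval s = hev A N (u0 + v0 * s) (u1 + v1 * s) := by
  rw [RL0_res_eq, eval_finsetSum]
  simp [hev]

theorem RL0_lin_deg (u v : ℤ) : (C u + C v * X : ℤ[X]).natDegree ≤ 1 := by
  compute_degree

theorem RL0_lin_coeff (u v : ℤ) : (C u + C v * X : ℤ[X]).coeff 1 = v := by
  rw [coeff_add, coeff_C_mul, coeff_X_one, mul_one, coeff_C, if_neg one_ne_zero, zero_add]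

theorem RL0_res_deg (A : ℤ[X]) (N : ℕ) (u0 v0 u1 v1 : ℤ) :
    (RL0_res A N u0 v0 u1 v1).natDegree ≤ N := by
  rw [RL0_res_eq]
  refine natDegree_sum_le_of_forall_le _ _ fun i hi => ?_
  have hi' : i ≤ N := Nat.lt_succ_iff.mp (Finset.mem_range.mp hi)
  have h1 : ((C u0 + C v0 * X : ℤ[X]) ^ i).natDegree ≤ i * 1 :=
    natDegree_pow_le_of_le i (RL0_lin_deg u0 v0)
  have h2 : ((C u1 + C v1 * X : ℤ[X]) ^ (N - i)).natDegree ≤ (N - i) * 1 :=
    natDegree_pow_le_of_le _ (RL0_lin_deg u1 v1)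
  have h3 := natDegree_C_mul_le (A.coeff i) ((C u0 + C v0 * X : ℤ[X]) ^ i)
  have h4 := natDegree_mul_le (p := C (A.coeff i) * (C u0 + C v0 * X : ℤ[X]) ^ i)
    (q := (C u1 + C v1 * X : ℤ[X]) ^ (N - i))
  omega

theorem RL0_res_top (A : ℤ[X]) (N : ℕ) (u0 v0 u1 v1 : ℤ) :
    (RL0_res A N u0 v0 u1 v1).coeff N = hev A N v0 v1 := by
  rw [RL0_res_eq, finsetSum_coeff]
  unfold hev
  refine Finset.sum_congr rfl fun i hi => ?_
  have hi' : i ≤ N := Nat.lt_succ_iff.mp (Finset.mem_range.mp hi)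
  have h1 : ((C u0 + C v0 * X : ℤ[X]) ^ i).natDegree ≤ i := by
    simpa using natDegree_pow_le_of_le i (RL0_lin_deg u0 v0)
  have h2 : ((C u1 + C v1 * X : ℤ[X]) ^ (N - i)).natDegree ≤ N - i := by
    simpa using natDegree_pow_le_of_le (N - i) (RL0_lin_deg u1 v1)
  have c1 : ((C u0 + C v0 * X : ℤ[X]) ^ i).coeff i = v0 ^ i := by
    have := coeff_pow_of_natDegree_le (m := i) (RL0_lin_deg u0 v0)
    rwa [mul_one, RL0_lin_coeff] at this
  have c2 : ((C u1 + C v1 * X : ℤ[X]) ^ (N - i)).coeff (N - i) = v1 ^ (N - i) := by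
    have := coeff_pow_of_natDegree_le (m := N - i) (RL0_lin_deg u1 v1)
    rwa [mul_one, RL0_lin_coeff] at this
  have e : N = i + (N - i) := by omega
  rw [mul_assoc, coeff_C_mul]
  have := coeff_mul_add_eq_of_natDegree_le h1 h2
  rw [← e] at this
  rw [this, c1, c2]
  simp [mul_assoc]

theorem RL0_res_ht (A : ℤ[X]) (N E : ℕ) (hN : N ≤ E) (H : ℝ) (hH : 2 ≤ H) (u0 v0 u1 v1 : ℤ)
    (hA : HtLE A H) (h1 : |(u0 : ℝ)| ≤ H) (h2 : |(v0 : ℝ)| ≤ H) (h3 : |(u1 : ℝ)| ≤ H)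
    (h4 : |(v1 : ℝ)| ≤ H) : HtLE (RL0_res A N u0 v0 u1 v1) (H ^ (3 * E + 1)) := by
  intro j
  rw [RL0_res_eq, finsetSum_coeff, Int.cast_sum]
  have hterm : ∀ i ∈ Finset.range (N + 1),
      |(((C (A.coeff i) * (C u0 + C v0 * X) ^ i * (C u1 + C v1 * X) ^ (N - i) : ℤ[X]).coeff j : ℤ) : ℝ)|
        ≤ H * (2 * H) ^ N := by
    intro i hi
    have hi' : i ≤ N := Nat.lt_succ_iff.mp (Finset.mem_range.mp hi)
    have h0 : HtLE (C (A.coeff i)) H := by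
      intro m
      rw [coeff_C]
      split_ifs
      · exact hA i
      · simp; linarith
    have := RL0_ht_pow _ _ H u1 v1 (RL0_ht_pow _ _ H u0 v0 h0 h1 h2 i) h3 h4 (N - i) j
    rwa [mul_assoc H, ← pow_add, Nat.add_sub_cancel' hi'] at this
  refine (Finset.abs_sum_le_sum_abs _ _).trans ((Finset.sum_le_sum hterm).trans ?_)
  rw [Finset.sum_const, Finset.card_range, nsmul_eq_mul]
  have a1 : ((N + 1 : ℕ) : ℝ) ≤ H ^ E := by
    have : N + 1 ≤ 2 ^ E := le_trans (Nat.succ_le_succ hN) (Nat.lt_two_pow_self (n := E))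
    calc ((N + 1 : ℕ) : ℝ) ≤ ((2 ^ E : ℕ) : ℝ) := by exact_mod_cast this
      _ = (2 : ℝ) ^ E := by push_cast; rfl
      _ ≤ H ^ E := pow_le_pow_left₀ (by norm_num) hH E
  have a2 : (2 * H) ^ N ≤ H ^ (2 * E) := by
    calc (2 * H) ^ N ≤ (H ^ 2) ^ N := pow_le_pow_left₀ (by linarith) (by nlinarith) N
      _ = H ^ (2 * N) := by rw [← pow_mul]
      _ ≤ H ^ (2 * E) := pow_le_pow_right₀ (by linarith) (by omega)
  have hH0 : 0 ≤ H := by linarith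
  calc ((N + 1 : ℕ) : ℝ) * (H * (2 * H) ^ N) ≤ H ^ E * (H * H ^ (2 * E)) := by
        gcongr
    _ = H ^ (3 * E + 1) := by ring

theorem RL0_hev10 (B : ℤ[X]) (N : ℕ) : hev B N (1 : ℤ) 0 = B.coeff N := by
  unfold hev
  rw [Finset.sum_range_succ, Finset.sum_eq_zero]
  · simp
  · intro i hi
    have : N - i ≠ 0 := by have := Finset.mem_range.mp hi; omega
    simp [this]

theorem RL0_hev01 (B : ℤ[X]) (N : ℕ) : hev B N (0 : ℤ) 1 = B.coeff 0 := by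
  unfold hev
  rw [Finset.sum_range_succ', Finset.sum_eq_zero]
  · simp
  · intro i _
    simp

theorem RL0_abs_le (b l : ℤ) (N : ℕ) (hb : b ≠ 0) (hN : 1 ≤ N) : |l| ≤ |b * l ^ N| := by
  rcases eq_or_ne l 0 with rfl | hl
  · rw [abs_zero]
    exact abs_nonneg _
  · rw [abs_mul, abs_pow]
    have h1 : 1 ≤ |b| := Int.one_le_abs hb
    have h2 : 1 ≤ |l| := Int.one_le_abs hl
    have h3 : |l| ≤ |l| ^ N := le_self_pow₀ h2 (by omega)
    nlinarith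

theorem RL0_cardDiv (R : ℤ) (hR : R ≠ 0) : ∃ t : Finset ℤ, t.card ≤ 2 * R.natAbs.divisors.card ∧
    ∀ e : ℤ, e ∣ R → e ∈ t := by
  refine ⟨R.natAbs.divisors.image (fun m : ℕ => (m : ℤ)) ∪
    R.natAbs.divisors.image (fun m : ℕ => -(m : ℤ)), ?_, ?_⟩
  · refine (Finset.card_union_le _ _).trans ?_
    have h1 := Finset.card_image_le (s := R.natAbs.divisors) (f := fun m : ℕ => (m : ℤ))
    have h2 := Finset.card_image_le (s := R.natAbs.divisors) (f := fun m : ℕ => -(m : ℤ))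
    omega
  · intro e he
    have hm : e.natAbs ∈ R.natAbs.divisors :=
      Nat.mem_divisors.mpr ⟨Int.natAbs_dvd_natAbs.mpr he, Int.natAbs_ne_zero.mpr hR⟩
    rw [Finset.mem_union, Finset.mem_image, Finset.mem_image]
    rcases Int.natAbs_eq e with h | h
    · exact Or.inl ⟨_, hm, h.symm⟩
    · exact Or.inr ⟨_, hm, h.symm⟩

/-- Counting through fibres. -/
theorem RL0_fib {α β : Type*} [DecidableEq β] (S : Finset α) (t : Finset β) (f : α → β) (M : ℝ)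
    (hf : ∀ x ∈ S, f x ∈ t) (hM : ∀ b ∈ t, ((S.filter fun x => f x = b).card : ℝ) ≤ M) :
    (S.card : ℝ) ≤ t.card * M := by
  rw [Finset.card_eq_sum_card_fiberwise hf, Nat.cast_sum]
  refine (Finset.sum_le_sum hM).trans ?_
  rw [Finset.sum_const, nsmul_eq_mul]

theorem RL0_injN {c : Ctx d} {k : ℕ} {S : Finset (LPt c k)} (h : InjN S) (p : LPt c k → Prop)
    [DecidablePred p] : InjN (S.filter p) := fun P hP Q hQ e =>
  h P (Finset.mem_filter.mp hP).1 Q (Finset.mem_filter.mp hQ).1 e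

/-- One line `l0 w0 + l1 w1 = m`. -/
theorem RL0_line (c : Ctx d) (k : ℕ) (hk : 2 ≤ k) (E : ℕ) (C0 C1 ε : ℝ) (h0 : 1 ≤ C0) (hε : 0 < ε)
    (h1 : 1 ≤ C1) : ∃ C : ℝ, 0 ≤ C ∧ ∀ (X B : ℝ) (A F1 : ℤ[X]) (N N' : ℕ) (δ l0 l1 m : ℤ)
      (S : Finset (LPt c k)) (w0 w1 : LPt c k → ℤ), 1 ≤ X → 1 ≤ N → N ≤ E → N' ≤ E →
      IsCoprime l0 l1 → hev A N (-l1) l0 ≠ 0 → δ ≠ 0 → |(δ : ℝ)| ≤ (2 * X) ^ C1 →
      |(l0 : ℝ)| ≤ (2 * X) ^ C1 → |(l1 : ℝ)| ≤ (2 * X) ^ C1 →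
      HtLE A ((2 * X) ^ C1) → HtLE F1 ((2 * X) ^ C1) → InjN S →
      (∀ P ∈ S, Sz C0 X B P.toPt ∧ |(w0 P : ℝ)| ≤ (2 * X) ^ C1 ∧
        |(w1 P : ℝ)| ≤ (2 * X) ^ C1 ∧ hev A N (w0 P) (w1 P) = P.n * δ ∧
        (P.p : ℤ) ∣ hev F1 N' (w0 P) (w1 P) ∧ ¬ (P.p : ℤ) ^ 2 ∣ hev F1 N' (w0 P) (w1 P) ∧
        l0 * w0 P + l1 * w1 P = m) →
      (S.card : ℝ) ≤ C * X ^ ε := by
  obtain ⟨C, hC⟩ := rl_poly c k hk E C0 (C1 * ((3 * E + 1 : ℕ) : ℝ)) ε h0 hε
  refine ⟨max C 0, le_max_right _ _, ?_⟩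
  intro X B A F1 N N' δ l0 l1 m S w0 w1 hX hN1 hN hN' hco hA0 hδ hδH hl0 hl1 hA hF hS hP
  have hXe : 0 ≤ X ^ ε := Real.rpow_nonneg (by linarith) _
  rcases S.eq_empty_or_nonempty with rfl | ⟨P0, hP0⟩
  · simpa using mul_nonneg (le_max_right C 0) hXe
  obtain ⟨u, v, huv⟩ := hco
  set H : ℝ := (2 * X) ^ C1 with hH
  have hH2 : 2 ≤ H := by
    calc (2 : ℝ) ≤ 2 * X := by linarith
      _ = (2 * X) ^ (1 : ℝ) := (Real.rpow_one _).symm
      _ ≤ H := Real.rpow_le_rpow_of_exponent_le (by linarith) h1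
  have hpow : (2 * X) ^ (C1 * ((3 * E + 1 : ℕ) : ℝ)) = H ^ (3 * E + 1) := by
    rw [Real.rpow_mul (by linarith), Real.rpow_natCast]
  have hnl1 : |((-l1 : ℤ) : ℝ)| ≤ H := by rw [Int.cast_neg, abs_neg]; exact hl1
  obtain ⟨-, a0, a1, -, -, -, am⟩ := hP P0 hP0
  let s : LPt c k → ℤ := fun P => u * (w1 P - w1 P0) - v * (w0 P - w0 P0)
  have hs : ∀ P ∈ S, w0 P0 + -l1 * s P = w0 P ∧ w1 P0 + l0 * s P = w1 P := by
    intro P hPS
    obtain ⟨-, -, -, -, -, -, bm⟩ := hP P hPS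
    constructor
    · simp only [s]
      linear_combination (w0 P - w0 P0) * huv - u * (bm - am)
    · simp only [s]
      linear_combination (w1 P - w1 P0) * huv - v * (bm - am)
  have hdeg : (RL0_res A N (w0 P0) (-l1) (w1 P0) l0).natDegree = N :=
    natDegree_eq_of_le_of_coeff_ne_zero (RL0_res_deg _ _ _ _ _ _) (by rw [RL0_res_top]; exact hA0)
  have := hC X B (RL0_res A N (w0 P0) (-l1) (w1 P0) l0) (RL0_res F1 N' (w0 P0) (-l1) (w1 P0) l0)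
    δ S s hX (by rw [hdeg]; exact hN1) (by rw [hdeg]; exact hN)
    ((RL0_res_deg _ _ _ _ _ _).trans hN') hδ
    (by rw [hpow]; exact RL0_res_ht A N E hN H hH2 _ _ _ _ hA a0 hnl1 a1 hl0)
    (by rw [hpow]; exact RL0_res_ht F1 N' E hN' H hH2 _ _ _ _ hF a0 hnl1 a1 hl0)
    (by rw [hpow]; exact hδH.trans (le_self_pow₀ (by linarith) (by omega))) hS
    (by
      intro P hPS
      obtain ⟨b1, -, -, b2, b3, b4, -⟩ := hP P hPS
      rw [RL0_res_eval, RL0_res_eval, (hs P hPS).1, (hs P hPS).2]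
      exact ⟨b1, b2, b3, b4⟩)
  exact this.trans (mul_le_mul_of_nonneg_right (le_max_left _ _) hXe)

/-- One value `δ` of the denominator. -/
theorem RL0_fibre (c : Ctx d) (k : ℕ) (hk : 2 ≤ k) (E : ℕ) (C0 C1 ε : ℝ) (h0 : 1 ≤ C0) (hε : 0 < ε)
    (h1 : 1 ≤ C1) : ∃ C : ℝ, 0 ≤ C ∧ ∀ (X B : ℝ) (A Bq F1 : ℤ[X]) (N N' : ℕ) (δ : ℤ)
      (S : Finset (LPt c k)) (w0 w1 : LPt c k → ℤ), 1 ≤ X → N ≤ E → N' ≤ E → NoCZ ![A, Bq] N →
      δ ≠ 0 → |(δ : ℝ)| ≤ (2 * X) ^ C1 →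
      HtLE A ((2 * X) ^ C1) → HtLE Bq ((2 * X) ^ C1) → HtLE F1 ((2 * X) ^ C1) → InjN S →
      (∀ P ∈ S, Sz C0 X B P.toPt ∧ |(w0 P : ℝ)| ≤ (2 * X) ^ C1 ∧
        |(w1 P : ℝ)| ≤ (2 * X) ^ C1 ∧ hev A N (w0 P) (w1 P) = P.n * δ ∧
        (P.p : ℤ) ∣ hev F1 N' (w0 P) (w1 P) ∧ ¬ (P.p : ℤ) ^ 2 ∣ hev F1 N' (w0 P) (w1 P) ∧
        hev Bq N (w0 P) (w1 P) = δ) →
      (S.card : ℝ) ≤ C * X ^ ε := by
  classical
  obtain ⟨Ca, hCa0, hCa⟩ := RL0_line c k hk E C0 C1 ε h0 hε h1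
  have hC1 : 0 < C1 := by linarith
  obtain ⟨Cb, hCb⟩ := rl_two E (ε / C1) (div_pos hε hC1)
  refine ⟨1 + 2 * Ca + |Cb| * 2 ^ ε, by positivity, ?_⟩
  intro X B A Bq F1 N N' δ S w0 w1 hX hN hN' hcz hδ hδH hA hB hF hS hP
  have hXe : 1 ≤ X ^ ε := Real.one_le_rpow hX hε.le
  have hCb0 : 0 ≤ |Cb| * 2 ^ ε := by positivity
  have hH2 : 2 ≤ (2 * X) ^ C1 := by
    calc (2 : ℝ) ≤ 2 * X := by linarith
      _ = (2 * X) ^ (1 : ℝ) := (Real.rpow_one _).symm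
      _ ≤ (2 * X) ^ C1 := Real.rpow_le_rpow_of_exponent_le (by linarith) h1
  have hBdeg : Bq.natDegree ≤ N := by simpa using hcz.1 1
  rcases Nat.eq_zero_or_pos N with rfl | hN1
  · have : S.card ≤ 1 := by
      refine Finset.card_le_one.mpr fun P hPS Q hQS => hS P hPS Q hQS ?_
      have e1 := (hP P hPS).2.2.2.1
      have e2 := (hP Q hQS).2.2.2.1
      simp only [hev, zero_add, Finset.range_one, Finset.sum_singleton, pow_zero, mul_one,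
        Nat.sub_self] at e1 e2
      exact mul_right_cancel₀ hδ (e1.symm.trans e2)
    have h' : (S.card : ℝ) ≤ 1 := by exact_mod_cast this
    nlinarith
  by_cases htwo : ∃ a b a' b' : ℂ, a * b' - a' * b ≠ 0 ∧ hev Bq N a b = 0 ∧ hev Bq N a' b' = 0
  · have hT := hCb Bq N ((2 * X) ^ C1) δ hN hBdeg hH2 hB hδ hδH htwo
      (S.image fun P => (w0 P, w1 P)) (by
        intro w hw
        obtain ⟨P, hPS, rfl⟩ := Finset.mem_image.mp hw
        obtain ⟨-, b1, b2, -, -, -, b3⟩ := hP P hPS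
        exact ⟨b1, b2, b3⟩)
    rw [Finset.card_image_of_injOn] at hT
    · have e : ((2 * X) ^ C1) ^ (ε / C1) = 2 ^ ε * X ^ ε := by
        rw [← Real.rpow_mul (by linarith), mul_div_cancel₀ _ hC1.ne',
          Real.mul_rpow (by norm_num) (by linarith)]
      rw [e] at hT
      have h2 : 0 ≤ (2 : ℝ) ^ ε * X ^ ε := by positivity
      have h3 : Cb * (2 ^ ε * X ^ ε) ≤ |Cb| * (2 ^ ε * X ^ ε) :=
        mul_le_mul_of_nonneg_right (le_abs_self _) h2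
      nlinarith
    · intro P hPS Q hQS e
      have hPS' : P ∈ S := hPS
      have hQS' : Q ∈ S := hQS
      simp only [Prod.mk.injEq] at e
      refine hS P hPS' Q hQS' (mul_right_cancel₀ hδ ?_)
      rw [← (hP P hPS').2.2.2.1, ← (hP Q hQS').2.2.2.1, e.1, e.2]
  rcases S.eq_empty_or_nonempty with rfl | ⟨P0, hP0⟩
  · simp only [Finset.card_empty, Nat.cast_zero]
    positivity
  have hB0 : Bq ≠ 0 := by
    rintro rfl
    apply hδ
    rw [← (hP P0 hP0).2.2.2.2.2.2]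
    simp [hev]
  obtain ⟨b0, l0, l1, hb0, hco, hpure⟩ := rl_pure Bq N hN1 hBdeg hB0 (by
    intro a b a' b' e1 e2
    by_contra hne
    exact htwo ⟨a, b, a', b', hne, e1, e2⟩)
  have hl0 : |(l0 : ℝ)| ≤ (2 * X) ^ C1 := by
    have e := hpure 1 0
    rw [RL0_hev10] at e
    have h := RL0_abs_le b0 l0 N hb0 hN1
    simp only [mul_one, mul_zero, add_zero] at e
    rw [← e] at h
    exact le_trans (by exact_mod_cast h) (hB N)
  have hl1 : |(l1 : ℝ)| ≤ (2 * X) ^ C1 := by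
    have e := hpure 0 1
    rw [RL0_hev01] at e
    have h := RL0_abs_le b0 l1 N hb0 hN1
    simp only [mul_one, mul_zero, zero_add] at e
    rw [← e] at h
    exact le_trans (by exact_mod_cast h) (hB 0)
  have hA0 : hev A N (-l1) l0 ≠ 0 := by
    have hne : ((-l1 : ℤ) : ℂ) ≠ 0 ∨ ((l0 : ℤ) : ℂ) ≠ 0 := by
      by_contra hcon
      push Not at hcon
      have e1 : l1 = 0 := by have := hcon.1; simpa using this
      have e2 : l0 = 0 := by have := hcon.2; simpa using this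
      rw [e1, e2] at hco
      exact not_isCoprime_zero_zero hco
    obtain ⟨i, hi⟩ := hcz.2 _ _ hne
    have hBz : hev Bq N (-l1) l0 = 0 := by
      rw [hpure]
      have : l0 * -l1 + l1 * l0 = 0 := by ring
      rw [this, zero_pow (by omega), mul_zero]
    intro hAz
    fin_cases i
    · apply hi
      simp only [Fin.zero_eta, Matrix.cons_val_zero]
      rw [← RL0_cast, hAz, Int.cast_zero]
    · apply hi
      simp only [Fin.mk_one, Matrix.cons_val_one, Matrix.cons_val_zero]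
      rw [← RL0_cast, hBz, Int.cast_zero]
  let m0 : ℤ := l0 * w0 P0 + l1 * w1 P0
  have hfib := RL0_fib S ({m0, -m0} : Finset ℤ) (fun P => l0 * w0 P + l1 * w1 P) (Ca * X ^ ε)
    (by
      intro P hPS
      have e1 := (hP P hPS).2.2.2.2.2.2
      have e2 := (hP P0 hP0).2.2.2.2.2.2
      rw [hpure] at e1 e2
      have e3 := mul_left_cancel₀ hb0 (e1.trans e2.symm)
      have e4 := (pow_eq_pow_iff_of_ne_zero (by omega : N ≠ 0)).mp e3
      rw [Finset.mem_insert, Finset.mem_singleton]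
      rcases e4 with e4 | e4
      · exact Or.inl e4
      · exact Or.inr e4.1)
    (by
      intro m _
      refine hCa X B A F1 N N' δ l0 l1 m _ w0 w1 hX hN1 hN hN' hco hA0 hδ hδH hl0 hl1 hA hF
        (RL0_injN hS _) ?_
      intro P hPf
      obtain ⟨hPS, hm⟩ := Finset.mem_filter.mp hPf
      obtain ⟨b1, b2, b3, b4, b5, b6, -⟩ := hP P hPS
      exact ⟨b1, b2, b3, b4, b5, b6, hm⟩)
  have hc2 : ((({m0, -m0} : Finset ℤ).card : ℕ) : ℝ) ≤ 2 := by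
    exact_mod_cast Finset.card_le_two
  have h5 : 0 ≤ Ca * X ^ ε := by positivity
  have h6 := mul_le_mul_of_nonneg_right hc2 h5
  nlinarith

/-- Rational lemma, integer form. `δ = hev B N w` divides `hev A N w` and itself, so `δ ∣ R` (`rl_res`;
`δ ≠ 0`). Fix `δ`. `N = 0`: one value of `n`. Two roots: `rl_two` (`w` determines `n`). One root:
`rl_pure`, fix `l0 w0 + l1 w1`, write `w = w* + s (-l1, l0)`, `A1 = hev A N (w*.1 - l1 X) (w*.2 + l0 X)`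
has degree `N` (`hev A N (-l1) l0 ≠ 0`), `|l_i| ≤ ` height; `rl_poly`. -/
theorem rl_int (c : Ctx d) (k : ℕ) (hk : 2 ≤ k) (E : ℕ) (C0 C1 ε : ℝ) (h0 : 1 ≤ C0) (hε : 0 < ε) :
    ∃ C : ℝ, ∀ (X B : ℝ) (A Bq F1 : ℤ[X]) (N N' : ℕ) (S : Finset (LPt c k))
      (w0 w1 : LPt c k → ℤ), 1 ≤ X → N ≤ E → N' ≤ E → NoCZ ![A, Bq] N → F1.natDegree ≤ N' →
      HtLE A ((2 * X) ^ C1) → HtLE Bq ((2 * X) ^ C1) → HtLE F1 ((2 * X) ^ C1) → InjN S →
      (∀ P ∈ S, Sz C0 X B P.toPt ∧ IsCoprime (w0 P) (w1 P) ∧ |(w0 P : ℝ)| ≤ (2 * X) ^ C1 ∧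
        |(w1 P : ℝ)| ≤ (2 * X) ^ C1 ∧ hev A N (w0 P) (w1 P) = P.n * hev Bq N (w0 P) (w1 P) ∧
        (P.p : ℤ) ∣ hev F1 N' (w0 P) (w1 P) ∧ ¬ (P.p : ℤ) ^ 2 ∣ hev F1 N' (w0 P) (w1 P)) →
      (S.card : ℝ) ≤ C * X ^ ε := by
  classical
  obtain ⟨Cr, hCr⟩ := rl_res (Fin 2) E
  set C2 : ℝ := max C1 1 with hC2
  have hC21 : 1 ≤ C2 := le_max_right _ _
  set C3 : ℝ := C2 * ((Cr + 1 : ℕ) : ℝ) with hC3
  have hr1 : (1 : ℝ) ≤ ((Cr + 1 : ℕ) : ℝ) := by exact_mod_cast Nat.le_add_left 1 Cr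
  have hC23 : C2 ≤ C3 := le_mul_of_one_le_right (by linarith) hr1
  have hC31 : 1 ≤ C3 := hC21.trans hC23
  have hC30 : 0 < C3 := by linarith
  obtain ⟨Cf, hCf0, hCf⟩ := RL0_fibre c k hk E C0 C3 (ε / 2) h0 (by linarith) hC31
  obtain ⟨Cd, hCd1, hCd⟩ := card_divisors_le (ε / 2 / C3) (by positivity)
  refine ⟨2 * Cd * 2 ^ (ε / 2) * Cf, ?_⟩
  intro X B A Bq F1 N N' S w0 w1 hX hN hN' hcz _ hA hB hF hS hP
  have h2X : (1 : ℝ) ≤ 2 * X := by linarith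
  have h12 : (2 * X) ^ C1 ≤ (2 * X) ^ C2 := Real.rpow_le_rpow_of_exponent_le h2X (le_max_left _ _)
  have h13 : (2 * X) ^ C1 ≤ (2 * X) ^ C3 :=
    Real.rpow_le_rpow_of_exponent_le h2X ((le_max_left _ _).trans hC23)
  have hH2 : 2 ≤ (2 * X) ^ C2 := by
    calc (2 : ℝ) ≤ 2 * X := by linarith
      _ = (2 * X) ^ (1 : ℝ) := (Real.rpow_one _).symm
      _ ≤ (2 * X) ^ C2 := Real.rpow_le_rpow_of_exponent_le h2X hC21
  obtain ⟨R, hR0, hRH, hR⟩ := hCr ![A, Bq] N ((2 * X) ^ C2) hN hH2 hcz (by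
    intro i
    fin_cases i
    · exact fun j => (hA j).trans h12
    · exact fun j => (hB j).trans h12)
  have hR3 : |(R : ℝ)| ≤ (2 * X) ^ C3 := by
    refine hRH.trans ?_
    rw [hC3, Real.rpow_mul (by linarith), Real.rpow_natCast]
    exact pow_le_pow_right₀ (by linarith) (Nat.le_succ _)
  obtain ⟨t, htc, ht⟩ := RL0_cardDiv R hR0
  have hdvd : ∀ P ∈ S, hev Bq N (w0 P) (w1 P) ∣ R := by
    intro P hPS
    obtain ⟨-, b1, -, -, b2, -⟩ := hP P hPS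
    refine hR (w0 P) (w1 P) _ b1 fun i => ?_
    fin_cases i
    · simp only [Fin.zero_eta, Matrix.cons_val_zero]
      rw [b2]
      exact Dvd.intro_left _ rfl
    · simp only [Fin.mk_one, Matrix.cons_val_one, Matrix.cons_val_zero]
      exact dvd_rfl
  have hfib := RL0_fib S (t.filter fun e => e ∣ R) (fun P => hev Bq N (w0 P) (w1 P))
    (Cf * X ^ (ε / 2))
    (fun P hPS => Finset.mem_filter.mpr ⟨ht _ (hdvd P hPS), hdvd P hPS⟩)
    (by
      intro δ hδt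
      have hδR : δ ∣ R := (Finset.mem_filter.mp hδt).2
      have hδ0 : δ ≠ 0 := ne_zero_of_dvd_ne_zero hR0 hδR
      have hδle : |(δ : ℝ)| ≤ |(R : ℝ)| := by
        have : |δ| ≤ |R| := Int.le_of_dvd (abs_pos.mpr hR0) ((abs_dvd_abs _ _).mpr hδR)
        exact_mod_cast this
      refine hCf X B A Bq F1 N N' δ _ w0 w1 hX hN hN' hcz hδ0 (hδle.trans hR3)
        (fun j => (hA j).trans h13) (fun j => (hB j).trans h13) (fun j => (hF j).trans h13)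
        (RL0_injN hS _) ?_
      intro P hPf
      obtain ⟨hPS, hm⟩ := Finset.mem_filter.mp hPf
      obtain ⟨b1, -, b2, b3, b4, b5, b6⟩ := hP P hPS
      exact ⟨b1, b2.trans h13, b3.trans h13, by rw [b4, hm], b5, b6, hm⟩)
  have hX0 : 0 < X := by linarith
  have htR : (((t.filter fun e => e ∣ R).card : ℕ) : ℝ) ≤ 2 * Cd * (2 ^ (ε / 2) * X ^ (ε / 2)) := by
    have a1 : (t.filter fun e => e ∣ R).card ≤ 2 * R.natAbs.divisors.card :=
      (Finset.card_filter_le _ _).trans htc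
    have a2 : (((t.filter fun e => e ∣ R).card : ℕ) : ℝ) ≤ 2 * (R.natAbs.divisors.card : ℝ) := by
      exact_mod_cast a1
    have a3 := hCd R.natAbs (Int.natAbs_ne_zero.mpr hR0)
    have a4 : ((R.natAbs : ℕ) : ℝ) = |(R : ℝ)| := by
      rw [Nat.cast_natAbs, Int.cast_abs]
    have a5 : ((R.natAbs : ℕ) : ℝ) ^ (ε / 2 / C3) ≤ 2 ^ (ε / 2) * X ^ (ε / 2) := by
      rw [a4]
      calc |(R : ℝ)| ^ (ε / 2 / C3) ≤ ((2 * X) ^ C3) ^ (ε / 2 / C3) :=
            Real.rpow_le_rpow (abs_nonneg _) hR3 (by positivity)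
        _ = 2 ^ (ε / 2) * X ^ (ε / 2) := by
            rw [← Real.rpow_mul (by linarith), mul_div_cancel₀ _ hC30.ne',
              Real.mul_rpow (by norm_num) hX0.le]
    have a6 := mul_le_mul_of_nonneg_left a5 (by linarith : 0 ≤ Cd)
    linarith
  have h5 : 0 ≤ Cf * X ^ (ε / 2) := by positivity
  refine hfib.trans ((mul_le_mul_of_nonneg_right htR h5).trans (le_of_eq ?_))
  have e : X ^ ε = X ^ (ε / 2) * X ^ (ε / 2) := by
    rw [← Real.rpow_add hX0]; congr 1; ring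
  rw [e]; ring

end Crest.Agent.R22
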