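import Crest.Agent.R22.Basic

set_option autoImplicit false
open Polynomial IntermediateField

namespace Crest.Agent.R22

variable {d : ℕ}

theorem RLpure_y0 {S : Type*} [CommRing S] (B : ℤ[X]) (N : ℕ) (x : S) :
    hev B N x 0 = (B.coeff N : S) * x ^ N := by
  unfold hev
  rw [Finset.sum_range_succ, Finset.sum_eq_zero]
  · simp
  · intro i hi
    have : N - i ≠ 0 := by have := Finset.mem_range.mp hi; omega
    simp [this]

/-- A nonzero form of positive degree with a single root is a constant times a power of a primitive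
linear form. -/
theorem rl_pure (B : ℤ[X]) (N : ℕ) (hN : 1 ≤ N) (hB : B.natDegree ≤ N) (h0 : B ≠ 0)
    (h : ∀ a b a' b' : ℂ, hev B N a b = 0 → hev B N a' b' = 0 → a * b' - a' * b = 0) :
    ∃ b0 l0 l1 : ℤ, b0 ≠ 0 ∧ IsCoprime l0 l1 ∧
      ∀ x y : ℤ, hev B N x y = b0 * (l0 * x + l1 * y) ^ N := by
  rcases Nat.eq_zero_or_pos B.natDegree with hd | hd
  · refine ⟨B.coeff 0, 0, 1, fun e => h0 ?_, isCoprime_one_right, fun x y => ?_⟩
    · rw [eq_C_of_natDegree_eq_zero hd, e, map_zero]
    · unfold hev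
      rw [Finset.sum_range_succ', Finset.sum_eq_zero]
      · simp
      · intro i _
        rw [coeff_eq_zero_of_natDegree_lt (by omega)]
        simp
  have hinj : Function.Injective (algebraMap ℤ ℂ) := (algebraMap ℤ ℂ).injective_int
  have hroot : ∀ a : ℂ, aeval a B = 0 → hev B N a 1 = 0 := fun a ha => by
    rw [hev_eq_eval B N hB a 1 one_ne_zero, div_one, ha, mul_zero]
  have hdm : (B.map (algebraMap ℤ ℂ)).natDegree = B.natDegree := natDegree_map_eq_of_injective hinj B
  obtain ⟨α, hα⟩ := IsAlgClosed.exists_aeval_eq_zero_of_injective ℂ hinj B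
    (natDegree_pos_iff_degree_pos.mp hd).ne'
  have hlead : B.coeff N ≠ 0 := fun e => by
    have := h α 1 1 0 (hroot α hα) (by rw [RLpure_y0, e]; simp)
    simp at this
  have hlead' : (B.coeff N : ℂ) ≠ 0 := by exact_mod_cast hlead
  have hdN : B.natDegree = N := natDegree_eq_of_le_of_coeff_ne_zero hB hlead
  have hroots : (B.map (algebraMap ℤ ℂ)).roots = Multiset.replicate N α := by
    refine Multiset.eq_replicate.mpr ⟨?_, fun b hb => ?_⟩
    · rw [IsAlgClosed.card_roots_eq_natDegree, hdm, hdN]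
    · have hb' : aeval b B = 0 := by
        rw [← eval_map_algebraMap]
        exact isRoot_of_mem_roots hb
      have := h b 1 α 1 (hroot b hb') (hroot α hα)
      simpa [sub_eq_zero] using this
  have hfac : B.map (algebraMap ℤ ℂ) = C (B.coeff N : ℂ) * (X + C (-α)) ^ N := by
    have := (IsAlgClosed.splits (B.map (algebraMap ℤ ℂ))).eq_prod_roots
    rw [hroots, Multiset.map_replicate, Multiset.prod_replicate, leadingCoeff, hdm, hdN,
      coeff_map] at this
    rw [this, map_neg, sub_eq_add_neg]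
    simp
  have hN0 : (N : ℂ) ≠ 0 := by exact_mod_cast (by omega : N ≠ 0)
  obtain ⟨r, hr⟩ : ∃ r : ℚ, α = r := by
    have := congrArg (fun f => f.coeff (N - 1)) hfac
    simp only [coeff_map, coeff_C_mul, coeff_X_add_C_pow] at this
    obtain ⟨M, rfl⟩ : ∃ M, N = M + 1 := ⟨N - 1, by omega⟩
    simp only [Nat.add_sub_cancel, Nat.add_sub_cancel_left, pow_one, Nat.choose_succ_self_right,
      algebraMap_int_eq, eq_intCast] at this
    refine ⟨-(B.coeff M : ℚ) / (B.coeff (M + 1) * ((M + 1 : ℕ) : ℚ)), ?_⟩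
    rw [Rat.cast_div, Rat.cast_neg, Rat.cast_mul, Rat.cast_intCast, Rat.cast_intCast,
      Rat.cast_natCast, this]
    field_simp
  have hval : ∀ x y : ℤ, ((hev B N x y : ℤ) : ℂ) = (B.coeff N : ℂ) * (x - α * y) ^ N := by
    intro x y
    have e : ((hev B N x y : ℤ) : ℂ) = hev B N (x : ℂ) (y : ℂ) := by simp [hev]
    rw [e]
    rcases eq_or_ne (y : ℂ) 0 with hy | hy
    · rw [hy, RLpure_y0]
      simp
    · rw [hev_eq_eval B N hB _ _ hy, ← eval_map_algebraMap, hfac]
      simp only [eval_mul, eval_C, eval_pow, eval_add, eval_X]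
      rw [mul_left_comm, ← mul_pow]
      congr 2
      field_simp
      ring
  have hden : (r.den : ℂ) ≠ 0 := by exact_mod_cast r.den_ne_zero
  have hint : ∀ x y : ℤ, (r.den : ℤ) ^ N * hev B N x y =
      B.coeff N * ((r.den : ℤ) * x + -r.num * y) ^ N := by
    intro x y
    apply Int.cast_injective (α := ℂ)
    rw [Int.cast_mul, hval, hr]
    push_cast
    rw [mul_left_comm, ← mul_pow]
    congr 2
    rw [Rat.cast_def]
    field_simp
    ring
  have hco : IsCoprime (r.den : ℤ) (-r.num) :=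
    (Int.isCoprime_iff_gcd_eq_one.mpr (by simpa [Int.gcd] using r.reduced.symm)).neg_right
  have hdvd : (r.den : ℤ) ^ N ∣ B.coeff N := by
    have := hint 0 1
    simp only [mul_zero, zero_add, mul_one] at this
    exact (hco.pow (m := N) (n := N)).dvd_of_dvd_mul_right ⟨_, this.symm⟩
  obtain ⟨b0, hb0⟩ := hdvd
  refine ⟨b0, r.den, -r.num, fun e => hlead (by rw [hb0, e, mul_zero]), hco, fun x y => ?_⟩
  have hd0 : (r.den : ℤ) ^ N ≠ 0 := pow_ne_zero _ (by exact_mod_cast r.den_ne_zero)
  apply mul_left_cancel₀ hd0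
  rw [hint, hb0, mul_assoc]

end Crest.Agent.R22
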