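import Crest.Agent.R22.Basic
import Crest.Agent.R22.LinAlg

set_option autoImplicit false
open Polynomial IntermediateField

namespace Crest.Agent.R22

variable {d : ℕ}

/-- Every polynomial of degree `≤ 2N` is a combination with cofactors of degree `≤ N`. -/
theorem RLres_bez {ι : Type} [Fintype ι] (P : ι → ℂ[X]) (N : ℕ) (hd : ∀ i, (P i).natDegree ≤ N)
    (h1 : ∀ z : ℂ, ∃ i, (P i).eval z ≠ 0) (i0 : ι) (h0 : (P i0).coeff N ≠ 0) (f : ℂ[X])
    (hf : f.natDegree ≤ N + N) : ∃ a : ι → ℂ[X], (∀ i, (a i).natDegree ≤ N) ∧ ∑ i, a i * P i = f := by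
  classical
  have htop : Ideal.span (Set.range P) = ⊤ := by
    set I := Ideal.span (Set.range P) with hI
    have hg : ∀ i, Submodule.IsPrincipal.generator I ∣ P i := fun i =>
      (Submodule.IsPrincipal.mem_iff_generator_dvd I).1 (Ideal.subset_span ⟨i, rfl⟩)
    by_cases hdeg : (Submodule.IsPrincipal.generator I).degree = 0
    · exact Ideal.eq_top_of_isUnit_mem I (Submodule.IsPrincipal.generator_mem I)
        (isUnit_iff_degree_eq_zero.2 hdeg)
    · obtain ⟨z, hz⟩ := IsAlgClosed.exists_root _ hdeg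
      obtain ⟨i, hi⟩ := h1 z
      exact absurd (hz.dvd (hg i)) hi
  obtain ⟨c, hc⟩ := Ideal.mem_span_range_iff_exists_fun.1
    (show f ∈ Ideal.span (Set.range P) from htop ▸ Submodule.mem_top)
  have hP0 : P i0 ≠ 0 := fun h => h0 (by rw [h, coeff_zero])
  have hN : (P i0).natDegree = N := le_antisymm (hd i0) (le_natDegree_of_ne_zero h0)
  have hr : ∀ i, (c i % P i0).natDegree ≤ N := fun i =>
    hN ▸ natDegree_le_natDegree (degree_mod_lt (c i) hP0).le
  set q : ℂ[X] := ∑ i, c i / P i0 * P i with hq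
  have e1 : q * P i0 = f - ∑ i, (c i % P i0) * P i := by
    rw [← hc, hq, Finset.sum_mul, ← Finset.sum_sub_distrib]
    refine Finset.sum_congr rfl fun i _ => ?_
    have := EuclideanDomain.div_add_mod (c i) (P i0)
    linear_combination (P i) * this
  have hqd : q.natDegree ≤ N := by
    by_cases hq0 : q = 0
    · rw [hq0, natDegree_zero]; exact Nat.zero_le _
    · have h2 : (q * P i0).natDegree ≤ N + N := by
        rw [e1]
        refine (natDegree_sub_le _ _).trans (max_le hf (natDegree_sum_le_of_forall_le _ _ fun i _ =>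
          natDegree_mul_le.trans (add_le_add (hr i) (hd i))))
      rw [natDegree_mul hq0 hP0, hN] at h2
      omega
  refine ⟨fun i => c i % P i0 + if i = i0 then q else 0, fun i => ?_, ?_⟩
  · refine (natDegree_add_le _ _).trans (max_le (hr i) ?_)
    split_ifs
    · exact hqd
    · rw [natDegree_zero]; exact Nat.zero_le _
  · simp only [add_mul, Finset.sum_add_distrib, ite_mul, zero_mul, Finset.sum_ite_eq',
      Finset.mem_univ, if_true, e1]
    ring

theorem RLres_hev_sum {κ : Type*} (S : Finset κ) (w : κ → ℤ) (q : κ → ℤ[X]) (M : ℕ) (x y : ℤ) :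
    hev (∑ k ∈ S, C (w k) * q k) M x y = ∑ k ∈ S, w k * hev (q k) M x y := by
  unfold hev
  simp only [finsetSum_coeff, coeff_C_mul]
  simp only [algebraMap_int_eq, eq_intCast, Int.cast_id, Finset.sum_mul, Finset.mul_sum]
  rw [Finset.sum_comm]
  exact Finset.sum_congr rfl fun k _ => Finset.sum_congr rfl fun i _ => by ring

theorem RLres_hev_X_pow (j M : ℕ) (hj : j ≤ M) (x y : ℤ) :
    hev (X ^ j : ℤ[X]) M x y = x ^ j * y ^ (M - j) := by
  unfold hev
  rw [Finset.sum_eq_single j]
  · simp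
  · intro i _ hi
    simp [coeff_X_pow, hi]
  · intro h; exact absurd (Finset.mem_range.2 (by omega)) h

theorem RLres_one (ι : Type) [Fintype ι] (E : ℕ) : ∃ C : ℕ, ∀ (p : ι → ℤ[X]) (N : ℕ) (H : ℝ),
    N ≤ E → 2 ≤ H → NoCZ p N → (∀ i, HtLE (p i) H) → ∀ j ≤ N + N, ∃ R : ℤ, R ≠ 0 ∧
      |(R : ℝ)| ≤ H ^ C ∧ ∀ x y e : ℤ, (∀ i, e ∣ hev (p i) N x y) →
        e ∣ R * (x ^ j * y ^ (N + N - j)) := by
  classical
  obtain ⟨C, hC⟩ := ker_bounded.{0, 0} (Option (ι × Fin (E + 1)))
  refine ⟨C, fun p N H hN hH hp hht j hj => ?_⟩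
  have hmapd : ∀ i, ((p i).map (algebraMap ℤ ℂ)).natDegree ≤ N := fun i =>
    natDegree_map_le.trans (hp.1 i)
  obtain ⟨i0, hi0⟩ := hp.2 1 0 (Or.inl one_ne_zero)
  have hi0' : ((p i0).map (algebraMap ℤ ℂ)).coeff N ≠ 0 := by
    intro h
    apply hi0
    unfold hev
    rw [Finset.sum_range_succ, Finset.sum_eq_zero, ← coeff_map, h]
    · simp
    · intro i hi
      have : N - i ≠ 0 := by have := Finset.mem_range.1 hi; omega
      rw [zero_pow this, mul_zero]
  obtain ⟨a, ha, hsum⟩ := RLres_bez (fun i => (p i).map (algebraMap ℤ ℂ)) N hmapd (fun z => by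
    obtain ⟨i, hi⟩ := hp.2 z 1 (Or.inr one_ne_zero)
    refine ⟨i, fun h => hi ?_⟩
    rw [hev_eq_eval _ _ (hp.1 i) _ _ one_ne_zero, div_one, aeval_def, ← eval_map, h, mul_zero])
    i0 hi0' (X ^ j) (by rw [natDegree_X_pow]; exact hj)
  set q : Option (ι × Fin (E + 1)) → ℤ[X] := fun o => match o with
    | none => -X ^ j
    | some il => if (il.2 : ℕ) ≤ N then X ^ (il.2 : ℕ) * p il.1 else 0 with hq
  set v : Option (ι × Fin (E + 1)) → ℂ := fun o => match o with
    | none => 1
    | some il => (a il.1).coeff il.2 with hv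
  have hA : ∀ (z : ℕ) o, |(((q o).coeff z : ℤ) : ℝ)| ≤ H := by
    intro z o
    rcases o with _ | ⟨i, l⟩
    · simp only [hq, coeff_neg, coeff_X_pow]
      split_ifs
      · simp only [Int.reduceNeg, Int.cast_neg, Int.cast_one, abs_neg, abs_one]; linarith
      · simp only [neg_zero, Int.cast_zero, abs_zero]; linarith
    · simp only [hq]
      split_ifs
      · rw [coeff_X_pow_mul']
        split_ifs
        · exact hht i _
        · simp only [Int.cast_zero, abs_zero]; linarith
      · simp only [coeff_zero, Int.cast_zero, abs_zero]; linarith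
  have hker : ∀ z : ℕ, ∑ o, (((q o).coeff z : ℤ) : ℂ) * v o = 0 := by
    intro z
    have e1 : ∑ o, Polynomial.C (v o) * (q o).map (algebraMap ℤ ℂ) = 0 := by
      rw [Fintype.sum_option, Fintype.sum_prod_type, add_comm, ← sub_self (X ^ j : ℂ[X]),
        sub_eq_add_neg]
      congr 1
      · rw [← hsum]
        refine Finset.sum_congr rfl fun i _ => ?_
        conv_rhs => rw [as_sum_range_C_mul_X_pow' (a i) (n := E + 1)
          (Nat.lt_succ_of_le ((ha i).trans hN)), Finset.sum_range, Finset.sum_mul]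
        refine Finset.sum_congr rfl fun l _ => ?_
        simp only [hq, hv]
        split_ifs with hl
        · rw [Polynomial.map_mul, Polynomial.map_pow, map_X, mul_assoc]
        · rw [coeff_eq_zero_of_natDegree_lt (lt_of_le_of_lt (ha i) (not_le.1 hl))]
          simp
      · simp [hq, hv]
    have e2 := congrArg (fun f => coeff f z) e1
    simp only [finsetSum_coeff, coeff_C_mul, coeff_map, coeff_zero, algebraMap_int_eq,
      eq_intCast] at e2
    rw [← e2]
    exact Finset.sum_congr rfl fun o _ => mul_comm _ _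
  have hspan := hC ℕ (fun z o => (q o).coeff z) H hH hA v hker
  have hex : ∃ w : Option (ι × Fin (E + 1)) → ℤ, (∀ z : ℕ, ∑ o, (q o).coeff z * w o = 0) ∧
      (∀ o, |(w o : ℝ)| ≤ H ^ C) ∧ w none ≠ 0 := by
    by_contra hno
    push Not at hno
    have : ∀ u ∈ Submodule.span ℂ {w' : Option (ι × Fin (E + 1)) → ℂ |
        ∃ w : Option (ι × Fin (E + 1)) → ℤ, (∀ i, w' i = w i) ∧
        (∀ z : ℕ, ∑ o, (q o).coeff z * w o = 0) ∧ ∀ i, |(w i : ℝ)| ≤ H ^ C}, u none = 0 := by
      intro u hu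
      induction hu using Submodule.span_induction with
      | mem u hu =>
        obtain ⟨w, e, h1, h2⟩ := hu
        rw [e, hno w h1 h2, Int.cast_zero]
      | zero => rfl
      | add u u' _ _ hu hu' => rw [Pi.add_apply, hu, hu', add_zero]
      | smul r u _ hu => rw [Pi.smul_apply, hu, smul_zero]
    exact one_ne_zero (this v hspan)
  obtain ⟨w, hw, hwb, hw0⟩ := hex
  refine ⟨w none, hw0, hwb none, fun x y e he => ?_⟩
  have e1 : ∑ o, Polynomial.C (w o) * q o = 0 := by
    ext z
    rw [finsetSum_coeff, coeff_zero, ← hw z]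
    exact Finset.sum_congr rfl fun o _ => by rw [coeff_C_mul, mul_comm]
  have e2 : Polynomial.C (w none) * X ^ j = ∑ il, Polynomial.C (w (some il)) * q (some il) := by
    rw [Fintype.sum_option] at e1
    have : q none = -X ^ j := rfl
    rw [this] at e1
    linear_combination -e1
  have e3 := RLres_hev_sum {()} (fun _ => w none) (fun _ => (X ^ j : ℤ[X])) (N + N) x y
  rw [Finset.sum_singleton, Finset.sum_singleton, RLres_hev_X_pow j _ hj, e2, RLres_hev_sum] at e3
  rw [← e3]
  refine Finset.dvd_sum fun il _ => Dvd.dvd.mul_left ?_ _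
  simp only [hq]
  split_ifs with hl
  · rw [hev_mul _ _ _ _ (by rw [natDegree_X_pow]; exact hl) (hp.1 _)]
    exact (he _).mul_left _
  · unfold hev; simp

/-- Forms without common zero: a nonzero integer `R` of bounded height is divisible by the gcd of the
values at every coprime pair. (By the Nullstellensatz in one variable `x^m` and `y^m` lie in the
ideal for `m = 2N`; solve the linear systems `∑ a_i p_i = R X^m`, `∑ a_i' p_i = R'` with
`ker_bounded`.) -/
theorem rl_res (ι : Type) [Fintype ι] (E : ℕ) : ∃ C : ℕ, ∀ (p : ι → ℤ[X]) (N : ℕ) (H : ℝ), N ≤ E →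
    2 ≤ H → NoCZ p N → (∀ i, HtLE (p i) H) → ∃ R : ℤ, R ≠ 0 ∧ |(R : ℝ)| ≤ H ^ C ∧
      ∀ x y e : ℤ, IsCoprime x y → (∀ i, e ∣ hev (p i) N x y) → e ∣ R := by
  obtain ⟨C, hC⟩ := RLres_one ι E
  refine ⟨C + C, fun p N H hN hH hp hht => ?_⟩
  obtain ⟨R, hR, hRb, hRd⟩ := hC p N H hN hH hp hht 0 (Nat.zero_le _)
  obtain ⟨R', hR', hRb', hRd'⟩ := hC p N H hN hH hp hht (N + N) le_rfl
  refine ⟨R * R', mul_ne_zero hR hR', ?_, fun x y e hxy he => ?_⟩
  · rw [Int.cast_mul, abs_mul, pow_add]
    exact mul_le_mul hRb hRb' (abs_nonneg _) (by positivity)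
  · obtain ⟨u, v, huv⟩ := (hxy.pow : IsCoprime (x ^ (N + N)) (y ^ (N + N)))
    obtain ⟨s, hs⟩ := hRd x y e he
    obtain ⟨t, ht⟩ := hRd' x y e he
    rw [pow_zero, one_mul, Nat.sub_zero] at hs
    rw [Nat.sub_self, pow_zero, mul_one] at ht
    exact ⟨u * R * t + v * R' * s, by
      linear_combination (-(R * R')) * huv + u * R * ht + v * R' * hs⟩

end Crest.Agent.R22
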