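import Crest.Agent.R22.DivBd
import Crest.Agent.R22.Basic
import Crest.Agent.R22.RLpure
import Crest.Agent.R22.RLres

set_option autoImplicit false
open Polynomial IntermediateField

namespace Crest.Agent.R22

variable {d : ℕ}

open NumberField in
/-- `card_elt_divisors` with the sizes that occur here. -/
theorem RLtwo_cnt (E : ℕ) (ε : ℝ) (hε : 0 < ε) : ∃ C : ℝ, 1 ≤ C ∧
    ∀ (K : Type) [Field K] [NumberField K], Module.finrank ℚ K ≤ E + 1 → ∀ (M : ℤ) (H : ℝ), M ≠ 0 →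
      2 ≤ H → |(M : ℝ)| ≤ H ^ (E + 1) → ∀ T : Finset (𝓞 K),
        (∀ ξ ∈ T, ξ ∣ (M : 𝓞 K) ∧ ∀ φ : K →+* ℂ, ‖φ ξ‖ ≤ H ^ 5) → (T.card : ℝ) ≤ C * H ^ ε := by
  have hE : (0 : ℝ) < ((E + 6 : ℕ) : ℝ) := by positivity
  obtain ⟨C, hC, h⟩ := card_elt_divisors (E + 1) (ε / ((E + 6 : ℕ) : ℝ)) (by positivity)
  refine ⟨C, hC, fun K _ _ hK M H hM hH hMH T hT => ?_⟩
  have hH0 : 0 < H := by linarith
  have hH5 : 2 ≤ H ^ 5 := hH.trans (le_self_pow₀ (by linarith) (by norm_num))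
  refine (h K hK M.natAbs (H ^ 5) (Int.natAbs_ne_zero.2 hM) hH5 T fun ξ hξ =>
    ⟨(hT ξ hξ).1.trans ?_, (hT ξ hξ).2⟩).trans (mul_le_mul_of_nonneg_left ?_ (by linarith))
  · have := map_dvd (Int.castRingHom (𝓞 K)) (Int.dvd_natAbs.2 (dvd_refl M))
    simpa only [eq_intCast, Int.cast_natCast] using this
  · have h1 : ((M.natAbs : ℕ) : ℝ) * H ^ 5 ≤ H ^ (E + 6) := by
      rw [Nat.cast_natAbs, Int.cast_abs, show E + 6 = E + 1 + 5 by ring, pow_add]
      exact mul_le_mul_of_nonneg_right hMH (by positivity)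
    refine (Real.rpow_le_rpow (by positivity) h1 (by positivity)).trans_eq ?_
    rw [← Real.rpow_natCast, ← Real.rpow_mul hH0.le, mul_div_cancel₀ _ hE.ne']

theorem RLtwo_map {S S' : Type*} [CommRing S] [CommRing S'] (ψ : S →+* S') (B : ℤ[X]) (N : ℕ)
    (x y : S) : ψ (hev B N x y) = hev B N (ψ x) (ψ y) := by
  simp [hev, map_sum]

theorem RLtwo_sub_dvd {S : Type*} [CommRing S] (B : ℤ[X]) (N : ℕ) (u u' v : S) :
    u - u' ∣ hev B N u v - hev B N u' v := by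
  rw [hev, hev, ← Finset.sum_sub_distrib]
  refine Finset.dvd_sum fun i _ => ?_
  rw [← sub_mul, ← mul_sub]
  exact ((sub_dvd_pow_sub_pow u u' i).mul_left _).mul_right _

theorem RLtwo_root_le {B : ℤ[X]} {H : ℝ} (hB : B ≠ 0) (hH : HtLE B H) {β : ℂ}
    (hβ : aeval β B = 0) : ‖β‖ ≤ H + 1 := by
  have hinj : Function.Injective (algebraMap ℤ ℂ) := (algebraMap ℤ ℂ).injective_int
  have hH0 : 0 ≤ H := (abs_nonneg _).trans (hH 0)
  have h0 : B.map (algebraMap ℤ ℂ) ≠ 0 := (Polynomial.map_ne_zero_iff hinj).2 hB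
  have h1 : (B.map (algebraMap ℤ ℂ)).IsRoot β := by
    rw [IsRoot.def, eval_map_algebraMap, hβ]
  have h2 := (h1.norm_lt_cauchyBound h0).le
  have h3 : Finset.sup (Finset.range (B.map (algebraMap ℤ ℂ)).natDegree)
      (‖(B.map (algebraMap ℤ ℂ)).coeff ·‖₊) ≤ ⟨H, hH0⟩ := by
    refine Finset.sup_le fun i _ => ?_
    rw [← NNReal.coe_le_coe, coe_nnnorm, coeff_map, eq_intCast, Complex.norm_intCast]
    exact hH i
  have h4 : 1 ≤ ‖(B.map (algebraMap ℤ ℂ)).leadingCoeff‖₊ := by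
    rw [leadingCoeff_map_of_injective hinj, ← NNReal.coe_le_coe, coe_nnnorm]
    have : (1 : ℤ) ≤ |B.leadingCoeff| := Int.one_le_abs (leadingCoeff_ne_zero.2 hB)
    simpa using (by exact_mod_cast this : (1 : ℝ) ≤ |(B.leadingCoeff : ℝ)|)
  have h5 : cauchyBound (B.map (algebraMap ℤ ℂ)) ≤ ⟨H, hH0⟩ + 1 :=
    add_le_add ((div_le_self zero_le h4).trans h3) le_rfl
  exact_mod_cast h2.trans h5

open NumberField in
/-- A finite root: the linear form `x - α y` takes few values. -/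
theorem RLtwo_fin (E : ℕ) (ε : ℝ) (hε : 0 < ε) : ∃ C : ℝ, 1 ≤ C ∧
    ∀ (B : ℤ[X]) (N : ℕ) (H : ℝ) (δ : ℤ), N ≤ E → B.natDegree ≤ N → 2 ≤ H → HtLE B H → δ ≠ 0 →
      |(δ : ℝ)| ≤ H → B ≠ 0 → ∀ α : ℂ, aeval α B = 0 → ∀ T : Finset (ℤ × ℤ),
      (∀ w ∈ T, |(w.1 : ℝ)| ≤ H ∧ |(w.2 : ℝ)| ≤ H ∧ hev B N w.1 w.2 = δ) →
      ((T.image fun w => (w.1 : ℂ) - α * w.2).card : ℝ) ≤ C * H ^ ε := by
  classical
  obtain ⟨C, hC, h⟩ := RLtwo_cnt E ε hε
  refine ⟨C, hC, fun B N H δ hN hBN hH hB hδ hδH hB0 α hα T hT => ?_⟩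
  have hH1 : 1 ≤ H := by linarith
  have hq0 : B.map (algebraMap ℤ ℚ) ≠ 0 :=
    (Polynomial.map_ne_zero_iff (algebraMap ℤ ℚ).injective_int).2 hB0
  have hq : aeval α (B.map (algebraMap ℤ ℚ)) = 0 := by rw [aeval_map_algebraMap, hα]
  have hint : IsIntegral ℚ α := IsAlgebraic.isIntegral ⟨_, hq0, hq⟩
  have : FiniteDimensional ℚ ℚ⟮α⟯ := adjoin.finiteDimensional hint
  have : NumberField ℚ⟮α⟯ := ⟨⟩
  have hK : Module.finrank ℚ ℚ⟮α⟯ ≤ E + 1 := by
    rw [adjoin.finrank hint]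
    have h1 := natDegree_le_natDegree (minpoly.degree_le_of_ne_zero ℚ α hq0 hq)
    have h2 : (B.map (algebraMap ℤ ℚ)).natDegree ≤ B.natDegree := natDegree_map_le
    omega
  set α' : ℚ⟮α⟯ := AdjoinSimple.gen ℚ α with hα'
  have hα1 : aeval α' B = 0 := by
    apply (algebraMap ℚ⟮α⟯ ℂ).injective
    rw [← aeval_algebraMap_apply, AdjoinSimple.algebraMap_gen, hα, map_zero]
  set a : ℤ := B.leadingCoeff with ha
  have ha0 : a ≠ 0 := leadingCoeff_ne_zero.2 hB0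
  have haH : |(a : ℝ)| ≤ H := hB _
  set γ : 𝓞 ℚ⟮α⟯ := ⟨a • α', isIntegral_leadingCoeff_smul B α' hα1⟩ with hγ
  have hγ1 : algebraMap (𝓞 ℚ⟮α⟯) ℚ⟮α⟯ γ = a * α' := by
    rw [← zsmul_eq_mul]; rfl
  have hroot : hev B N γ (a : 𝓞 ℚ⟮α⟯) = 0 := by
    apply RingOfIntegers.coe_injective
    have haK : (a : ℚ⟮α⟯) ≠ 0 := Int.cast_ne_zero.2 ha0
    rw [RLtwo_map, map_zero, hγ1, map_intCast, hev_eq_eval B N hBN _ _ haK,
      mul_div_cancel_left₀ _ haK, hα1, mul_zero]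
  set f : ℤ × ℤ → 𝓞 ℚ⟮α⟯ := fun w => a * w.1 - w.2 * γ with hf
  have hf1 : ∀ (φ : ℚ⟮α⟯ →+* ℂ) (w : ℤ × ℤ), φ (f w) = a * (w.1 - φ α' * w.2) := by
    intro φ w
    change φ (algebraMap (𝓞 ℚ⟮α⟯) ℚ⟮α⟯ (f w)) = _
    simp only [hf, map_sub, map_mul, map_intCast, hγ1]
    ring
  have h1 := h ℚ⟮α⟯ hK (a ^ N * δ) H (mul_ne_zero (pow_ne_zero _ ha0) hδ) hH ?_ (T.image f) ?_
  · refine le_trans ?_ h1
    have e : (T.image fun w => (w.1 : ℂ) - α * w.2) =
        (T.image f).image fun ξ : 𝓞 ℚ⟮α⟯ => algebraMap ℚ⟮α⟯ ℂ ξ / a := by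
      rw [Finset.image_image]
      refine Finset.image_congr fun w _ => ?_
      have haC : (a : ℂ) ≠ 0 := Int.cast_ne_zero.2 ha0
      simp only [Function.comp]
      rw [hf1, AdjoinSimple.algebraMap_gen, mul_div_cancel_left₀ _ haC]
    rw [e]
    exact_mod_cast Finset.card_image_le
  · push_cast
    rw [abs_mul, abs_pow, pow_succ]
    exact mul_le_mul ((pow_le_pow_left₀ (abs_nonneg _) haH N).trans (pow_le_pow_right₀ hH1 hN))
      hδH (abs_nonneg _) (by positivity)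
  · intro ξ hξ
    obtain ⟨w, hw, rfl⟩ := Finset.mem_image.1 hξ
    obtain ⟨w1, w2, w3⟩ := hT w hw
    refine ⟨?_, fun φ => ?_⟩
    · have h2 := RLtwo_sub_dvd B N ((a : 𝓞 ℚ⟮α⟯) * w.1) (w.2 * γ) (a * w.2)
      have h3 : hev B N (w.1 : 𝓞 ℚ⟮α⟯) w.2 = δ := by
        have := RLtwo_map (Int.castRingHom (𝓞 ℚ⟮α⟯)) B N w.1 w.2
        rw [w3] at this
        exact this.symm
      rw [hev_smul, mul_comm (a : 𝓞 ℚ⟮α⟯) w.2, hev_smul, hroot, mul_zero, sub_zero, h3] at h2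
      push_cast
      exact h2
    · have h2 : ‖φ α'‖ ≤ H + 1 := by
        refine RLtwo_root_le hB0 hB ?_
        have := aeval_algHom_apply φ.toIntAlgHom α' B
        rw [hα1, map_zero] at this
        exact this
      rw [hf1, norm_mul, Complex.norm_intCast]
      have h3 : ‖(w.1 : ℂ) - φ α' * w.2‖ ≤ H + (H + 1) * H := by
        refine (norm_sub_le _ _).trans (add_le_add ?_ ?_)
        · rwa [Complex.norm_intCast]
        · rw [norm_mul, Complex.norm_intCast]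
          exact mul_le_mul h2 w2 (abs_nonneg _) (by linarith)
      have h4 : H + (H + 1) * H ≤ H ^ 4 := by
        have h5 : 4 ≤ H ^ 2 := by nlinarith
        nlinarith
      calc |(a : ℝ)| * ‖(w.1 : ℂ) - φ α' * w.2‖ ≤ H * H ^ 4 :=
            mul_le_mul haH (h3.trans h4) (norm_nonneg _) (by linarith)
        _ = H ^ 5 := by ring

open NumberField in
/-- The root at infinity: `y` takes few values. -/
theorem RLtwo_inf (E : ℕ) (ε : ℝ) (hε : 0 < ε) : ∃ C : ℝ, 1 ≤ C ∧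
    ∀ (B : ℤ[X]) (N : ℕ) (H : ℝ) (δ : ℤ), 2 ≤ H → δ ≠ 0 → |(δ : ℝ)| ≤ H → B.coeff N = 0 →
      ∀ T : Finset (ℤ × ℤ), (∀ w ∈ T, |(w.1 : ℝ)| ≤ H ∧ |(w.2 : ℝ)| ≤ H ∧ hev B N w.1 w.2 = δ) →
      ((T.image fun w => (w.2 : ℂ)).card : ℝ) ≤ C * H ^ ε := by
  classical
  obtain ⟨C, hC, h⟩ := RLtwo_cnt E ε hε
  refine ⟨C, hC, fun B N H δ hH hδ hδH hB T hT => ?_⟩
  have hH1 : 1 ≤ H := by linarith
  have h1 := h ℚ (by simp) δ H hδ hH (hδH.trans (le_self_pow₀ hH1 (by omega)))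
    (T.image fun w => (w.2 : 𝓞 ℚ)) ?_
  · refine le_trans ?_ h1
    have e : (T.image fun w => (w.2 : ℂ)) = (T.image fun w => (w.2 : 𝓞 ℚ)).image
        fun ξ => algebraMap ℚ ℂ (algebraMap (𝓞 ℚ) ℚ ξ) := by
      rw [Finset.image_image]
      refine Finset.image_congr fun w _ => ?_
      simp only [Function.comp, map_intCast]
    rw [e]
    exact_mod_cast Finset.card_image_le
  · intro ξ hξ
    obtain ⟨w, hw, rfl⟩ := Finset.mem_image.1 hξ
    obtain ⟨-, w2, w3⟩ := hT w hw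
    refine ⟨?_, fun φ => ?_⟩
    · have h2 : w.2 ∣ δ := by
        rw [← w3, hev]
        refine Finset.dvd_sum fun i hi => ?_
        rcases (Nat.lt_succ_iff.1 (Finset.mem_range.1 hi)).eq_or_lt with rfl | hlt
        · simp [hB]
        · exact (dvd_pow_self _ (by omega)).mul_left _
      exact map_dvd (Int.castRingHom (𝓞 ℚ)) h2
    · change ‖φ (algebraMap (𝓞 ℚ) ℚ (w.2 : 𝓞 ℚ))‖ ≤ _
      rw [map_intCast, map_intCast, Complex.norm_intCast]
      exact w2.trans (le_self_pow₀ hH1 (by norm_num))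

theorem RLtwo_card_le (T : Finset (ℤ × ℤ)) (f g : ℤ × ℤ → ℂ)
    (h : ∀ w w', f w = f w' → g w = g w' → w = w') :
    (T.card : ℝ) ≤ (T.image f).card * (T.image g).card := by
  have := Finset.card_le_card_of_injOn (s := T) (t := T.image f ×ˢ T.image g)
    (fun w => (f w, g w)) (fun w hw => Finset.mem_coe.2 (Finset.mem_product.2
      ⟨Finset.mem_image_of_mem _ hw, Finset.mem_image_of_mem _ hw⟩))
    fun w _ w' _ e => h w w' (congrArg Prod.fst e) (congrArg Prod.snd e)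
  rw [Finset.card_product] at this
  exact_mod_cast this

theorem RLtwo_coeff {B : ℤ[X]} {N : ℕ} {a : ℂ} (ha : a ≠ 0) (h : hev B N a 0 = 0) :
    B.coeff N = 0 := by
  rw [hev, Finset.sum_eq_single N] at h
  · simpa [ha] using h
  · intro i hi hne
    have : N - i ≠ 0 := by
      have := Finset.mem_range.1 hi
      omega
    rw [zero_pow this, mul_zero]
  · intro hN
    exact absurd (Finset.self_mem_range_succ N) hN

theorem RLtwo_aeval {B : ℤ[X]} {N : ℕ} (hB : B.natDegree ≤ N) {a b : ℂ} (hb : b ≠ 0)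
    (h : hev B N a b = 0) : aeval (a / b) B = 0 := by
  rw [hev_eq_eval B N hB a b hb] at h
  exact (mul_eq_zero.1 h).resolve_left (pow_ne_zero _ hb)

/-- A binary form with two distinct roots in `ℙ¹(ℂ)` takes a value `δ ≠ 0` at few points. Factor `B` in
`ℤ[X]`. If there is an irreducible factor `B0` of degree `m ≥ 2` with root `α` and leading coefficient
`a`, then `ξ = a w0 - (a α) w1` is an integer of `ℚ(α)` dividing `a^(m-1) hev B0 m w ∣ a^(m-1) δ`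
(the cofactor `a^(m-1) B0(X/a)/(X - aα)` has integral coefficients), it determines `w`, its conjugates
are `≤ C H² Y` (Cauchy bound applied to the roots of `B`, `|a| ≤ H`): `card_elt_divisors`. Otherwise
two non-proportional primitive linear forms (one may be `w1`, when `deg B < N`) divide the form, and
their values are divisors of `δ`. -/
theorem rl_two (E : ℕ) (ε : ℝ) (hε : 0 < ε) : ∃ C : ℝ, ∀ (B : ℤ[X]) (N : ℕ) (H : ℝ) (δ : ℤ),
    N ≤ E → B.natDegree ≤ N → 2 ≤ H → HtLE B H → δ ≠ 0 → |(δ : ℝ)| ≤ H →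
    (∃ a b a' b' : ℂ, a * b' - a' * b ≠ 0 ∧ hev B N a b = 0 ∧ hev B N a' b' = 0) →
    ∀ T : Finset (ℤ × ℤ), (∀ w ∈ T, |(w.1 : ℝ)| ≤ H ∧ |(w.2 : ℝ)| ≤ H ∧ hev B N w.1 w.2 = δ) →
      (T.card : ℝ) ≤ C * H ^ ε := by
  classical
  obtain ⟨C₁, hC₁, h₁⟩ := RLtwo_fin E (ε / 2) (by positivity)
  obtain ⟨C₂, hC₂, h₂⟩ := RLtwo_inf E (ε / 2) (by positivity)
  refine ⟨C₁ * C₁ + C₁ * C₂, fun B N H δ hN hBN hH hB hδ hδH hr T hT => ?_⟩
  have hH0 : 0 < H := by linarith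
  have hp : 0 < H ^ ε := by positivity
  have hsq : H ^ (ε / 2) * H ^ (ε / 2) = H ^ ε := by rw [← Real.rpow_add hH0, add_halves]
  rcases T.eq_empty_or_nonempty with rfl | ⟨w₀, hw₀⟩
  · rw [Finset.card_empty, Nat.cast_zero]
    positivity
  have hB0 : B ≠ 0 := by
    rintro rfl
    have := (hT w₀ hw₀).2.2
    simp [hev] at this
    exact hδ this.symm
  have hinf : ∀ α : ℂ, aeval α B = 0 → B.coeff N = 0 →
      (T.card : ℝ) ≤ (C₁ * C₁ + C₁ * C₂) * H ^ ε := by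
    intro α hα hc
    have k := RLtwo_card_le T (fun w => (w.1 : ℂ) - α * w.2) (fun w => (w.2 : ℂ))
      fun w w' e1 e2 => by
        rw [e2, sub_left_inj] at e1
        exact Prod.ext (Int.cast_injective e1) (Int.cast_injective e2)
    refine k.trans ((mul_le_mul (h₁ B N H δ hN hBN hH hB hδ hδH hB0 α hα T hT)
      (h₂ B N H δ hH hδ hδH hc T hT) (by positivity) (by positivity)).trans ?_)
    rw [mul_mul_mul_comm, hsq]
    exact mul_le_mul_of_nonneg_right (le_add_of_nonneg_left (by positivity)) hp.le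
  obtain ⟨a, b, a', b', hne, hr1, hr2⟩ := hr
  by_cases hb : b = 0
  · subst hb
    rw [mul_zero, sub_zero] at hne
    exact hinf _ (RLtwo_aeval hBN (right_ne_zero_of_mul hne) hr2)
      (RLtwo_coeff (left_ne_zero_of_mul hne) hr1)
  by_cases hb' : b' = 0
  · subst hb'
    rw [mul_zero, zero_sub, neg_ne_zero] at hne
    exact hinf _ (RLtwo_aeval hBN hb hr1) (RLtwo_coeff (left_ne_zero_of_mul hne) hr2)
  have hαα : a / b - a' / b' ≠ 0 := by
    rw [div_sub_div _ _ hb hb', mul_comm b a']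
    exact div_ne_zero hne (mul_ne_zero hb hb')
  have k := RLtwo_card_le T (fun w => (w.1 : ℂ) - a / b * w.2) (fun w => (w.1 : ℂ) - a' / b' * w.2)
    fun w w' e1 e2 => by
      have e3 : (w.2 : ℂ) = w'.2 :=
        mul_left_cancel₀ hαα (by linear_combination e2 - e1)
      rw [e3, sub_left_inj] at e1
      exact Prod.ext (Int.cast_injective e1) (Int.cast_injective e3)
  refine k.trans ((mul_le_mul
    (h₁ B N H δ hN hBN hH hB hδ hδH hB0 _ (RLtwo_aeval hBN hb hr1) T hT)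
    (h₁ B N H δ hN hBN hH hB hδ hδH hB0 _ (RLtwo_aeval hBN hb' hr2) T hT)
    (by positivity) (by positivity)).trans ?_)
  rw [mul_mul_mul_comm, hsq]
  exact mul_le_mul_of_nonneg_right (le_add_of_nonneg_right (by positivity)) hp.le

end Crest.Agent.R22
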