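import Crest.Agent.R22.Defs

set_option autoImplicit false
open Polynomial IntermediateField

namespace Crest.Agent.R22

variable {d : ℕ}

theorem Roots_card_max (F A : Type*) [Field F] [CommRing A] [Algebra F A] [Module.Finite F A]
    [Fintype (MaximalSpectrum A)] : Fintype.card (MaximalSpectrum A) ≤ Module.finrank F A := by
  have h1 : Function.Surjective (LinearMap.pi fun I : MaximalSpectrum A =>
      (Ideal.Quotient.mkₐ F I.asIdeal).toLinearMap) := by
    intro y
    obtain ⟨x, hx⟩ := Ideal.pi_quotient_surjective (I := fun I : MaximalSpectrum A => I.asIdeal)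
      (fun I J h => MaximalSpectrum.isCoprime_of_ne h) y
    exact ⟨x, funext hx⟩
  refine le_trans ?_ (LinearMap.finrank_le_finrank_of_surjective h1)
  rw [Module.finrank_pi_fintype, Fintype.card_eq_sum_ones]
  refine Finset.sum_le_sum fun I _ => ?_
  have := I.isMaximal
  exact Module.finrank_pos

theorem Roots_inj {A : Type*} [CommRing A] {k : ℕ} (hk : IsUnit (k : A)) {x y : A}
    (hx : IsUnit x) (h : x ^ k = y ^ k)
    (h' : ∀ I : MaximalSpectrum A, Ideal.Quotient.mk I.asIdeal x = Ideal.Quotient.mk I.asIdeal y) :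
    x = y := by
  have h1 := geom_sum₂_mul x y k
  rw [h, sub_self] at h1
  have h2 : IsUnit (∑ i ∈ Finset.range k, x ^ i * y ^ (k - 1 - i)) := by
    by_contra h2
    obtain ⟨I, hI, h3⟩ := exists_max_ideal_of_mem_nonunits h2
    have h4 := Ideal.Quotient.eq_zero_iff_mem.2 h3
    have h5 := h' ⟨I, hI⟩
    simp only at h5
    simp only [map_sum, map_mul, map_pow, ← h5] at h4
    rw [geom_sum₂_self] at h4
    have h6 := (hk.mul (hx.pow (k - 1))).map (Ideal.Quotient.mk I)
    rw [map_mul, map_natCast, map_pow, h4] at h6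
    exact not_isUnit_zero h6
  exact sub_eq_zero.1 (h2.mul_right_eq_zero.1 h1)

/-- In a finite-dimensional commutative algebra a unit has at most `k^m` `k`-th roots: there are at
most `m` maximal ideals (Chinese remainder), and two roots congruent modulo all of them are equal
(`(ρ - ρ') ∑ ρ^i ρ'^(k-1-i) = 0`, the sum is `≡ k ρ^(k-1)`, a unit). -/
theorem card_roots_le {F A : Type*} [Field F] [CommRing A] [Algebra F A] [Module.Finite F A]
    (m k : ℕ) (hm : Module.finrank F A ≤ m) (hk : (k : F) ≠ 0) (a : A) (ha : IsUnit a)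
    (T : Finset A) (hT : ∀ ρ ∈ T, ρ ^ k = a) : T.card ≤ k ^ m := by
  classical
  have : IsArtinianRing A := IsArtinianRing.of_finite F A
  have := Fintype.ofFinite (MaximalSpectrum A)
  have hk0 : k ≠ 0 := by
    rintro rfl
    exact hk Nat.cast_zero
  have hk1 : IsUnit (k : A) := by
    simpa using hk.isUnit.map (algebraMap F A)
  refine (Finset.card_le_card_of_injOn
    (t := Fintype.piFinset fun I : MaximalSpectrum A =>
      haveI := I.isMaximal
      (nthRoots k (Ideal.Quotient.mk I.asIdeal a)).toFinset)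
    (fun ρ I => Ideal.Quotient.mk I.asIdeal ρ) (fun ρ hρ => ?_) fun x hx y hy h => ?_).trans ?_
  · rw [Finset.mem_coe, Fintype.mem_piFinset]
    intro I
    rw [Multiset.mem_toFinset, mem_nthRoots (Nat.pos_of_ne_zero hk0), ← map_pow, hT ρ hρ]
  · exact Roots_inj hk1 ((isUnit_pow_iff hk0).1 (by rw [hT x hx]; exact ha))
      ((hT x hx).trans (hT y hy).symm) (congrFun h)
  · rw [Fintype.card_piFinset]
    refine (Finset.prod_le_pow_card _ _ k fun I _ =>
      (Multiset.toFinset_card_le _).trans (card_nthRoots _ _)).trans ?_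
    exact Nat.pow_le_pow_right (Nat.pos_of_ne_zero hk0) ((Roots_card_max F A).trans hm)

end Crest.Agent.R22
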