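import Crest.Agent.R22.CDefs

set_option autoImplicit false
open Polynomial

namespace Crest.Agent.R22

/-! Row 22, surface half: definitions. -/

variable {d : ℕ}

/-- sup norm of an integer vector -/
def nrm (v : Fin d → ℤ) : ℕ := Finset.univ.sup fun i => (v i).natAbs

/-- coordinates and conjugates of `w` have order of magnitude `V` -/
def Sized (θ : Fin d → ℂ) (Cs V : ℝ) (w : Fin d → ℤ) : Prop :=
  (∀ i, |(w i : ℝ)| ≤ Cs * V) ∧ ∀ j, V / Cs ≤ ‖cjZ θ w j‖ ∧ ‖cjZ θ w j‖ ≤ Cs * V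

/-- solutions with `|β_j| ≍ B`, `|μ_j| ≍ X / B^k` (no condition on `x`, `y`) -/
structure Pt.Core (R : Roots ℂ d) (k : ℕ) (c0 : ℤ) (C1 Cs η X B : ℝ) (P : Pt d) : Prop where
  n_lo : η * X ≤ P.n
  n_pos : 1 ≤ P.n
  n_le : (P.n : ℝ) ≤ X
  prime : P.p.Prime
  p_gt : C1 * X < P.p
  rel : ∀ j, cjZ R.θ P.m j * cjZ R.θ P.b j ^ k = (c0 : ℂ) * ((P.n : ℂ) - R.θ j)
  nm : ∃ a : ℤ, a ≠ 0 ∧ |(a : ℝ)| ≤ X ∧ ∏ j, cjZ R.θ P.b j = ((a * P.p : ℤ) : ℂ)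
  psq : ((P.p : ℤ)) ^ 2 ∣ R.f.eval P.n
  szb : Sized R.θ Cs B P.b
  szm : Sized R.θ Cs (X / B ^ k) P.m

/-- `(v', v'')` is a basis of a primitive lattice of rank two -/
def Prim (v' v'' : Fin d → ℤ) : Prop :=
  ∃ a a' : Fin d → ℤ, ∑ i, a i * v' i = 1 ∧ ∑ i, a i * v'' i = 0 ∧
    ∑ i, a' i * v' i = 0 ∧ ∑ i, a' i * v'' i = 1

/-- reduced basis -/
def Red (v' v'' : Fin d → ℤ) : Prop :=
  Prim v' v'' ∧ nrm v' ≤ nrm v'' ∧ ∃ i0, (v' i0).natAbs = nrm v' ∧ 2 * (v'' i0).natAbs ≤ nrm v'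

/-- a good lattice basis with sizes `l'`, `l''` (in either order) -/
structure Chart (θ : Fin d → ℂ) (v' v'' : Fin d → ℤ) (l' l'' : ℝ) : Prop where
  good : Good θ v' v''
  prim : Prim v' v''
  one' : 1 ≤ l'
  one'' : 1 ≤ l''
  le' : ∀ i, |(v' i : ℝ)| ≤ l'
  le'' : ∀ i, |(v'' i : ℝ)| ≤ l''
  big : ∃ a b, l' * l'' ≤ 8 * |((v' a * v'' b - v' b * v'' a : ℤ) : ℝ)|

/-- the point lies in the chart where `x v'` dominates -/
def InChart (l' l'' V : ℝ) (P : Pt d) : Prop :=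
  P.x ≠ 0 ∧ |(P.y : ℝ)| * l'' ≤ |(P.x : ℝ)| * l' ∧ |(P.x : ℝ)| * l' ≤ V

/-- normalised slopes differ by at most `ϱ` -/
def Close (l' l'' ϱ : ℝ) (Z : Finset (Pt d)) : Prop :=
  ∀ P ∈ Z, ∀ P' ∈ Z, |((P.t : ℝ) - (P'.t : ℝ))| * l'' ≤ ϱ * l'

/-- monomials of degree `D` in `d` variables -/
abbrev Mon (d D : ℕ) : Type := ↥((Finset.univ : Finset (Fin d)).finsuppAntidiag D)

/-- monomials of bidegree `(D, E)` -/
abbrev Idx (d D E : ℕ) : Type := Mon d D × Fin (E + 1)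

/-- value of a monomial `w^s x^(E-i) y^i` -/
def monVal {S : Type*} [CommRing S] {D E : ℕ} (w : Fin d → S) (x y : S) (I : Idx d D E) : S :=
  (∏ i, w i ^ (I.1.1 i)) * x ^ (E - (I.2 : ℕ)) * y ^ (I.2 : ℕ)

/-- rank of the monomials `μ^s x^(k-1-i) y^i` on the surface of scheme B -/
def rhoB (d k D : ℕ) : ℕ := ∑ i ∈ Finset.range (D + 1), (k + k * (d - 2) * i)

/-- rank of the coefficients of `s^0, …, s^i` -/
def capB (d k D i : ℕ) : ℕ := ∑ l ∈ Finset.range (i + 1), (k + k * (d - 1) * D - k * d * l)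

/-- admissible families of Taylor monomials `τ^a s^l` -/
def AdmB (d k D : ℕ) {ρ : ℕ} (f : Fin ρ → ℕ × ℕ) : Prop :=
  Function.Injective f ∧
    ∀ i ≤ D, (Finset.univ.filter fun a => (f a).2 ≤ i).card ≤ capB d k D i

/-- lower bound for the rank of the monomials `β^s x^(E-i) y^i`, `|s| = k E`, in scheme C -/
def rhoC (d k E : ℕ) : ℕ := k ^ (d - 1) * ∑ i ∈ Finset.range (E - d + 1), (E + 1 + (d - 2) * i)

/-- mean level of the admissible families -/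
noncomputable def w0 (d : ℕ) : ℝ := ((d : ℝ) - 2) * (d + 1) / (3 * d ^ 2)

/-- height gain -/
noncomputable def gB (d : ℕ) : ℝ := if d = 4 then 1 / 3 else 0

/-- `ℓ¹` norm of the coefficients of a bivariate polynomial -/
noncomputable def l1 (G : ℂ[X][X]) : ℝ :=
  ∑ i ∈ G.support, ∑ j ∈ (G.coeff i).support, ‖(G.coeff i).coeff j‖

/-- weight of a family of monomials `τ^a s^l` -/
noncomputable def wt {ρ : ℕ} (r : ℝ) (f : Fin ρ → ℕ × ℕ) : ℝ :=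
  ∑ a, (r * ((f a).1 : ℝ) + ((f a).2 : ℝ))

end Crest.Agent.R22
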