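import Crest.Agent.R22.SSetup

set_option autoImplicit false
open Polynomial

namespace Crest.Agent.R22

variable {d : ℕ}

/-- proportional `β`: one prime, at most `d` values of `n` -/
theorem fibB (R : Roots ℂ d) (hd : 2 ≤ d) {k : ℕ} {c0 : ℤ} {C1 Cs η X B : ℝ} (hC1 : 1 ≤ C1)
    (hC : 1 ≤ Cs) (hCX : Cs ≤ X) (hB : 1 ≤ B) (hBX : B ≤ X) (Z : Finset (Pt d))
    (hZ : ∀ P ∈ Z, P.Core R k c0 C1 Cs η X B)
    (h : ∀ P ∈ Z, ∀ P' ∈ Z, ∀ i j, P.b i * P'.b j = P.b j * P'.b i) : nN Z ≤ d := by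
  sorry

/-- Proportional `μ`: boundedly many values of `n`.  Put `r_i = β_i / β_0`; `r_i^k = (μ_0/μ_i)(n-θ_i)/(n-θ_0)`, and `μ_0/μ_i`
is the same for all points.  Split into boundedly many classes: `r_i` in a square of small fixed side, `n` in an interval of
length `c X`.  In a class `|r_i^k - r'_i^k| ≤ C |n - n'| / X^2`, hence `|r_i - r'_i| ≤ C c / X`, all
`|β_i β'_j - β_j β'_i| ≤ C c B^2 / X ≤ C c` (`B^k ≤ Cs X` since `μ ≠ 0`), so the integer minors of `(b, b')` vanish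
(`DualBasis.sum_cj`) and `fibB` applies. -/
theorem fibC (R : Roots ℂ d) (hd : 2 ≤ d) (k : ℕ) (hk : 2 ≤ k) (c0 : ℤ) (hc0 : c0 ≠ 0) (Cs η : ℝ)
    (hC : 1 ≤ Cs) (hη : 0 < η) : ∃ Φ X0 : ℝ, 1 ≤ Φ ∧ ∀ (C1 X B : ℝ) (Z : Finset (Pt d)), 1 ≤ C1 →
    X0 ≤ X → 1 ≤ B → (∀ P ∈ Z, P.Core R k c0 C1 Cs η X B) →
    (∀ P ∈ Z, ∀ P' ∈ Z, ∀ i j, P.m i * P'.m j = P.m j * P'.m i) → (nN Z : ℝ) ≤ Φ := by
  sorry

/-- points of a lattice with the same slope are proportional -/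
theorem prop_of_t_eq {v' v'' w w' : Fin d → ℤ} {P P' : Pt d} (hx : P.x ≠ 0) (hx' : P'.x ≠ 0)
    (h : ∀ i, w i = P.x * v' i + P.y * v'' i) (h' : ∀ i, w' i = P'.x * v' i + P'.y * v'' i)
    (ht : P.t = P'.t) (i j : Fin d) : w i * w' j = w j * w' i := by
  sorry

theorem Pt.Core.pow_le {R : Roots ℂ d} (hd : 2 ≤ d) {k : ℕ} {c0 : ℤ} (hc0 : c0 ≠ 0)
    {C1 Cs η X B : ℝ} {P : Pt d} (h : P.Core R k c0 C1 Cs η X B) (hB : 0 < B) :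
    P.m ≠ 0 ∧ P.b ≠ 0 ∧ B ^ k ≤ Cs * X := by
  sorry

end Crest.Agent.R22
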