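import Crest.Agent.R22.SSlice
import Crest.Agent.R22.CPts

set_option autoImplicit false
open Polynomial

namespace Crest.Agent.R22

variable {d : ℕ}

/-- number of reduced bases of given size: `v'`, the index `i0`, `v'' i0`, the other coordinates -/
theorem card_red (d : ℕ) : ∃ C : ℝ, 0 < C ∧ ∀ (L1 L2 : ℕ) (T : Finset ((Fin d → ℤ) × (Fin d → ℤ))),
    1 ≤ L1 → 1 ≤ L2 → (∀ z ∈ T, Red z.1 z.2 ∧ nrm z.1 ≤ 2 * L1 ∧ nrm z.2 ≤ 2 * L2) →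
    (T.card : ℝ) ≤ C * (L1 : ℝ) ^ (d + 1) * (L2 : ℝ) ^ (d - 1) := by
  sorry

/-- The rational solutions `w` of `v_i w_j = v_j w_i` (conjugates, `i ≠ j`, `v ≠ 0`) form `v · K'`, where `K'` is the
subfield of `K = ℚ[T]/(f)` on which the two embeddings agree; it is proper, so its degree is a proper divisor of `d`. -/
theorem finrank_bad (R : Roots ℂ d) (v : Fin d → ℤ) (hv : v ≠ 0) (i j : Fin d) (hij : i ≠ j)
    (H : Submodule ℚ (Fin d → ℚ))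
    (hH : ∀ w ∈ H, cjZ R.θ v i * cj R.θ (fun l => (w l : ℂ)) j =
      cjZ R.θ v j * cj R.θ (fun l => (w l : ℂ)) i) :
    Module.finrank ℚ H ≤ d / d.minFac := by
  sorry

/-- integer points of a subspace of dimension `≤ e` on which the coordinate `i0` does not vanish are determined
by `i0` and `e - 1` further coordinates -/
theorem card_subspace (e : ℕ) (H : Submodule ℚ (Fin d → ℚ)) (hH : Module.finrank ℚ H ≤ e) (i0 : Fin d)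
    (h0 : ∃ w ∈ H, w i0 ≠ 0) (L1 L2 : ℕ) (T : Finset (Fin d → ℤ))
    (hT : ∀ w ∈ T, (fun l => (w l : ℚ)) ∈ H ∧ (w i0).natAbs ≤ L1 ∧ nrm w ≤ L2) :
    T.card ≤ (2 * L1 + 1) * (2 * L2 + 1) ^ (e - 1) := by
  sorry

/-- bad reduced bases -/
theorem card_bad (R : Roots ℂ d) : ∃ C : ℝ, 0 < C ∧
    ∀ (L1 L2 : ℕ) (T : Finset ((Fin d → ℤ) × (Fin d → ℤ))), 1 ≤ L1 → 1 ≤ L2 →
    (∀ z ∈ T, Red z.1 z.2 ∧ ¬ Good R.θ z.1 z.2 ∧ nrm z.1 ≤ 2 * L1 ∧ nrm z.2 ≤ 2 * L2) →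
    (T.card : ℝ) ≤ C * (L1 : ℝ) ^ (d + 1) * (L2 : ℝ) ^ (d / d.minFac - 1) := by
  sorry

/-- for `d = 4` the plane is determined by `v'` and the pair `(i, j)`; two reduced second vectors differ by a sign and a
multiple of `v'` (use `Prim`), which leaves at most four possibilities for each `i0` -/
theorem card_bad4 (R : Roots ℂ 4) : ∃ C : ℝ, 0 < C ∧
    ∀ (L1 : ℕ) (T : Finset ((Fin 4 → ℤ) × (Fin 4 → ℤ))), 1 ≤ L1 →
    (∀ z ∈ T, Red z.1 z.2 ∧ ¬ Good R.θ z.1 z.2 ∧ nrm z.1 ≤ 2 * L1) →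
    (T.card : ℝ) ≤ C * (L1 : ℝ) ^ 4 := by
  sorry

/-- vectors of norm `≤ V` on bad lattices of a dyadic class: (number of bases) `× (8 V / L1 + 1)(8 V / L2 + 1)` -/
theorem card_bad_vec (R : Roots ℂ d) (hd : 4 ≤ d) (hd8 : d ≤ 8) : ∃ C : ℝ, 0 < C ∧
    ∀ (V : ℝ) (L1 L2 : ℕ) (T : Finset (Fin d → ℤ)), 1 ≤ V → 1 ≤ L1 → L1 ≤ L2 →
    (L1 : ℝ) * L2 ≤ 8 * V ^ (((d : ℝ) - 2) / (d - 1)) →
    (∀ v ∈ T, (nrm v : ℝ) ≤ V ∧ ∃ (v' v'' : Fin d → ℤ) (x y : ℤ), Red v' v'' ∧ ¬ Good R.θ v' v'' ∧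
      L1 ≤ nrm v' ∧ nrm v' ≤ 2 * L1 ∧ L2 ≤ nrm v'' ∧ nrm v'' ≤ 2 * L2 ∧
      ∀ i, v i = x * v' i + y * v'' i) →
    (T.card : ℝ) ≤ C * V ^ ((d : ℝ) * (d - 2) / (d - 1)) := by
  sorry

end Crest.Agent.R22
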