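import Crest.Agent.R22.SLatCount

set_option autoImplicit false
open Polynomial

namespace Crest.Agent.R22

variable {d : ℕ}

/-- Summation over lattices.  Each point gets a reduced basis (`slice`), dyadic sizes `L1 = 2^i ≤ nrm v' < 2 L1`,
`L2 = 2^j ≤ nrm v'' < 2 L2`, and a chart (swap `x, y` and `v', v''` if `|x| L1 < |y| L2`).  Bad lattices:
`card_bad_vec` and `hΦ`.  Good lattices: `card_red` and `hK`. -/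
theorem count_by_lattices (R : Roots ℂ d) (hd : 4 ≤ d) (hd8 : d ≤ 8) : ∃ C : ℝ, 0 < C ∧
    ∀ (V Φ T : ℝ) (Z : Finset (Pt d)) (v : Pt d → Fin d → ℤ), 2 ≤ V → 0 ≤ T →
    (∀ P ∈ Z, v P ≠ 0 ∧ (nrm (v P) : ℝ) ≤ V) →
    (∀ Z' ⊆ Z, (∀ P ∈ Z', ∀ P' ∈ Z', v P = v P') → (nN Z' : ℝ) ≤ Φ) →
    (∀ (L1 L2 : ℕ) (v' v'' : Fin d → ℤ) (l' l'' : ℝ) (Z' : Finset (Pt d)), 1 ≤ L1 → L1 ≤ L2 →
      (L1 : ℝ) * L2 ≤ 8 * V ^ (((d : ℝ) - 2) / (d - 1)) →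
      (l' = 2 * L1 ∧ l'' = 2 * L2 ∨ l' = 2 * L2 ∧ l'' = 2 * L1) → Chart R.θ v' v'' l' l'' →
      (∀ P' ∈ Z', InChart l' l'' (8 * V) P' ∧ ∃ P ∈ Z, P' = { P with x := P'.x, y := P'.y } ∧
        ∀ i, v P i = P'.x * v' i + P'.y * v'' i) →
      (L1 : ℝ) ^ (d + 1) * (L2 : ℝ) ^ (d - 1) * nN Z' ≤ T) →
    (nN Z : ℝ) ≤ C * Real.log V ^ 2 * (T + Φ * V ^ ((d : ℝ) * (d - 2) / (d - 1))) := by
  sorry

/-- a chart is covered by `2 / ϱ + 1` short intervals -/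
theorem count_by_intervals (l' l'' V ϱ K : ℝ) (h' : 0 < l') (h'' : 0 < l'') (hϱ : 0 < ϱ) (hϱ1 : ϱ ≤ 1)
    (Z : Finset (Pt d)) (hZ : ∀ P ∈ Z, InChart l' l'' V P)
    (h : ∀ Z' ⊆ Z, Close l' l'' ϱ Z' → (nN Z' : ℝ) ≤ K) : (nN Z : ℝ) ≤ 3 / ϱ * K := by
  sorry

end Crest.Agent.R22
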