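import Crest.Agent.R22.SDefs
import Crest.Agent.R22.CPts

set_option autoImplicit false
open Polynomial

namespace Crest.Agent.R22

variable {d : ℕ}

/-- products in `ℤ[θ]` (reduce modulo the monic `f`) -/
theorem Roots.exists_mul {F : Type} [Field F] [CharZero F] (R : Roots F d) (w w' : Fin d → ℤ) :
    ∃ z : Fin d → ℤ, ∀ j, cjZ R.θ z j = cjZ R.θ w j * cjZ R.θ w' j := by
  sorry

/-- any integer polynomial in `θ` has coordinates -/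
theorem Roots.exists_coord {F : Type} [Field F] [CharZero F] (R : Roots F d) (h : ℤ[X]) :
    ∃ z : Fin d → ℤ, ∀ j, cjZ R.θ z j = aeval (R.θ j) h := by
  sorry

/-- Pigeonhole: a small nonzero vector with `∑ b_i n^i ≡ 0 (mod p)`. -/
theorem exists_small_vec (hd : 1 ≤ d) (p : ℕ) (hp : 1 ≤ p) (n : ℤ) :
    ∃ b : Fin d → ℤ, b ≠ 0 ∧ (∀ i, |(b i : ℝ)| ≤ (p : ℝ) ^ ((1 : ℝ) / d)) ∧
      (p : ℤ) ∣ ∑ i, b i * n ^ (i : ℕ) := by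
  sorry

/-- `β* · 𝔭 ⊆ p ℤ[θ]`.  Let `p ∣ f(n)`, `p ∣ b(n)`.  Then `N β = ∏ cj b = p a` for an integer `a`, and for every
`h ∈ ℤ[X]` with `p ∣ h(n)` there is `z` with `cj z · cj b = a · h(θ)`.  (Matrix `M` of multiplication by `β` on the
basis `1, θ - n, θ (θ - n), …` or, in the power basis, the row `e = (1, n, …, n^(d-1))` satisfies `e M ≡ 0 (mod p)`; with a
unimodular `P` whose first row is `e`, `P M = diag(p,1,…,1) M''`, `a = det M''`, and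
`adj M'' · diag(1/p,1,…,1) P v` is integral when `p ∣ e · v`.) -/
theorem Roots.exists_div {F : Type} [Field F] [CharZero F] (R : Roots F d) (hd : 1 ≤ d) (p : ℕ)
    (hp : p ≠ 0) (n : ℤ) (hn : (p : ℤ) ∣ R.f.eval n) (b : Fin d → ℤ)
    (hb : (p : ℤ) ∣ ∑ i, b i * n ^ (i : ℕ)) :
    ∃ a : ℤ, ∏ j, cjZ R.θ b j = ((a * p : ℤ) : F) ∧ ∀ h : ℤ[X], (p : ℤ) ∣ h.eval n →
      ∃ z : Fin d → ℤ, ∀ j, cjZ R.θ z j * cjZ R.θ b j = (a : F) * aeval (R.θ j) h := by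
  sorry

/-- `n - θ ∈ 𝔭^k` when `p^k ∣ f(n)`, `p ∤ f'(n)`: with `f(T) - f(n) = (T - n) h(T)`, `h(n) = f'(n)`, choose `u` with
`u h(n) ≡ 1 (mod p)`; `1 - (1 - u h)^k = h g`, so `(n - θ) = (n-θ)(1 - u h(θ))^k + g(θ) f(n)`. Each of the `k` factors
`1 - u h` (resp. `p`) lies in `𝔭`; apply `exists_div` to each. -/
theorem Roots.exists_mu {F : Type} [Field F] [CharZero F] (R : Roots F d) (hd : 1 ≤ d) (p k : ℕ)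
    (hp : p.Prime) (hk : 1 ≤ k) (n : ℤ) (hn : (p : ℤ) ^ k ∣ R.f.eval n)
    (hn' : ¬ (p : ℤ) ∣ (derivative R.f).eval n) (b : Fin d → ℤ)
    (hb : (p : ℤ) ∣ ∑ i, b i * n ^ (i : ℕ)) :
    ∃ (a : ℤ) (m : Fin d → ℤ), ∏ j, cjZ R.θ b j = ((a * p : ℤ) : F) ∧
      ∀ j, cjZ R.θ m j * cjZ R.θ b j ^ k = ((a ^ k : ℤ) : F) * ((n : F) - R.θ j) := by
  sorry

/-- The parametrisation.  `|a| ≤ Ca` because `|N β| ≤ C p`; lower bounds for `|β_j|` from `|N β| ≥ p`. -/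
theorem setup (R : Roots ℂ d) (k : ℕ) (hk : 2 ≤ k) (hd : 2 ≤ d) (η : ℝ) (hη : 0 < η) :
    ∃ (Ca : ℕ) (Cs X0 : ℝ), 1 ≤ Cs ∧ ∀ (C1 X B : ℝ) (n : ℤ) (p : ℕ), 1 ≤ C1 → X0 ≤ X → η * X ≤ n →
      (n : ℝ) ≤ X → p.Prime → C1 * X < p → (p : ℤ) ^ k ∣ R.f.eval n →
      B ≤ (p : ℝ) ^ ((1 : ℝ) / d) → (p : ℝ) ^ ((1 : ℝ) / d) ≤ 2 * B →
      ∃ (a : ℤ) (P : Pt d), a ≠ 0 ∧ a.natAbs ≤ Ca ∧ P.n = n ∧ P.Core R k (a ^ k) C1 Cs η X B := by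
  sorry

theorem Pt.Core.ok {R : Roots ℂ d} {k : ℕ} {c0 : ℤ} {C1 Cs η X B : ℝ} {P : Pt d}
    (h : P.Core R k c0 C1 Cs η X B) (hC : 1 ≤ Cs) (hCX : Cs ≤ X) (hB : 1 ≤ B) (hBX : B ≤ X)
    (hx : P.x ≠ 0) (h1 : |(P.x : ℝ)| ≤ X ^ 2) (h2 : |(P.y : ℝ)| ≤ X ^ 2) : P.Ok R k c0 C1 X 2 := by
  sorry

end Crest.Agent.R22
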