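import Crest.Agent.R22.CDefs
import Crest.Prelude.Def_PowerFree

set_option autoImplicit false
open Polynomial Crest.NumberTheoryR Filter Topology

namespace Crest.Agent.R22

/-- Uniform bound for the number of roots modulo `p^k`.  Take `u f + v f' = Δ ≠ 0` in `ℤ[X]`.  For `p ∤ Δ`
two roots modulo `p^k` that agree modulo `p` agree modulo `p^k`, and `f mod p ≠ 0` has at most `deg f`
roots; for `p ∣ Δ` use `p^k ≤ |Δ|^k`. -/
theorem rho_le (f : ℤ[X]) (hirr : Irreducible (f.map (Int.castRingHom ℚ))) (k : ℕ) :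
    ∃ C : ℕ, ∀ p : ℕ, p.Prime → polyRootCountMod f (p ^ k) ≤ C := by
  sorry

/-- convergence of the Euler product -/
theorem euler (ρ : ℕ → ℕ) (k C : ℕ) (hk : 2 ≤ k) (hC : ∀ p : ℕ, p.Prime → ρ p ≤ C)
    (hlt : ∀ p : ℕ, p.Prime → ρ p < p ^ k) :
    ∃ c : ℝ, 0 < c ∧ HasProd (fun p : Nat.Primes => 1 - (ρ p : ℝ) / ((p : ℕ) : ℝ) ^ k) c ∧
      Tendsto (fun z : ℕ => ∏ p ∈ (Finset.range z).filter Nat.Prime, (1 - (ρ p : ℝ) / (p : ℝ) ^ k))
        atTop (𝓝 c) := by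
  sorry

/-- number of `n ≤ X` in the root classes modulo `q` -/
theorem count_dvd_le (f : ℤ[X]) (q X : ℕ) (hq : 0 < q) :
    (((Finset.Icc 1 X).filter fun n : ℕ => (q : ℤ) ∣ f.eval (n : ℤ)).card : ℝ) ≤
      polyRootCountMod f q * ((X : ℝ) / q + 1) := by
  sorry

end Crest.Agent.R22
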