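import Crest.Agent.R22.SSieveA

set_option autoImplicit false
open Polynomial Crest.NumberTheoryR Filter Topology

namespace Crest.Agent.R22

/-- Chinese remainder theorem: the number of residues `a` modulo `Q = ∏ p^k` with `p^k ∤ f(a)` for all
`p ∈ S` is `∏ (p^k - ρ(p^k))` (induction on `S`, `Nat.chineseRemainder` / `ZMod.chineseRemainder`), and the
condition is `Q`-periodic in `n`. -/
theorem density_finite (f : ℤ[X]) (k : ℕ) (S : Finset ℕ) (hS : ∀ p ∈ S, p.Prime) :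
    Tendsto (fun X : ℕ => (((Finset.Icc 1 X).filter fun n : ℕ =>
        ∀ p ∈ S, ¬ ((p : ℤ) ^ k ∣ f.eval (n : ℤ))).card : ℝ) / X) atTop
      (𝓝 (∏ p ∈ S, (1 - (polyRootCountMod f (p ^ k) : ℝ) / (p : ℝ) ^ k))) := by
  sorry

open Classical in
/-- medium primes `z ≤ p ≤ C1 X`: `∑ C (X / p^k + 1) ≤ C X ∑_{p ≥ z} p^(-2) + C π(C1 X)`
(`Chebyshev.eventually_primeCounting_le`) -/
theorem medium_primes (f : ℤ[X]) (hirr : Irreducible (f.map (Int.castRingHom ℚ))) (k : ℕ)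
    (hk : 2 ≤ k) (C1 : ℝ) (ε : ℝ) (hε : 0 < ε) : ∃ z0 : ℕ, ∀ z ≥ z0, ∀ᶠ X : ℕ in atTop,
    (((Finset.Icc 1 X).filter fun n : ℕ => ∃ p : ℕ, p.Prime ∧ z ≤ p ∧ (p : ℝ) ≤ C1 * X ∧
      (p : ℤ) ^ k ∣ f.eval (n : ℤ)).card : ℝ) ≤ ε * X := by
  sorry

open Classical in
/-- The statement follows from the estimate for large primes. -/
theorem sieve (f : ℤ[X]) (k : ℕ) (hirr : Irreducible (f.map (Int.castRingHom ℚ))) (hk : 2 ≤ k)
    (hloc : ∀ p : ℕ, p.Prime → polyRootCountMod f (p ^ k) < p ^ k) (C1 : ℝ)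
    (hbig : ∀ ε : ℝ, 0 < ε → ∀ᶠ X : ℕ in atTop,
      (((Finset.Icc 1 X).filter fun n : ℕ => ∃ p : ℕ, p.Prime ∧ C1 * X < p ∧
        (p : ℤ) ^ k ∣ f.eval (n : ℤ)).card : ℝ) ≤ ε * X) :
    ∃ c : ℝ, 0 < c ∧
      HasProd (fun p : Nat.Primes => 1 - (polyRootCountMod f ((p : ℕ) ^ k) : ℝ) / ((p : ℕ) : ℝ) ^ k) c ∧
      Tendsto (fun N : ℕ => (powerFreeValueCount f k N : ℝ) / (N : ℝ)) atTop (𝓝 c) := by
  sorry

end Crest.Agent.R22
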