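import Crest.Agent.R22.SDefs

set_option autoImplicit false
open Polynomial

namespace Crest.Agent.R22

variable {d : ℕ}

theorem le_nrm (v : Fin d → ℤ) (i : Fin d) : (v i).natAbs ≤ nrm v := by
  sorry

theorem Red.one_le {v' v'' : Fin d → ℤ} (h : Red v' v'') : 1 ≤ nrm v' := by
  sorry

/-- the minor at `i0` and a coordinate where `v''` is largest -/
theorem Red.minor {v' v'' : Fin d → ℤ} (h : Red v' v'') :
    ∃ a b, nrm v' * nrm v'' ≤ 2 * (v' a * v'' b - v' b * v'' a).natAbs := by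
  sorry

theorem Red.coord {v' v'' v : Fin d → ℤ} (h : Red v' v'') {x y : ℤ}
    (hv : ∀ i, v i = x * v' i + y * v'' i) :
    x.natAbs * nrm v' ≤ 4 * nrm v ∧ y.natAbs * nrm v'' ≤ 4 * nrm v := by
  sorry

/-- Reduction: among all bases obtained by `GL_2(ℤ)` take one whose first vector has least norm, then
reduce the second vector modulo the first at a largest coordinate. -/
theorem Prim.exists_red {u' u'' : Fin d → ℤ} (h : Prim u' u'') :
    ∃ (v' v'' : Fin d → ℤ) (a b c e : ℤ), Red v' v'' ∧ (a * e - b * c = 1 ∨ a * e - b * c = -1) ∧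
      (∀ i, u' i = a * v' i + b * v'' i) ∧ ∀ i, u'' i = c * v' i + e * v'' i := by
  sorry

/-- saturation of the lattice spanned by two independent vectors (Smith normal form
`Submodule.exists_smith_normal_form` / `Module.Basis.SmithNormalForm`, or by hand) -/
theorem exists_prim (v w : Fin d → ℤ) (h : ∃ i j, v i * w j ≠ v j * w i) :
    ∃ (u' u'' : Fin d → ℤ) (a b c e : ℤ), Prim u' u'' ∧
      (∀ i, v i = a * u' i + b * u'' i) ∧ ∀ i, w i = c * u' i + e * u'' i := by
  sorry

/-- Simultaneous Dirichlet approximation: a vector `w` not proportional to `v` with small minors.  Divide `v` by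
its content; with `V = |v i0|` maximal and `N^(d-1) < V ≤ (N+1)^(d-1)` the pigeonhole principle gives
`1 ≤ m ≤ N^(d-1)` with all `m v_i / v_{i0}` within `1/N` of integers (`V = 1`: take a unit vector). -/
theorem exists_near (hd : 2 ≤ d) (v : Fin d → ℤ) (hv : v ≠ 0) :
    ∃ w : Fin d → ℤ, (∃ i j, v i * w j ≠ v j * w i) ∧ ∃ (c : ℤ) (v0 : Fin d → ℤ), c ≠ 0 ∧
      (∀ i, v i = c * v0 i) ∧ ∀ i j, |((v0 i * w j - v0 j * w i : ℤ) : ℝ)| ≤
        4 * (nrm v : ℝ) ^ (((d : ℝ) - 2) / (d - 1)) := by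
  sorry

/-- every nonzero vector lies in a primitive plane lattice of small determinant -/
theorem slice (hd : 2 ≤ d) (v : Fin d → ℤ) (hv : v ≠ 0) :
    ∃ (v' v'' : Fin d → ℤ) (x y : ℤ), Red v' v'' ∧ (∀ i, v i = x * v' i + y * v'' i) ∧
      (nrm v' : ℝ) * nrm v'' ≤ 8 * (nrm v : ℝ) ^ (((d : ℝ) - 2) / (d - 1)) := by
  sorry

end Crest.Agent.R22
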