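import Crest.Prelude.Def_PowerFree

set_option autoImplicit false
open Polynomial IntermediateField

namespace Crest.Agent.R22

variable {d : ℕ}

open Crest.NumberTheoryR Filter Topology

/-- Bezout identity between `f` and `f'` over `ℤ`. -/
theorem sieveA_bezout (f : ℤ[X]) (hirr : Irreducible (f.map (Int.castRingHom ℚ))) :
    ∃ (R : ℤ) (A B : ℤ[X]), R ≠ 0 ∧ A * f + B * derivative f = C R := by
  obtain ⟨a, b, hab⟩ := hirr.separable
  obtain ⟨r, hr, ha⟩ := IsLocalization.integerNormalization_spec (nonZeroDivisors ℤ) a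
  obtain ⟨s, hs, hb⟩ := IsLocalization.integerNormalization_spec (nonZeroDivisors ℤ) b
  refine ⟨r * s, C s * IsLocalization.integerNormalization (nonZeroDivisors ℤ) a,
    C r * IsLocalization.integerNormalization (nonZeroDivisors ℤ) b,
    mul_ne_zero (nonZeroDivisors.ne_zero hr) (nonZeroDivisors.ne_zero hs), ?_⟩
  apply Polynomial.map_injective (algebraMap ℤ ℚ) (algebraMap ℤ ℚ).injective_int
  have e : algebraMap ℤ ℚ = Int.castRingHom ℚ := rfl
  simp only [Polynomial.map_add, Polynomial.map_mul, ha, hb, Polynomial.map_C,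
    ← derivative_map, map_mul]
  rw [e] at *
  simp only [Algebra.smul_def, algebraMap_int_eq, eq_intCast, map_intCast]
  linear_combination ((r : ℚ[X]) * (s : ℚ[X])) * hab

/-- For `p ∤ lead(f) · Res(f, f')` two roots modulo `p^k` that agree modulo `p` are equal, and `f mod p`
has at most `deg f` roots. -/
theorem rho_le (f : ℤ[X]) (hirr : Irreducible (f.map (Int.castRingHom ℚ))) : ∃ p0 : ℕ,
    ∀ p k : ℕ, p.Prime → p0 ≤ p → 1 ≤ k → polyRootCountMod f (p ^ k) ≤ f.natDegree := by
  classical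
  obtain ⟨R, A, B, hR, hAB⟩ := sieveA_bezout f hirr
  refine ⟨R.natAbs + 1, fun p k hp hp0 hk => ?_⟩
  haveI : Fact p.Prime := ⟨hp⟩
  have hpR : ¬ (p : ℤ) ∣ R := fun h => by
    have := Nat.le_of_dvd (Int.natAbs_pos.2 hR) (Int.natCast_dvd.1 h)
    omega
  have hpi : Prime (p : ℤ) := Nat.prime_iff_prime_int.1 hp
  have hne : f.map (Int.castRingHom (ZMod p)) ≠ 0 := by
    intro h0
    have h1 := congrArg (Polynomial.map (Int.castRingHom (ZMod p))) hAB
    simp only [Polynomial.map_add, Polynomial.map_mul, ← derivative_map, h0, Polynomial.map_C,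
      derivative_zero, mul_zero, add_zero] at h1
    have h2 : ((R : ℤ) : ZMod p) = 0 := by
      have := C_eq_zero.1 h1.symm
      simpa using this
    exact hpR ((ZMod.intCast_zmod_eq_zero_iff_dvd R p).1 h2)
  have hpk : (p : ℤ) ∣ ((p ^ k : ℕ) : ℤ) := by
    push_cast
    exact dvd_pow_self _ (by omega)
  unfold polyRootCountMod
  calc ((Finset.range (p ^ k)).filter fun a : ℕ => ((p ^ k : ℕ) : ℤ) ∣ f.eval (a : ℤ)).card
      ≤ (f.map (Int.castRingHom (ZMod p))).roots.toFinset.card := by
        refine Finset.card_le_card_of_injOn (fun a : ℕ => (a : ZMod p)) ?_ ?_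
        · intro a ha
          have ha' := (Finset.mem_filter.1 (Finset.mem_coe.1 ha)).2
          rw [Finset.mem_coe, Multiset.mem_toFinset, mem_roots hne, IsRoot.def]
          have e : ((a : ℕ) : ZMod p) = Int.castRingHom (ZMod p) (a : ℤ) := by simp
          show eval ((a : ℕ) : ZMod p) _ = 0
          rw [e, eval_map, eval₂_hom]
          exact (ZMod.intCast_zmod_eq_zero_iff_dvd _ p).2 (hpk.trans ha')
        · intro a ha b hb hab
          obtain ⟨ha1, ha2⟩ := Finset.mem_filter.1 (Finset.mem_coe.1 ha)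
          obtain ⟨hb1, hb2⟩ := Finset.mem_filter.1 (Finset.mem_coe.1 hb)
          have hab' : (p : ℤ) ∣ (b : ℤ) - a :=
            (Nat.modEq_iff_dvd.1 ((ZMod.natCast_eq_natCast_iff a b p).1 hab))
          obtain ⟨K, hK⟩ := binomExpansion f (a : ℤ) ((b : ℤ) - a)
          rw [add_sub_cancel] at hK
          have hd : ¬ (p : ℤ) ∣ (derivative f).eval (a : ℤ) := fun h => by
            apply hpR
            have h1 := congrArg (Polynomial.eval (a : ℤ)) hAB
            simp only [eval_add, eval_mul, eval_C] at h1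
            rw [← h1]
            exact dvd_add ((hpk.trans ha2).mul_left _) (h.mul_left _)
          have hd2 : ¬ (p : ℤ) ∣ (derivative f).eval (a : ℤ) + K * ((b : ℤ) - a) := fun h =>
            hd ((dvd_add_left (hab'.mul_left K)).1 h)
          have h3 : ((p : ℤ)) ^ k ∣
              ((derivative f).eval (a : ℤ) + K * ((b : ℤ) - a)) * ((b : ℤ) - a) := by
            have h4 := dvd_sub hb2 ha2
            have h7 : f.eval (b : ℤ) - f.eval (a : ℤ) =
                ((derivative f).eval (a : ℤ) + K * ((b : ℤ) - a)) * ((b : ℤ) - a) := by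
              linear_combination hK
            rw [h7, Nat.cast_pow] at h4
            exact h4
          have h5 : ((p : ℤ)) ^ k ∣ (b : ℤ) - a :=
            (((hpi.coprime_iff_not_dvd).2 hd2).pow_left).dvd_of_dvd_mul_left h3
          have h6 : a ≡ b [MOD p ^ k] := Nat.modEq_iff_dvd.2 (by push_cast; exact h5)
          exact Nat.ModEq.eq_of_lt_of_lt h6 (Finset.mem_range.1 ha1) (Finset.mem_range.1 hb1)
    _ ≤ Multiset.card (f.map (Int.castRingHom (ZMod p))).roots := Multiset.toFinset_card_le _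
    _ ≤ (f.map (Int.castRingHom (ZMod p))).natDegree := card_roots' _
    _ ≤ f.natDegree := natDegree_map_le

/-- Convergence of the Euler product (factors in `(0, 1]`, `∑ ρ(p^k)/p^k < ∞`). -/
theorem euler_prod (f : ℤ[X]) (k : ℕ) (hk : 2 ≤ k)
    (hirr : Irreducible (f.map (Int.castRingHom ℚ)))
    (hloc : ∀ p : ℕ, p.Prime → polyRootCountMod f (p ^ k) < p ^ k) : ∃ c : ℝ, 0 < c ∧
      HasProd (fun p : Nat.Primes =>
        1 - (polyRootCountMod f ((p : ℕ) ^ k) : ℝ) / ((p : ℕ) : ℝ) ^ k) c ∧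
      Tendsto (fun ξ : ℕ => ∏ p ∈ ξ.primesBelow,
        (1 - (polyRootCountMod f (p ^ k) : ℝ) / (p : ℝ) ^ k)) atTop (𝓝 c) := by
  obtain ⟨p0, hp0⟩ := rho_le f hirr
  set F : ℕ → ℝ := fun p => 1 - (polyRootCountMod f (p ^ k) : ℝ) / (p : ℝ) ^ k with hF
  have hsum : Summable fun p : Nat.Primes =>
      -((polyRootCountMod f ((p : ℕ) ^ k) : ℝ) / ((p : ℕ) : ℝ) ^ k) := by
    have h1 : Summable fun n : ℕ => (f.natDegree : ℝ) * (1 / (n : ℝ) ^ 2) :=
      (Real.summable_one_div_nat_pow.2 one_lt_two).mul_left _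
    have h2 : Summable fun p : Nat.Primes => (f.natDegree : ℝ) * (1 / ((p : ℕ) : ℝ) ^ 2) :=
      h1.comp_injective Subtype.val_injective
    refine Summable.of_norm_bounded_eventually h2 ?_
    have hfin : {p : Nat.Primes | (p : ℕ) < p0}.Finite :=
      (Set.finite_lt_nat p0).preimage Subtype.val_injective.injOn
    refine Filter.mem_of_superset hfin.compl_mem_cofinite fun p hp => ?_
    have hp' : p0 ≤ (p : ℕ) := by simpa using hp
    have hp1 : (1 : ℝ) ≤ ((p : ℕ) : ℝ) := by exact_mod_cast p.2.one_lt.le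
    have h3 : (polyRootCountMod f ((p : ℕ) ^ k) : ℝ) ≤ f.natDegree := by
      exact_mod_cast hp0 p k p.2 hp' (by omega)
    have h4 : ((p : ℕ) : ℝ) ^ 2 ≤ ((p : ℕ) : ℝ) ^ k := pow_le_pow_right₀ hp1 hk
    show ‖_‖ ≤ _
    rw [norm_neg, Real.norm_of_nonneg (by positivity), mul_one_div]
    gcongr
  have hpos : ∀ p : Nat.Primes, 0 < F p := fun p => by
    have h1 : (polyRootCountMod f ((p : ℕ) ^ k) : ℝ) < ((p : ℕ) : ℝ) ^ k := by
      exact_mod_cast hloc p p.2
    have h2 : (0 : ℝ) < ((p : ℕ) : ℝ) ^ k := by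
      have := p.2.pos
      positivity
    simp only [hF]
    rw [sub_pos, div_lt_one h2]
    exact h1
  have hlog : Summable fun p : Nat.Primes => Real.log (F p) := by
    have := Real.summable_log_one_add_of_summable hsum
    simpa only [hF, sub_eq_add_neg] using this
  have hP : HasProd (fun p : Nat.Primes => F p) (Real.exp (∑' p : Nat.Primes, Real.log (F p))) :=
    Real.hasProd_of_hasSum_log hpos hlog.hasSum
  refine ⟨_, Real.exp_pos _, hP, ?_⟩
  have hP' : HasProd (Set.mulIndicator {p | Nat.Prime p} F)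
      (Real.exp (∑' p : Nat.Primes, Real.log (F p))) := by
    rw [← hasProd_subtype_iff_mulIndicator]
    exact hP
  have h1 := hP'.tendsto_prod_nat
  have H (n : ℕ) : ∏ i ∈ Finset.range n, Set.mulIndicator {p | Nat.Prime p} F i =
      ∏ p ∈ n.primesBelow, F p :=
    Finset.prod_mulIndicator_eq_prod_filter (Finset.range n) (fun _ ↦ F)
      (fun _ ↦ {p | Nat.Prime p}) id
  simpa only [H] using h1

end Crest.Agent.R22
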