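import Crest.Prelude.Def_PowerFree
import Crest.Agent.R22.SieveA
import Crest.Agent.R16.Avg

set_option autoImplicit false
open Polynomial IntermediateField

namespace Crest.Agent.R22

variable {d : ℕ}

open Crest.NumberTheoryR Filter Topology

/-- Counting a periodic set. -/
theorem Sieve_count (p : ℕ → Prop) [DecidablePred p] {P : ℕ} (hP : 0 < P)
    (hp : Function.Periodic p P) (N : ℕ) :
    |(((Finset.Icc 1 N).filter p).card : ℝ) - N * ((((Finset.range P).filter p).card : ℝ) / P)| ≤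
      (((Finset.range P).filter p).card : ℝ) := by
  rw [← Nat.count_eq_card_filter_range]
  have h1 : ∀ q : ℕ, ((Finset.Ico 1 (1 + q * P)).filter p).card = q * P.count p := by
    intro q
    induction q with
    | zero => simp
    | succ q ih =>
      rw [Nat.succ_mul, Nat.succ_mul, ← add_assoc, ← ih,
        ← Nat.filter_Ico_card_eq_of_periodic (1 + q * P) P p hp, ← Finset.card_union_of_disjoint
          (Finset.disjoint_filter_filter (Finset.Ico_disjoint_Ico_consecutive _ _ _)),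
        ← Finset.filter_union, Finset.Ico_union_Ico_eq_Ico (by omega) (by omega)]
  have h2 := Nat.div_mul_le_self N P
  have h3 : N < (N / P + 1) * P := by rw [mul_comm]; exact Nat.lt_mul_div_succ N hP
  have h4 : N / P * P.count p ≤ ((Finset.Icc 1 N).filter p).card := by
    rw [← h1]
    refine Finset.card_le_card (Finset.filter_subset_filter _ fun n hn => ?_)
    rw [Finset.mem_Ico] at hn
    rw [Finset.mem_Icc]
    omega
  have h5 : ((Finset.Icc 1 N).filter p).card ≤ (N / P + 1) * P.count p := by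
    rw [← h1]
    refine Finset.card_le_card (Finset.filter_subset_filter _ fun n hn => ?_)
    rw [Finset.mem_Icc] at hn
    rw [Finset.mem_Ico]
    omega
  generalize N / P = q at h2 h3 h4 h5
  have hP' : (0 : ℝ) < P := Nat.cast_pos.2 hP
  have h6 : (q : ℝ) ≤ N / P := by rw [le_div_iff₀ hP']; exact_mod_cast h2
  have h7 : (N : ℝ) / P ≤ q + 1 := by rw [div_le_iff₀ hP']; exact_mod_cast h3.le
  have h4' : (q : ℝ) * P.count p ≤ ((Finset.Icc 1 N).filter p).card := by exact_mod_cast h4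
  have h5' : (((Finset.Icc 1 N).filter p).card : ℝ) ≤ (q + 1) * P.count p := by exact_mod_cast h5
  have h8 := mul_le_mul_of_nonneg_right h6 (Nat.cast_nonneg (P.count p))
  have h9 := mul_le_mul_of_nonneg_right h7 (Nat.cast_nonneg (P.count p))
  rw [mul_div_left_comm, mul_comm (P.count p : ℝ), abs_le]
  constructor <;> linarith

theorem Sieve_periodic (f : ℤ[X]) {q P : ℕ} (h : q ∣ P) :
    Function.Periodic (fun n : ℕ => (q : ℤ) ∣ f.eval (n : ℤ)) P := by
  intro n
  have h1 : (q : ℤ) ∣ f.eval ((n + P : ℕ) : ℤ) - f.eval (n : ℤ) := by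
    refine Dvd.dvd.trans ?_ (sub_dvd_eval_sub _ _ f)
    rw [Nat.cast_add, add_sub_cancel_left]
    exact Int.natCast_dvd_natCast.2 h
  exact propext (dvd_iff_dvd_of_dvd_sub h1)

/-- `π(N) = o(N)`. -/
theorem Sieve_pi {δ : ℝ} (hδ : 0 < δ) : ∀ᶠ N : ℕ in atTop, (N.primeCounting : ℝ) ≤ δ * N := by
  have h1 := tendsto_natCast_atTop_atTop.eventually (Chebyshev.eventually_primeCounting_le one_pos)
  have h2 := (Real.tendsto_log_atTop.comp tendsto_natCast_atTop_atTop).eventually_ge_atTop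
    ((Real.log 4 + 1) / δ)
  filter_upwards [h1, h2, eventually_ge_atTop 2] with N h1 h2 h3
  rw [Nat.floor_natCast] at h1
  have h4 : 0 < Real.log N := Real.log_pos (by exact_mod_cast h3)
  refine h1.trans ?_
  rw [div_le_iff₀ h4, mul_right_comm]
  refine mul_le_mul_of_nonneg_right ?_ (Nat.cast_nonneg N)
  rwa [Function.comp_apply, div_le_iff₀' hδ] at h2

open Classical in
/-- Finitely many primes: periodicity modulo `∏ p^k` and the Chinese remainder theorem
(`Crest.Agent.R16.Avg` has `avg_crt`, `avg_prod_indep`, if useful). -/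
theorem finite_sieve (f : ℤ[X]) (k ξ : ℕ) :
    Tendsto (fun N : ℕ => (((Finset.Icc 1 N).filter fun n : ℕ =>
      ∀ p ∈ ξ.primesBelow, ¬ (p : ℤ) ^ k ∣ f.eval (n : ℤ)).card : ℝ) / N) atTop
      (𝓝 (∏ p ∈ ξ.primesBelow, (1 - (polyRootCountMod f (p ^ k) : ℝ) / (p : ℝ) ^ k))) := by
  set P : ℕ := ∏ p ∈ ξ.primesBelow, p ^ k with hP
  have hpos : ∀ p ∈ ξ.primesBelow, 0 < p ^ k := fun p hp =>
    pow_pos (Nat.prime_of_mem_primesBelow hp).pos k
  have hP0 : 0 < P := Finset.prod_pos hpos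
  have hper : Function.Periodic
      (fun n : ℕ => ∀ p ∈ ξ.primesBelow, ¬ (p : ℤ) ^ k ∣ f.eval (n : ℤ)) P := by
    intro n
    refine forall_congr fun p => forall_congr fun hp => congrArg Not ?_
    simpa only [Nat.cast_pow] using Sieve_periodic f (Finset.dvd_prod_of_mem (· ^ k) hp) n
  set c : ℕ := ((Finset.range P).filter fun n : ℕ =>
    ∀ p ∈ ξ.primesBelow, ¬ (p : ℤ) ^ k ∣ f.eval (n : ℤ)).card with hc
  have hprod : (c : ℝ) / P =
      ∏ p ∈ ξ.primesBelow, (1 - (polyRootCountMod f (p ^ k) : ℝ) / (p : ℝ) ^ k) := by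
    have h1 := R16.avg_prod_indep ξ.primesBelow (· ^ k)
      (fun p n => if (p : ℤ) ^ k ∣ f.eval (n : ℤ) then 0 else 1) hpos
      (fun p hp q hq hpq => Nat.coprime_pow_primes k k (Nat.prime_of_mem_primesBelow hp)
        (Nat.prime_of_mem_primesBelow hq) hpq)
      (fun p _ n => by
        have h := Sieve_periodic f (dvd_refl (p ^ k)) n
        rw [Nat.cast_pow] at h
        exact if_congr (iff_of_eq h) rfl rfl)
    convert h1 using 1
    · rw [R16.avg, hc, Finset.card_filter, Nat.cast_sum]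
      congr 1
      refine Finset.sum_congr rfl fun n _ => ?_
      split_ifs with h
      · rw [Finset.prod_eq_one fun p hp => if_neg (h p hp), Nat.cast_one]
      · push Not at h
        obtain ⟨p, hp, h⟩ := h
        rw [Nat.cast_zero]
        refine (Finset.prod_eq_zero hp ?_).symm
        exact if_pos h
    · refine Finset.prod_congr rfl fun p hp => ?_
      have h2 : (0 : ℝ) < (p : ℝ) ^ k := by exact_mod_cast hpos p hp
      have h3 : ∀ n : ℕ, (if (p : ℤ) ^ k ∣ f.eval (n : ℤ) then 0 else 1 : ℝ) =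
          1 - if ((p ^ k : ℕ) : ℤ) ∣ f.eval (n : ℤ) then 1 else 0 := fun n => by
        rw [Nat.cast_pow]; split_ifs <;> simp
      rw [R16.avg, Finset.sum_congr rfl fun n _ => h3 n, Finset.sum_sub_distrib, polyRootCountMod,
        Finset.card_filter]
      simp [sub_div, h2.ne']
  rw [← hprod, tendsto_iff_norm_sub_tendsto_zero]
  refine squeeze_zero' (Eventually.of_forall fun _ => norm_nonneg _) ?_
    (tendsto_const_div_atTop_nhds_zero_nat (c : ℝ))
  filter_upwards [eventually_gt_atTop 0] with N hN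
  have hN' : (0 : ℝ) < N := Nat.cast_pos.2 hN
  have h1 := Sieve_count _ hP0 hper N
  rw [Real.norm_eq_abs, le_div_iff₀ hN', ← abs_of_pos hN', ← abs_mul, abs_of_pos hN', sub_mul,
    div_mul_cancel₀ _ hN'.ne', mul_comm _ (N : ℝ)]
  exact h1

open Classical in
/-- Middle range: `∑_{ξ ≤ p ≤ N} d (N/p² + 1) ≤ 2 d N / ξ + d π(N)` and `π(N) = o(N)`. -/
theorem middle (f : ℤ[X]) (k : ℕ) (hk : 2 ≤ k) (hirr : Irreducible (f.map (Int.castRingHom ℚ)))
    (ε : ℝ) (hε : 0 < ε) : ∀ᶠ ξ : ℕ in atTop, ∀ᶠ N : ℕ in atTop,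
      (((Finset.Icc 1 N).filter fun n : ℕ =>
        ∃ p : ℕ, p.Prime ∧ ξ ≤ p ∧ p ≤ N ∧ (p : ℤ) ^ k ∣ f.eval (n : ℤ)).card : ℝ) ≤ ε * N := by
  obtain ⟨p0, hp0⟩ := rho_le f hirr
  set D : ℝ := f.natDegree + 1 with hD
  have hD0 : 0 < D := by positivity
  have hε' : 0 < ε / 2 / D := by positivity
  have h1 := tendsto_natCast_atTop_atTop.eventually_ge_atTop (2 / (ε / 2 / D))
  filter_upwards [h1, eventually_ge_atTop p0, eventually_ge_atTop 1] with ξ hξ hξ0 hξ1
  filter_upwards [Sieve_pi hε'] with N hN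
  set S : Finset ℕ := (Finset.Icc ξ N).filter Nat.Prime with hS
  have h2 : ((Finset.Icc 1 N).filter fun n : ℕ =>
      ∃ p : ℕ, p.Prime ∧ ξ ≤ p ∧ p ≤ N ∧ (p : ℤ) ^ k ∣ f.eval (n : ℤ)) ⊆
      S.biUnion fun p => (Finset.Icc 1 N).filter fun n : ℕ => ((p ^ k : ℕ) : ℤ) ∣ f.eval (n : ℤ) := by
    intro n hn
    obtain ⟨hn, p, hp, h1, h2, h3⟩ := Finset.mem_filter.1 hn
    exact Finset.mem_biUnion.2 ⟨p, Finset.mem_filter.2 ⟨Finset.mem_Icc.2 ⟨h1, h2⟩, hp⟩,
      Finset.mem_filter.2 ⟨hn, by rwa [Nat.cast_pow]⟩⟩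
  have h3 : ∀ p ∈ S, (((Finset.Icc 1 N).filter fun n : ℕ =>
      ((p ^ k : ℕ) : ℤ) ∣ f.eval (n : ℤ)).card : ℝ) ≤ D * N * ((p : ℝ) ^ 2)⁻¹ + D := by
    intro p hp
    obtain ⟨hp1, hp⟩ := Finset.mem_filter.1 hp
    have h4 := (abs_le.1 (Sieve_count _ (pow_pos hp.pos k) (Sieve_periodic f dvd_rfl) N)).2
    have h5 : (polyRootCountMod f (p ^ k) : ℝ) ≤ D := by
      have := hp0 p k hp (hξ0.trans (Finset.mem_Icc.1 hp1).1) (by omega)
      rw [hD]; exact_mod_cast this.trans (Nat.le_succ _)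
    have h6 : (polyRootCountMod f (p ^ k) : ℝ) / (p ^ k : ℕ) ≤ D * ((p : ℝ) ^ 2)⁻¹ := by
      have h7 : (1 : ℝ) ≤ p := by exact_mod_cast hp.one_le
      rw [Nat.cast_pow, ← div_eq_mul_inv]
      exact div_le_div₀ hD0.le h5 (by positivity) (pow_le_pow_right₀ h7 hk)
    have h8 := mul_le_mul_of_nonneg_left h6 (Nat.cast_nonneg N)
    unfold polyRootCountMod at h5 h8
    linarith
  have h4 : ∑ p ∈ S, ((p : ℝ) ^ 2)⁻¹ ≤ ε / 2 / D := by
    have h5 : S ⊆ Finset.Ioo (ξ - 1) (N + 1) := fun p hp => by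
      have := Finset.mem_Icc.1 (Finset.mem_filter.1 hp).1
      rw [Finset.mem_Ioo]; omega
    refine (Finset.sum_le_sum_of_subset_of_nonneg h5 fun _ _ _ => by positivity).trans
      ((sum_Ioo_inv_sq_le _ _).trans ?_)
    have h6 : (0 : ℝ) < ξ := by exact_mod_cast hξ1
    rw [Nat.cast_pred hξ1, sub_add_cancel, div_le_iff₀' h6]
    rwa [div_le_iff₀ hε'] at hξ
  have h5 : (S.card : ℝ) ≤ ε / 2 / D * N := by
    refine le_trans ?_ hN
    rw [← Nat.primesLE_card_eq_primeCounting]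
    refine Nat.cast_le.2 (Finset.card_le_card fun p hp => ?_)
    exact Nat.mem_primesLE.2 ⟨(Finset.mem_Icc.1 (Finset.mem_filter.1 hp).1).2,
      (Finset.mem_filter.1 hp).2⟩
  refine (Nat.cast_le.2 ((Finset.card_le_card h2).trans Finset.card_biUnion_le)).trans ?_
  rw [Nat.cast_sum]
  refine (Finset.sum_le_sum h3).trans ?_
  rw [Finset.sum_add_distrib, ← Finset.mul_sum, Finset.sum_const, nsmul_eq_mul]
  have h6 := mul_le_mul_of_nonneg_left h4 (by positivity : 0 ≤ D * N)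
  have h7 := mul_le_mul_of_nonneg_right h5 hD0.le
  have h8 : D * (ε / 2 / D) = ε / 2 := mul_div_cancel₀ _ hD0.ne'
  have h9 : D * N * (ε / 2 / D) = ε / 2 * N := by rw [mul_right_comm, h8]
  have h10 : ε / 2 / D * N * D = ε / 2 * N := by rw [mul_right_comm, mul_comm _ D, h8]
  linarith

end Crest.Agent.R22
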