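import Crest.Agent.R22.Defs

set_option autoImplicit false
open Polynomial IntermediateField

namespace Crest.Agent.R22

variable {d : ℕ}

theorem Steep_card_le {C0 : ℝ} (h0 : 0 ≤ C0) (F : Finset ℤ)
    (h : ∀ s ∈ F, ∀ t ∈ F, s < t → (t : ℝ) - s ≤ C0) : (F.card : ℝ) ≤ C0 + 1 := by
  rcases F.eq_empty_or_nonempty with rfl | hne
  · simp; linarith
  have hsub : F ⊆ Finset.Icc (F.min' hne) (F.min' hne + ⌊C0⌋₊) := fun t ht => by
    refine Finset.mem_Icc.2 ⟨F.min'_le t ht, ?_⟩
    rcases (F.min'_le t ht).eq_or_lt with e | e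
    · omega
    · have h1 := h _ (F.min'_mem hne) t ht e
      have h2 : t - F.min' hne ≤ ⌊C0⌋ := Int.le_floor.2 (by push_cast; exact h1)
      rw [← Int.natCast_floor_eq_floor h0] at h2
      omega
  have h1 := Finset.card_le_card hsub
  rw [Int.card_Icc] at h1
  have h2 : F.card ≤ ⌊C0⌋₊ + 1 := by omega
  have h3 : (F.card : ℝ) ≤ ⌊C0⌋₊ + 1 := by exact_mod_cast h2
  linarith [Nat.floor_le h0]

/-- An integer polynomial with values in `[X, 2X]` and derivative `≥ X / C0` at the points of `T`: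
cut `ℝ` at the real roots of `A'` and `A''`; on each piece `|A'|` is monotone, so between two points of
`T` it is `≥ X / C0`, and by the mean value theorem they are at distance `≤ C0`.
(The proof below cuts at the roots of `A' ^ 2 - (X / C0) ^ 2` instead.) -/
theorem card_steep (E : ℕ) (C0 : ℝ) (h0 : 1 ≤ C0) (A : ℤ[X]) (hA : A.natDegree ≤ E) (X : ℝ)
    (hX : 0 < X) (T : Finset ℤ) (hT : ∀ s ∈ T, X ≤ (A.eval s : ℤ) ∧ ((A.eval s : ℤ) : ℝ) ≤ 2 * X ∧
      X / C0 ≤ |(((derivative A).eval s : ℤ) : ℝ)|) : (T.card : ℝ) ≤ (2 * E + 1) * (C0 + 1) := by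
  classical
  set P : ℝ[X] := A.map (Int.castRingHom ℝ) with hP
  set c : ℝ := X / C0 with hc
  have hc0 : 0 < c := by positivity
  set Q : ℝ[X] := derivative P ^ 2 - C (c ^ 2) with hQ
  have hPe : ∀ (B : ℤ[X]) (s : ℤ), (B.map (Int.castRingHom ℝ)).eval (s : ℝ) = (B.eval s : ℤ) :=
    fun B s => by rw [eval_intCast_map]; rfl
  have hQe : ∀ x, Q.eval x = (derivative P).eval x ^ 2 - c ^ 2 := fun x => by simp [hQ]
  have hQd : Q.natDegree ≤ 2 * E := by
    refine (natDegree_sub_le _ _).trans (max_le ?_ (by rw [natDegree_C]; omega))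
    refine natDegree_pow_le.trans (Nat.mul_le_mul_left 2 ?_)
    exact (natDegree_derivative_le _).trans ((Nat.sub_le _ _).trans (natDegree_map_le.trans hA))
  set Z : Finset ℝ := Q.roots.toFinset with hZ
  have hZc : Z.card ≤ 2 * E := (Multiset.toFinset_card_le _).trans ((card_roots' Q).trans hQd)
  set g : ℤ → ℕ := fun s => (Z.filter fun z : ℝ => z < (s : ℝ)).card with hg
  have key : ∀ s ∈ T, ∀ t ∈ T, g s = g t → s < t → (t : ℝ) - s ≤ C0 := by
    intro s hs t ht hst hlt
    have hlt' : (s : ℝ) < t := by exact_mod_cast hlt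
    obtain ⟨ξ, hξ, hm⟩ := exists_hasDerivAt_eq_slope (fun x => P.eval x)
      (fun x => (derivative P).eval x) hlt' P.continuous.continuousOn fun x _ => P.hasDerivAt x
    have h1 : 0 ≤ Q.eval ξ := by
      by_contra hneg
      have hQ0 : Q ≠ 0 := fun h => hneg (by rw [h, eval_zero])
      have h2 : 0 ≤ Q.eval (s : ℝ) := by
        rw [hQe, hP, derivative_map, hPe, sub_nonneg, ← sq_abs (((derivative A).eval s : ℤ) : ℝ)]
        exact pow_le_pow_left₀ hc0.le (hT s hs).2.2 2
      obtain ⟨z, hz, hz0⟩ := intermediate_value_Icc' hξ.1.le (f := fun x => Q.eval x)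
        Q.continuous.continuousOn ⟨(not_le.1 hneg).le, h2⟩
      refine (Finset.card_lt_card ?_).ne hst
      refine (Finset.ssubset_iff_of_subset fun y hy => ?_).2 ⟨z, ?_, ?_⟩
      · exact Finset.mem_filter.2 ⟨(Finset.mem_filter.1 hy).1, (Finset.mem_filter.1 hy).2.trans hlt'⟩
      · exact Finset.mem_filter.2 ⟨Multiset.mem_toFinset.2 ((mem_roots hQ0).2 hz0),
          hz.2.trans_lt hξ.2⟩
      · exact fun h => absurd (Finset.mem_filter.1 h).2 (not_lt.2 hz.1)
    rw [hQe, sub_nonneg, sq_le_sq, abs_of_pos hc0] at h1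
    simp only [hP, hPe] at hm
    rw [hP, hm, abs_div, abs_of_pos (sub_pos.2 hlt'), le_div_iff₀ (sub_pos.2 hlt')] at h1
    have h3 : |((A.eval t : ℤ) : ℝ) - (A.eval s : ℤ)| ≤ X :=
      abs_le.2 ⟨by linarith [(hT s hs).2.1, (hT t ht).1], by linarith [(hT s hs).1, (hT t ht).2.1]⟩
    have h4 : c * C0 = X := div_mul_cancel₀ _ (by linarith)
    exact le_of_mul_le_mul_left (by linarith) hc0
  have hmap : ∀ s ∈ T, g s ∈ Finset.range (2 * E + 1) := fun s _ =>
    Finset.mem_range.2 (Nat.lt_succ_of_le ((Finset.card_filter_le _ _).trans hZc))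
  rw [Finset.card_eq_sum_card_fiberwise hmap]
  push_cast
  refine (Finset.sum_le_card_nsmul _ _ (C0 + 1) fun i _ =>
    Steep_card_le (by linarith) _ fun s hs t ht => ?_).trans ?_
  · obtain ⟨a1, a2⟩ := Finset.mem_filter.1 hs
    obtain ⟨b1, b2⟩ := Finset.mem_filter.1 ht
    exact key s a1 t b1 (a2.trans b2.symm)
  · rw [Finset.card_range, nsmul_eq_mul]
    push_cast
    exact le_rfl

end Crest.Agent.R22
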