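import Crest.Agent.R22.Boxes
import Crest.Agent.R22.SameP
import Crest.Agent.R22.BoxF

set_option autoImplicit false
open Polynomial IntermediateField

namespace Crest.Agent.R22

variable {d : ℕ}

/-- The trivial cover by the polynomials `n - n_P`. -/
theorem SurfAux_triv {c : Ctx d} {k E : ℕ} (hE : 1 ≤ E) (S : Finset (LPt c k)) :
    ∃ G : Finset ℂ[X][X], G.card ≤ S.card ∧ Covers G E S := by
  classical
  refine ⟨S.image fun P => X - C (C (P.n : ℂ)), Finset.card_image_le, fun g hg => ?_,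
    fun P hP _ => ⟨_, Finset.mem_image_of_mem _ hP, by simp [evalEval]⟩⟩
  obtain ⟨P, -, rfl⟩ := Finset.mem_image.1 hg
  refine ⟨X_sub_C_ne_zero _, by rw [natDegree_X_sub_C]; exact hE, fun i => ?_⟩
  have h : (X - C (C (P.n : ℂ)) : ℂ[X][X]) = (X - C (P.n : ℂ) : ℂ[X]).map C := by
    rw [Polynomial.map_sub, map_X, map_C]
  rw [h, coeff_map, natDegree_C]
  exact Nat.zero_le _

/-- From boxes to the whole line: if every box of width `X^(-r)` (for `X ≥ X0`) is covered by at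
most `C1` polynomials then the line is covered by `C X^r` polynomials. For `X < X0` use the
polynomials `n - n_P` and `card_le_X`. `v P` is `P.be` or `P.mu`, of size `Z`. -/
theorem cover_of_boxes (c : Ctx d) (hd : 2 ≤ d) (k : ℕ) (C0 r : ℝ) (h0 : 1 ≤ C0) (hr : 0 < r) :
    ∃ CB : ℝ, 1 ≤ CB ∧ ∀ (E : ℕ) (C1 X0 : ℝ), 1 ≤ E → ∃ C : ℝ, ∀ (X B G1 G2 Z : ℝ)
      (b1 b2 : Fin d → ℤ) (S : Finset (LPt c k)), 1 ≤ X → 0 < Z → LH b1 b2 G1 G2 →
      c.Nondeg b1 b2 → InjN S →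
      (∀ P ∈ S, Sz C0 X B P.toPt ∧ |(P.x : ℝ)| ≤ C0 * Z / G1 ∧ |(P.y : ℝ)| ≤ C0 * Z / G2 ∧
        ∀ j, Z / C0 ≤ ‖c.sg j (P.x • b1 + P.y • b2)‖) →
      (X0 ≤ X → ∀ T ⊆ S, ∀ (L : Fin d → ℂ[X]) (l1 l2 : ℂ[X]) (τ ρ : LPt c k → ℝ),
        BoxData c b1 b2 G1 G2 Z (X ^ (-r)) CB T LPt.x LPt.y L l1 l2 τ ρ →
        ∃ G : Finset ℂ[X][X], (G.card : ℝ) ≤ C1 ∧ Covers G E T) →
      ∃ G : Finset ℂ[X][X], (G.card : ℝ) ≤ C * X ^ r ∧ Covers G E S := by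
  classical
  obtain ⟨CB, hCB, hb⟩ := boxes c hd C0 h0
  refine ⟨CB, hCB, fun E C1 X0 hE => ⟨CB * |C1| + (|X0| + 1),
    fun X B G1 G2 Z b1 b2 S hX hZ hL hN hI hS H => ?_⟩⟩
  have hX0 : 0 < X := by linarith
  have hXr : 1 ≤ X ^ r := Real.one_le_rpow hX hr.le
  have hp1 : 0 ≤ CB * |C1| * X ^ r := by positivity
  have hp2 : |X0| + 1 ≤ (|X0| + 1) * X ^ r := le_mul_of_one_le_right (by positivity) hXr
  rcases lt_or_ge X X0 with h | h
  · obtain ⟨G, h1, h2⟩ := SurfAux_triv hE S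
    refine ⟨G, ?_, h2⟩
    have h3 := card_le_X c k C0 X B hX S hI fun P hP => (hS P hP).1
    have h4 : (G.card : ℝ) ≤ S.card := by exact_mod_cast h1
    have h5 := le_abs_self X0
    linarith
  obtain ⟨PP, h1, h2, h3⟩ := hb b1 b2 G1 G2 Z (X ^ (-r)) hL hN hZ (by positivity)
    (Real.rpow_le_one_of_one_le_of_nonpos hX (by linarith)) S LPt.x LPt.y fun P hP => (hS P hP).2
  have h4 : ∀ T : Finset (LPt c k), ∃ G : Finset ℂ[X][X],
      T ∈ PP → (G.card : ℝ) ≤ C1 ∧ Covers G E T := by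
    intro T
    by_cases hT : T ∈ PP
    · obtain ⟨h4, L, l1, l2, τ, ρ, h5⟩ := h3 T hT
      obtain ⟨G, hG⟩ := H h T h4 L l1 l2 τ ρ h5
      exact ⟨G, fun _ => hG⟩
    · exact ⟨∅, fun h => absurd h hT⟩
  choose G hG using h4
  refine ⟨PP.biUnion G, ?_, fun g hg => ?_, fun P hP hy => ?_⟩
  · have h5 : ((PP.biUnion G).card : ℝ) ≤ ∑ T ∈ PP, ((G T).card : ℝ) := by
      exact_mod_cast Finset.card_biUnion_le
    have h6 : ∑ T ∈ PP, ((G T).card : ℝ) ≤ PP.card * |C1| := by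
      rw [← nsmul_eq_mul]
      exact Finset.sum_le_card_nsmul _ _ _ fun T hT => (hG T hT).1.trans (le_abs_self _)
    rw [Real.rpow_neg hX0.le, div_inv_eq_mul] at h1
    have h7 := mul_le_mul_of_nonneg_right h1 (abs_nonneg C1)
    have h8 := abs_nonneg X0
    linarith
  · obtain ⟨T, hT, h5⟩ := Finset.mem_biUnion.1 hg
    exact (hG T hT).2.1 g h5
  · obtain ⟨T, hT, h5⟩ := h2 P hP
    obtain ⟨g, h6, h7⟩ := (hG T hT).2.2 P h5 hy
    exact ⟨g, Finset.mem_biUnion.2 ⟨T, hT, h6⟩, h7⟩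

end Crest.Agent.R22
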