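import Crest.Agent.R22.SurfAux
import Crest.Agent.R22.DetB
import Crest.Agent.R22.HG
import Crest.Agent.R22.Quart
import Crest.Agent.R22.LinAlg
import Crest.Agent.R22.Card

set_option autoImplicit false
open Polynomial IntermediateField

namespace Crest.Agent.R22

variable {d : ℕ}

theorem SurfB4_deg_mono {f : ℂ[X][X]} {a b : ℕ} (h : DegLE f a) (hab : a ≤ b) : DegLE f b :=
  ⟨h.1.trans hab, fun i => (h.2 i).trans hab⟩

theorem SurfB4_deg_C {p : ℂ[X]} {a : ℕ} (h : p.natDegree ≤ a) : DegLE (C p) a := by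
  refine ⟨by simp, fun i => ?_⟩
  rw [coeff_C]
  split_ifs
  · exact h
  · simp

theorem SurfB4_deg_add {f g : ℂ[X][X]} {a : ℕ} (hf : DegLE f a) (hg : DegLE g a) :
    DegLE (f + g) a :=
  ⟨(natDegree_add_le _ _).trans (max_le hf.1 hg.1), fun i => by
    rw [coeff_add]; exact (natDegree_add_le _ _).trans (max_le (hf.2 i) (hg.2 i))⟩

theorem SurfB4_deg_smul {f : ℂ[X][X]} {a : ℕ} (z : ℂ) (hf : DegLE f a) : DegLE (z • f) a :=
  ⟨(natDegree_smul_le _ _).trans hf.1, fun i => by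
    rw [coeff_smul]; exact (natDegree_smul_le _ _).trans (hf.2 i)⟩

theorem SurfB4_deg_sum {ι : Type*} (s : Finset ι) (f : ι → ℂ[X][X]) {a : ℕ}
    (h : ∀ i ∈ s, DegLE (f i) a) : DegLE (∑ i ∈ s, f i) a := by
  classical
  induction s using Finset.induction_on with
  | empty => exact ⟨by simp, fun i => by simp⟩
  | insert i s hi ih =>
    rw [Finset.sum_insert hi]
    exact SurfB4_deg_add (h i (Finset.mem_insert_self _ _))
      (ih fun j hj => h j (Finset.mem_insert_of_mem hj))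

theorem SurfB4_deg_mul {f g : ℂ[X][X]} {a b : ℕ} (hf : DegLE f a) (hg : DegLE g b) :
    DegLE (f * g) (a + b) := by
  refine ⟨natDegree_mul_le.trans (add_le_add hf.1 hg.1), fun i => ?_⟩
  rw [coeff_mul]
  exact natDegree_sum_le_of_forall_le _ _ fun p _ =>
    natDegree_mul_le.trans (add_le_add (hf.2 _) (hg.2 _))

theorem SurfB4_deg_one : DegLE (1 : ℂ[X][X]) 0 := by
  rw [← C_1]; exact SurfB4_deg_C (by simp)

theorem SurfB4_deg_pow {f : ℂ[X][X]} {a : ℕ} (hf : DegLE f a) (n : ℕ) : DegLE (f ^ n) (a * n) := by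
  induction n with
  | zero => simpa using SurfB4_deg_one
  | succ n ih => rw [pow_succ, Nat.mul_succ]; exact SurfB4_deg_mul ih hf

theorem SurfB4_deg_prod {ι : Type*} (s : Finset ι) (f : ι → ℂ[X][X]) (a : ι → ℕ)
    (h : ∀ i ∈ s, DegLE (f i) (a i)) : DegLE (∏ i ∈ s, f i) (∑ i ∈ s, a i) := by
  classical
  induction s using Finset.induction_on with
  | empty => simpa using SurfB4_deg_one
  | insert i s hi ih =>
    rw [Finset.sum_insert hi, Finset.prod_insert hi]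
    exact SurfB4_deg_mul (h i (Finset.mem_insert_self _ _))
      (ih fun j hj => h j (Finset.mem_insert_of_mem hj))

theorem SurfB4_deg_Urow (c : Ctx 4) (b1 b2 : Fin 4 → ℤ) (j : Fin 4) :
    DegLE (Urow c.th (c.lin b1 b2) 2 j) 9 := by
  have h1 : DegLE (X - C (C (c.th j)) : ℂ[X][X]) 1 := by
    refine ⟨(natDegree_X_sub_C _).le, fun i => ?_⟩
    rw [coeff_sub, coeff_X, coeff_C]
    split_ifs <;> simp [natDegree_sub_C]
  have h2 : (∏ l ∈ Finset.univ.erase j, c.lin b1 b2 l ^ 2).natDegree ≤ 8 := by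
    refine (natDegree_prod_le _ _).trans ?_
    have : ∀ l ∈ Finset.univ.erase j, (c.lin b1 b2 l ^ 2).natDegree ≤ 2 := fun l _ =>
      natDegree_pow_le.trans (by
        have : (c.lin b1 b2 l).natDegree ≤ 1 := natDegree_linear_le
        omega)
    refine (Finset.sum_le_card_nsmul _ _ _ this).trans ?_
    rw [Finset.card_erase_of_mem (Finset.mem_univ _)]
    simp
  exact SurfB4_deg_mul h1 (SurfB4_deg_C h2)

theorem SurfB4_deg_u (c : Ctx 4) (b1 b2 v : Fin 4 → ℤ) (l : Fin 4) :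
    DegLE (shr v (c.co (Urow c.th (c.lin b1 b2) 2)) l) 9 := by
  have h : ∀ l, DegLE (c.co (Urow c.th (c.lin b1 b2) 2) l) 9 := fun l =>
    SurfB4_deg_sum _ _ fun j _ => SurfB4_deg_smul _ (SurfB4_deg_Urow c b1 b2 j)
  have e : shr v (c.co (Urow c.th (c.lin b1 b2) 2)) l =
      c.co (Urow c.th (c.lin b1 b2) 2) l + (-(v l : ℂ)) • c.co (Urow c.th (c.lin b1 b2) 2) 0 := by
    rw [shr, Algebra.smul_def, map_neg, map_intCast]; ring
  rw [e]
  exact SurfB4_deg_add (h l) (SurfB4_deg_smul _ (h 0))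

theorem SurfB4_phi {D : ℕ} (a : Fin 4 → ℕ) (ha : ∑ l, a l = D) :
    ∃ φ : Fin D → Fin 4, ∀ f : Fin 4 → ℂ, ∏ i, f (φ i) = ∏ l, f l ^ a l := by
  have hc : Fintype.card (Σ l : Fin 4, Fin (a l)) = D := by simp [Fintype.card_sigma, ha]
  let e := Fintype.equivFinOfCardEq hc
  refine ⟨fun i => (e.symm i).1, fun f => ?_⟩
  rw [Equiv.prod_comp e.symm (fun s => f s.1), Fintype.prod_sigma]
  simp

theorem SurfB4_row (c : Ctx 4) (v μ : Fin 4 → ℤ) (l : Fin 4) :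
    ∑ j, ((Matrix.vandermonde c.th)⁻¹ l j - (v l : ℂ) * (Matrix.vandermonde c.th)⁻¹ 0 j) *
      c.sg j μ = ((shr v μ l : ℤ) : ℂ) := by
  have h := co_sg c μ
  simp only [Ctx.co, smul_eq_mul] at h
  simp only [shr, Int.cast_id, Int.cast_sub, Int.cast_mul]
  rw [← h l, ← h 0, Finset.mul_sum, ← Finset.sum_sub_distrib]
  exact Finset.sum_congr rfl fun j _ => by ring

theorem SurfB4_choose (n : ℕ) : (6 : ℝ) * (n.choose 3 : ℕ) = n * (n - 1) * (n - 2) := by
  induction n with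
  | zero => simp
  | succ n ih =>
    rw [Nat.choose_succ_succ' n 2, Nat.cast_add, mul_add, ih, Nat.cast_choose_two]
    push_cast; ring

theorem SurfB4_num (D M : ℕ) (X U G Θ α C : ℝ) (hD : 1 ≤ D) (hM : M ≤ 2 * D ^ 2 + 2)
    (hX : 1 ≤ X) (hU1 : 1 ≤ U) (hU : U ≤ X) (hG1 : 1 ≤ G) (hG : G ≤ X * X)
    (ha : U ^ (2 : ℝ) ≤ X ^ α * G ^ (2 / 3 : ℝ)) (hΘ : C + 11 ≤ (Θ - α) * D) :
    (U ^ D) ^ M * X ^ (-(Θ * D ^ 3 - C * D ^ 2)) * X ≤ (G ^ 4) ^ (D - 1).choose 3 := by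
  have hX0 : 0 < X := by linarith
  have hU0 : 0 < U := by linarith
  have hG0 : 0 < G := by linarith
  have hx : 0 ≤ Real.log X := Real.log_nonneg hX
  have hu : 0 ≤ Real.log U := Real.log_nonneg hU1
  have hg : 0 ≤ Real.log G := Real.log_nonneg hG1
  have hux : Real.log U ≤ Real.log X := Real.log_le_log hU0 hU
  have hgx : Real.log G ≤ 2 * Real.log X := by
    have := Real.log_le_log hG0 hG
    rw [Real.log_mul hX0.ne' hX0.ne'] at this
    linarith
  have ha' : 2 * Real.log U ≤ α * Real.log X + 2 / 3 * Real.log G := by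
    have := Real.log_le_log (by positivity) ha
    rwa [Real.log_mul (by positivity) (by positivity), Real.log_rpow hU0, Real.log_rpow hX0,
      Real.log_rpow hG0] at this
  rw [← Real.log_le_log_iff (by positivity) (by positivity), Real.log_mul (by positivity) hX0.ne',
    Real.log_mul (by positivity) (by positivity), Real.log_pow, Real.log_pow, Real.log_rpow hX0,
    Real.log_pow, Real.log_pow]
  have hD' : (1 : ℝ) ≤ D := by exact_mod_cast hD
  have hM' : (M : ℝ) ≤ 2 * D ^ 2 + 2 := by exact_mod_cast hM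
  have hch := SurfB4_choose (D - 1)
  rw [Nat.cast_sub hD, Nat.cast_one] at hch
  generalize Real.log X = x at *
  generalize Real.log U = u at *
  generalize Real.log G = g at *
  generalize (((D - 1).choose 3 : ℕ) : ℝ) = e at *
  generalize (D : ℝ) = δ at *
  generalize (M : ℝ) = m at *
  have hδ : 0 ≤ δ := by linarith
  have h1 : m * (δ * u) ≤ (2 * δ ^ 2 + 2) * (δ * u) :=
    mul_le_mul_of_nonneg_right hM' (by positivity)
  have h2 : δ ^ 3 * (2 * u) ≤ δ ^ 3 * (α * x + 2 / 3 * g) :=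
    mul_le_mul_of_nonneg_left ha' (by positivity)
  have h3 : δ * u ≤ δ * x := mul_le_mul_of_nonneg_left hux hδ
  have h4 : (2 / 3 * δ ^ 3 - 4 * δ ^ 2) * g ≤ (4 * e) * g :=
    mul_le_mul_of_nonneg_right (by nlinarith) hg
  have h5 : δ ^ 2 * g ≤ δ ^ 2 * (2 * x) := mul_le_mul_of_nonneg_left hgx (by positivity)
  have h6 : (C + 11) * (δ ^ 2 * x) ≤ (Θ - α) * δ * (δ ^ 2 * x) :=
    mul_le_mul_of_nonneg_right hΘ (by positivity)
  have h7 : δ * x ≤ δ ^ 2 * x := mul_le_mul_of_nonneg_right (by nlinarith) hx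
  have h8 : 1 * x ≤ δ ^ 2 * x := mul_le_mul_of_nonneg_right (by nlinarith) hx
  push_cast
  nlinarith

theorem SurfB4_det {ι : Type*} [Fintype ι] [DecidableEq ι] (rw col : ι → ℂ) (A : Matrix ι ι ℂ)
    (Kc Bd : ℝ) (hrw : ∀ a, ‖rw a‖ ≤ 1) (hcol : ∀ b, ‖col b‖ ≤ Kc) (hKc : 0 ≤ Kc)
    (hA : ‖A.det‖ ≤ Bd) :
    ‖(Matrix.of fun a b => rw a * col b * A a b).det‖ ≤ Kc ^ Fintype.card ι * Bd := by
  have e : (Matrix.of fun a b => rw a * col b * A a b) =
      Matrix.of fun a b => rw a * (Matrix.of fun a b => col b * A a b) a b := by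
    ext a b; simp [mul_assoc]
  rw [e, Matrix.det_mul_column, Matrix.det_mul_row, norm_mul, norm_mul, norm_prod, norm_prod]
  have h1 : ∏ a, ‖rw a‖ ≤ 1 := Finset.prod_le_one (fun _ _ => norm_nonneg _) fun a _ => hrw a
  have h2 : ∏ b, ‖col b‖ ≤ Kc ^ Fintype.card ι := by
    rw [← Finset.card_univ, ← Finset.prod_const]
    exact Finset.prod_le_prod (fun _ _ => norm_nonneg _) fun a _ => hcol a
  have h3 : (∏ b, ‖col b‖) * ‖A.det‖ ≤ Kc ^ Fintype.card ι * Bd :=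
    mul_le_mul h2 hA (norm_nonneg _) (by positivity)
  calc _ ≤ 1 * (Kc ^ Fintype.card ι * Bd) := mul_le_mul h1 h3 (by positivity) zero_le_one
    _ = _ := one_mul _

theorem SurfB4_ev (c : Ctx 4) (b1 b2 v : Fin 4 → ℤ) (P : LPt c 2)
    (hP : P.be = P.x • b1 + P.y • b2) (hy : P.y ≠ 0) :
    ∃ κ : ℂ, ∀ l, (shr v (c.co (Urow c.th (c.lin b1 b2) 2)) l).evalEval ((P.x : ℂ) / P.y)
      (P.n : ℂ) = κ * ((shr v P.mu l : ℤ) : ℂ) := by
  set t : ℂ := (P.x : ℂ) / P.y with ht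
  have hcc : (P.cc : ℂ) ≠ 0 := by exact_mod_cast P.cc0
  refine ⟨(P.y : ℂ) ^ 2 * (∏ l, (c.lin b1 b2 l).eval t ^ 2) / P.cc, fun l => ?_⟩
  set κ : ℂ := (P.y : ℂ) ^ 2 * (∏ l, (c.lin b1 b2 l).eval t ^ 2) / P.cc with hκ
  have hU : ∀ j, (Urow c.th (c.lin b1 b2) 2 j).evalEval t (P.n : ℂ) = κ * c.sg j P.mu := by
    intro j
    have h1 := P.rel j
    rw [hP, sg_line c b1 b2 P.x P.y hy j, ← ht] at h1
    have h2 : (P.n : ℂ) - c.th j = c.sg j P.mu * ((P.y : ℂ) * (c.lin b1 b2 j).eval t) ^ 2 / P.cc := by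
      rw [h1]; field_simp
    rw [Urow, evalEval_mul, evalEval_sub, evalEval_X, evalEval_CC, evalEval_C, eval_prod, h2, hκ,
      ← Finset.mul_prod_erase _ _ (Finset.mem_univ j)]
    simp only [eval_pow]
    ring
  have hco : ∀ l, (c.co (Urow c.th (c.lin b1 b2) 2) l).evalEval t (P.n : ℂ) = κ * (P.mu l : ℂ) := by
    intro l
    rw [← co_sg c P.mu l, Ctx.co, Ctx.co, evalEval_finsetSum, Finset.mul_sum]
    refine Finset.sum_congr rfl fun j _ => ?_
    rw [evalEval_smul, hU, smul_eq_mul, smul_eq_mul]; ring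
  rw [shr, shr, evalEval_sub, evalEval_mul, hco, hco, evalEval_intCast]
  push_cast; ring

theorem SurfB4_cover (c : Ctx 4) (D : ℕ) (b1 b2 v : Fin 4 → ℤ) (T : Finset (LPt c 2))
    (hT : ∀ P ∈ T, P.be = P.x • b1 + P.y • b2)
    (hne : ∀ G : MvPolynomial (Fin 4) ℂ, G ≠ 0 → G.IsHomogeneous D → G.degreeOf 0 ≤ 3 →
        MvPolynomial.aeval (shr v (c.co (Urow c.th (c.lin b1 b2) 2))) G ≠ 0)
    (lam : stdB D → ℂ) (hlam : lam ≠ 0)
    (hrel : ∀ P ∈ T, ∑ a : stdB D, lam a * ∏ l, ((shr v P.mu l : ℤ) : ℂ) ^ a.1 l = 0) :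
    ∃ G : Finset ℂ[X][X], (G.card : ℝ) ≤ 1 ∧ Covers G (9 * D) T := by
  classical
  set u := shr v (c.co (Urow c.th (c.lin b1 b2) 2)) with hu
  let ex : stdB D → (Fin 4 →₀ ℕ) := fun a => Finsupp.equivFunOnFinite.symm a.1
  have hex : ∀ a l, ex a l = a.1 l := fun a l => rfl
  have hinj : Function.Injective ex := fun a b h =>
    Subtype.ext (Finsupp.equivFunOnFinite.symm.injective h)
  have hmem : ∀ a : stdB D, ∑ l, a.1 l = D ∧ a.1 0 ≤ 3 := fun a => by
    have := a.2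
    simp only [stdB, Finset.mem_filter, Finset.mem_piAntidiag] at this
    exact ⟨this.1.1, this.2⟩
  let G : MvPolynomial (Fin 4) ℂ := ∑ a : stdB D, MvPolynomial.monomial (ex a) (lam a)
  have hco : ∀ a, G.coeff (ex a) = lam a := fun a => by
    simp only [G, MvPolynomial.coeff_sum, MvPolynomial.coeff_monomial]
    rw [Finset.sum_eq_single a]
    · simp
    · intro b _ hb
      rw [if_neg fun h => hb (hinj h)]
    · simp
  have hG0 : G ≠ 0 := fun h => hlam (funext fun a => by rw [← hco a, h]; simp)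
  have hGh : G.IsHomogeneous D := MvPolynomial.IsHomogeneous.sum _ _ _ fun a _ =>
    MvPolynomial.isHomogeneous_monomial _ (by
      rw [Finsupp.degree_eq_sum]; exact (hmem a).1)
  have hGd : G.degreeOf 0 ≤ 3 := by
    rw [MvPolynomial.degreeOf_le_iff]
    intro m hm
    obtain ⟨a, -, ha⟩ := Finset.mem_biUnion.1 (MvPolynomial.support_sum hm)
    have := MvPolynomial.support_monomial_subset ha
    rw [Finset.mem_singleton] at this
    rw [this]; exact (hmem a).2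
  have hg : MvPolynomial.aeval u G = ∑ a : stdB D, lam a • ∏ l, u l ^ a.1 l := by
    simp only [G, map_sum, MvPolynomial.aeval_monomial]
    refine Finset.sum_congr rfl fun a _ => ?_
    rw [Algebra.smul_def, Finsupp.prod_fintype _ _ (by simp)]
    rfl
  refine ⟨{MvPolynomial.aeval u G}, by simp, ?_, ?_⟩
  · intro g hgm
    rw [Finset.mem_singleton] at hgm
    subst hgm
    refine ⟨hne G hG0 hGh hGd, ?_⟩
    rw [hg]
    refine SurfB4_deg_sum _ _ fun a _ => SurfB4_deg_smul _ ?_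
    have := SurfB4_deg_prod Finset.univ (fun l => u l ^ a.1 l) (fun l => 9 * a.1 l)
      fun l _ => SurfB4_deg_pow (SurfB4_deg_u c b1 b2 v l) _
    rwa [← Finset.mul_sum, (hmem a).1] at this
  · intro P hP hy
    refine ⟨_, Finset.mem_singleton_self _, ?_⟩
    obtain ⟨κ, hκ⟩ := SurfB4_ev c b1 b2 v P (hT P hP) hy
    rw [hg, evalEval_finsetSum]
    have : ∀ a : stdB D, (lam a • ∏ l, u l ^ a.1 l).evalEval ((P.x : ℂ) / P.y) (P.n : ℂ) =
        κ ^ D * (lam a * ∏ l, ((shr v P.mu l : ℤ) : ℂ) ^ a.1 l) := by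
      intro a
      rw [evalEval_smul, evalEval_prod, smul_eq_mul]
      simp only [evalEval_pow, hu, hκ, mul_pow]
      rw [Finset.prod_mul_distrib, Finset.prod_pow_eq_pow_sum, (hmem a).1]
      ring
    rw [Finset.sum_congr rfl fun a _ => this a, ← Finset.mul_sum, hrel P hP, mul_zero]

/-- Surface step, `d = 4`. Choose `D` with `(Theta - α) D³` larger than all `O(D²)` terms. In a box:
rows = monomials `stdB D` in `shr v μ` (`box_factor` with `c0 = 0`; `μ_l = ∑ w_{lj} σ_j μ`), `M ≍ 2D²`; `detB` gives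
`|Δ| ≤ C U^(D M) X^(-(Θ D³ - C D²)) < ((‖b1‖‖b2‖)⁴/C)^(choose (D-1) 3) ≤ |Q0|^E`, so `Δ = 0` by
`height_gain`; `exists_rel_of_det` gives a form `G`, and `g = G(shr v (co (Urow …))) ≠ 0` vanishes at
the points because `μ_l (Nβ)² = cc y⁶ (co Urow)_l(t, n)`. -/
theorem surfB4 (c : Ctx 4) (C0 r rho k0 α : ℝ) (h0 : 1 ≤ C0) (hp : SurfPar 4 2 r rho k0 α) :
    ∃ (E : ℕ) (C : ℝ), ∀ (X B G1 G2 u lam : ℝ) (b1 b2 : Fin 4 → ℤ) (S : Finset (LPt c 2)),
      1 ≤ X → SizeB 4 2 X B G1 G2 u lam α → LH b1 b2 G1 G2 → c.Nondeg b1 b2 → InjN S →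
      (∀ P ∈ S, OnB C0 X B G1 G2 b1 b2 P) →
      ∃ G : Finset ℂ[X][X], (G.card : ℝ) ≤ C * X ^ r ∧ Covers G E S := by
  classical
  obtain ⟨CB, hCB, hcov⟩ := cover_of_boxes c (by norm_num) 2 C0 r h0 hp.r0
  obtain ⟨Cq, hCq, hq⟩ := quart c
  obtain ⟨Cn, hCn, -, hV, -⟩ := norm_equiv c
  obtain ⟨C, hC0, hdet⟩ := detB 4 2 0 (by norm_num) ((((4 : ℕ) : ℝ) - 2) * ((2 : ℕ) : ℝ) / 2)
    r rho k0 1 0 hp.r0 hp.rho0 hp.k00 hp.k01 (by norm_num) le_rfl le_rfl
  have hlt := hp.lt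
  generalize Theta ((((4 : ℕ) : ℝ) - 2) * ((2 : ℕ) : ℝ) / 2) ((((4 : ℕ) : ℝ) - 1) * ((2 : ℕ) : ℝ))
    (((4 : ℕ) : ℝ) * ((2 : ℕ) : ℝ)) r rho k0 = Θ at hdet hlt
  obtain ⟨D, hD1, hDΘ⟩ : ∃ D : ℕ, 1 ≤ D ∧ C + 11 ≤ (Θ - α) * D := by
    obtain ⟨D, hD⟩ := exists_nat_ge ((C + 11) / (Θ - α))
    refine ⟨D + 1, by omega, ?_⟩
    rw [div_le_iff₀ (by linarith)] at hD
    push_cast
    nlinarith
  obtain ⟨hM1, hM2⟩ := card_stdB D
  have hcard : Fintype.card (stdB D) = (stdB D).card := Fintype.card_coe _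
  obtain ⟨K', hK', hdet⟩ := hdet D (stdB D).card (by
    have : (2 * D ^ 2 : ℝ) ≤ (stdB D).card := by exact_mod_cast hM1
    push_cast
    linarith)
  obtain ⟨K, hK, hbox⟩ := box_factor c 2 D 0 C0 CB (5 * Cn) h0 hCB
  set M := (stdB D).card with hMdef
  set E' := (D - 1).choose 3 with hE'
  obtain ⟨Cc, hCc⟩ := hcov (9 * D) 1 (K ^ M * K' * K ^ M * Cq ^ E' + 1) (by omega)
  refine ⟨9 * D, Cc, fun X B G1 G2 u lam b1 b2 S hX hS hL hnd hinj hon => ?_⟩
  have hB0 : 0 < B := by linarith [hS.b1]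
  have hX0 : 0 < X := by linarith
  refine hCc X B G1 G2 B b1 b2 S hX hB0 hL hnd hinj (fun P hP => ⟨(hon P hP).sz, (hon P hP).hx,
    (hon P hP).hy, fun j => by rw [← (hon P hP).eq]; exact (hon P hP).sz.be1 j⟩) ?_
  intro hXX T hTS L l1 l2 τ ρ hbd
  obtain ⟨v, Q, hv, hQh, hQp, hQ0, hQz, hQn⟩ := hq b1 b2 hL.line hnd
  obtain ⟨col, hcol, hrow⟩ := hbox X B G1 G2 _ b1 b2 T L l1 l2 τ ρ hX hS.b1 hL.g1 hL.g2
    (fun P hP => hon P (hTS hP)) hbd
  have hmem : ∀ a : stdB D, ∑ l, a.1 l = D := fun a => by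
    have := a.2
    simp only [stdB, Finset.mem_filter, Finset.mem_piAntidiag] at this
    exact this.1.1
  have hrows : ∀ a : stdB D, ∃ (F : ℂ[X][X]) (rw : ℂ), F ∈ Vsp c.th L 2 D 0 l1 l2 ∧ CoLE F K ∧
      ‖rw‖ ≤ 1 ∧ ∀ P ∈ T, ∏ l, ((shr v P.mu l : ℤ) : ℂ) ^ a.1 l =
        rw * col P * F.evalEval (τ P : ℂ) ((P.n : ℂ))⁻¹ := by
    intro a
    obtain ⟨φ, hφ⟩ := SurfB4_phi a.1 (hmem a)
    obtain ⟨F, rw, h1, h2, h3, h4⟩ := hrow (fun i j => (Matrix.vandermonde c.th)⁻¹ (φ i) j -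
      (v (φ i) : ℂ) * (Matrix.vandermonde c.th)⁻¹ 0 j) 0 (fun i j => by
        refine (norm_sub_le _ _).trans ?_
        rw [norm_mul]
        have e1 : ‖(v (φ i) : ℂ)‖ ≤ 4 := by
          rw [Complex.norm_intCast]; exact_mod_cast hv (φ i)
        have e2 := mul_le_mul e1 (hV 0 j) (norm_nonneg _) (by norm_num)
        linarith [hV (φ i) j]) le_rfl
    refine ⟨F, rw, h1, h2, by simpa using h3, fun P hP => ?_⟩
    rw [← h4 P hP, ← hφ]
    simp only [SurfB4_row, pow_zero, mul_one, Nat.sub_self]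
  choose F rw hF1 hF2 hrw hFe using hrows
  have hzero : ∀ z : stdB D → T, (Matrix.of fun a b : stdB D =>
      ∏ l, ((shr v (z b).1.mu l : ℤ) : ℂ) ^ a.1 l).det = 0 := by
    intro z
    have hdvd := height_gain D Q hQh hQp (fun b => shr v (z b).1.mu)
      fun b => hQz _ (hon _ (hTS (z b).2)).eq
    set Δ : ℤ := (Matrix.of fun a b : stdB D => ∏ l, shr v (z b).1.mu l ^ a.1 l).det with hΔ
    have hcast : (Matrix.of fun a b : stdB D =>
        ∏ l, ((shr v (z b).1.mu l : ℤ) : ℂ) ^ a.1 l).det = (Δ : ℂ) := by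
      rw [hΔ, ← eq_intCast (Int.castRingHom ℂ), RingHom.map_det]
      congr 1
      ext a b
      simp
    rw [hcast]
    have hU1 : 1 ≤ X / B ^ 2 := by rw [le_div_iff₀ (by positivity)]; linarith [hS.bk]
    have hUX : X / B ^ 2 ≤ X := div_le_self hX0.le (one_le_pow₀ hS.b1)
    have hG1 : 1 ≤ G1 * G2 := one_le_mul_of_one_le_of_one_le hL.g1 hL.g2
    have hGX : G1 * G2 ≤ X * X := mul_le_mul hS.g1 hS.g2 (by linarith [hL.g2]) hX0.le
    have ha : (X / B ^ 2) ^ (2 : ℝ) ≤ X ^ α * (G1 * G2) ^ (2 / 3 : ℝ) := by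
      have := hS.ha
      rw [hg, if_pos rfl] at this
      convert this using 2
      norm_num
    have hnum := SurfB4_num D M X (X / B ^ 2) (G1 * G2) Θ α C hD1 hM2 hX hU1 hUX hG1 hGX ha hDΘ
    let e : Fin M ≃ stdB D := (Fintype.equivFinOfCardEq hcard).symm
    have hA := hdet c.th L l1 l2 (fun i => F (e i)) K X (fun i => (τ (z (e i)).1 : ℂ))
      (fun i => (((z (e i)).1.n : ℂ))⁻¹) hbd.lins hbd.d1 hbd.d2 (by linarith) hX
      (fun i => ⟨hF1 _, hF2 _⟩) (fun i => ⟨by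
        rw [Complex.norm_real, Real.norm_eq_abs, one_mul]; exact hbd.tau _ (z (e i)).2, by
        have := (hon _ (hTS (z (e i)).2)).sz.n1
        rw [norm_inv, Complex.norm_intCast, one_mul]
        exact inv_anti₀ hX0 (this.trans (le_abs_self _))⟩)
    have hA' : (Matrix.of fun a b : stdB D =>
        (F a).evalEval (τ (z b).1 : ℂ) (((z b).1.n : ℂ))⁻¹).det =
        (Matrix.of fun a b : Fin M =>
          (F (e a)).evalEval (τ (z (e b)).1 : ℂ) (((z (e b)).1.n : ℂ))⁻¹).det := by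
      rw [← Matrix.det_submatrix_equiv_self e]; rfl
    rw [← hA'] at hA
    have hb := SurfB4_det rw (fun b => col (z b).1) _ (K * (X / B ^ 2) ^ D) _ hrw
      (fun b => hcol _ (z b).2) (by positivity) hA
    have hm : (Matrix.of fun a b : stdB D => rw a * col (z b).1 * (Matrix.of fun a b : stdB D =>
        (F a).evalEval (τ (z b).1 : ℂ) (((z b).1.n : ℂ))⁻¹) a b) =
        Matrix.of fun a b : stdB D => ∏ l, ((shr v (z b).1.mu l : ℤ) : ℂ) ^ a.1 l := by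
      ext a b
      simp only [Matrix.of_apply]
      exact (hFe a _ (z b).2).symm
    rw [hm, hcast, hcard, Complex.norm_intCast, mul_pow] at hb
    set Q0 : ℤ := Q.coeff (Finsupp.single 0 4) with hQ0def
    have hG4 : (G1 * G2) ^ 4 ≤ Cq * |(Q0 : ℝ)| :=
      (pow_le_pow_left₀ (by linarith) (mul_le_mul hL.l1 hL.l2 (by linarith [hL.g2])
        (norm_nonneg _)) 4).trans hQ0
    have hGE : ((G1 * G2) ^ 4) ^ E' ≤ Cq ^ E' * |(Q0 : ℝ)| ^ E' := by
      rw [← mul_pow]; exact pow_le_pow_left₀ (by positivity) hG4 _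
    set Y : ℝ := ((X / B ^ 2) ^ D) ^ M * X ^ (-(Θ * D ^ 3 - C * D ^ 2)) with hY
    have hY0 : 0 < Y := by positivity
    have hCE : 0 < Cq ^ E' := by positivity
    have hlt' : |(Δ : ℝ)| < |(Q0 : ℝ)| ^ E' := by
      have h1 : |(Δ : ℝ)| ≤ K ^ M * K' * K ^ M * Y := by
        refine hb.trans (le_of_eq ?_)
        rw [hY]; ring
      have h2 : K ^ M * K' * K ^ M * Cq ^ E' * Y < X * Y :=
        mul_lt_mul_of_pos_right (by linarith) hY0
      refine lt_of_mul_lt_mul_left (a := Cq ^ E') ?_ hCE.le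
      calc Cq ^ E' * |(Δ : ℝ)| ≤ Cq ^ E' * (K ^ M * K' * K ^ M * Y) :=
            mul_le_mul_of_nonneg_left h1 hCE.le
        _ = K ^ M * K' * K ^ M * Cq ^ E' * Y := by ring
        _ < X * Y := h2
        _ = Y * X := mul_comm _ _
        _ ≤ _ := hnum.trans hGE
    have hlt'' : |Δ| < |Q0 ^ E'| := by
      rw [abs_pow]; exact_mod_cast hlt'
    rw [Int.eq_zero_of_abs_lt_dvd ((abs_dvd _ _).2 hdvd) hlt'', Int.cast_zero]
  obtain ⟨lm, hlm, hrel⟩ := exists_rel_of_det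
    (fun (a : stdB D) (P : T) => ∏ l, ((shr v P.1.mu l : ℤ) : ℂ) ^ a.1 l) hzero
  exact SurfB4_cover c D b1 b2 v T (fun P hP => (hon P (hTS hP)).eq) (hQn D) lm hlm
    fun P hP => hrel ⟨P, hP⟩

end Crest.Agent.R22
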