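import Crest.Agent.R22.Comp
import Crest.Agent.R22.Bezout
import Crest.Agent.R22.CFdeg

set_option autoImplicit false
open Polynomial IntermediateField

namespace Crest.Agent.R22

variable {d : ℕ}

theorem ZC_mono {g : ℂ[X][X]} {a b : ℕ} (h : DegLE g a) (hab : a ≤ b) : DegLE g b :=
  ⟨h.1.trans hab, fun i => (h.2 i).trans hab⟩

theorem ZC_sum {ι : Type*} (s : Finset ι) (f : ι → ℂ[X][X]) {a : ℕ} (h : ∀ i ∈ s, DegLE (f i) a) :
    DegLE (∑ i ∈ s, f i) a :=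
  ⟨natDegree_sum_le_of_forall_le _ _ fun i hi => (h i hi).1, fun j => by
    rw [finsetSum_coeff]
    exact natDegree_sum_le_of_forall_le _ _ fun i hi => (h i hi).2 j⟩

theorem ZC_mul {g h : ℂ[X][X]} {a b : ℕ} (hg : DegLE g a) (hh : DegLE h b) :
    DegLE (g * h) (a + b) :=
  ⟨natDegree_mul_le.trans (add_le_add hg.1 hh.1), fun j => by
    rw [coeff_mul]
    exact natDegree_sum_le_of_forall_le _ _ fun i _ =>
      natDegree_mul_le.trans (add_le_add (hg.2 _) (hh.2 _))⟩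

theorem ZC_CC (z : ℂ) : DegLE (C (C z) : ℂ[X][X]) 0 := by
  refine ⟨by simp, fun i => ?_⟩
  rw [coeff_C]
  split_ifs <;> simp

/-- Bounded degrees. -/
def ZC_Bd (Φ : MvPolynomial (Fin d) ℂ[X][X]) (T : ℕ) : Prop :=
  Φ.totalDegree ≤ T ∧ ∀ a, DegLE (Φ.coeff a) T

theorem ZC_Bd_mul {Φ Ψ : MvPolynomial (Fin d) ℂ[X][X]} {a b : ℕ} (h1 : ZC_Bd Φ a)
    (h2 : ZC_Bd Ψ b) : ZC_Bd (Φ * Ψ) (a + b) := by
  classical
  refine ⟨(MvPolynomial.totalDegree_mul _ _).trans (add_le_add h1.1 h2.1), fun m => ?_⟩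
  rw [MvPolynomial.coeff_mul]
  exact ZC_sum _ _ fun i _ => ZC_mul (h1.2 _) (h2.2 _)

theorem ZC_Bd_one : ZC_Bd (1 : MvPolynomial (Fin d) ℂ[X][X]) 0 := by
  classical
  refine ⟨by simp, fun m => ?_⟩
  rw [MvPolynomial.coeff_one]
  split_ifs
  · simpa using ZC_CC 1
  · simpa using ZC_CC 0

theorem ZC_Bd_prod {ι : Type*} (s : Finset ι) (f : ι → MvPolynomial (Fin d) ℂ[X][X]) {T : ℕ}
    (h : ∀ i, ZC_Bd (f i) T) : ZC_Bd (∏ i ∈ s, f i) (s.card * T) := by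
  classical
  induction s using Finset.induction_on with
  | empty => simpa using ZC_Bd_one
  | insert i s hi ih =>
    rw [Finset.prod_insert hi, Finset.card_insert_of_notMem hi, add_mul, one_mul, add_comm]
    exact ZC_Bd_mul (h i) ih

/-- The substitution `ρ ↦ z ρ`. -/
noncomputable def ZC_sc (z : Fin d → ℂ) (Φ : MvPolynomial (Fin d) ℂ[X][X]) :
    MvPolynomial (Fin d) ℂ[X][X] :=
  ∑ a ∈ Φ.support, MvPolynomial.monomial a (C (C (∏ j, z j ^ a j)) * Φ.coeff a)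

theorem ZC_Bd_sc (z : Fin d → ℂ) {Φ : MvPolynomial (Fin d) ℂ[X][X]} {T : ℕ} (h : ZC_Bd Φ T) :
    ZC_Bd (ZC_sc z Φ) T := by
  classical
  refine ⟨MvPolynomial.totalDegree_finsetSum_le fun a ha =>
    (MvPolynomial.totalDegree_monomial_le _ _).trans
      ((MvPolynomial.le_totalDegree ha).trans h.1), fun m => ?_⟩
  rw [ZC_sc, MvPolynomial.coeff_sum]
  refine ZC_sum _ _ fun a _ => ?_
  rw [MvPolynomial.coeff_monomial]
  split_ifs
  · simpa using ZC_mul (ZC_CC (∏ j, z j ^ a j)) (h.2 a)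
  · exact ZC_mono (by simpa using ZC_CC 0) (Nat.zero_le T)

section
variable {R : Type} [CommRing R] [Algebra ℂ R] (t n : R) (ρ : Fin d → R)

theorem ZC_ev_C (g : ℂ[X][X]) : evR t n ρ (MvPolynomial.C g) = aevalAeval t n g := by
  simp [evR]

theorem ZC_ev_X (j : Fin d) : evR t n ρ (MvPolynomial.X j) = ρ j := by
  simp [evR]

theorem ZC_ev_mon (a : Fin d →₀ ℕ) (g : ℂ[X][X]) :
    evR t n ρ (MvPolynomial.monomial a g) = aevalAeval t n g * ∏ j, ρ j ^ a j := by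
  rw [evR, MvPolynomial.eval₂Hom_monomial, Finsupp.prod_fintype _ _ (by simp)]
  rfl

theorem ZC_ev_sc (z : Fin d → ℂ) (Φ : MvPolynomial (Fin d) ℂ[X][X]) :
    evR t n ρ (ZC_sc z Φ) = evR t n (fun j => algebraMap ℂ R (z j) * ρ j) Φ := by
  conv_rhs => rw [Φ.as_sum]
  rw [ZC_sc, map_sum, map_sum]
  refine Finset.sum_congr rfl fun a _ => ?_
  rw [ZC_ev_mon, ZC_ev_mon, map_mul, aevalAeval_C, aeval_C]
  simp only [mul_pow, Finset.prod_mul_distrib, map_prod, map_pow]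
  ring

end

/-- The group `μ_k^d`. -/
abbrev ZC_G (d k : ℕ) : Type := Fin d → rootsOfUnity k ℂ

/-- The value of an element of `μ_k^d`. -/
noncomputable def ZC_v {k : ℕ} (η : ZC_G d k) (j : Fin d) : ℂ := ((η j : ℂˣ) : ℂ)

theorem ZC_v_mul {k : ℕ} (η ζ : ZC_G d k) (j : Fin d) : ZC_v (η * ζ) j = ZC_v η j * ZC_v ζ j := rfl

theorem ZC_v_one {k : ℕ} (j : Fin d) : ZC_v (1 : ZC_G d k) j = 1 := rfl

theorem ZC_v_pow {k : ℕ} (η : ZC_G d k) (j : Fin d) : ZC_v η j ^ k = 1 :=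
  (mem_rootsOfUnity' _ _).1 (η j).2

/-- Orthogonality. -/
theorem ZC_orth {k : ℕ} (hk : 1 ≤ k) [Fintype (ZC_G d k)] (e : Fin d → Fin k) (j : Fin d)
    (hj : (e j : ℕ) ≠ 0) : ∑ η : ZC_G d k, ∏ l, ZC_v η l ^ (e l : ℕ) = 0 := by
  classical
  have : NeZero k := ⟨by omega⟩
  let f : ZC_G d k →* ℂ :=
    { toFun := fun η => ∏ l, ZC_v η l ^ (e l : ℕ)
      map_one' := by simp [ZC_v_one]
      map_mul' := fun η ζ => by simp only [ZC_v_mul, mul_pow, Finset.prod_mul_distrib] }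
  refine sum_hom_units_eq_zero f fun hf => ?_
  have hω := Complex.isPrimitiveRoot_exp k (by omega)
  set ω := Complex.exp (2 * Real.pi * Complex.I / k)
  have h1 : f (Pi.mulSingle j (rootsOfUnity.mkOfPowEq ω hω.pow_eq_one)) = 1 := by rw [hf]; rfl
  have h2 : f (Pi.mulSingle j (rootsOfUnity.mkOfPowEq ω hω.pow_eq_one)) = ω ^ (e j : ℕ) := by
    change ∏ l, ZC_v _ l ^ (e l : ℕ) = _
    rw [Finset.prod_eq_single j]
    · simp [ZC_v]
    · intro l _ hl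
      simp [ZC_v, Pi.mulSingle_eq_of_ne hl]
    · simp
  exact hω.pow_ne_one_of_pos_of_lt hj (e j).2 (h2.symm.trans h1)

/-- Averaging the conclusion of `red_exp` over `μ_k^d`. -/
theorem ZC_avg {k : ℕ} (hk : 1 ≤ k) [Fintype (ZC_G d k)] {R : Type} [CommRing R] [Algebra ℂ R]
    (ρ : Fin d → R) (H : R) (w : ZC_G d k → R) (A : (Fin d → Fin k) → R)
    (h : ∀ η, H * w η = ∑ e, A e * ∏ j, (algebraMap ℂ R (ZC_v η j) * ρ j) ^ (e j : ℕ)) :
    H * ∑ η, w η = (Fintype.card (ZC_G d k) : R) * A fun _ => ⟨0, hk⟩ := by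
  classical
  rw [Finset.mul_sum, Finset.sum_congr rfl fun η _ => h η, Finset.sum_comm,
    Finset.sum_eq_single fun _ => (⟨0, hk⟩ : Fin k)]
  · simp
  · intro e _ he
    obtain ⟨j, hj⟩ : ∃ j, (e j : ℕ) ≠ 0 := by
      by_contra hc
      push Not at hc
      exact he (funext fun j => Fin.ext (hc j))
    have : ∀ η : ZC_G d k, A e * ∏ j, (algebraMap ℂ R (ZC_v η j) * ρ j) ^ (e j : ℕ) =
        (A e * ∏ j, ρ j ^ (e j : ℕ)) * algebraMap ℂ R (∏ l, ZC_v η l ^ (e l : ℕ)) := fun η => by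
      simp only [mul_pow, Finset.prod_mul_distrib, map_prod, map_pow]
      ring
    rw [Finset.sum_congr rfl fun η _ => this η, ← Finset.mul_sum, ← map_sum, ZC_orth hk e j hj,
      map_zero, mul_zero]
  · simp

theorem ZC_rel {c : Ctx d} {k : ℕ} {b1 b2 : Fin d → ℤ} {i0 : Fin d} {R : Type} [CommRing R]
    [Algebra ℂ R] {t n : R} {ρ : Fin d → R} (h : c.RelC k b1 b2 i0 t n ρ) (η : ZC_G d k) :
    c.RelC k b1 b2 i0 t n fun j => algebraMap ℂ R (ZC_v η j) * ρ j := fun j => by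
  rw [mul_pow, ← map_pow, ZC_v_pow, map_one, one_mul]
  exact h j

theorem ZC_rel_compat {c : Ctx d} {k : ℕ} {b1 b2 : Fin d → ℤ} {i0 : Fin d} {L : Type} [Field L]
    [Algebra ℂ L] {t n : L} {ρ : Fin d → L} (h : c.RelC k b1 b2 i0 t n ρ) {t' n' : ℂ}
    {ρ' : Fin d → ℂ} (hc : Compat t n ρ t' n' ρ') : c.RelC k b1 b2 i0 t' n' ρ' := fun j => by
  have key : ∀ (R : Type) [CommRing R] [Algebra ℂ R] (t n : R) (ρ : Fin d → R),
      evR t n ρ (MvPolynomial.X j ^ k * MvPolynomial.C (X - C (C (c.th i0))) *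
        MvPolynomial.C (C (c.lin b1 b2 j)) - MvPolynomial.C (X - C (C (c.th j))) *
        MvPolynomial.C (C (c.lin b1 b2 i0))) =
      ρ j ^ k * (n - algebraMap ℂ R (c.th i0)) * aeval t (c.lin b1 b2 j) -
        (n - algebraMap ℂ R (c.th j)) * aeval t (c.lin b1 b2 i0) := fun R _ _ t n ρ => by
    simp only [map_sub, map_mul, map_pow, ZC_ev_C, ZC_ev_X, aevalAeval_C, aevalAeval_Y, aeval_C]
  have h1 := hc _ ((key L t n ρ).trans (sub_eq_zero.2 (h j)))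
  rw [key] at h1
  exact sub_eq_zero.1 h1

theorem ZC_dich {G : Type*} [Group G] [DecidableEq G] (S : Finset G) (η : G) :
    (∃ ζ ∈ S.image (· * η), ζ ∉ S) ∨ S.image (· * η) = S := by
  by_cases h : S.image (· * η) ⊆ S
  · exact Or.inr (Finset.eq_of_subset_of_card_le h
      (Finset.card_image_of_injective _ (mul_left_injective η)).ge)
  · exact Or.inl (Finset.not_subset.1 h)

/-- Zeros on a component. For `ζ ∈ μ_k^d` let `Φ_ζ = Φ(ζ ρ)`, `S₀ = {ζ : evR Φ_ζ ≠ 0} ∋ 1`, and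
`Ψ = ∏_{S₀} Φ_ζ`. Averaging `red_exp` for `Ψ` over the points `η ρ` gives
`h^m ∑_η Ψ(η ρ) = k^d A 0`. Each `Ψ(η ρ)` is `0` or `Ψ(ρ) ≠ 0`, and it vanishes at the points, so
`g ∤ A 0` and `A 0` vanishes at the points; `bezout`. -/
theorem zeros_C (k : ℕ) (hk : 1 ≤ k) (E T : ℕ) : ∃ C : ℕ, ∀ (c : Ctx d) (b1 b2 : Fin d → ℤ)
    (i0 : Fin d) (g : ℂ[X][X]), Irreducible g → DegLE g E → ∀ (L : Type) [Field L] [Algebra ℂ L]
    (t n : L) (ρ : Fin d → L), CF c k b1 b2 i0 g t n ρ →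
    ∀ Φ : MvPolynomial (Fin d) ℂ[X][X], Φ.totalDegree ≤ T → (∀ a, DegLE (Φ.coeff a) T) →
      evR t n ρ Φ ≠ 0 → ∀ (S : Finset (LPt c k)), InjN S →
      (∀ P ∈ S, P.y ≠ 0 ∧ P.CompatC i0 t n ρ ∧
        evR ((P.x : ℂ) / P.y) (P.n : ℂ) (fun j => c.sg j P.be / c.sg i0 P.be) Φ = 0) →
      S.card ≤ C := by
  classical
  have : NeZero k := ⟨by omega⟩
  have : Fintype (ZC_G d k) := Fintype.ofFinite _
  obtain ⟨m, T', hred⟩ := red_exp (d := d) k hk (Fintype.card (ZC_G d k) * T)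
  obtain ⟨C, hC⟩ := bezout (max E T')
  refine ⟨C, fun c b1 b2 i0 g hg hgE L _ _ t n ρ hcf Φ hΦ1 hΦ2 hΦ0 S hS hP => ?_⟩
  have : CharZero L := charZero_of_injective_algebraMap (algebraMap ℂ L).injective
  set S0 : Finset (ZC_G d k) := Finset.univ.filter fun ζ => evR t n ρ (ZC_sc (ZC_v ζ) Φ) ≠ 0
    with hS0
  have hone : ∀ (R : Type) [CommRing R] [Algebra ℂ R] (t n : R) (ρ : Fin d → R),
      evR t n ρ (ZC_sc (ZC_v (1 : ZC_G d k)) Φ) = evR t n ρ Φ := fun R _ _ t n ρ => by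
    rw [ZC_ev_sc]
    simp only [ZC_v_one, map_one, one_mul]
  have h1 : (1 : ZC_G d k) ∈ S0 := by
    rw [hS0, Finset.mem_filter, hone]
    exact ⟨Finset.mem_univ _, hΦ0⟩
  have hBd := ZC_Bd_prod S0 (fun ζ => ZC_sc (ZC_v ζ) Φ) fun ζ => ZC_Bd_sc _ ⟨hΦ1, hΦ2⟩
  have hle : S0.card * T ≤ Fintype.card (ZC_G d k) * T :=
    Nat.mul_le_mul_right _ (Finset.card_le_univ _)
  obtain ⟨A, hA, -, hAev⟩ := hred c b1 b2 i0 _ (hBd.1.trans hle) fun a => ZC_mono (hBd.2 a) hle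
  have key : ∀ (R : Type) [CommRing R] [Algebra ℂ R] (t n : R) (ρ : Fin d → R),
      c.RelC k b1 b2 i0 t n ρ →
      ((n - algebraMap ℂ R (c.th i0)) * ∏ j, aeval t (c.lin b1 b2 j)) ^ m *
        ∑ η : ZC_G d k, ∏ ζ ∈ S0.image (· * η), evR t n ρ (ZC_sc (ZC_v ζ) Φ) =
      (Fintype.card (ZC_G d k) : R) * aevalAeval t n (A fun _ => ⟨0, hk⟩) := by
    intro R _ _ t n ρ hr
    refine ZC_avg hk ρ _ _ (fun e => aevalAeval t n (A e)) fun η => ?_
    refine Eq.trans (congrArg _ ?_) (hAev R t n _ (ZC_rel hr η))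
    rw [map_prod, Finset.prod_image fun x _ y _ h => mul_left_injective η h]
    refine Finset.prod_congr rfl fun ζ _ => ?_
    rw [ZC_ev_sc, ZC_ev_sc]
    simp only [ZC_v_mul, map_mul, mul_assoc]
  have hN : Fintype.card (ZC_G d k) ≠ 0 := Fintype.card_ne_zero
  have hndvd : ¬ g ∣ A fun _ => ⟨0, hk⟩ := by
    intro hd
    have h2 := key L t n ρ hcf.rel
    rw [(hcf.ff _).2 hd, mul_zero] at h2
    refine mul_ne_zero (pow_ne_zero _ (mul_ne_zero (hcf.hn i0)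
      (Finset.prod_ne_zero_iff.2 fun j _ => hcf.hl j))) ?_ h2
    have h3 : ∀ η : ZC_G d k, ∏ ζ ∈ S0.image (· * η), evR t n ρ (ZC_sc (ZC_v ζ) Φ) =
        if S0.image (· * η) = S0 then ∏ ζ ∈ S0, evR t n ρ (ZC_sc (ZC_v ζ) Φ) else 0 := fun η => by
      split_ifs with h
      · rw [h]
      · obtain ⟨ζ, hζ, hζ'⟩ := (ZC_dich S0 η).resolve_right h
        refine Finset.prod_eq_zero hζ ?_
        by_contra hne
        exact hζ' (Finset.mem_filter.2 ⟨Finset.mem_univ _, hne⟩)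
    rw [Finset.sum_congr rfl fun η _ => h3 η, ← Finset.sum_filter, Finset.sum_const, nsmul_eq_mul]
    refine mul_ne_zero (Nat.cast_ne_zero.2 (Finset.card_ne_zero.2 ⟨1, ?_⟩))
      (Finset.prod_ne_zero_iff.2 fun ζ hζ => (Finset.mem_filter.1 hζ).2)
    refine Finset.mem_filter.2 ⟨Finset.mem_univ _, ?_⟩
    simp only [mul_one, Finset.image_id']
  have hinj : Set.InjOn (fun P : LPt c k => ((P.x : ℂ) / P.y, (P.n : ℂ))) S := by
    intro P hP Q hQ h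
    exact hS P hP Q hQ (Int.cast_injective (α := ℂ) (Prod.ext_iff.1 h).2)
  rw [← Finset.card_image_of_injOn hinj]
  refine hC g _ hg hndvd (ZC_mono hgE (le_max_left _ _)) (ZC_mono (hA _) (le_max_right _ _)) _
    fun z hz => ?_
  obtain ⟨P, hPS, rfl⟩ := Finset.mem_image.1 hz
  obtain ⟨-, hc, h0⟩ := hP P hPS
  refine ⟨?_, ?_⟩
  · have h2 := hc (MvPolynomial.C g) (by rw [ZC_ev_C]; exact (hcf.ff g).2 dvd_rfl)
    rwa [ZC_ev_C, coe_aevalAeval_eq_evalEval] at h2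
  · have h2 := key ℂ _ _ _ (ZC_rel_compat hcf.rel hc)
    rw [Finset.sum_eq_zero, mul_zero, coe_aevalAeval_eq_evalEval] at h2
    · exact (mul_eq_zero.1 h2.symm).resolve_left (Nat.cast_ne_zero.2 hN)
    · intro η _
      rcases ZC_dich S0 η with ⟨ζ, hζ, hζ'⟩ | h
      · refine Finset.prod_eq_zero hζ (hc _ ?_)
        by_contra hne
        exact hζ' (Finset.mem_filter.2 ⟨Finset.mem_univ _, hne⟩)
      · rw [h]
        exact Finset.prod_eq_zero h1 ((hone ℂ _ _ _).trans h0)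

end Crest.Agent.R22
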